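import Crest.Prelude.Def_PointedLimit
import Mathlib.Geometry.Manifold.Riemannian.Basic
import Mathlib.Geometry.Euclidean.Volume.Measure

-- ▼ part R247/Scal1_386
section

/-!
# R247: rescaling of a Riemannian manifold (1): the metric space and the bundle metric
-/

set_option autoImplicit false
noncomputable section
open Set Filter Topology Bundle MeasureTheory
open scoped ContDiff Manifold ENNReal NNReal

namespace Crest.Agent.R247.Scal386

universe u

section metric
variable {M : Type u}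

/-- The metric space `(M, r⁻¹ dist)`, with the same uniform structure and bornology. -/
@[reducible] def scMetric (r : ℝ) (hr : 0 < r) (m : MetricSpace M) : MetricSpace M where
  dist x y := r⁻¹ * dist x y
  dist_self x := by simp
  dist_comm x y := by rw [dist_comm]
  dist_triangle x y z := by
    rw [← mul_add]
    exact mul_le_mul_of_nonneg_left (dist_triangle x y z) (by positivity)
  eq_of_dist_eq_zero {x y} h := by
    have : dist x y = 0 := by
      rcases mul_eq_zero.1 h with h | h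
      · exact absurd h (by positivity)
      · exact h
    exact dist_eq_zero.1 this
  toUniformSpace := m.toUniformSpace
  uniformity_dist := by
    have h1 := Metric.mk_uniformity_basis (α := M) (β := ℝ) (p := fun ε => 0 < ε)
      (f := fun ε => r * ε) (fun i hi => by positivity)
      (fun ε hε => ⟨ε / r, by positivity, by rw [mul_div_cancel₀ _ hr.ne']⟩)
    rw [h1.eq_biInf]
    refine iInf_congr fun ε => iInf_congr fun hε => ?_
    congr 1
    ext p
    simp only [mem_ofPred_eq]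
    rw [inv_mul_lt_iff₀ hr]
  toBornology := m.toBornology
  cobounded_sets := by
    have h := @PseudoMetricSpace.cobounded_sets M _
    rw [h]
    ext s
    simp only [mem_ofPred_eq]
    constructor
    · rintro ⟨C, hC⟩
      exact ⟨r⁻¹ * C, fun x hx y hy => mul_le_mul_of_nonneg_left (hC x hx y hy) (by positivity)⟩
    · rintro ⟨C, hC⟩
      exact ⟨r * C, fun x hx y hy => (inv_mul_le_iff₀ hr).1 (hC x hx y hy)⟩

/-- Type synonym for `M` with distances divided by `r`. -/
def Sc (_ : {r : ℝ // 0 < r}) (M : Type u) : Type u := M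

variable (r : {r : ℝ // 0 < r})

instance instMetricSc [m : MetricSpace M] : MetricSpace (Sc r M) := scMetric r.1 r.2 m

variable [MetricSpace M]

/-- the identity map to the rescaled space -/
def toSc (x : M) : Sc r M := x

/-- the identity map from the rescaled space -/
def ofSc (x : Sc r M) : M := x

theorem dist_sc (x y : Sc r M) : dist x y = r.1⁻¹ * dist (ofSc r x) (ofSc r y) := rfl

theorem dist_toSc (x y : M) : dist (toSc r x) (toSc r y) = r.1⁻¹ * dist x y := rfl

instance instCompleteSc [h : CompleteSpace M] : CompleteSpace (Sc r M) := h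

instance instConnectedSc [h : ConnectedSpace M] : ConnectedSpace (Sc r M) := h

variable {n : ℕ}

instance instChartedSc [h : ChartedSpace (EuclideanSpace ℝ (Fin n)) M] :
    ChartedSpace (EuclideanSpace ℝ (Fin n)) (Sc r M) := h

instance instManifoldSc [ChartedSpace (EuclideanSpace ℝ (Fin n)) M]
    [h : IsManifold 𝓘(ℝ, EuclideanSpace ℝ (Fin n)) ∞ M] :
    IsManifold 𝓘(ℝ, EuclideanSpace ℝ (Fin n)) ∞ (Sc r M) := h

instance instMeasSc [h : MeasurableSpace M] : MeasurableSpace (Sc r M) := h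

instance instBorelSc [MeasurableSpace M] [h : BorelSpace M] : BorelSpace (Sc r M) := h

theorem approx_sc {Y : Type*} [MetricSpace Y] {q : M} {c : Y} {R ε : ℝ}
    (h : Crest.GeometryTopology.PointedLimit.IsScaledApprox r.1⁻¹ q c R ε) :
    Crest.GeometryTopology.PointedLimit.IsScaledApprox 1 (toSc r q) c R ε := by
  obtain ⟨f, h0, h1, h2⟩ := h
  refine ⟨fun x => f (ofSc r x), h0, ?_, ?_⟩
  · intro x x' hx hx'
    rw [one_mul] at hx hx' ⊢
    exact h1 (ofSc r x) (ofSc r x') hx hx'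
  · intro y hy
    obtain ⟨x, hx, hxy⟩ := h2 y hy
    exact ⟨toSc r x, by rw [one_mul]; exact hx, hxy⟩

end metric

section bundle

variable {M : Type u} {n : ℕ} (r : {r : ℝ // 0 < r}) [MetricSpace M]
  [ChartedSpace (EuclideanSpace ℝ (Fin n)) M]

/-- the metric tensor divided by `r ^ 2` -/
def scRM (g : RiemannianMetric (fun x : M => TangentSpace 𝓘(ℝ, EuclideanSpace ℝ (Fin n)) x)) :
    RiemannianMetric
      (fun x : Sc r M => TangentSpace 𝓘(ℝ, EuclideanSpace ℝ (Fin n)) x) where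
  inner b := (r.1 ^ 2)⁻¹ • g.inner (ofSc r b)
  symm b v w := by
    exact congrArg (fun t => (r.1 ^ 2)⁻¹ * t) (g.symm (ofSc r b) v w)
  pos b v hv := by
    show 0 < (r.1 ^ 2)⁻¹ * g.inner (ofSc r b) v v
    have h1 := g.pos (ofSc r b) v hv
    have := r.2
    positivity
  continuousAt b := by
    exact (g.continuousAt (ofSc r b)).const_mul ((r.1 ^ 2)⁻¹)
  isVonNBounded b := by
    have hr := r.2
    have h := g.isVonNBounded (ofSc r b)
    have h2 := h.image ((r.1 : ℝ) • ContinuousLinearMap.id ℝ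
      (TangentSpace 𝓘(ℝ, EuclideanSpace ℝ (Fin n)) (ofSc r b)))
    refine h2.subset ?_
    intro v hv
    have hv' : (r.1 ^ 2)⁻¹ * g.inner (ofSc r b) v v < 1 := hv
    refine ⟨r.1⁻¹ • v, ?_, ?_⟩
    · show g.inner (ofSc r b) (r.1⁻¹ • v) (r.1⁻¹ • v) < 1
      have : g.inner (ofSc r b) (r.1⁻¹ • v) (r.1⁻¹ • v)
          = r.1⁻¹ * (r.1⁻¹ * g.inner (ofSc r b) v v) := by
        simp
      rw [this, ← mul_assoc, ← mul_inv, ← pow_two]
      exact hv'
    · show (r.1 : ℝ) • (r.1⁻¹ • v) = v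
      rw [smul_smul, mul_inv_cancel₀ hr.ne', one_smul]

instance instRBSc [h : RiemannianBundle
      (fun x : M => TangentSpace 𝓘(ℝ, EuclideanSpace ℝ (Fin n)) x)] :
    RiemannianBundle (fun x : Sc r M => TangentSpace 𝓘(ℝ, EuclideanSpace ℝ (Fin n)) x) :=
  ⟨scRM r h.g⟩

theorem inner_sc [h : RiemannianBundle
      (fun x : M => TangentSpace 𝓘(ℝ, EuclideanSpace ℝ (Fin n)) x)] (x : Sc r M)
    (v w : TangentSpace 𝓘(ℝ, EuclideanSpace ℝ (Fin n)) x) :
    inner ℝ v w = (r.1 ^ 2)⁻¹ *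
      @inner ℝ (TangentSpace 𝓘(ℝ, EuclideanSpace ℝ (Fin n)) (ofSc r x)) _ v w := rfl

theorem norm_sc [h : RiemannianBundle
      (fun x : M => TangentSpace 𝓘(ℝ, EuclideanSpace ℝ (Fin n)) x)] (x : Sc r M)
    (v : TangentSpace 𝓘(ℝ, EuclideanSpace ℝ (Fin n)) x) :
    ‖v‖ = r.1⁻¹ * @norm (TangentSpace 𝓘(ℝ, EuclideanSpace ℝ (Fin n)) (ofSc r x)) _ v := by
  have hr := r.2
  have h1 := @norm_eq_sqrt_real_inner (TangentSpace 𝓘(ℝ, EuclideanSpace ℝ (Fin n)) x) _ _ v
  have h2 := @norm_eq_sqrt_real_inner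
    (TangentSpace 𝓘(ℝ, EuclideanSpace ℝ (Fin n)) (ofSc r x)) _ _ v
  rw [h1, inner_sc]
  refine Eq.trans ?_ (congrArg (fun t => r.1⁻¹ * t) h2.symm)
  rw [Real.sqrt_mul (by positivity), Real.sqrt_inv, Real.sqrt_sq hr.le]

end bundle

end Crest.Agent.R247.Scal386
end
end

-- ▼ part R247/Scal2_386
section

/-!
# R247: rescaling of a Riemannian manifold (2): smoothness of the rescaled bundle metric
-/

set_option autoImplicit false
noncomputable section
open Set Filter Topology Bundle MeasureTheory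
open scoped ContDiff Manifold ENNReal NNReal

namespace Crest.Agent.R247.Scal386

universe u

section P
variable {n : ℕ}

/-- smoothness of a family of bilinear forms on the tangent spaces (raw form; used only to
transport along the identity `M → Sc r M`) -/
def SmB (n : ℕ) (X : Type u) [TopologicalSpace X] [ChartedSpace (EuclideanSpace ℝ (Fin n)) X]
    [IsManifold 𝓘(ℝ, EuclideanSpace ℝ (Fin n)) ∞ X]
    (B : X → EuclideanSpace ℝ (Fin n) →L[ℝ] EuclideanSpace ℝ (Fin n) →L[ℝ] ℝ) : Prop :=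
  ContMDiff 𝓘(ℝ, EuclideanSpace ℝ (Fin n))
      (𝓘(ℝ, EuclideanSpace ℝ (Fin n)).prod 𝓘(ℝ, EuclideanSpace ℝ (Fin n) →L[ℝ]
        EuclideanSpace ℝ (Fin n) →L[ℝ] ℝ)) ∞
      (fun b : X ↦ (TotalSpace.mk' (EuclideanSpace ℝ (Fin n) →L[ℝ]
        EuclideanSpace ℝ (Fin n) →L[ℝ] ℝ)
        (E := fun b : X => TangentSpace 𝓘(ℝ, EuclideanSpace ℝ (Fin n)) b →L[ℝ]
          TangentSpace 𝓘(ℝ, EuclideanSpace ℝ (Fin n)) b →L[ℝ] ℝ) b (B b)))

theorem SmB_smul {X : Type u} [TopologicalSpace X] [ChartedSpace (EuclideanSpace ℝ (Fin n)) X]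
    [IsManifold 𝓘(ℝ, EuclideanSpace ℝ (Fin n)) ∞ X]
    (g : Π (x : X), TangentSpace 𝓘(ℝ, EuclideanSpace ℝ (Fin n)) x →L[ℝ]
        TangentSpace 𝓘(ℝ, EuclideanSpace ℝ (Fin n)) x →L[ℝ] ℝ)
    (h : ContMDiff 𝓘(ℝ, EuclideanSpace ℝ (Fin n))
      (𝓘(ℝ, EuclideanSpace ℝ (Fin n)).prod 𝓘(ℝ, EuclideanSpace ℝ (Fin n) →L[ℝ]
        EuclideanSpace ℝ (Fin n) →L[ℝ] ℝ)) ∞
      (fun b ↦ TotalSpace.mk' (EuclideanSpace ℝ (Fin n) →L[ℝ]
        EuclideanSpace ℝ (Fin n) →L[ℝ] ℝ) b (g b))) (c : ℝ) :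
    SmB n X (fun x => (c • g x : TangentSpace 𝓘(ℝ, EuclideanSpace ℝ (Fin n)) x →L[ℝ]
        TangentSpace 𝓘(ℝ, EuclideanSpace ℝ (Fin n)) x →L[ℝ] ℝ)) := by
  have := ContMDiff.const_smul_section (s := g) (a := c) h
  exact this

end P

variable {M : Type u} {n : ℕ} (r : {r : ℝ // 0 < r}) [MetricSpace M]
  [ChartedSpace (EuclideanSpace ℝ (Fin n)) M]
  [IsManifold 𝓘(ℝ, EuclideanSpace ℝ (Fin n)) ∞ M]

theorem SmB_sc {B : M → EuclideanSpace ℝ (Fin n) →L[ℝ] EuclideanSpace ℝ (Fin n) →L[ℝ] ℝ}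
    (h : SmB n M B) : SmB n (Sc r M) B := h

variable [RiemannianBundle (fun x : M => TangentSpace 𝓘(ℝ, EuclideanSpace ℝ (Fin n)) x)]

instance instCMDSc [h : IsContMDiffRiemannianBundle 𝓘(ℝ, EuclideanSpace ℝ (Fin n)) ∞
      (EuclideanSpace ℝ (Fin n)) (fun x : M => TangentSpace 𝓘(ℝ, EuclideanSpace ℝ (Fin n)) x)] :
    IsContMDiffRiemannianBundle 𝓘(ℝ, EuclideanSpace ℝ (Fin n)) ∞
      (EuclideanSpace ℝ (Fin n))
      (fun x : Sc r M => TangentSpace 𝓘(ℝ, EuclideanSpace ℝ (Fin n)) x) := by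
  obtain ⟨g, hg, hg2⟩ := h.exists_contMDiff
  have h1 := SmB_sc r (SmB_smul g hg ((r.1 ^ 2)⁻¹))
  refine ⟨_, h1, ?_⟩
  intro x v w
  rw [inner_sc]
  exact congrArg (fun t => (r.1 ^ 2)⁻¹ * t) (hg2 x v w)

end Crest.Agent.R247.Scal386
end
end

-- ▼ part R247/Scal3_386
section

/-!
# R247: rescaling of a Riemannian manifold (3): the Riemannian distance
-/

set_option autoImplicit false
noncomputable section
open Set Filter Topology Bundle MeasureTheory Manifold
open scoped ContDiff ENNReal NNReal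

namespace Crest.Agent.R247.Scal386

universe u

section RD

/-- Riemannian distance for an arbitrary family of extended norms (raw form; used only to
transport along the identity `M → Sc r M`) -/
def RD (n : ℕ) (X : Type u) [TopologicalSpace X] [ChartedSpace (EuclideanSpace ℝ (Fin n)) X]
    (N : X → EuclideanSpace ℝ (Fin n) → ℝ≥0∞) (x y : X) : ℝ≥0∞ :=
  letI : ∀ x : X, ENorm (TangentSpace 𝓘(ℝ, EuclideanSpace ℝ (Fin n)) x) := fun x => ⟨N x⟩
  riemannianEDist 𝓘(ℝ, EuclideanSpace ℝ (Fin n)) x y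

variable {n : ℕ} {X : Type u} [TopologicalSpace X] [ChartedSpace (EuclideanSpace ℝ (Fin n)) X]

theorem RD_mul (N : X → EuclideanSpace ℝ (Fin n) → ℝ≥0∞) (x y : X) {c : ℝ≥0∞} (h0 : c ≠ 0)
    (h1 : c ≠ ⊤) : RD n X (fun x v => c * N x v) x y = c * RD n X N x y := by
  unfold RD
  simp only [riemannianEDist]
  rw [ENNReal.mul_iInf_of_ne h0 h1]
  refine iInf_congr fun γ => ?_
  rw [ENNReal.mul_iInf_of_ne h0 h1]
  refine iInf_congr fun h => ?_
  exact lintegral_const_mul' c _ h1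

end RD

variable {M : Type u} {n : ℕ} (r : {r : ℝ // 0 < r}) [MetricSpace M]
  [ChartedSpace (EuclideanSpace ℝ (Fin n)) M]


variable [RiemannianBundle (fun x : M => TangentSpace 𝓘(ℝ, EuclideanSpace ℝ (Fin n)) x)]

theorem enorm_sc (x : Sc r M) (v : TangentSpace 𝓘(ℝ, EuclideanSpace ℝ (Fin n)) x) :
    ‖v‖ₑ = ENNReal.ofReal r.1⁻¹ *
      @enorm (TangentSpace 𝓘(ℝ, EuclideanSpace ℝ (Fin n)) (ofSc r x)) _ v := by
  have hr := r.2
  rw [← ofReal_norm, norm_sc, ENNReal.ofReal_mul (by positivity)]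
  congr 1
  exact ofReal_norm _

theorem riemannianEDist_sc (x y : Sc r M) :
    riemannianEDist 𝓘(ℝ, EuclideanSpace ℝ (Fin n)) x y = ENNReal.ofReal r.1⁻¹ *
      riemannianEDist 𝓘(ℝ, EuclideanSpace ℝ (Fin n)) (ofSc r x) (ofSc r y) := by
  have hr := r.2
  have h1 : riemannianEDist 𝓘(ℝ, EuclideanSpace ℝ (Fin n)) x y
      = RD n (Sc r M) (fun x v => @enorm (TangentSpace 𝓘(ℝ, EuclideanSpace ℝ (Fin n)) x) _ v)
        x y := rfl
  have h2 : (fun (x : Sc r M) (v : EuclideanSpace ℝ (Fin n)) =>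
      @enorm (TangentSpace 𝓘(ℝ, EuclideanSpace ℝ (Fin n)) x) _ v) = fun x v =>
      ENNReal.ofReal r.1⁻¹ *
        @enorm (TangentSpace 𝓘(ℝ, EuclideanSpace ℝ (Fin n)) (ofSc r x)) _ v := by
    funext x v
    exact enorm_sc r x v
  rw [h1, h2]
  have h3 := RD_mul (n := n) (X := M)
    (fun (x : M) (v : EuclideanSpace ℝ (Fin n)) =>
      @enorm (TangentSpace 𝓘(ℝ, EuclideanSpace ℝ (Fin n)) x) _ v) (ofSc r x) (ofSc r y)
    (c := ENNReal.ofReal r.1⁻¹) (by simp [hr]) ENNReal.ofReal_ne_top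
  exact h3

instance instRMSc [h : IsRiemannianManifold 𝓘(ℝ, EuclideanSpace ℝ (Fin n)) M] :
    IsRiemannianManifold 𝓘(ℝ, EuclideanSpace ℝ (Fin n)) (Sc r M) := by
  refine ⟨fun x y => ?_⟩
  have hr := r.2
  rw [riemannianEDist_sc, ← h.out (ofSc r x) (ofSc r y), edist_dist, edist_dist, dist_sc,
    ENNReal.ofReal_mul (by positivity)]

end Crest.Agent.R247.Scal386
end
end

-- ▼ part R247/Scal4_386

/-!
# R247: rescaling of a Riemannian manifold (4): Ricci curvature and volume
-/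

set_option autoImplicit false
noncomputable section
open Set Filter Topology Bundle MeasureTheory Manifold
open scoped ContDiff ENNReal NNReal
open Crest.GeometryTopology.CoordMetric Crest.GeometryTopology.ChartCurvature
open Crest.GeometryTopology.PointedLimit

namespace Crest.Agent.R247.Scal386

universe u

section coord
variable {n : ℕ}

theorem pderiv_mul (c : ℝ) (f : EuclideanSpace ℝ (Fin n) → ℝ) (i : Fin n)
    (x : EuclideanSpace ℝ (Fin n)) : pderiv i (fun y => c * f y) x = c * pderiv i f x := by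
  unfold pderiv
  have h := fderiv_const_smul_field (𝕜 := ℝ) (f := f) c
  have h2 : (fun y => c * f y) = c • f := rfl
  rw [h2, h]
  rfl

theorem matrix_inv_smul {c : ℝ} (hc : c ≠ 0) (A : Matrix (Fin n) (Fin n) ℝ) :
    (c • A)⁻¹ = c⁻¹ • A⁻¹ := by
  by_cases h : IsUnit A.det
  · exact Matrix.inv_smul' A (Units.mk0 c hc) h
  · have h2 : ¬ IsUnit (c • A).det := by
      rw [Matrix.det_smul]
      intro h3
      apply h
      rw [isUnit_iff_ne_zero] at h3 ⊢
      exact right_ne_zero_of_mul h3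
    rw [Matrix.nonsing_inv_apply_not_isUnit _ h, Matrix.nonsing_inv_apply_not_isUnit _ h2,
      smul_zero]

theorem christoffel_smul {c : ℝ} (hc : c ≠ 0) (g : MetricField n)
    (x : EuclideanSpace ℝ (Fin n)) (k i j : Fin n) :
    christoffel (fun y => c • g y) x k i j = christoffel g x k i j := by
  unfold christoffel inverseField
  congr 1
  refine Finset.sum_congr rfl fun l _ => ?_
  rw [matrix_inv_smul hc]
  simp only [Matrix.smul_apply, smul_eq_mul]
  rw [pderiv_mul, pderiv_mul, pderiv_mul]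
  field_simp

theorem ricci_smul {c : ℝ} (hc : c ≠ 0) (g : MetricField n)
    (x : EuclideanSpace ℝ (Fin n)) (i j : Fin n) :
    ricci (fun y => c • g y) x i j = ricci g x i j := by
  unfold ricci
  simp only [christoffel_smul hc]

theorem quadForm_smul (c : ℝ) (g : MetricField n) (x v : EuclideanSpace ℝ (Fin n)) :
    quadForm (fun y => c • g y) x v = c * quadForm g x v := by
  unfold quadForm
  simp only [Matrix.smul_apply, smul_eq_mul, Finset.mul_sum]
  refine Finset.sum_congr rfl fun i _ => Finset.sum_congr rfl fun j _ => ?_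
  ring

end coord

section mono
variable {X : Type u} {n : ℕ} [TopologicalSpace X] [ChartedSpace (EuclideanSpace ℝ (Fin n)) X]
  [RiemannianBundle (fun x : X => TangentSpace 𝓘(ℝ, EuclideanSpace ℝ (Fin n)) x)]

theorem quadForm_chartMetric_nonneg (x : X) (y v : EuclideanSpace ℝ (Fin n)) :
    0 ≤ quadForm (chartMetric n X x) y v := by
  set e : Fin n → TangentSpace 𝓘(ℝ, EuclideanSpace ℝ (Fin n))
      ((chartAt (EuclideanSpace ℝ (Fin n)) x).symm y) := fun i =>
    (mfderiv 𝓘(ℝ, EuclideanSpace ℝ (Fin n)) 𝓘(ℝ, EuclideanSpace ℝ (Fin n))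
        (chartAt (EuclideanSpace ℝ (Fin n)) x).symm y (EuclideanSpace.single i 1)) with he
  have h1 : quadForm (chartMetric n X x) y v = inner ℝ (∑ i, v i • e i) (∑ j, v j • e j) := by
    unfold quadForm chartMetric
    simp only [Matrix.of_apply, sum_inner, inner_sum, inner_smul_left, inner_smul_right,
      RCLike.conj_to_real]
    refine Finset.sum_congr rfl fun i _ => ?_
    rw [Finset.mul_sum]
    refine Finset.sum_congr rfl fun j _ => ?_
    rw [real_inner_comm (e i) (e j)]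
    simp only [he]
    ring
  rw [h1]
  exact real_inner_self_nonneg

theorem ricciLB_mono [IsManifold 𝓘(ℝ, EuclideanSpace ℝ (Fin n)) ∞ X]
    [IsContMDiffRiemannianBundle 𝓘(ℝ, EuclideanSpace ℝ (Fin n)) ∞ (EuclideanSpace ℝ (Fin n))
      (fun x : X => TangentSpace 𝓘(ℝ, EuclideanSpace ℝ (Fin n)) x)] {K K' : ℝ}
    (h : HasRicciLowerBound n X K) (hK : K' ≤ K) : HasRicciLowerBound n X K' := by
  intro x v
  refine le_trans ?_ (h x v)
  exact mul_le_mul_of_nonneg_right hK (quadForm_chartMetric_nonneg _ _ _)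

end mono

section sc
variable {M : Type u} {n : ℕ} (r : {r : ℝ // 0 < r}) [MetricSpace M]
  [ChartedSpace (EuclideanSpace ℝ (Fin n)) M]
  [RiemannianBundle (fun x : M => TangentSpace 𝓘(ℝ, EuclideanSpace ℝ (Fin n)) x)]

theorem chartMetric_sc (x : M) :
    chartMetric n (Sc r M) (toSc r x) = fun y => (r.1 ^ 2)⁻¹ • chartMetric n M x y := by
  funext y
  ext i j
  rfl

variable [IsManifold 𝓘(ℝ, EuclideanSpace ℝ (Fin n)) ∞ M]
    [IsContMDiffRiemannianBundle 𝓘(ℝ, EuclideanSpace ℝ (Fin n)) ∞ (EuclideanSpace ℝ (Fin n))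
      (fun x : M => TangentSpace 𝓘(ℝ, EuclideanSpace ℝ (Fin n)) x)]

theorem ricciLB_sc {K : ℝ} (h : HasRicciLowerBound n M K) :
    HasRicciLowerBound n (Sc r M) (K * r.1 ^ 2) := by
  have hr := r.2
  intro x v
  have hc : (r.1 ^ 2)⁻¹ ≠ 0 := by positivity
  have h1 := h (ofSc r x) v
  have h2 := chartMetric_sc (n := n) r (ofSc r x)
  have h3 : chartCentre n (Sc r M) x = chartCentre n M (ofSc r x) := rfl
  have h4 : toSc r (ofSc r x) = x := rfl
  rw [h4] at h2
  rw [h2, h3, quadForm_smul]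
  simp only [ricci_smul hc]
  have h5 : K * r.1 ^ 2 * ((r.1 ^ 2)⁻¹ *
      quadForm (chartMetric n M (ofSc r x)) (chartCentre n M (ofSc r x)) v)
      = K * quadForm (chartMetric n M (ofSc r x)) (chartCentre n M (ofSc r x)) v := by
    field_simp
  rw [h5]
  exact h1

end sc

section measure
variable {M : Type u} (r : {r : ℝ // 0 < r}) [MetricSpace M]

theorem lip_ofSc : LipschitzWith r.1.toNNReal (ofSc r : Sc r M → M) := by
  have hr := r.2
  refine LipschitzWith.of_dist_le_mul fun x y => ?_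
  rw [Real.coe_toNNReal _ hr.le, dist_sc, ← mul_assoc, mul_inv_cancel₀ hr.ne', one_mul]

variable [MeasurableSpace M] [BorelSpace M]

theorem muHE_sc (n : ℕ) (A : Set M) :
    Measure.euclideanHausdorffMeasure n A ≤ ENNReal.ofReal (r.1 ^ n) *
      Measure.euclideanHausdorffMeasure n (ofSc r ⁻¹' A : Set (Sc r M)) := by
  have h1 := (lip_ofSc (M := M) r).hausdorffMeasure_image_le (d := n) (Nat.cast_nonneg n)
    (ofSc r ⁻¹' A)
  have h2 : ofSc r '' (ofSc r ⁻¹' A : Set (Sc r M)) = A :=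
    image_preimage_eq A (fun x => ⟨toSc r x, rfl⟩)
  rw [h2] at h1
  rw [Measure.euclideanHausdorffMeasure_def, Measure.euclideanHausdorffMeasure_def,
    Measure.smul_apply, Measure.smul_apply]
  have h3 : ((r.1.toNNReal : ℝ≥0∞)) ^ (n : ℝ) = ENNReal.ofReal (r.1 ^ n) := by
    rw [ENNReal.rpow_natCast, ENNReal.ofReal_pow r.2.le]
    rfl
  rw [h3] at h1
  rw [ENNReal.smul_def, ENNReal.smul_def, smul_eq_mul, smul_eq_mul, mul_left_comm]
  exact mul_le_mul_right h1 _

omit [MeasurableSpace M] [BorelSpace M] in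
theorem ball_sc (q : M) (s : ℝ) :
    (ofSc r ⁻¹' Metric.ball q (r.1 * s) : Set (Sc r M)) = Metric.ball (toSc r q) s := by
  have hr := r.2
  ext x
  rw [mem_preimage, Metric.mem_ball, Metric.mem_ball, dist_sc, inv_mul_lt_iff₀ hr]
  rfl

/-- lower volume bound of the rescaled unit ball. -/
theorem vol_sc (n : ℕ) (q : M) {v : ℝ}
    (h : ENNReal.ofReal (v * r.1 ^ n) ≤
      Measure.euclideanHausdorffMeasure n (Metric.ball q r.1)) :
    ENNReal.ofReal v ≤ Measure.euclideanHausdorffMeasure n (Metric.ball (toSc r q) 1) := by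
  have hr := r.2
  have h1 := h.trans (muHE_sc r n (Metric.ball q r.1))
  have h2 := ball_sc r q 1
  rw [mul_one] at h2
  rw [h2, mul_comm v, ENNReal.ofReal_mul (by positivity)] at h1
  have h3 : ENNReal.ofReal (r.1 ^ n) ≠ 0 := by
    rw [Ne, ENNReal.ofReal_eq_zero, not_le]; positivity
  exact (ENNReal.mul_le_mul_iff_right h3 ENNReal.ofReal_ne_top).1 h1

end measure

end Crest.Agent.R247.Scal386
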