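import Crest.Agent.R247.Mcs4_816
import Mathlib.Analysis.SpecialFunctions.Complex.LogBounds
import Mathlib.MeasureTheory.Measure.Regular
import Mathlib.Topology.MetricSpace.ProperSpace

-- ▼ part R247/Mcs5_816
section

/-!
Row 247, block (6c)/(6d) (helper816), file 5: intermediate points, their thickenings, and the local
contraction estimate.
-/

set_option autoImplicit false
set_option maxSynthPendingDepth 3

open scoped Topology ContDiff ENNReal
open Set MeasureTheory Filter

noncomputable section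

namespace Crest.Agent.R247.Mcs816

section Metric

variable {M : Type*} [MetricSpace M]

/-- the `t`-intermediate points of `A` seen from `x`. -/
def Ipt (x : M) (t : ℝ) (A : Set M) : Set M :=
  {z | ∃ y ∈ A, dist x z = t * dist x y ∧ dist y z = (1 - t) * dist x y}

/-- thickening of `Ipt`. -/
def Thick (x : M) (t : ℝ) (A : Set M) (ε : ℝ) : Set M :=
  {z | ∃ y ∈ A, |dist x z - t * dist x y| ≤ ε ∧ dist y z ≤ (1 - t) * dist x y + ε}

theorem Ipt_mono {x : M} {t : ℝ} {A B : Set M} (h : A ⊆ B) : Ipt x t A ⊆ Ipt x t B :=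
  fun _ ⟨y, hy, h1⟩ => ⟨y, h hy, h1⟩

theorem Thick_mono {x : M} {t : ℝ} {A : Set M} {ε ε' : ℝ} (h : ε ≤ ε') :
    Thick x t A ε ⊆ Thick x t A ε' :=
  fun _ ⟨y, hy, h1, h2⟩ => ⟨y, hy, h1.trans h, h2.trans (by linarith)⟩

theorem Ipt_one (x : M) (A : Set M) : Ipt x 1 A = A := by
  ext z
  constructor
  · rintro ⟨y, hy, -, h⟩
    have : y = z := by
      rw [← dist_eq_zero]; simpa using h
    exact this ▸ hy
  · intro hz
    exact ⟨z, hz, by simp, by simp⟩

/-- semigroup property -/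
theorem Ipt_Ipt {x : M} {s t : ℝ} {A : Set M} :
    Ipt x t (Ipt x s A) ⊆ Ipt x (t * s) A := by
  rintro z ⟨y, ⟨a, ha, h1, h2⟩, h3, h4⟩
  refine ⟨a, ha, by rw [h3, h1]; ring, ?_⟩
  have e1 : dist a z ≤ dist a y + dist y z := dist_triangle _ _ _
  have e2 : dist x a ≤ dist x z + dist z a := dist_triangle _ _ _
  rw [dist_comm z a] at e2
  have h5 : dist x z = t * s * dist x a := by rw [h3, h1]; ring
  have h6 : dist y z = (1 - t) * (s * dist x a) := by rw [h4, h1]
  apply le_antisymm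
  · rw [h2, h6] at e1; linarith
  · rw [h5] at e2; linarith

theorem dist_Ipt {x z : M} {t R : ℝ} {A : Set M} (ht : 0 ≤ t)
    (hA : A ⊆ Metric.closedBall x R) (hz : z ∈ Ipt x t A) : z ∈ Metric.closedBall x (t * R) := by
  obtain ⟨y, hy, h1, -⟩ := hz
  have h2 := hA hy
  rw [Metric.mem_closedBall, dist_comm] at h2 ⊢
  rw [h1]; gcongr

variable [ProperSpace M]

theorem isCompact_Thick (x : M) (t : ℝ) {A : Set M} (hA : IsCompact A) (ε : ℝ) :
    IsCompact (Thick x t A ε) := by
  obtain ⟨R, hR⟩ := hA.isBounded.subset_closedBall x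
  set R' := |t| * |R| + ε with hR'
  have hcl : IsClosed {p : M × M | |dist x p.2 - t * dist x p.1| ≤ ε ∧
      dist p.1 p.2 ≤ (1 - t) * dist x p.1 + ε} := by
    have c1 : IsClosed {p : M × M | |dist x p.2 - t * dist x p.1| ≤ ε} :=
      isClosed_le (by fun_prop) continuous_const
    have c2 : IsClosed {p : M × M | dist p.1 p.2 ≤ (1 - t) * dist x p.1 + ε} :=
      isClosed_le (by fun_prop) (by fun_prop)
    exact c1.inter c2
  have hc : IsCompact ((A ×ˢ Metric.closedBall x R') ∩ {p : M × M |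
      |dist x p.2 - t * dist x p.1| ≤ ε ∧ dist p.1 p.2 ≤ (1 - t) * dist x p.1 + ε}) :=
    (hA.prod (isCompact_closedBall x R')).inter_right hcl
  have himg : Thick x t A ε = Prod.snd '' ((A ×ˢ Metric.closedBall x R') ∩ {p : M × M |
      |dist x p.2 - t * dist x p.1| ≤ ε ∧ dist p.1 p.2 ≤ (1 - t) * dist x p.1 + ε}) := by
    ext z
    constructor
    · rintro ⟨y, hy, h1, h2⟩
      refine ⟨(y, z), ⟨⟨hy, ?_⟩, h1, h2⟩, rfl⟩
      rw [Metric.mem_closedBall, dist_comm]
      have h3 := (abs_le.1 h1).2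
      have h4 := hR hy
      rw [Metric.mem_closedBall, dist_comm] at h4
      have h5 : t * dist x y ≤ |t| * |R| := by
        calc t * dist x y ≤ |t| * dist x y := by gcongr; exact le_abs_self t
          _ ≤ |t| * |R| := by gcongr; exact h4.trans (le_abs_self R)
      show dist x z ≤ R'
      rw [hR']; linarith
    · rintro ⟨⟨y, z'⟩, ⟨⟨hy, -⟩, h1, h2⟩, rfl⟩
      exact ⟨y, hy, h1, h2⟩
  rw [himg]
  exact hc.image continuous_snd

omit [ProperSpace M] in
theorem iInter_Thick (x : M) (t : ℝ) {A : Set M} (hA : IsCompact A) :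
    ⋂ n : ℕ, Thick x t A (1 / ((n : ℝ) + 1)) = Ipt x t A := by
  ext z
  simp only [mem_iInter]
  constructor
  · intro h
    choose y hy h1 h2 using h
    obtain ⟨a, ha, φ, hφ, hlim⟩ := hA.tendsto_subseq hy
    have hε : Tendsto (fun n : ℕ => 1 / ((φ n : ℝ) + 1)) atTop (𝓝 0) :=
      tendsto_one_div_add_atTop_nhds_zero_nat.comp hφ.tendsto_atTop
    have hd : Tendsto (fun n => dist x (y (φ n))) atTop (𝓝 (dist x a)) :=
      tendsto_const_nhds.dist hlim
    have hd2 : Tendsto (fun n => dist (y (φ n)) z) atTop (𝓝 (dist a z)) :=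
      hlim.dist tendsto_const_nhds
    have l1 : |dist x z - t * dist x a| ≤ 0 :=
      le_of_tendsto_of_tendsto' ((tendsto_const_nhds.sub (hd.const_mul t)).abs) hε
        fun n => h1 (φ n)
    have l2 : dist a z ≤ (1 - t) * dist x a + 0 :=
      le_of_tendsto_of_tendsto' hd2 ((hd.const_mul (1 - t)).add hε) fun n => h2 (φ n)
    have l3 : dist x z = t * dist x a := by
      have := abs_nonpos_iff.1 l1
      linarith
    refine ⟨a, ha, l3, le_antisymm (by linarith) ?_⟩
    have := dist_triangle x z a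
    rw [dist_comm z a] at this
    linarith
  · rintro ⟨y, hy, h1, h2⟩ n
    have : (0 : ℝ) ≤ 1 / ((n : ℝ) + 1) := by positivity
    exact ⟨y, hy, by rw [h1, sub_self, abs_zero]; exact this, by linarith⟩

theorem isCompact_Ipt (x : M) (t : ℝ) {A : Set M} (hA : IsCompact A) : IsCompact (Ipt x t A) := by
  rw [← iInter_Thick x t hA]
  refine (isCompact_Thick x t hA (1 / ((0 : ℕ) + 1 : ℝ))).of_isClosed_subset
    (isClosed_iInter fun n => (isCompact_Thick x t hA _).isClosed) (iInter_subset _ 0)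

/-- if `c` is at most the measure of all thickenings, it is at most the measure of `Ipt`. -/
theorem le_measure_Ipt [MeasurableSpace M] [BorelSpace M] (μ : Measure M)
    [IsFiniteMeasureOnCompacts μ] (x : M) (t : ℝ) {A : Set M} (hA : IsCompact A) {c : ℝ≥0∞}
    (h : ∀ ε > 0, c ≤ μ (Thick x t A ε)) : c ≤ μ (Ipt x t A) := by
  rw [← iInter_Thick x t hA]
  have hanti : Antitone fun n : ℕ => Thick x t A (1 / ((n : ℝ) + 1)) := by
    intro m n hmn
    refine Thick_mono ?_
    have : (m : ℝ) ≤ n := by exact_mod_cast hmn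
    gcongr
  rw [hanti.measure_iInter (fun n => (isCompact_Thick x t hA _).measurableSet.nullMeasurableSet)
    ⟨0, (isCompact_Thick x t hA _).measure_lt_top.ne⟩]
  exact le_iInf fun n => h _ (by positivity)

/-- local contraction property: `μ (A_{e^{-τ}}) ≥ e^{-Hτ} μ A` for compact subsets of `W`. -/
def LocC [MeasurableSpace M] (μ : Measure M) (x : M) (W : Set M) (H τ0 : ℝ) : Prop :=
  ∀ A ⊆ W, IsCompact A → ∀ τ, 0 ≤ τ → τ ≤ τ0 →
    ENNReal.ofReal (Real.exp (-(H * τ))) * μ A ≤ μ (Ipt x (Real.exp (-τ)) A)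

end Metric

variable {E : Type*} [NormedAddCommGroup E] [InnerProductSpace ℝ E] [FiniteDimensional ℝ E]
  [MeasurableSpace E] [BorelSpace E]
variable {M : Type*} [MetricSpace M] [ProperSpace M] [MeasurableSpace M] [BorelSpace M]

/-- **local contraction estimate** from a family of smooth barriers in a chart. -/
theorem locC_of {x : M} {X : E → M} {U : Set E} {w : E → ℝ} {gg : E → E →L[ℝ] E →L[ℝ] ℝ}
    {f : ℕ → E → ℝ} {v : ℕ → E → E} {C H ρ : ℝ} (μ : Measure M) [IsFiniteMeasureOnCompacts μ]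
    (h : LF U w gg f v C H) (hm : MF x X U gg f v C ρ)
    {φ : M → E} {W : Set M} (hφ : ContinuousOn φ W)
    (hφX : ∀ m ∈ W, X (φ m) = m) {τ0 : ℝ} (hτ0 : τ0 ≤ 1)
    (hU0 : ∀ m ∈ W, Metric.closedBall (φ m) (C * τ0) ⊆ U)
    (hμ : ∀ B ⊆ U, MeasurableSet B → μ (X '' B) = ∫⁻ y in B, ENNReal.ofReal (w y)) :
    LocC μ x W H τ0 := by
  intro A' hA'W hA' τ hτ hττ0
  have hC : 1 ≤ C := h.one_le
  have hC0 : 0 < C := by linarith
  obtain ⟨C', δ0, hC', hδ0, hch⟩ := chain (E := E) (M := M) hC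
  set A : Set E := φ '' A' with hA
  have hAc : IsCompact A := hA'.image_of_continuousOn (hφ.mono hA'W)
  have hXA : X '' A = A' := by
    rw [hA, image_image]
    refine Subset.antisymm ?_ fun m hm => ⟨m, hm, hφX m (hA'W hm)⟩
    rintro _ ⟨m, hm, rfl⟩
    simpa [hφX m (hA'W hm)] using hm
  have hAU : ∀ y ∈ A, Metric.closedBall y (C * τ) ⊆ U := by
    rintro _ ⟨m, hm, rfl⟩
    exact (Metric.closedBall_subset_closedBall (by gcongr)).trans (hU0 m (hA'W hm))
  have hAU' : A ⊆ U := fun y hy => hAU y hy (Metric.mem_closedBall_self (by positivity))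
  have hμA : μ A' = ∫⁻ y in A, ENNReal.ofReal (w y) := by
    rw [← hXA]; exact hμ A hAU' hAc.measurableSet
  have hKK := KK_nonneg hC hm.ρ_pos
  set t := Real.exp (-τ) with ht
  -- error of `m` steps
  set er : ℕ → ℝ := fun m => |(1 + (-τ) / m) ^ m - t| * C + 4 * KK C ρ * τ ^ 2 / m with her
  have her0 : Tendsto er atTop (𝓝 0) := by
    have h1 : Tendsto (fun m : ℕ => (1 + (-τ) / m) ^ m) atTop (𝓝 t) :=
      Real.tendsto_one_add_div_pow_exp (-τ)
    have h2 : Tendsto (fun m : ℕ => |(1 + (-τ) / m) ^ m - t| * C) atTop (𝓝 (|t - t| * C)) :=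
      ((h1.sub_const t).abs).mul_const C
    have h3 : Tendsto (fun m : ℕ => 4 * KK C ρ * τ ^ 2 / (m : ℝ)) atTop (𝓝 0) :=
      tendsto_const_div_atTop_nhds_zero_nat _
    have := h2.add h3
    simpa [her] using this
  -- measure factor
  set g : ℕ → ℝ := fun m => -(τ / m * H) - C' * (τ / m) ^ 2 with hg
  have hgl : Tendsto (fun m : ℕ => (m : ℝ) * g m) atTop (𝓝 (-(H * τ))) := by
    have h1 : Tendsto (fun m : ℕ => -(H * τ) - C' * τ ^ 2 / (m : ℝ)) atTop (𝓝 (-(H * τ) - 0)) :=
      tendsto_const_nhds.sub (tendsto_const_div_atTop_nhds_zero_nat _)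
    rw [sub_zero] at h1
    refine h1.congr' ?_
    filter_upwards [eventually_gt_atTop 0] with m hm0
    have : (m : ℝ) ≠ 0 := by positivity
    simp only [hg]
    field_simp
  have hg0 : Tendsto g atTop (𝓝 0) := by
    have h1 : Tendsto (fun m : ℕ => τ / (m : ℝ)) atTop (𝓝 0) :=
      tendsto_const_div_atTop_nhds_zero_nat _
    have h2 := ((h1.mul_const H).neg).sub ((h1.pow 2).const_mul C')
    simpa [hg] using h2
  have hfac : Tendsto (fun m : ℕ => (1 + g m) ^ m) atTop (𝓝 (Real.exp (-(H * τ)))) :=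
    Real.tendsto_one_add_pow_exp_of_tendsto hgl
  have hfac' : Tendsto (fun m : ℕ => ENNReal.ofReal (1 + g m) ^ m * μ A') atTop
      (𝓝 (ENNReal.ofReal (Real.exp (-(H * τ))) * μ A')) := by
    have h1 : Tendsto (fun m : ℕ => ENNReal.ofReal ((1 + g m) ^ m)) atTop
        (𝓝 (ENNReal.ofReal (Real.exp (-(H * τ))))) :=
      (ENNReal.continuous_ofReal.tendsto _).comp hfac
    have h2 : Tendsto (fun m : ℕ => ENNReal.ofReal ((1 + g m) ^ m) * μ A') atTop
        (𝓝 (ENNReal.ofReal (Real.exp (-(H * τ))) * μ A')) :=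
      ENNReal.Tendsto.mul_const h1 (Or.inr hA'.measure_lt_top.ne)
    refine h2.congr' ?_
    have h3 : ∀ᶠ m in atTop, 0 < 1 + g m := by
      have : Tendsto (fun m => 1 + g m) atTop (𝓝 (1 + 0)) := tendsto_const_nhds.add hg0
      exact this.eventually (lt_mem_nhds (by norm_num))
    filter_upwards [h3] with m hm3
    rw [ENNReal.ofReal_pow hm3.le]
  refine le_measure_Ipt μ x t hA' fun ε hε => ?_
  refine le_of_tendsto hfac' ?_
  have hδe : ∀ᶠ m : ℕ in atTop, τ / (m : ℝ) ≤ δ0 := by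
    have h1 : Tendsto (fun m : ℕ => τ / (m : ℝ)) atTop (𝓝 0) :=
      tendsto_const_div_atTop_nhds_zero_nat _
    exact (h1.eventually (gt_mem_nhds hδ0)).mono fun m hm => hm.le
  filter_upwards [hδe, her0.eventually (gt_mem_nhds hε), eventually_gt_atTop 0] with m hm1 hm2 hm0
  have hmpos : (0 : ℝ) < m := by exact_mod_cast hm0
  have hmτ : (m : ℝ) * (τ / m) = τ := by field_simp
  obtain ⟨B, hB, hBU, hBd, hBm⟩ := hch h hm (τ / m) (by positivity) hm1 m
    (by rw [hmτ]; exact hττ0.trans hτ0) A hAc.measurableSet (by rw [hmτ]; exact hAU)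
  have e1 : 1 + g m = 1 - τ / m * H - C' * (τ / m) ^ 2 := by simp only [hg]; ring
  rw [e1, hμA]
  refine hBm.trans ?_
  rw [← hμ B hBU hB]
  refine measure_mono ?_
  rintro _ ⟨z, hz, rfl⟩
  obtain ⟨y, hy, -, h1, h2⟩ := hBd z hz
  have hyU := hAU' hy
  refine ⟨X y, hXA ▸ mem_image_of_mem X hy, ?_, ?_⟩
  all_goals
    have e2 : (1 - τ / (m : ℝ)) = 1 + (-τ) / m := by ring
    have e3 : (m : ℝ) * (2 * KK C ρ * (τ / m) ^ 2) = 2 * KK C ρ * τ ^ 2 / m := by
      field_simp
    have e4 : 2 * (m : ℝ) * (2 * KK C ρ * (τ / m) ^ 2) = 4 * KK C ρ * τ ^ 2 / m := by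
      field_simp
      ring
    rw [e2] at h1 h2
    rw [e3] at h1
    rw [e4] at h2
    set q := (1 + (-τ) / (m : ℝ)) ^ m with hq
    have hd0 : 0 ≤ dist x (X y) := dist_nonneg
    have hdC := hm.up y hyU
    have h3 : |q - t| * dist x (X y) ≤ |q - t| * C := by gcongr
    have h4 : er m ≤ ε := hm2.le
    have h5 : 0 ≤ 2 * KK C ρ * τ ^ 2 / m := by positivity
    have h6 : |(q - t) * dist x (X y)| ≤ |q - t| * C := by
      rw [abs_mul, abs_of_nonneg hd0]; exact h3
    have h7 := abs_le.1 h6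
    simp only [her] at h4
    have h8 : 4 * KK C ρ * τ ^ 2 / m = 2 * (2 * KK C ρ * τ ^ 2 / m) := by ring
  · rw [abs_le]
    have h9 := dist_triangle x (X z) (X y)
    rw [dist_comm (X z) (X y)] at h9
    constructor
    · nlinarith [h7.1, h7.2]
    · nlinarith [h7.1, h7.2]
  · nlinarith [h7.1, h7.2]

end Crest.Agent.R247.Mcs816
end
end

-- ▼ part R247/Mcs6_816

/-!
Row 247, block (6c)/(6d) (helper816), file 6: from the local contraction estimate to the global one,
by non-branching.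
-/

set_option autoImplicit false

open scoped Topology ContDiff ENNReal
open Set MeasureTheory Filter

noncomputable section

namespace Crest.Agent.R247.Mcs816

variable {M : Type*} [MetricSpace M]

/-- minimisers starting at `x` do not branch. -/
def NonBr (x : M) : Prop := ∀ y y' z, z ≠ x → z ≠ y →
  dist x z + dist z y = dist x y → dist x z + dist z y' = dist x y' →
  dist x y = dist x y' → y = y'

theorem Ipt_disjoint {x : M} (hx : NonBr x) {t : ℝ} (ht : 0 < t) (ht1 : t ≤ 1) {A B : Set M}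
    (h : Disjoint A B) : Disjoint (Ipt x t A) (Ipt x t B) := by
  rcases eq_or_lt_of_le ht1 with rfl | ht2
  · rwa [Ipt_one, Ipt_one]
  rw [Set.disjoint_left]
  rintro z ⟨y, hy, h1, h2⟩ ⟨y', hy', h3, h4⟩
  have hd : dist x y = dist x y' := by
    rw [h1] at h3
    exact mul_left_cancel₀ ht.ne' h3
  have hyy : y = y' := by
    rcases eq_or_ne (dist x y) 0 with h0 | h0
    · have e1 := dist_eq_zero.1 h0
      have e2 := dist_eq_zero.1 (hd ▸ h0 : dist x y' = 0)
      rw [← e1, ← e2]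
    · have hzx : z ≠ x := by
        rintro rfl
        rw [dist_self] at h1
        exact h0 ((mul_eq_zero.1 h1.symm).resolve_left ht.ne')
      have hzy : z ≠ y := by
        rintro rfl
        rw [dist_self] at h2
        exact h0 ((mul_eq_zero.1 h2.symm).resolve_left (by linarith))
      refine hx y y' z hzx hzy ?_ ?_ hd
      · rw [dist_comm z y, h1, h2]; ring
      · rw [dist_comm z y', h3, h4]; ring
  subst hyy
  exact Set.disjoint_left.1 h hy hy'

variable [ProperSpace M] [MeasurableSpace M] [BorelSpace M]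

omit [ProperSpace M] [BorelSpace M] in
theorem LocC.mono {μ : Measure M} {x : M} {W W' : Set M} {H H' τ0 τ1 : ℝ}
    (h : LocC μ x W H τ0) (hW : W' ⊆ W) (hH : H ≤ H') (hτ : τ1 ≤ τ0) : LocC μ x W' H' τ1 := by
  intro A hA hAc τ hτ0 hτ1
  refine le_trans ?_ (h A (hA.trans hW) hAc τ hτ0 (hτ1.trans hτ))
  gcongr

theorem LocC.union {μ : Measure M} [IsFiniteMeasureOnCompacts μ] {x : M} (hx : NonBr x)
    {V W : Set M} {H τ0 : ℝ} (hV : LocC μ x V H τ0) (hW : LocC μ x W H τ0) {O : Set M}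
    (hO : IsOpen O) (hWO : W = O ∩ (V ∪ W)) : LocC μ x (V ∪ W) H τ0 := by
  intro A hA hAc τ hτ hτ1
  set c := ENNReal.ofReal (Real.exp (-(H * τ))) with hc
  have hK1 : IsCompact (A \ O) := hAc.diff hO
  have hK1V : A \ O ⊆ V := by
    rintro y ⟨hy, hyO⟩
    rcases hA hy with h | h
    · exact h
    · rw [hWO] at h; exact absurd h.1 hyO
  have hAO : MeasurableSet (A ∩ O) := hAc.measurableSet.inter hO.measurableSet
  have hAOfin : μ (A ∩ O) ≠ ⊤ :=
    ((measure_mono inter_subset_left).trans_lt hAc.measure_lt_top).ne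
  have key : ∀ ε : ℝ≥0∞, ε ≠ 0 → c * μ A ≤ μ (Ipt x (Real.exp (-τ)) A) + c * ε := by
    intro ε hε
    obtain ⟨K2, hK2s, hK2, hK2m⟩ := hAO.exists_isCompact_lt_add hAOfin hε
    have hK2W : K2 ⊆ W := by
      intro y hy
      rw [hWO]
      exact ⟨(hK2s hy).2, hA (hK2s hy).1⟩
    have hdis : Disjoint (A \ O) K2 := by
      rw [Set.disjoint_left]
      rintro y ⟨-, hyO⟩ hy2
      exact hyO (hK2s hy2).2
    have h1 := hV _ hK1V hK1 τ hτ hτ1
    have h2 := hW _ hK2W hK2 τ hτ hτ1
    have h3 : μ (Ipt x (Real.exp (-τ)) (A \ O)) + μ (Ipt x (Real.exp (-τ)) K2) ≤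
        μ (Ipt x (Real.exp (-τ)) A) := by
      rw [← measure_union (Ipt_disjoint hx (Real.exp_pos _)
        (Real.exp_le_one_iff.2 (by linarith)) hdis) (isCompact_Ipt x _ hK2).measurableSet]
      refine measure_mono (union_subset (Ipt_mono sdiff_subset)
        (Ipt_mono fun y hy => (hK2s hy).1))
    have h4 : μ A = μ (A ∩ O) + μ (A \ O) := (measure_inter_add_sdiff A hO.measurableSet).symm
    calc c * μ A = c * μ (A \ O) + c * μ (A ∩ O) := by rw [h4, mul_add, add_comm]
      _ ≤ c * μ (A \ O) + c * (μ K2 + ε) := by gcongr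
      _ = (c * μ (A \ O) + c * μ K2) + c * ε := by rw [mul_add, add_assoc]
      _ ≤ (μ (Ipt x (Real.exp (-τ)) (A \ O)) + μ (Ipt x (Real.exp (-τ)) K2)) + c * ε := by
          gcongr
      _ ≤ μ (Ipt x (Real.exp (-τ)) A) + c * ε := by gcongr
  have hcfin : c ≠ ⊤ := ENNReal.ofReal_ne_top
  have hlim : Tendsto (fun n : ℕ => μ (Ipt x (Real.exp (-τ)) A) +
      c * ENNReal.ofReal (1 / ((n : ℝ) + 1))) atTop (𝓝 (μ (Ipt x (Real.exp (-τ)) A) + c * 0)) := by
    refine tendsto_const_nhds.add (ENNReal.Tendsto.const_mul ?_ (Or.inr hcfin))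
    have := (ENNReal.continuous_ofReal.tendsto 0).comp
      (tendsto_one_div_add_atTop_nhds_zero_nat (𝕜 := ℝ))
    rw [ENNReal.ofReal_zero] at this
    exact this
  rw [mul_zero, add_zero] at hlim
  refine ge_of_tendsto' hlim fun n => key _ ?_
  simp only [ne_eq, ENNReal.ofReal_eq_zero, not_le]
  positivity

/-- a compact set covered by open sets on which the local contraction holds. -/
theorem LocC.of_cover {μ : Measure M} [IsFiniteMeasureOnCompacts μ] {x : M} (hx : NonBr x)
    {ι : Type*} (s : Finset ι) (Wi : ι → Set M) (hWi : ∀ i ∈ s, IsOpen (Wi i)) {P : Set M}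
    {H τ0 : ℝ} (h : ∀ i ∈ s, LocC μ x (Wi i ∩ P) H τ0) :
    LocC μ x ((⋃ i ∈ s, Wi i) ∩ P) H τ0 := by
  classical
  induction s using Finset.induction_on with
  | empty =>
    intro A hA hAc τ _ _
    have : A = ∅ := by
      refine Set.eq_empty_of_subset_empty (hA.trans ?_)
      simp
    subst this
    simp
  | insert a s ha ih =>
    have h1 := ih (fun i hi => hWi i (Finset.mem_insert_of_mem hi))
      (fun i hi => h i (Finset.mem_insert_of_mem hi))
    have h2 := h a (Finset.mem_insert_self a s)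
    have h3 : (⋃ i ∈ insert a s, Wi i) ∩ P = ((⋃ i ∈ s, Wi i) ∩ P) ∪ (Wi a ∩ P) := by
      rw [Finset.set_biUnion_insert, union_inter_distrib_right, union_comm]
    rw [h3]
    refine LocC.union hx h1 h2 (hWi a (Finset.mem_insert_self a s)) ?_
    ext y
    simp only [mem_inter_iff, mem_union]
    tauto

/-- **uniform local contraction** on a compact set not containing `x`. -/
theorem exists_unif {μ : Measure M} [IsFiniteMeasureOnCompacts μ] {x : M} (hx : NonBr x)
    {h : ℝ → ℝ} (hcont : Continuous h) (hmono : MonotoneOn h (Ici 0))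
    (hloc : ∀ y, y ≠ x → ∀ ε > 0, ∃ W, IsOpen W ∧ y ∈ W ∧ ∃ τ0 > 0,
      LocC μ x W (h (dist x y) + ε) τ0) {Q : Set M} (hQ : IsCompact Q) (hxQ : x ∉ Q)
    {ε : ℝ} (hε : 0 < ε) :
    ∃ τ1 > 0, ∀ r, 0 ≤ r → LocC μ x (Q ∩ Metric.closedBall x r) (h r + 2 * ε) τ1 := by
  have hne : ∀ y ∈ Q, y ≠ x := fun y hy he => hxQ (he ▸ hy)
  -- choose neighbourhoods
  have hch : ∀ y ∈ Q, ∃ W, IsOpen W ∧ y ∈ W ∧ (∀ z ∈ W, h (dist x y) ≤ h (dist x z) + ε) ∧
      ∃ τ0 > 0, LocC μ x W (h (dist x y) + ε) τ0 := by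
    intro y hy
    obtain ⟨W, hW, hyW, τ0, hτ0, hL⟩ := hloc y (hne y hy) ε hε
    have hc : Continuous fun z => h (dist x z) := hcont.comp (continuous_const.dist continuous_id)
    have hO : IsOpen {z | h (dist x y) < h (dist x z) + ε} :=
      isOpen_lt continuous_const (hc.add continuous_const)
    refine ⟨W ∩ {z | h (dist x y) < h (dist x z) + ε}, hW.inter hO, ⟨hyW, ?_⟩, fun z hz => ?_,
      τ0, hτ0, hL.mono inter_subset_left le_rfl le_rfl⟩
    · show h (dist x y) < h (dist x y) + ε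
      linarith
    · exact le_of_lt hz.2
  choose! W hW hyW hWh τ hτ hL using hch
  obtain ⟨s, hs, hcov⟩ := hQ.elim_nhds_subcover W (fun y hy => (hW y hy).mem_nhds (hyW y hy))
  have hmin : ∃ τ1 > 0, ∀ y ∈ s, τ1 ≤ τ y := by
    classical
    rcases s.eq_empty_or_nonempty with rfl | hne'
    · exact ⟨1, one_pos, by simp⟩
    · obtain ⟨y0, hy0, hmin⟩ := s.exists_min_image τ hne'
      exact ⟨τ y0, hτ y0 (hs y0 hy0), hmin⟩
  obtain ⟨τ1, hτ1, hτ1'⟩ := hmin
  refine ⟨τ1, hτ1, fun r hr => ?_⟩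
  have h1 : LocC μ x ((⋃ y ∈ s, W y) ∩ (Q ∩ Metric.closedBall x r)) (h r + 2 * ε) τ1 := by
    refine LocC.of_cover hx s W (fun y hy => hW y (hs y hy)) fun y hy => ?_
    rcases (W y ∩ (Q ∩ Metric.closedBall x r)).eq_empty_or_nonempty with he | ⟨z, hz⟩
    · intro A hA hAc _ _ _
      rw [he] at hA
      rw [Set.eq_empty_of_subset_empty hA]
      simp
    · refine (hL y (hs y hy)).mono inter_subset_left ?_ (hτ1' y hy)
      have h2 := hWh y (hs y hy) z hz.1
      have h3 : dist x z ≤ r := by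
        have := hz.2.2
        rwa [Metric.mem_closedBall, dist_comm] at this
      have h4 := hmono (show dist x z ∈ Ici 0 from dist_nonneg) (show r ∈ Ici 0 from hr) h3
      linarith
  refine h1.mono ?_ le_rfl le_rfl
  rintro y ⟨hyQ, hyr⟩
  exact ⟨hcov hyQ, hyQ, hyr⟩

/-- the exponent of the contraction estimate. -/
def GG (a κ r τ : ℝ) : ℝ := a * τ + κ * r ^ 2 * (1 - Real.exp (-(2 * τ))) / 2

theorem GG_add (a κ r τ τ' : ℝ) :
    GG a κ r τ + GG a κ (Real.exp (-τ) * r) τ' = GG a κ r (τ + τ') := by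
  unfold GG
  have h1 : (Real.exp (-τ) * r) ^ 2 = Real.exp (-(2 * τ)) * r ^ 2 := by
    rw [mul_pow, ← Real.exp_nat_mul]
    congr 2
    push_cast; ring
  have h2 : Real.exp (-(2 * (τ + τ'))) = Real.exp (-(2 * τ)) * Real.exp (-(2 * τ')) := by
    rw [← Real.exp_add]; congr 1; ring
  rw [h1, h2]
  ring

theorem le_GG {a κ r δ : ℝ} (hκ : 0 ≤ κ) (hδ : 0 ≤ δ) :
    (a + κ * r ^ 2) * δ ≤ GG a (κ * (1 + 2 * δ)) r δ := by
  unfold GG
  have h1 : Real.exp (-(2 * δ)) ≤ 1 / (1 + 2 * δ) := by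
    rw [Real.exp_neg, ← one_div]
    apply one_div_le_one_div_of_le (by positivity)
    have := Real.add_one_le_exp (2 * δ)
    linarith
  have h2 : 2 * δ ≤ (1 + 2 * δ) * (1 - Real.exp (-(2 * δ))) := by
    have : (1 + 2 * δ) * Real.exp (-(2 * δ)) ≤ (1 + 2 * δ) * (1 / (1 + 2 * δ)) := by gcongr
    rw [mul_one_div_cancel (by positivity)] at this
    linarith
  have h3 : κ * r ^ 2 * (2 * δ) ≤ κ * r ^ 2 * ((1 + 2 * δ) * (1 - Real.exp (-(2 * δ)))) := by
    gcongr
  linarith

/-- **global contraction estimate**. -/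
theorem contraction {μ : Measure M} [IsFiniteMeasureOnCompacts μ] {x : M} (hx : NonBr x)
    (hμx : μ {x} = 0) {a κ : ℝ} (hκ : 0 ≤ κ)
    (hloc : ∀ y, y ≠ x → ∀ ε > 0, ∃ W, IsOpen W ∧ y ∈ W ∧ ∃ τ0 > 0,
      LocC μ x W (a + κ * dist x y ^ 2 + ε) τ0) {R : ℝ} (hR : 0 ≤ R) {A : Set M}
    (hA : IsCompact A) (hAR : A ⊆ Metric.closedBall x R) {τ : ℝ} (hτ : 0 ≤ τ) :
    ENNReal.ofReal (Real.exp (-(a * τ + κ * R ^ 2 * (1 - Real.exp (-(2 * τ))) / 2))) * μ A ≤
      μ (Ipt x (Real.exp (-τ)) A) := by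
  -- first: compact sets away from `x`
  have key : ∀ b > 0, ∀ A : Set M, IsCompact A → A ⊆ Metric.closedBall x R →
      (∀ y ∈ A, b ≤ dist x y) →
      ENNReal.ofReal (Real.exp (-(GG a κ R τ))) * μ A ≤ μ (Ipt x (Real.exp (-τ)) A) := by
    intro b hb A hA hAR hAb
    set Q : Set M := Metric.closedBall x R ∩ {y | Real.exp (-τ) * b ≤ dist x y} with hQdef
    have hQ : IsCompact Q := (isCompact_closedBall x R).inter_right
      (isClosed_le continuous_const (by fun_prop))
    have hxQ : x ∉ Q := by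
      rintro ⟨-, h⟩
      rw [mem_ofPred_eq, dist_self] at h
      have : 0 < Real.exp (-τ) * b := by positivity
      linarith
    have hh : Continuous fun r : ℝ => a + κ * r ^ 2 := by fun_prop
    have hhm : MonotoneOn (fun r : ℝ => a + κ * r ^ 2) (Ici 0) := by
      intro r hr s hs hrs
      have h0 : 0 ≤ r := hr
      show a + κ * r ^ 2 ≤ a + κ * s ^ 2
      gcongr
    -- fixed `ε` and step `δ`
    have step : ∀ ε > 0, ∃ δ1 > 0, ∀ δ, 0 ≤ δ → δ ≤ δ1 → ∀ m : ℕ, (m : ℝ) * δ ≤ τ →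
        ENNReal.ofReal (Real.exp (-(GG (a + 2 * ε) (κ * (1 + 2 * δ)) R (m * δ)))) * μ A ≤
          μ (Ipt x (Real.exp (-(m * δ))) A) := by
      intro ε hε
      obtain ⟨τ1, hτ1, hL⟩ := exists_unif hx hh hhm hloc hQ hxQ hε
      refine ⟨τ1, hτ1, fun δ hδ hδ1 m => ?_⟩
      induction m with
      | zero =>
        intro _
        simp [GG, Ipt_one]
      | succ m ih =>
        intro hm
        push_cast at hm ⊢
        have hmδ : 0 ≤ (m : ℝ) * δ := by positivity
        have ih' := ih (by nlinarith)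
        set A' := Ipt x (Real.exp (-(m * δ))) A with hA'
        have hA'c : IsCompact A' := isCompact_Ipt x _ hA
        have hA'R : A' ⊆ Metric.closedBall x (Real.exp (-(m * δ)) * R) := fun z hz =>
          dist_Ipt (Real.exp_pos _).le hAR hz
        have hA'Q : A' ⊆ Q ∩ Metric.closedBall x (Real.exp (-(m * δ)) * R) := by
          intro z hz
          refine ⟨⟨?_, ?_⟩, hA'R hz⟩
          · refine Metric.closedBall_subset_closedBall ?_ (hA'R hz)
            have : Real.exp (-(m * δ)) ≤ 1 := Real.exp_le_one_iff.2 (by linarith)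
            nlinarith
          · obtain ⟨y, hy, h1, -⟩ := hz
            show Real.exp (-τ) * b ≤ dist x z
            rw [h1]
            have h2 : Real.exp (-τ) ≤ Real.exp (-(m * δ)) := Real.exp_le_exp.2 (by linarith)
            have h3 := hAb y hy
            gcongr
        have h1 := hL (Real.exp (-(m * δ)) * R) (by positivity) A' hA'Q hA'c δ hδ hδ1
        have h2 : Ipt x (Real.exp (-δ)) A' ⊆ Ipt x (Real.exp (-((m + 1) * δ))) A := by
          have := Ipt_Ipt (x := x) (s := Real.exp (-(m * δ))) (t := Real.exp (-δ)) (A := A)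
          rw [← Real.exp_add] at this
          have e : -δ + -(m * δ) = -((m + 1) * δ) := by ring
          rwa [e] at this
        refine le_trans ?_ (measure_mono h2)
        refine le_trans ?_ h1
        refine le_trans ?_ (mul_le_mul_right ih' _)
        rw [← mul_assoc, ← ENNReal.ofReal_mul (Real.exp_pos _).le, ← Real.exp_add]
        gcongr
        have h3 : ((a + 2 * ε) + κ * (Real.exp (-(m * δ)) * R) ^ 2) * δ ≤
            GG (a + 2 * ε) (κ * (1 + 2 * δ)) (Real.exp (-(m * δ)) * R) δ := le_GG hκ hδ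
        have h4 := GG_add (a + 2 * ε) (κ * (1 + 2 * δ)) R (m * δ) δ
        have h5 : (m + 1 : ℝ) * δ = m * δ + δ := by ring
        rw [h5]
        nlinarith
    -- let `m → ∞`, `ε → 0`
    have hlim1 : ∀ ε > 0, ENNReal.ofReal (Real.exp (-(GG (a + 2 * ε) κ R τ))) * μ A ≤
        μ (Ipt x (Real.exp (-τ)) A) := by
      intro ε hε
      obtain ⟨δ1, hδ1, hst⟩ := step ε hε
      have hδl : Tendsto (fun m : ℕ => τ / (m : ℝ)) atTop (𝓝 0) :=
        tendsto_const_div_atTop_nhds_zero_nat _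
      have hl : Tendsto (fun m : ℕ => ENNReal.ofReal (Real.exp
          (-(GG (a + 2 * ε) (κ * (1 + 2 * (τ / (m : ℝ)))) R τ))) * μ A) atTop
          (𝓝 (ENNReal.ofReal (Real.exp (-(GG (a + 2 * ε) (κ * (1 + 2 * 0)) R τ))) * μ A)) := by
        refine ENNReal.Tendsto.mul_const ?_ (Or.inr hA.measure_lt_top.ne)
        have hc : Continuous fun d : ℝ => ENNReal.ofReal (Real.exp
          (-(GG (a + 2 * ε) (κ * (1 + 2 * d)) R τ))) := by
          refine ENNReal.continuous_ofReal.comp ?_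
          unfold GG
          fun_prop
        exact (hc.tendsto 0).comp hδl
      rw [mul_zero, add_zero, mul_one] at hl
      refine le_of_tendsto hl ?_
      filter_upwards [hδl.eventually (gt_mem_nhds hδ1), eventually_gt_atTop 0] with m hm hm0
      have hmpos : (0 : ℝ) < m := by exact_mod_cast hm0
      have e : (m : ℝ) * (τ / m) = τ := by field_simp
      have := hst (τ / m) (by positivity) hm.le m e.le
      rwa [e] at this
    have hl : Tendsto (fun m : ℕ => ENNReal.ofReal (Real.exp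
        (-(GG (a + 2 * (1 / ((m : ℝ) + 1))) κ R τ))) * μ A) atTop
        (𝓝 (ENNReal.ofReal (Real.exp (-(GG (a + 2 * 0) κ R τ))) * μ A)) := by
      refine ENNReal.Tendsto.mul_const ?_ (Or.inr hA.measure_lt_top.ne)
      have hc : Continuous fun d : ℝ => ENNReal.ofReal (Real.exp
        (-(GG (a + 2 * d) κ R τ))) := by
        refine ENNReal.continuous_ofReal.comp ?_
        unfold GG
        fun_prop
      exact (hc.tendsto 0).comp tendsto_one_div_add_atTop_nhds_zero_nat
    rw [mul_zero, add_zero] at hl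
    exact le_of_tendsto' hl fun m => hlim1 _ (by positivity)
  -- remove a small ball
  set c := ENNReal.ofReal (Real.exp (-(GG a κ R τ))) with hc
  show c * μ A ≤ _
  set Am : ℕ → Set M := fun m => A ∩ {y | 1 / ((m : ℝ) + 1) ≤ dist x y} with hAm
  have hmonoA : Monotone Am := by
    intro m k hmk y hy
    refine ⟨hy.1, ?_⟩
    have h1 : 1 / ((m : ℝ) + 1) ≤ dist x y := hy.2
    have : (m : ℝ) ≤ k := by exact_mod_cast hmk
    show 1 / ((k : ℝ) + 1) ≤ dist x y
    refine le_trans ?_ h1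
    gcongr
  have hU : ⋃ m, Am m = A \ {x} := by
    ext y
    simp only [mem_iUnion, Set.mem_sdiff, mem_singleton_iff]
    constructor
    · rintro ⟨m, hy, h1⟩
      refine ⟨hy, ?_⟩
      rintro rfl
      have h2 : 1 / ((m : ℝ) + 1) ≤ dist y y := h1
      rw [dist_self] at h2
      have : 0 < 1 / ((m : ℝ) + 1) := by positivity
      linarith
    · rintro ⟨hy, hyx⟩
      have hpos : 0 < dist x y := dist_pos.2 (Ne.symm hyx)
      obtain ⟨m, hm⟩ := exists_nat_one_div_lt hpos
      exact ⟨m, hy, hm.le⟩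
  have hlim : Tendsto (fun m => μ (Am m)) atTop (𝓝 (μ (A \ {x}))) := by
    rw [← hU]
    exact tendsto_measure_iUnion_atTop hmonoA
  have hdiff : μ (A \ {x}) = μ A := measure_sdiff_null hμx
  rw [hdiff] at hlim
  have hlim2 : Tendsto (fun m => c * μ (Am m)) atTop (𝓝 (c * μ A)) :=
    ENNReal.Tendsto.const_mul hlim (Or.inr ENNReal.ofReal_ne_top)
  refine le_of_tendsto' hlim2 fun m => ?_
  refine (key (1 / ((m : ℝ) + 1)) (by positivity) (Am m)
    (hA.inter_right (isClosed_le continuous_const (by fun_prop)))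
    (inter_subset_left.trans hAR) (fun y hy => hy.2)).trans ?_
  exact measure_mono (Ipt_mono inter_subset_left)

end Crest.Agent.R247.Mcs816
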