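import Crest.Agent.R247.Mcp7_688
import Crest.Agent.R247.Mcs6_816
import Crest.Agent.R247.Bgr_546

-- ▼ part R247/Mcp8_688
section

/-!
R247 (helper688), block (6e), file 8: the radial contraction structure of a complete Riemannian
manifold from the local contraction estimate of `Mcs816`.
-/

set_option autoImplicit false
set_option maxSynthPendingDepth 3
set_option linter.unusedSectionVars false

open Bundle Set Filter Topology MeasureTheory Metric
open scoped Manifold ContDiff ENNReal NNReal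
open Crest.Agent.R247.Sm879

namespace Crest.Agent.R247.Mcp688

section
variable {X : Type*} [MetricSpace X] [ProperSpace X] [MeasurableSpace X] [BorelSpace X]

/-- set form of the contraction property from the local estimates -/
theorem hset_of_loc {n : ℕ} {μ : Measure X} [IsFiniteMeasureOnCompacts μ] {x : X}
    (hx : Mcs816.NonBr x) (hμx : μ {x} = 0) {κ : ℝ} (hκ : 0 ≤ κ)
    (hloc : ∀ y, y ≠ x → ∀ ε > 0, ∃ W, IsOpen W ∧ y ∈ W ∧ ∃ τ0 > 0,
      Mcs816.LocC μ x W (n + κ * dist x y ^ 2 + ε) τ0) :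
    ∀ t ∈ Ioc (0 : ℝ) 1, ∀ R : ℝ, ∀ A : Set X, IsCompact A → A ⊆ closedBall x R →
      ENNReal.ofReal (t ^ n * Real.exp (-(κ * R ^ 2 * (1 - t ^ 2) / 2))) * μ A ≤ μ (Mid x t A) := by
  intro t ht R A hA hAR
  rcases lt_or_ge R 0 with hR | hR
  · have : A = ∅ := by
      rw [closedBall_eq_empty.2 hR] at hAR
      exact subset_empty_iff.1 hAR
    rw [this]; simp
  have ht0 := ht.1
  have hτ : 0 ≤ -Real.log t := by
    have := Real.log_nonpos ht0.le ht.2
    linarith
  have h := Mcs816.contraction hx hμx hκ hloc hR hA hAR hτ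
  have e1 : Real.exp (-(-Real.log t)) = t := by rw [neg_neg, Real.exp_log ht0]
  have e2 : Real.exp (-(2 * -Real.log t)) = t ^ 2 := by
    rw [show -(2 * -Real.log t) = ((2 : ℕ) : ℝ) * Real.log t by push_cast; ring, Real.exp_nat_mul,
      Real.exp_log ht0]
  rw [e1, e2] at h
  have e3 : Real.exp (-((n : ℝ) * -Real.log t + κ * R ^ 2 * (1 - t ^ 2) / 2)) =
      t ^ n * Real.exp (-(κ * R ^ 2 * (1 - t ^ 2) / 2)) := by
    rw [neg_add, Real.exp_add]
    congr 1
    rw [show -((n : ℝ) * -Real.log t) = (n : ℝ) * Real.log t by ring, Real.exp_nat_mul,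
      Real.exp_log ht0]
  rw [e3] at h
  exact h

end

section
variable {n : ℕ} {M : Type*} [MetricSpace M] [ChartedSpace (EuclideanSpace ℝ (Fin n)) M]
  [IsManifold (𝓡 n) ∞ M]
  [RiemannianBundle (fun p : M => TangentSpace (𝓡 n) p)]
  [IsContMDiffRiemannianBundle (𝓡 n) ∞ (EuclideanSpace ℝ (Fin n)) (fun p : M => TangentSpace (𝓡 n) p)]
  [IsRiemannianManifold (𝓡 n) M] [MeasurableSpace M] [BorelSpace M] [ProperSpace M]

local notation "𝔼" => EuclideanSpace ℝ (Fin n)

/-- the local contraction estimate (delivered by `Mcs816`) -/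
def LocAll (n : ℕ) (κ : ℝ) (M : Type*) [MetricSpace M] [MeasurableSpace M] [BorelSpace M] : Prop :=
  ∀ x y : M, y ≠ x → ∀ ε > 0, ∃ W, IsOpen W ∧ y ∈ W ∧ ∃ τ0 > 0,
    Mcs816.LocC (μHE[n] : Measure M) x W (n + κ * dist x y ^ 2 + ε) τ0

/-- **the radial contraction structure of a complete Riemannian manifold** -/
noncomputable def radM (hn : 1 ≤ n) (hm : ExM M) {κ : ℝ} (hκ : 0 ≤ κ) (hloc : LocAll n κ M) :
    Rad n κ M (μHE[n] : Measure M) :=
  haveI := isLocallyFinite_muHE n M
  Rad.ofSet (μHE[n] : Measure M) hm hκ (ae_uniq n hm)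
    fun x => hset_of_loc (nonBr n hm x) (muHE_singleton n hn x) hκ (hloc x)

end

end Crest.Agent.R247.Mcp688
end

-- ▼ part R247/Bgr2_546

/-!
# R247: `RAD n` from the local contraction estimate

`LOC n` : on every complete Riemannian `n`-manifold with `Ric ≥ -κ` the local contraction estimates
`Mcp688.LocAll n κ M` hold (leaf of 816). `rad_of_loc : (1 ≤ n → LOC n) → RAD n` (dimension `0`
included) and `bgr_of_loc`.
-/

set_option autoImplicit false
noncomputable section
open Set Filter Topology MeasureTheory Metric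
open scoped ContDiff Manifold ENNReal
open Bundle Crest.GeometryTopology.CoordMetric Crest.GeometryTopology.ChartCurvature
  Crest.GeometryTopology.PointedLimit

namespace Crest.Agent.R247.Bgr546

open Crest.Agent.R247.Mcp688

universe u

/-- The local contraction estimates on every complete manifold with `Ric ≥ -κ`. -/
def LOC (n : ℕ) : Prop := ∀ κ : ℝ, 0 ≤ κ →
  ∀ (M : Type u) [MetricSpace M] [CompleteSpace M] [ConnectedSpace M]
    [ChartedSpace (EuclideanSpace ℝ (Fin n)) M]
    [IsManifold 𝓘(ℝ, EuclideanSpace ℝ (Fin n)) ∞ M]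
    [RiemannianBundle (fun x : M => TangentSpace 𝓘(ℝ, EuclideanSpace ℝ (Fin n)) x)]
    [IsContMDiffRiemannianBundle 𝓘(ℝ, EuclideanSpace ℝ (Fin n)) ∞ (EuclideanSpace ℝ (Fin n))
      (fun x : M => TangentSpace 𝓘(ℝ, EuclideanSpace ℝ (Fin n)) x)]
    [IsRiemannianManifold 𝓘(ℝ, EuclideanSpace ℝ (Fin n)) M]
    [MeasurableSpace M] [BorelSpace M],
    HasRicciLowerBound n M (-κ) → LocAll n κ M

theorem exM_of_riemannian (n : ℕ) (M : Type*) [MetricSpace M] [CompleteSpace M]
    [ChartedSpace (EuclideanSpace ℝ (Fin n)) M]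
    [RiemannianBundle (fun x : M => TangentSpace 𝓘(ℝ, EuclideanSpace ℝ (Fin n)) x)]
    [IsRiemannianManifold 𝓘(ℝ, EuclideanSpace ℝ (Fin n)) M] : Sm879.ExM M := by
  intro a b t ht
  exact HR216.exactMid_of_riemannian n M a b t ht.1 ht.2

theorem rad_of_loc {n : ℕ} (h : 1 ≤ n → LOC.{u} n) : RAD.{u} n := by
  intro κ hκ M _ _ _ _ _ _ _ _ _ _ hric
  rcases Nat.eq_zero_or_pos n with hn | hn
  · subst hn
    have := subsingleton_of_zero M
    exact ⟨radZero κ M _⟩
  · have := HR216.properSpace_of_riemannian n M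
    exact ⟨radM hn (exM_of_riemannian n M) hκ (h hn κ hκ M hric)⟩

theorem bgr_of_loc {n : ℕ} (h : 1 ≤ n → LOC.{u} n) : Asm951.BGr.{u} n :=
  bgr_of_rad (rad_of_loc h)

theorem uniq_all {n : ℕ} : UNIQ.{u} n := by
  intro M _ _ _ _ _ _ _ _ _ _ x
  have := HR216.properSpace_of_riemannian n M
  exact ae_uniq n (exM_of_riemannian n M) x

end Crest.Agent.R247.Bgr546
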