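import Mathlib
import Crest.Agent.R247.Bo2_84

-- ▼ part R247/Lc1_582
section

set_option autoImplicit false

open Set Filter MeasureTheory
open scoped Topology

namespace Crest.Agent.R247.Lc582

/-- `s ↦ s * w s` is continuous at `0` from the right if `w` is bounded near `0`. -/
theorem tendsto_mul_zero {w : ℝ → ℝ} {δ B : ℝ} (hδ : 0 < δ) (hB : ∀ s ∈ Ioo 0 δ, |w s| ≤ B) :
    Tendsto (fun s => s * w s) (𝓝[>] (0 : ℝ)) (𝓝 0) := by
  have h1 : Tendsto (fun s : ℝ => |s| * B) (𝓝[>] (0 : ℝ)) (𝓝 0) := by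
    have h2 : Tendsto (fun s : ℝ => |s| * B) (𝓝 (0 : ℝ)) (𝓝 (|(0 : ℝ)| * B)) :=
      (continuous_abs.mul continuous_const).tendsto 0
    simp only [abs_zero, zero_mul] at h2
    exact h2.mono_left nhdsWithin_le_nhds
  refine squeeze_zero_norm' ?_ h1
  have h3 : ∀ᶠ s : ℝ in 𝓝[>] (0 : ℝ), s ∈ Ioo 0 δ := Ioo_mem_nhdsGT hδ
  filter_upwards [h3] with s hs
  rw [Real.norm_eq_abs, abs_mul]
  exact mul_le_mul_of_nonneg_left (hB s hs) (abs_nonneg _)

section
variable {w q : ℝ → ℝ} {L κ δ B : ℝ}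

theorem continuousOn_aux (hδ : 0 < δ) (hB : ∀ s ∈ Ioo 0 δ, |w s| ≤ B)
    (hc : ContinuousOn w (Ioc 0 L)) : ContinuousOn (fun s => s * w s) (Icc 0 L) := by
  intro s hs
  rcases eq_or_lt_of_le hs.1 with h0 | h0
  · subst h0
    have h1 := tendsto_mul_zero hδ hB
    have h2 : ContinuousWithinAt (fun s => s * w s) (Ioi 0) 0 := by
      rw [ContinuousWithinAt, zero_mul]; exact h1
    have h3 : ContinuousWithinAt (fun s => s * w s) (insert 0 (Ioi 0)) 0 := by
      rw [continuousWithinAt_insert_self]; exact h2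
    refine h3.mono ?_
    intro t ht
    rcases eq_or_lt_of_le ht.1 with h | h
    · exact Or.inl h.symm
    · exact Or.inr h
  · have h1 : ContinuousWithinAt w (Ioc 0 L) s := hc s ⟨h0, hs.2⟩
    have h2 : ContinuousWithinAt w (Icc 0 L) s := by
      refine h1.mono_of_mem_nhdsWithin ?_
      have : Ioi (0 : ℝ) ∩ Icc 0 L ∈ 𝓝[Icc 0 L] s :=
        inter_mem (mem_nhdsWithin_of_mem_nhds (Ioi_mem_nhds h0)) self_mem_nhdsWithin
      exact mem_of_superset this (fun t ht => ⟨ht.1, ht.2.2⟩)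
    exact continuousWithinAt_id.mul h2

/-- the comparison inequality -/
theorem ode_lower (hL : 0 < L) (hδ : 0 < δ) (hB : ∀ s ∈ Ioo 0 δ, |w s| ≤ B)
    (hc : ContinuousOn w (Ioc 0 L))
    (hd : ∀ s ∈ Ioo 0 L, HasDerivAt (fun s => s * w s) (q s) s)
    (hq : ∀ s ∈ Ioo 0 L, -κ * s ^ 2 ≤ q s) : -κ * L ^ 2 / 3 ≤ w L := by
  have hcon := continuousOn_aux (L := L) hδ hB hc
  have hG : ∀ s ∈ Ioo 0 L, HasDerivAt (fun s => s * w s + κ * s ^ 3 / 3) (q s + κ * s ^ 2) s := by
    intro s hs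
    have h1 : HasDerivAt (fun s : ℝ => κ * s ^ 3 / 3) (κ * s ^ 2) s := by
      refine (((hasDerivAt_pow 3 s).const_mul κ).div_const 3).congr_deriv ?_
      push_cast
      ring
    exact (hd s hs).add h1
  have hcG : ContinuousOn (fun s => s * w s + κ * s ^ 3 / 3) (Icc 0 L) := by
    refine hcon.add (Continuous.continuousOn ?_)
    fun_prop
  have hmono : MonotoneOn (fun s => s * w s + κ * s ^ 3 / 3) (Icc 0 L) := by
    refine monotoneOn_of_deriv_nonneg (convex_Icc 0 L) hcG ?_ ?_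
    · intro s hs
      rw [interior_Icc] at hs
      exact (hG s hs).differentiableAt.differentiableWithinAt
    · intro s hs
      rw [interior_Icc] at hs
      rw [(hG s hs).deriv]
      have := hq s hs
      linarith
  have h := hmono (left_mem_Icc.2 hL.le) (right_mem_Icc.2 hL.le) hL.le
  simp only [zero_mul, ne_eq, OfNat.ofNat_ne_zero, not_false_eq_true, zero_pow, mul_zero, zero_div,
    add_zero] at h
  have h2 : 0 ≤ L * (w L + κ * L ^ 2 / 3) := by
    have : L * (w L + κ * L ^ 2 / 3) = L * w L + κ * L ^ 3 / 3 := by ring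
    rw [this]; exact h
  have h3 : 0 ≤ w L + κ * L ^ 2 / 3 := nonneg_of_mul_nonneg_right h2 hL
  linarith

/-- the exact integrated form -/
theorem ode_integral (hL : 0 < L) (hδ : 0 < δ) (hB : ∀ s ∈ Ioo 0 δ, |w s| ≤ B)
    (hc : ContinuousOn w (Ioc 0 L))
    (hd : ∀ s ∈ Ioo 0 L, HasDerivAt (fun s => s * w s) (q s) s)
    (hq : ∀ s ∈ Ioo 0 L, -κ * s ^ 2 ≤ q s) :
    IntervalIntegrable q volume 0 L ∧ ∫ s in (0 : ℝ)..L, q s = L * w L := by
  have hcon := continuousOn_aux (L := L) hδ hB hc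
  have hcG : ContinuousOn (fun s => s * w s + κ * s ^ 3 / 3) (Icc 0 L) := by
    refine hcon.add (Continuous.continuousOn ?_)
    fun_prop
  have hG : ∀ s ∈ Ioo 0 L, HasDerivAt (fun s => s * w s + κ * s ^ 3 / 3) (q s + κ * s ^ 2) s := by
    intro s hs
    have h1 : HasDerivAt (fun s : ℝ => κ * s ^ 3 / 3) (κ * s ^ 2) s := by
      refine (((hasDerivAt_pow 3 s).const_mul κ).div_const 3).congr_deriv ?_
      push_cast
      ring
    exact (hd s hs).add h1
  have h1 : IntegrableOn (fun s => q s + κ * s ^ 2) (Ioc 0 L) :=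
    intervalIntegral.integrableOn_deriv_of_nonneg hcG hG
      (fun s hs => by have := hq s hs; linarith)
  have h2 : IntegrableOn (fun s : ℝ => κ * s ^ 2) (Ioc 0 L) := by
    have : IntervalIntegrable (fun s : ℝ => κ * s ^ 2) volume 0 L :=
      (Continuous.intervalIntegrable (by fun_prop) _ _)
    exact (intervalIntegrable_iff_integrableOn_Ioc_of_le hL.le).1 this
  have h3 : IntegrableOn q (Ioc 0 L) := by
    have := h1.sub h2
    refine this.congr_fun (fun s _ => ?_) measurableSet_Ioc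
    simp
  have h4 : IntervalIntegrable q volume 0 L :=
    (intervalIntegrable_iff_integrableOn_Ioc_of_le hL.le).2 h3
  refine ⟨h4, ?_⟩
  have h5 := intervalIntegral.integral_eq_sub_of_hasDerivAt_of_le hL.le hcon hd h4
  rw [h5]; simp

end

end Crest.Agent.R247.Lc582
end

-- ▼ part R247/Lc2_582

/-!
Row 247, leaf (c-prime), file 2 (helper582): the coordinate form of the Laplacian comparison.

For `f` smooth near `x` with `|∇f|² = 2 f` near `x` and `w = n - Δf`:
`⟨∇f, ∇w⟩ = - w + |Hess f - g|² + Ric(∇f, ∇f)`;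
along a curve `c` with `c' = s⁻¹ ∇f` this is
`d/ds (s w(c s)) = |Hess f - g|² + Ric(∇f, ∇f)`.
-/

set_option autoImplicit false

open scoped ContDiff Topology
open Filter Set
open Crest.GeometryTopology.CoordMetric Crest.GeometryTopology.ChartCurvature
open Crest.Agent.R202.Tens
open Crest.Agent.R247.Bo84

noncomputable section

namespace Crest.Agent.R247.Lc582

variable {n : ℕ}

local notation "𝔼" => EuclideanSpace ℝ (Fin n)

/-- `|Hess f - g|²`. -/
def hessDev (g : MetricField n) (f : EuclideanSpace ℝ (Fin n) → ℝ)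
    (x : EuclideanSpace ℝ (Fin n)) : ℝ :=
  hessSq g f x - 2 * laplaceBeltrami g f x + n

/-- `Ric(∇f, ∇f)`. -/
def ricQ (g : MetricField n) (f : EuclideanSpace ℝ (Fin n) → ℝ)
    (x : EuclideanSpace ℝ (Fin n)) : ℝ :=
  ∑ i, ∑ j, ricci g x i j * grad g f x i * grad g f x j

/-- `n - Δ f`. -/
def defect (g : MetricField n) (f : EuclideanSpace ℝ (Fin n) → ℝ)
    (x : EuclideanSpace ℝ (Fin n)) : ℝ :=
  n - laplaceBeltrami g f x

variable {g : MetricField n} {U : Set (EuclideanSpace ℝ (Fin n))} {x : EuclideanSpace ℝ (Fin n)}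

/-- `hessDev` in a frame. -/
theorem hessDev_frame (hg : IsRiemannianOn g U) (hx : x ∈ U) {f : 𝔼 → ℝ}
    (hf : ContDiffAt ℝ 2 f x) {ξ : Fin n → 𝔼} (h : IsFrame (g x) ξ) :
    hessDev g f x = ∑ a, ∑ b, (hess g f x (ξ a) (ξ b) - if a = b then 1 else 0) ^ 2 := by
  have e1 : ∀ a b : Fin n, (hess g f x (ξ a) (ξ b) - if a = b then (1:ℝ) else 0) ^ 2 =
      hess g f x (ξ a) (ξ b) ^ 2 + if a = b then (1 - 2 * hess g f x (ξ a) (ξ b)) else 0 := by
    intro a b
    split_ifs <;> ring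
  simp only [e1, Finset.sum_add_distrib, Finset.sum_ite_eq, Finset.mem_univ, if_true,
    Finset.sum_sub_distrib, ← Finset.mul_sum]
  rw [hessDev, hessSq_frame hg hx hf h, lap_frame hg hx hf h]
  simp
  ring

theorem hessDev_nonneg (hg : IsRiemannianOn g U) (hx : x ∈ U) {f : 𝔼 → ℝ}
    (hf : ContDiffAt ℝ 2 f x) : 0 ≤ hessDev g f x := by
  obtain ⟨ξ, hξ⟩ := exists_frame hg hx
  rw [hessDev_frame hg hx hf hξ]
  positivity

theorem ricQ_eq_quad (f : 𝔼 → ℝ) {K : ℝ}
    (hK : ∀ v : 𝔼, K * quadForm g x v ≤ ∑ i, ∑ j, ricci g x i j * v i * v j) :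
    K * quadForm g x (grad g f x) ≤ ricQ g f x := hK _

theorem ricQ_lower (hg : IsRiemannianOn g U) (hx : x ∈ U) (f : 𝔼 → ℝ) {K : ℝ}
    (hK : ∀ v : 𝔼, K * quadForm g x v ≤ ∑ i, ∑ j, ricci g x i j * v i * v j) :
    K * gam g f f x ≤ ricQ g f x := by
  rw [gam_eq_bil hg hx f f, ← quadForm_eq]
  exact hK _

/-! ### linearity and locality of the Laplacian -/

theorem pderiv_congr {u v : 𝔼 → ℝ} (h : u =ᶠ[𝓝 x] v) (i : Fin n) : pderiv i u x = pderiv i v x := by
  unfold pderiv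
  rw [h.fderiv_eq]

theorem lap_congr {u v : 𝔼 → ℝ} (h : u =ᶠ[𝓝 x] v) :
    laplaceBeltrami g u x = laplaceBeltrami g v x := by
  unfold laplaceBeltrami
  congr 1
  refine Finset.sum_congr rfl fun i _ => pderiv_congr ?_ i
  filter_upwards [h.eventuallyEq_nhds] with y hy
  congr 1
  refine Finset.sum_congr rfl fun j _ => ?_
  rw [pderiv_congr hy]

theorem pderiv_const_mul (c : ℝ) (u : 𝔼 → ℝ) (i : Fin n) :
    pderiv i (fun y => c * u y) x = c * pderiv i u x := by
  unfold pderiv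
  have h1 : (fun y => c * u y) = c • u := rfl
  rw [h1, fderiv_const_smul_field]
  simp

theorem lap_const_mul (c : ℝ) (u : 𝔼 → ℝ) :
    laplaceBeltrami g (fun y => c * u y) x = c * laplaceBeltrami g u x := by
  unfold laplaceBeltrami
  have h1 : ∀ i, (fun y => Real.sqrt (g y).det * ∑ j, inverseField g y i j *
      pderiv j (fun y => c * u y) y) = fun y => c * (Real.sqrt (g y).det *
        ∑ j, inverseField g y i j * pderiv j u y) := by
    intro i
    funext y
    rw [mul_left_comm c, Finset.mul_sum (a := c)]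
    congr 1
    refine Finset.sum_congr rfl fun j _ => ?_
    rw [pderiv_const_mul]
    ring
  have h2 : ∑ i, pderiv i (fun y => Real.sqrt (g y).det * ∑ j, inverseField g y i j *
      pderiv j (fun y => c * u y) y) x = c * ∑ i, pderiv i (fun y => Real.sqrt (g y).det *
        ∑ j, inverseField g y i j * pderiv j u y) x := by
    rw [Finset.mul_sum]
    refine Finset.sum_congr rfl fun i _ => ?_
    rw [h1 i, pderiv_const_mul]
  rw [h2]
  ring

/-! ### smoothness of the Laplacian -/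

theorem contDiffAt_lap (hg : IsRiemannianOn g U) (hx : x ∈ U) {f : 𝔼 → ℝ}
    (hf : ContDiffAt ℝ ∞ f x) : ContDiffAt ℝ ∞ (laplaceBeltrami g f) x := by
  have hd : (g x).det ≠ 0 := (det_pos hg hx).ne'
  have h0 : ContDiffAt ℝ ∞ (fun y => Real.sqrt (g y).det) x := contDiffAt_sqrt_det hg hx
  have h0' : Real.sqrt (g x).det ≠ 0 := (Real.sqrt_pos.2 (det_pos hg hx)).ne'
  unfold laplaceBeltrami
  refine (contDiffAt_const.div h0 h0').mul (ContDiffAt.sum fun i _ => ?_)
  refine contDiffAt_pderiv (k := ∞) ?_ (by simp) i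
  refine h0.mul (ContDiffAt.sum fun j _ => ?_)
  exact (contDiffAt_inv hg hx i j).mul (contDiffAt_pderiv hf (by simp) j)

/-! ### the identity -/

theorem gam_defect (hg : IsRiemannianOn g U) (hx : x ∈ U) {f : 𝔼 → ℝ}
    (hf : ContDiffAt ℝ ∞ f x) (he : ∀ᶠ y in 𝓝 x, gam g f f y = 2 * f y) :
    gam g f (defect g f) x = - defect g f x + (hessDev g f x + ricQ g f x) := by
  have hf3 : ContDiffAt ℝ 3 f x := hf.of_le (by norm_cast)
  have h1 := bochner' hg hx hf3
  have h2 : laplaceBeltrami g (gam g f f) x = 2 * laplaceBeltrami g f x := by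
    rw [lap_congr (v := fun y => 2 * f y) he, lap_const_mul]
  have h3 : gam g f (defect g f) x = - gam g f (laplaceBeltrami g f) x := by
    rw [gam_eq_fderiv_grad' hg hx, gam_eq_fderiv_grad' hg hx]
    have e1 : (defect g f) = fun y => (n:ℝ) - laplaceBeltrami g f y := rfl
    rw [e1, fderiv_const_sub]
    simp
  rw [h2] at h1
  rw [h3, defect, hessDev, ricQ]
  linarith

/-- the derivative along `c' = s⁻¹ ∇f`. -/
theorem hasDerivAt_along (hg : IsRiemannianOn g U) {f : 𝔼 → ℝ} {c : ℝ → 𝔼} {s : ℝ} (hs : s ≠ 0)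
    (hx : c s ∈ U) (hf : ContDiffAt ℝ ∞ f (c s))
    (he : ∀ᶠ y in 𝓝 (c s), gam g f f y = 2 * f y)
    (hc : HasDerivAt c (s⁻¹ • grad g f (c s)) s) :
    HasDerivAt (fun t => t * defect g f (c t)) (hessDev g f (c s) + ricQ g f (c s)) s := by
  have h1 : DifferentiableAt ℝ (defect g f) (c s) :=
    (contDiffAt_const.sub (contDiffAt_lap hg hx hf)).differentiableAt (by simp)
  have h2 := h1.hasFDerivAt.comp_hasDerivAt s hc
  have h3 := (hasDerivAt_id s).mul h2
  refine h3.congr_deriv ?_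
  rw [map_smul, ← gam_eq_fderiv_grad' hg hx, gam_defect hg hx hf he]
  simp only [id, smul_eq_mul, Function.comp]
  field_simp
  ring

end Crest.Agent.R247.Lc582
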