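import Crest.Agent.R247.Sm5_879
import Crest.Agent.R247.Bo7_84
import Crest.Agent.R247.Lc2_582

-- ▼ part R247/Lc3_582
section

/-!
Row 247, leaf (c-prime), file 3 (helper582): velocity of a minimiser in a chart.

If `dist z (γ t) = t` and `dist (γ t) (γ s) ≤ |t - s|` for `t` near `s > 0` and `d²/2` is smooth at
`(z, γ s)`, then in the chart at any `x₀` the curve has derivative `s⁻¹ ∇f` at `s`
(`f = d(z, ·)²/2`).
-/

set_option autoImplicit false
set_option maxSynthPendingDepth 3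
set_option linter.unusedSectionVars false

open Bundle Set Filter Topology
open scoped Manifold ContDiff NNReal
open Crest.GeometryTopology.CoordMetric Crest.GeometryTopology.ChartCurvature
  Crest.GeometryTopology.PointedLimit
open Crest.GeometryTopology.MTW
open Crest.Agent.R226.ChartMet842
open Crest.Agent.R226.CutSmooth77 (SC)
open Crest.Agent.R202.Tens Crest.Agent.R247.Bo84
open Crest.Agent.R247.Sm879 (ExM fz exists_grad_chart gam_fz contDiffAt_fz sc_of_btw)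

noncomputable section

namespace Crest.Agent.R247.Lc582

variable {n : ℕ} {M : Type*} [MetricSpace M] [ChartedSpace (EuclideanSpace ℝ (Fin n)) M]
  [IsManifold (𝓡 n) ∞ M]
  [RiemannianBundle (fun p : M => TangentSpace (𝓡 n) p)]
  [IsContMDiffRiemannianBundle (𝓡 n) ∞ (EuclideanSpace ℝ (Fin n)) (fun p : M => TangentSpace (𝓡 n) p)]
  [IsRiemannianManifold (𝓡 n) M]

local notation "𝔼" => EuclideanSpace ℝ (Fin n)

/-- the gradient in the chart represents the differential with respect to `gm`. -/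
theorem gm_grad (x₀ : M) {a : 𝔼} (ha : a ∈ (chartAt 𝔼 x₀).target) (F : 𝔼 → ℝ) (ξ : 𝔼) :
    gm x₀ a (grad (chartMetric n M x₀) F a) ξ = fderiv ℝ F a ξ := by
  rw [← Sm879.bil_chartMetric, bil_grad (isRiemannianOn_chartMetric x₀) ha]

set_option maxHeartbeats 1000000 in
/-- **velocity of a minimiser in a chart**. -/
theorem velocity (hm : ExM M) {z x₀ : M} {γ : ℝ → M} {s : ℝ} (hs : 0 < s)
    (hsrc : γ s ∈ (chartAt 𝔼 x₀).source) (hsc : SC n z (γ s))
    (hd : ∀ᶠ t in 𝓝 s, dist z (γ t) = t) (hl : ∀ᶠ t in 𝓝 s, dist (γ t) (γ s) ≤ |t - s|) :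
    HasDerivAt (fun t => chartAt 𝔼 x₀ (γ t))
      (s⁻¹ • grad (chartMetric n M x₀) (fz z x₀) (chartAt 𝔼 x₀ (γ s))) s := by
  set φ := chartAt 𝔼 x₀ with hφ
  set a := φ (γ s) with ha_def
  have ha : a ∈ φ.target := φ.map_source hsrc
  have hsa : φ.symm a = γ s := φ.left_inv hsrc
  set F := fz (n := n) z x₀ with hF
  set w := grad (chartMetric n M x₀) F a with hw
  have hsc' : SC n z (φ.symm a) := by rw [hsa]; exact hsc
  have hFd : DifferentiableAt ℝ F a := (contDiffAt_fz ha hsc').differentiableAt (by simp)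
  have hds : dist z (γ s) = s := hd.self_of_nhds
  -- norm of the gradient
  have hww : gm x₀ a w w = s ^ 2 := by
    have h1 := gam_fz hm ha hsc'
    rw [gam_eq_bil (isRiemannianOn_chartMetric x₀) ha, Sm879.bil_chartMetric] at h1
    rw [← hF, ← hw] at h1
    rw [h1, hF, fz, hsa, halfDistSq, hds]
    ring
  obtain ⟨A, hA, -⟩ := Ms322.exists_isometry x₀ ha
  -- continuity
  have hcγ : Tendsto γ (𝓝 s) (𝓝 (γ s)) := by
    rw [tendsto_iff_dist_tendsto_zero]
    have h1 : Tendsto (fun t : ℝ => |t - s|) (𝓝 s) (𝓝 0) := by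
      have : Tendsto (fun t : ℝ => |t - s|) (𝓝 s) (𝓝 |s - s|) :=
        ((continuous_id.sub continuous_const).abs).tendsto s
      simpa using this
    exact squeeze_zero' (Eventually.of_forall fun t => dist_nonneg) hl h1
  have hcφ : Tendsto (fun t => φ (γ t)) (𝓝 s) (𝓝 a) :=
    (φ.continuousAt hsrc).tendsto.comp hcγ
  have hsrcev : ∀ᶠ t in 𝓝 s, γ t ∈ φ.source := hcγ (φ.open_source.mem_nhds hsrc)
  -- value of `F` along the curve
  have hFv : ∀ᶠ t in 𝓝 s, F (φ (γ t)) = t ^ 2 / 2 := by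
    filter_upwards [hsrcev, hd] with t ht1 ht2
    rw [hF, fz, ← hφ, φ.left_inv ht1, halfDistSq, ht2]
  have hFs : F a = s ^ 2 / 2 := hFv.self_of_nhds
  set K : ℝ := ‖(A.symm : 𝔼 →L[ℝ] 𝔼)‖ + 1 with hK
  have hK0 : 0 < K := by positivity
  have hAv : ∀ v : 𝔼, ‖v‖ ≤ K * ‖A v‖ := by
    intro v
    have h1 := (A.symm : 𝔼 →L[ℝ] 𝔼).le_opNorm (A v)
    have h2 : (A.symm : 𝔼 →L[ℝ] 𝔼) (A v) = v := A.symm_apply_apply v
    rw [h2] at h1
    refine h1.trans ?_
    have := norm_nonneg (A v)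
    nlinarith
  rw [hasDerivAt_iff_isLittleO, Asymptotics.isLittleO_iff]
  have hFw : ∀ ξ, inner ℝ (A w) (A ξ) = fderiv ℝ F a ξ := by
    intro ξ
    rw [hA, hw, gm_grad x₀ ha]
  clear_value w F
  intro c hc
  -- choose ε with K ε ≤ c
  set ε : ℝ := c / K with hε
  have hε0 : 0 < ε := by positivity
  -- η with (1+η)² - 1 ≤ ε²/2
  obtain ⟨η, hη0, hη⟩ : ∃ η : ℝ≥0, 0 < η ∧ (1 + (η : ℝ)) ^ 2 - 1 ≤ ε ^ 2 / 2 ∧ (η : ℝ) ≤ 1 := by
    have h3 : 0 < min 1 (ε ^ 2 / 6) := by positivity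
    refine ⟨Real.toNNReal (min 1 (ε ^ 2 / 6)), Real.toNNReal_pos.2 h3, ?_, ?_⟩
    · rw [Real.coe_toNNReal _ h3.le]
      have h1 := min_le_left 1 (ε ^ 2 / 6)
      have h2 := min_le_right 1 (ε ^ 2 / 6)
      nlinarith
    · rw [Real.coe_toNNReal _ h3.le]
      exact min_le_left _ _
  obtain ⟨r, hr0, hrt, -, hrL⟩ := Ms322.exists_bilip x₀ ha hA hη0
  -- derivative of F
  have hFo := hFd.hasFDerivAt.isLittleO
  rw [Asymptotics.isLittleO_iff] at hFo
  set δ : ℝ := s * ε ^ 2 / (16 * K) with hδ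
  have hδ0 : 0 < δ := by positivity
  have hF1 := hcφ (hFo hδ0)
  have hball : ∀ᶠ t in 𝓝 s, φ (γ t) ∈ Metric.ball a r := hcφ (Metric.ball_mem_nhds a hr0)
  have hsmall : ∀ᶠ t in 𝓝 s, |t - s| ≤ s * ε ^ 2 / 4 := by
    have : Metric.closedBall s (s * ε ^ 2 / 4) ∈ 𝓝 s :=
      Metric.closedBall_mem_nhds s (by positivity)
    filter_upwards [this] with t ht
    rwa [Metric.mem_closedBall, Real.dist_eq] at ht
  filter_upwards [hF1, hball, hFv, hsrcev, hl, hsmall] with t ht1 ht2 ht3 ht4 ht5 ht6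
  set Δ := φ (γ t) - a with hΔ
  set h := t - s with hh
  -- ‖A Δ‖ ≤ (1+η)|h|
  have hL1 : ‖A Δ‖ ≤ (1 + η) * |h| := by
    have h1 : γ t ∈ φ.symm '' Metric.ball a r := ⟨φ (γ t), ht2, φ.left_inv ht4⟩
    have h2 : γ s ∈ φ.symm '' Metric.ball a r := ⟨a, Metric.mem_ball_self hr0, hsa⟩
    have h3 := hrL.dist_le_mul _ h1 _ h2
    rw [← hφ, dist_eq_norm, ← map_sub, ← ha_def] at h3
    refine h3.trans ?_
    push_cast
    have : (0:ℝ) ≤ 1 + η := by positivity
    gcongr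
  have hL2 : ‖A Δ‖ ≤ 2 * |h| := by
    refine hL1.trans ?_
    have := abs_nonneg h
    nlinarith [hη.2]
  have hΔn : ‖Δ‖ ≤ 2 * K * |h| := by
    have := hAv Δ
    nlinarith
  -- F' Δ = s h + small
  have hF2 : |fderiv ℝ F a Δ - s * h| ≤ δ * (2 * K * |h|) + h ^ 2 / 2 := by
    have ht1 : ‖F (φ (γ t)) - F a - fderiv ℝ F a (φ (γ t) - a)‖ ≤ δ * ‖φ (γ t) - a‖ := ht1
    rw [Real.norm_eq_abs, ht3, hFs, ← hΔ] at ht1
    have h1 : t ^ 2 / 2 - s ^ 2 / 2 = s * h + h ^ 2 / 2 := by rw [hh]; ring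
    rw [h1] at ht1
    have h2 : δ * ‖Δ‖ ≤ δ * (2 * K * |h|) := by gcongr
    have h3 := ht1.trans h2
    have h4 := sq_nonneg h
    rw [abs_le] at h3 ⊢
    obtain ⟨h3a, h3b⟩ := h3
    constructor
    · linarith
    · linarith
  have hinner : inner ℝ (A w) (A Δ) = fderiv ℝ F a Δ := hFw Δ
  have hAw : ‖A w‖ ^ 2 = s ^ 2 := by
    rw [← real_inner_self_eq_norm_sq, hA, hww]
  -- the main estimate
  have hmain : ‖A (Δ - h • (s⁻¹ • w))‖ ^ 2 ≤ ε ^ 2 * h ^ 2 := by
    have e1 : ‖A (Δ - h • (s⁻¹ • w))‖ ^ 2 = ‖A Δ‖ ^ 2 - 2 * (h / s) * fderiv ℝ F a Δ + h ^ 2 := by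
      rw [map_sub, map_smul, map_smul, norm_sub_sq_real, real_inner_smul_right,
        real_inner_smul_right, real_inner_comm, hinner, norm_smul, norm_smul, mul_pow, mul_pow,
        hAw, Real.norm_eq_abs, Real.norm_eq_abs, sq_abs, sq_abs]
      field_simp
    rw [e1]
    have h4 : ‖A Δ‖ ^ 2 ≤ (1 + η) ^ 2 * h ^ 2 := by
      have := pow_le_pow_left₀ (norm_nonneg _) hL1 2
      rw [mul_pow, sq_abs] at this
      exact this
    have h5 : |(h / s) * (fderiv ℝ F a Δ - s * h)| ≤ ε ^ 2 / 4 * h ^ 2 := by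
      rw [abs_mul, abs_div, abs_of_pos hs]
      have h6 : |h| / s * |fderiv ℝ F a Δ - s * h| ≤ |h| / s * (δ * (2 * K * |h|) + h ^ 2 / 2) := by
        gcongr
      refine h6.trans ?_
      have e2 : |h| / s * (δ * (2 * K * |h|) + h ^ 2 / 2) =
          ε ^ 2 / 8 * |h| ^ 2 + |h| * |h| ^ 2 / (2 * s) := by
        rw [hδ, sq_abs]
        field_simp
        ring_nf
        rw [sq_abs]
        ring
      rw [e2]
      have h7 : |h| * |h| ^ 2 / (2 * s) ≤ ε ^ 2 / 8 * |h| ^ 2 := by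
        rw [div_le_iff₀ (by positivity)]
        have h8 : |h| * |h| ^ 2 ≤ (s * ε ^ 2 / 4) * |h| ^ 2 := by gcongr
        linarith
      rw [sq_abs] at h7 ⊢
      linarith
    have h9 := (abs_le.1 h5).1
    have e3 : 2 * (h / s) * fderiv ℝ F a Δ = 2 * ((h / s) * (fderiv ℝ F a Δ - s * h)) + 2 * h ^ 2 := by
      field_simp
      ring
    rw [e3]
    have h10 : (1 + (η : ℝ)) ^ 2 * h ^ 2 ≤ (1 + ε ^ 2 / 2) * h ^ 2 := by
      have := hη.1
      gcongr
      linarith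
    linarith
  have hfin : ‖A (Δ - h • (s⁻¹ • w))‖ ≤ ε * |h| := by
    rw [← sq_abs h, ← mul_pow] at hmain
    exact le_of_sq_le_sq hmain (by positivity)
  calc ‖φ (γ t) - φ (γ s) - (t - s) • s⁻¹ • w‖ = ‖Δ - h • (s⁻¹ • w)‖ := rfl
    _ ≤ K * ‖A (Δ - h • (s⁻¹ • w))‖ := hAv _
    _ ≤ K * (ε * |h|) := by gcongr
    _ = c * ‖t - s‖ := by rw [hε, Real.norm_eq_abs, ← hh]; field_simp

end Crest.Agent.R247.Lc582
end
end

-- ▼ part R247/Lc4_582

/-!
Row 247, leaf (c-prime), file 4 (helper582): pointwise Laplacian comparison on the manifold and the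
exact integral formula along minimisers.
-/

set_option autoImplicit false
set_option maxSynthPendingDepth 3
set_option linter.unusedSectionVars false

open Bundle Set Filter Topology MeasureTheory
open scoped Manifold ContDiff NNReal
open Crest.GeometryTopology.CoordMetric Crest.GeometryTopology.ChartCurvature
  Crest.GeometryTopology.PointedLimit
open Crest.GeometryTopology.MTW
open Crest.Agent.R226.CutSmooth77 (SC)
open Crest.Agent.R202.Tens Crest.Agent.R247.Bo84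
open Crest.Agent.R247.Sm879 (ExM fz exists_grad_chart gam_fz contDiffAt_fz sc_of_btw
  nonempty_localNear LN_sc Om isOpen_Om)

noncomputable section

namespace Crest.Agent.R247.Lc582

variable {n : ℕ} {M : Type*} [MetricSpace M] [ChartedSpace (EuclideanSpace ℝ (Fin n)) M]
  [IsManifold (𝓡 n) ∞ M]
  [RiemannianBundle (fun p : M => TangentSpace (𝓡 n) p)]
  [IsContMDiffRiemannianBundle (𝓡 n) ∞ (EuclideanSpace ℝ (Fin n)) (fun p : M => TangentSpace (𝓡 n) p)]
  [IsRiemannianManifold (𝓡 n) M]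

local notation "𝔼" => EuclideanSpace ℝ (Fin n)

theorem contMDiffAt_cost {z y : M} (h : SC n z y) :
    ContMDiffAt (𝓡 n) 𝓘(ℝ) ∞ (halfDistSq z) y := by
  have h1 : ContMDiffAt (𝓡 n) ((𝓡 n).prod (𝓡 n)) ∞ (fun q : M => (z, q)) y :=
    contMDiffAt_const.prodMk contMDiffAt_id
  exact ContMDiffAt.comp y (g := fun q : M × M => halfDistSq q.1 q.2) h h1

/-- `|Hess f - g|² + Ric(∇f, ∇f)` on the manifold. -/
def mDev (n : ℕ) {M : Type*} [TopologicalSpace M] [ChartedSpace (EuclideanSpace ℝ (Fin n)) M]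
    [IsManifold (𝓡 n) ∞ M]
    [RiemannianBundle (fun p : M => TangentSpace (𝓡 n) p)]
    [IsContMDiffRiemannianBundle (𝓡 n) ∞ (EuclideanSpace ℝ (Fin n)) (fun p : M => TangentSpace (𝓡 n) p)]
    (f : M → ℝ) (p : M) : ℝ :=
  (mHessSq n f p - 2 * mLap n f p + n) + mRic n p (mgrad n f p) (mgrad n f p)

theorem mDev_eq (f : M → ℝ) (p : M) : mDev n f p =
    hessDev (chartMetric n M p) (inCh n p f) (chartCentre n M p) +
      ricQ (chartMetric n M p) (inCh n p f) (chartCentre n M p) := by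
  unfold mDev hessDev ricQ mRic
  rw [dCh_mgrad]
  rfl

/-- `|Hess f - g|² ≥ 0` and `Ric ≥ K`. -/
theorem mDev_ge {K : ℝ} (hK : HasRicciLowerBound n M K) {f : M → ℝ} {p : M}
    (hf : ContMDiffAt (𝓡 n) 𝓘(ℝ) ∞ f p) : K * mGam n f f p ≤ mDev n f p := by
  rw [mDev_eq]
  have hg := isRiemannianOn_chartMetric (n := n) p
  have hc : chartCentre n M p ∈ (chartAt 𝔼 p).target := mem_chart_target 𝔼 p
  have hf2 : ContDiffAt ℝ 2 (inCh n p f) (chartCentre n M p) :=
    contDiffAt_centre (by norm_cast) (hf.of_le (by norm_cast))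
  have h1 := hessDev_nonneg hg hc hf2
  have h2 := ricQ_lower hg hc (inCh n p f) (K := K) (hK p)
  have h3 : mGam n f f p = gam (chartMetric n M p) (inCh n p f) (inCh n p f) (chartCentre n M p) :=
    rfl
  rw [h3]
  linarith

theorem inCh_eq_fz (z x₀ : M) : inCh n x₀ (halfDistSq z) = fz z x₀ := rfl

section curve

variable {z : M} {γ : ℝ → M} {D : ℝ}

/-- the eikonal equation near an interior point. -/
theorem eikonal_near [ProperSpace M] (hm : ExM M) {q x₀ : M}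
    (hq : q ∈ (chartAt 𝔼 x₀).source) (h : (z, q) ∈ Om M) :
    ∀ᶠ b in 𝓝 (chartAt 𝔼 x₀ q), gam (chartMetric n M x₀) (fz z x₀) (fz z x₀) b = 2 * fz z x₀ b := by
  set φ := chartAt 𝔼 x₀ with hφ
  have ht : φ q ∈ φ.target := φ.map_source hq
  have h1 : Tendsto (fun b => (z, φ.symm b)) (𝓝 (φ q)) (𝓝 (z, φ.symm (φ q))) :=
    (continuousAt_const.prodMk (φ.continuousAt_symm ht))
  have h2 : Om M ∈ 𝓝 (z, φ.symm (φ q)) := by
    rw [φ.left_inv hq]; exact (isOpen_Om n hm).mem_nhds h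
  filter_upwards [h1 h2, φ.open_target.mem_nhds ht] with b hb1 hb2
  obtain ⟨y', hy1, hy2⟩ := hb1
  exact gam_fz hm hb2 (sc_of_btw hm hy2 hy1)

/-- derivative of `s (n - Δf)` along a minimiser. -/
theorem hasDerivAt_defect [ProperSpace M] (hm : ExM M)
    (hγ : ∀ s ∈ Icc 0 D, ∀ t ∈ Icc 0 D, dist (γ s) (γ t) = |s - t|) (h0 : γ 0 = z)
    {s : ℝ} (hs : s ∈ Ioo 0 D) :
    HasDerivAt (fun t => t * (n - mLap n (halfDistSq z) (γ t))) (mDev n (halfDistSq z) (γ s)) s := by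
  have hD : (0:ℝ) ≤ D := (hs.1.trans hs.2).le
  have hDm : D ∈ Icc 0 D := ⟨hD, le_rfl⟩
  have h0m : (0:ℝ) ∈ Icc 0 D := ⟨le_rfl, hD⟩
  have hdz : ∀ t ∈ Icc 0 D, dist z (γ t) = t := by
    intro t ht
    rw [← h0, hγ 0 h0m t ht, zero_sub, abs_neg, abs_of_nonneg ht.1]
  have hmem : ∀ t ∈ Ioo 0 D, (z, γ t) ∈ Om M := by
    intro t ht
    have ht' : t ∈ Icc 0 D := ⟨ht.1.le, ht.2.le⟩
    have e1 : dist (γ t) (γ D) = D - t := by
      rw [hγ t ht' D hDm, abs_sub_comm, abs_of_nonneg (by linarith [ht.2])]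
    refine ⟨γ D, ?_, ?_⟩
    · intro h
      have h' : γ t = γ D := h
      rw [h', dist_self] at e1
      linarith [ht.2]
    · change dist z (γ t) + dist (γ t) (γ D) = dist z (γ D)
      rw [e1, hdz t ht', hdz D hDm]; ring
  have hsc : ∀ t ∈ Ioo 0 D, SC n z (γ t) := by
    intro t ht
    obtain ⟨y', hy1, hy2⟩ := hmem t ht
    exact sc_of_btw hm hy2 hy1
  have hIoo : ∀ᶠ t in 𝓝 s, t ∈ Ioo 0 D := Ioo_mem_nhds hs.1 hs.2
  set x₀ := γ s with hx₀
  have hsrc : γ s ∈ (chartAt 𝔼 x₀).source := mem_chart_source 𝔼 _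
  have hvel := velocity (n := n) (x₀ := x₀) hm hs.1 hsrc (hsc s hs)
    (by filter_upwards [hIoo] with t ht using hdz t ⟨ht.1.le, ht.2.le⟩)
    (by
      filter_upwards [hIoo] with t ht
      exact (hγ t ⟨ht.1.le, ht.2.le⟩ s ⟨hs.1.le, hs.2.le⟩).le)
  have ha : chartAt 𝔼 x₀ (γ s) ∈ (chartAt 𝔼 x₀).target := (chartAt 𝔼 x₀).map_source hsrc
  have hsa : (chartAt 𝔼 x₀).symm (chartAt 𝔼 x₀ (γ s)) = γ s := (chartAt 𝔼 x₀).left_inv hsrc
  have h1 := hasDerivAt_along (isRiemannianOn_chartMetric (n := n) x₀) (f := fz z x₀)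
    (c := fun t => chartAt 𝔼 x₀ (γ t)) hs.1.ne' ha
    (contDiffAt_fz ha (by rw [hsa]; exact hsc s hs))
    (eikonal_near hm hsrc (hmem s hs)) hvel
  rw [mDev_eq]
  refine h1.congr_of_eventuallyEq ?_
  have hcγ : Tendsto γ (𝓝 s) (𝓝 (γ s)) := by
    rw [tendsto_iff_dist_tendsto_zero]
    have h1 : Tendsto (fun t : ℝ => |t - s|) (𝓝 s) (𝓝 0) := by
      have : Tendsto (fun t : ℝ => |t - s|) (𝓝 s) (𝓝 |s - s|) :=
        ((continuous_id.sub continuous_const).abs).tendsto s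
      simpa using this
    refine squeeze_zero' (Eventually.of_forall fun t => dist_nonneg) ?_ h1
    filter_upwards [hIoo] with t ht
    exact (hγ t ⟨ht.1.le, ht.2.le⟩ s ⟨hs.1.le, hs.2.le⟩).le
  filter_upwards [hIoo, hcγ ((chartAt 𝔼 x₀).open_source.mem_nhds hsrc)] with t ht1 ht2
  have h3 : ContMDiffAt (𝓡 n) 𝓘(ℝ) 2 (halfDistSq z) (γ t) :=
    (contMDiffAt_cost (hsc t ht1)).of_le (by norm_cast)
  rw [mLap_chart' ht2 h3]
  rfl

theorem continuousAt_mLap {y : M} (h : SC n z y) :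
    ContinuousAt (mLap n (halfDistSq z)) y :=
  (contMDiffAt_mLap (m := 0) (contMDiffAt_cost h) (by norm_cast) le_rfl).continuousAt

variable [ProperSpace M]

theorem aux_all (hm : ExM M) {κ : ℝ} (hK : HasRicciLowerBound n M (-κ))
    (hD : 0 < D) (hγ : ∀ s ∈ Icc 0 D, ∀ t ∈ Icc 0 D, dist (γ s) (γ t) = |s - t|) (h0 : γ 0 = z)
    (hend : SC n z (γ D)) :
    ∃ δ B : ℝ, 0 < δ ∧ (∀ s ∈ Ioo 0 δ, |(n:ℝ) - mLap n (halfDistSq z) (γ s)| ≤ B) ∧
    ContinuousOn (fun s => (n:ℝ) - mLap n (halfDistSq z) (γ s)) (Ioc 0 D) ∧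
    (∀ s ∈ Ioo 0 D, HasDerivAt (fun t => t * (n - mLap n (halfDistSq z) (γ t)))
      (mDev n (halfDistSq z) (γ s)) s) ∧
    (∀ s ∈ Ioo 0 D, -κ * s ^ 2 ≤ mDev n (halfDistSq z) (γ s)) := by
  have hDm : D ∈ Icc 0 D := ⟨hD.le, le_rfl⟩
  have h0m : (0:ℝ) ∈ Icc 0 D := ⟨le_rfl, hD.le⟩
  have hdz : ∀ t ∈ Icc 0 D, dist z (γ t) = t := by
    intro t ht
    rw [← h0, hγ 0 h0m t ht, zero_sub, abs_neg, abs_of_nonneg ht.1]
  have hsc : ∀ t ∈ Icc 0 D, SC n z (γ t) := by
    intro t ht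
    rcases eq_or_lt_of_le ht.2 with h | h
    · rw [h]; exact hend
    · have e1 : dist (γ t) (γ D) = D - t := by
        rw [hγ t ht D hDm, abs_sub_comm, abs_of_nonneg (by linarith)]
      refine sc_of_btw (y' := γ D) hm ?_ ?_
      · rw [e1, hdz t ht, hdz D hDm]; ring
      · intro h'
        rw [h', dist_self] at e1
        linarith
  have hγc : ContinuousOn γ (Icc 0 D) := by
    have : LipschitzOnWith 1 γ (Icc 0 D) := by
      refine LipschitzOnWith.of_dist_le_mul fun s hs t ht => ?_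
      rw [hγ s hs t ht, Real.dist_eq]; simp
    exact this.continuousOn
  have hwc : ContinuousOn (fun s => (n:ℝ) - mLap n (halfDistSq z) (γ s)) (Icc 0 D) := by
    intro s hs
    refine continuousWithinAt_const.sub ?_
    exact (continuousAt_mLap (hsc s hs)).comp_continuousWithinAt (hγc s hs)
  obtain ⟨B, hB⟩ := (isCompact_Icc.image_of_continuousOn hwc).isBounded.exists_norm_le
  refine ⟨D, B, hD, ?_, hwc.mono Ioc_subset_Icc_self, ?_, ?_⟩
  · intro s hs
    exact hB _ ⟨s, ⟨hs.1.le, hs.2.le⟩, rfl⟩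
  · intro s hs
    exact hasDerivAt_defect hm hγ h0 hs
  · intro s hs
    have hs' : s ∈ Icc 0 D := ⟨hs.1.le, hs.2.le⟩
    have h1 := mDev_ge hK (contMDiffAt_cost (hsc s hs'))
    have h2 : mGam n (halfDistSq z) (halfDistSq z) (γ s) = s ^ 2 := by
      have hsrc := mem_chart_source 𝔼 (γ s)
      rw [mGam_chart' hsrc, inCh_eq_fz, gam_fz hm ((chartAt 𝔼 (γ s)).map_source hsrc)
        (by rw [(chartAt 𝔼 (γ s)).left_inv hsrc]; exact hsc s hs'), fz,
        (chartAt 𝔼 (γ s)).left_inv hsrc, halfDistSq, hdz s hs']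
      ring
    rw [h2] at h1
    exact h1

/-- **exact formula along a minimiser**. -/
theorem mLap_integral (hm : ExM M) {κ : ℝ}
    (hK : HasRicciLowerBound n M (-κ)) (hD : 0 < D)
    (hγ : ∀ s ∈ Icc 0 D, ∀ t ∈ Icc 0 D, dist (γ s) (γ t) = |s - t|) (h0 : γ 0 = z)
    (hend : SC n z (γ D)) :
    IntervalIntegrable (fun s => mDev n (halfDistSq z) (γ s)) volume 0 D ∧
      ∫ s in (0 : ℝ)..D, mDev n (halfDistSq z) (γ s) =
        D * (n - mLap n (halfDistSq z) (γ D)) := by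
  obtain ⟨δ, B, hδ, h1, h2, h3, h4⟩ := aux_all hm hK hD hγ h0 hend
  exact ode_integral hD hδ h1 h2 h3 h4

theorem mLap_le_curve (hm : ExM M) {κ : ℝ}
    (hK : HasRicciLowerBound n M (-κ)) (hD : 0 < D)
    (hγ : ∀ s ∈ Icc 0 D, ∀ t ∈ Icc 0 D, dist (γ s) (γ t) = |s - t|) (h0 : γ 0 = z)
    (hend : SC n z (γ D)) : mLap n (halfDistSq z) (γ D) ≤ n + κ * D ^ 2 / 3 := by
  obtain ⟨δ, B, hδ, h1, h2, h3, h4⟩ := aux_all hm hK hD hγ h0 hend
  have := ode_lower hD hδ h1 h2 h3 h4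
  linarith

end curve

/-- minimisers with unit speed. -/
theorem exists_unit [ProperSpace M] (hm : ExM M) (z y : M) :
    ∃ γ : ℝ → M, γ 0 = z ∧ γ (dist z y) = y ∧
      ∀ s ∈ Icc 0 (dist z y), ∀ t ∈ Icc 0 (dist z y), dist (γ s) (γ t) = |s - t| := by
  have hE : HR216.ExactMid M := fun a b t h0 h1 => hm a b t ⟨h0, h1⟩
  obtain ⟨γ, h0, h1, h2⟩ := hE.exists_geodesic z y
  rcases eq_or_lt_of_le (dist_nonneg (x := z) (y := y)) with h | h
  · refine ⟨γ, h0, ?_, ?_⟩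
    · rw [← h, h0]; exact dist_eq_zero.1 h.symm
    · intro s hs t ht
      rw [← h] at hs ht
      have e1 : s = 0 := le_antisymm hs.2 hs.1
      have e2 : t = 0 := le_antisymm ht.2 ht.1
      rw [e1, e2]; simp
  · set D := dist z y with hD
    refine ⟨fun t => γ (t / D), by simp [h0], ?_, ?_⟩
    · simp [h.ne', h1]
    · intro s hs t ht
      rw [h2 (s / D) ⟨by have := hs.1; positivity, (div_le_one h).2 hs.2⟩ (t / D)
        ⟨by have := ht.1; positivity, (div_le_one h).2 ht.2⟩, ← sub_div, abs_div, abs_of_pos h]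
      field_simp

/-- at the centre. -/
theorem mLap_le_self [ProperSpace M] (hm : ExM M) (z : M) : mLap n (halfDistSq z) z ≤ n := by
  obtain ⟨L⟩ := nonempty_localNear (n := n) z
  have hg := isRiemannianOn_chartMetric (n := n) z
  set φ := chartAt 𝔼 z with hφ
  have hsrc : z ∈ φ.source := mem_chart_source 𝔼 z
  have ha : φ z ∈ φ.target := mem_chart_target 𝔼 z
  have hL : ∀ᶠ b in 𝓝 (φ z), b ∈ φ.target ∧ SC n z (φ.symm b) := by
    have h1 : Tendsto φ.symm (𝓝 (φ z)) (𝓝 z) := by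
      have := φ.continuousAt_symm ha
      rw [ContinuousAt, φ.left_inv hsrc] at this
      exact this
    have h2 : Metric.ball z L.r ∈ 𝓝 z := Metric.ball_mem_nhds z L.r_pos
    filter_upwards [h1 h2, φ.open_target.mem_nhds ha] with b hb1 hb2
    refine ⟨hb2, LN_sc L L.mem_W ?_⟩
    rw [dist_comm]; exact hb1
  have he : ∀ᶠ b in 𝓝 (φ z), gam (chartMetric n M z) (fz z z) (fz z z) b = 2 * fz z z b := by
    filter_upwards [hL] with b hb using gam_fz hm hb.1 hb.2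
  have hf : ContDiffAt ℝ ∞ (fz (n := n) z z) (φ z) := contDiffAt_fz ha hL.self_of_nhds.2
  have hmain := gam_defect hg ha hf he
  have h0 : gam (chartMetric n M z) (fz z z) (fz z z) (φ z) = 0 := by
    rw [he.self_of_nhds, fz, ← hφ, φ.left_inv hsrc, halfDistSq, dist_self]; ring
  have hgr : grad (chartMetric n M z) (fz z z) (φ z) = 0 := by
    by_contra hne
    have := bil_pos hg ha hne
    rw [← gam_eq_bil hg ha, h0] at this
    exact lt_irrefl _ this
  have h1 : gam (chartMetric n M z) (fz z z) (defect (chartMetric n M z) (fz z z)) (φ z) = 0 := by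
    rw [gam_eq_fderiv_grad' hg ha, hgr, map_zero]
  have h2 : ricQ (chartMetric n M z) (fz z z) (φ z) = 0 := by
    unfold ricQ
    rw [hgr]
    simp
  rw [h1, h2] at hmain
  have h3 := hessDev_nonneg hg ha (hf.of_le (m := 2) (by norm_cast))
  have h4 : mLap n (halfDistSq z) z = laplaceBeltrami (chartMetric n M z) (fz z z) (φ z) := rfl
  rw [h4]
  unfold defect at hmain
  linarith

/-- **pointwise Laplacian comparison**. -/
theorem mLap_le [ProperSpace M] (hm : ExM M) {κ : ℝ}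
    (hK : HasRicciLowerBound n M (-κ)) {z y : M} (h : SC n z y) :
    mLap n (halfDistSq z) y ≤ n + κ * dist z y ^ 2 / 3 := by
  rcases eq_or_ne z y with rfl | hne
  · rw [dist_self]
    have := mLap_le_self (n := n) hm z
    linarith
  · obtain ⟨γ, h0, h1, h2⟩ := exists_unit hm z y
    have := mLap_le_curve hm hK (dist_pos.2 hne) h2 h0 (by rw [h1]; exact h)
    rwa [h1] at this

/-- **pointwise Laplacian comparison in a chart** (816's literal form). -/
theorem lap_chart_le [ProperSpace M] (hm : ExM M) {κ : ℝ}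
    (hK : HasRicciLowerBound n M (-κ)) {z x₀ : M} {a : 𝔼} (ha : a ∈ (chartAt 𝔼 x₀).target)
    (h : SC n z ((chartAt 𝔼 x₀).symm a)) :
    laplaceBeltrami (chartMetric n M x₀) (fun b => halfDistSq z ((chartAt 𝔼 x₀).symm b)) a ≤
      n + κ * dist z ((chartAt 𝔼 x₀).symm a) ^ 2 / 3 := by
  have h1 := mLap_le hm hK h
  rw [mLap_chart ha ((contMDiffAt_cost h).of_le (by norm_cast))] at h1
  exact h1

end Crest.Agent.R247.Lc582
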