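import Crest.Agent.R226.Index_77
import Crest.Agent.R226.ChartCost_77
import Crest.Agent.R226.CutSmooth_77
import Crest.Agent.R226.NearDiagFinal_996
import Crest.Agent.R247.Ms2_322
import Crest.Agent.R247.Bo1_84
import Crest.Agent.R247.HR_216

-- ▼ part R247/Sm1_879
section

/-!
R247 (helper879), block (6b), file 1: Euclidean calculus.
* `ND f p` : the mixed Hessian of `f : E × E → ℝ` at `p` is nondegenerate
* `argmin_smooth` : smoothness of a nondegenerate minimiser and second derivative of the value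
* `value_step2` : `Index77.value_step` together with nondegeneracy of the mixed Hessian
-/

set_option autoImplicit false

open Set Filter Topology
open scoped ContDiff
open Crest.Agent.R226.EucMin77 Crest.Agent.R226.Index77

namespace Crest.Agent.R247.Sm879

section
variable {E : Type*} [NormedAddCommGroup E] [NormedSpace ℝ E]
variable {E₁ : Type*} [NormedAddCommGroup E₁] [NormedSpace ℝ E₁]
variable {E₂ : Type*} [NormedAddCommGroup E₂] [NormedSpace ℝ E₂]

/-- the mixed Hessian is nondegenerate -/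
def ND (f : E × E → ℝ) (p : E × E) : Prop :=
  ∀ h : E, (∀ k : E, fderiv ℝ (fderiv ℝ f) p (0, k) (h, 0) = 0) → h = 0

theorem sep_swap [FiniteDimensional ℝ E] (B : E →ₗ[ℝ] E →ₗ[ℝ] ℝ)
    (H : ∀ h, (∀ k, B h k = 0) → h = 0) {k : E} (hk : ∀ h, B h k = 0) : k = 0 := by
  have hinj : Function.Injective B := by
    rw [injective_iff_map_eq_zero]
    intro h hh
    apply H
    intro k
    rw [hh]; rfl
  have hfin : Module.finrank ℝ E = Module.finrank ℝ (E →ₗ[ℝ] ℝ) :=
    (Subspace.dual_finrank_eq (K := ℝ) (V := E)).symm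
  have hsurj : Function.Surjective B :=
    (LinearMap.injective_iff_surjective_of_finrank_eq_finrank hfin).1 hinj
  by_contra hne
  obtain ⟨φ, hφ⟩ := exists_dual_vector ℝ k (norm_ne_zero_iff.2 hne)
  obtain ⟨h, hh⟩ := hsurj (φ : E →ₗ[ℝ] ℝ)
  have h1 := hφ.2
  have h3 : φ k = 0 := by
    have := hk h
    rw [hh] at this
    exact this
  rw [h3] at h1
  exact (norm_ne_zero_iff.2 hne) (by exact_mod_cast h1.symm)

/-- the mixed part of a bilinear form on `E × E` -/
noncomputable def mixB (D : (E × E) →L[ℝ] (E × E) →L[ℝ] ℝ) : E →ₗ[ℝ] E →ₗ[ℝ] ℝ :=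
  LinearMap.mk₂ ℝ (fun h k => D (0, k) (h, 0))
    (fun a b k => by
      have : ((a + b, 0) : E × E) = (a, 0) + (b, 0) := by simp
      rw [this, map_add])
    (fun c a k => by
      have : ((c • a, 0) : E × E) = c • (a, 0) := by simp
      rw [this, map_smul])
    (fun a k l => by
      have : ((0, k + l) : E × E) = (0, k) + (0, l) := by simp
      rw [this, map_add]; rfl)
    (fun c a k => by
      have : ((0, c • k) : E × E) = c • (0, k) := by simp
      rw [this, map_smul]; rfl)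

theorem mixB_apply (D : (E × E) →L[ℝ] (E × E) →L[ℝ] ℝ) (h k : E) :
    mixB D h k = D (0, k) (h, 0) := rfl

theorem ND.symm [FiniteDimensional ℝ E] {f : E × E → ℝ} {p : E × E} (H : ND f p) {k : E}
    (hk : ∀ h : E, fderiv ℝ (fderiv ℝ f) p (0, k) (h, 0) = 0) : k = 0 :=
  sep_swap (mixB (fderiv ℝ (fderiv ℝ f) p)) H hk

theorem ND.of_symm [FiniteDimensional ℝ E] {f : E × E → ℝ} {p : E × E}
    (H : ∀ k : E, (∀ h : E, fderiv ℝ (fderiv ℝ f) p (0, k) (h, 0) = 0) → k = 0) : ND f p := by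
  intro h hh
  exact sep_swap (mixB (fderiv ℝ (fderiv ℝ f) p)).flip H hh

/-- smoothness of a nondegenerate minimiser, first order condition and second derivative of
the value function -/
theorem argmin_smooth [CompleteSpace E₁] [FiniteDimensional ℝ E₂]
    {g : E₁ × E₂ → ℝ} {p₀ : E₁} {z₀ : E₂} (hg : ContDiffAt ℝ ∞ g (p₀, z₀))
    (hpos : ∀ h : E₂, h ≠ 0 → 0 < fderiv ℝ (fderiv ℝ g) (p₀, z₀) (0, h) (0, h))
    {V : E₁ → ℝ} {ζ : E₁ → E₂} (hζ : Tendsto ζ (𝓝 p₀) (𝓝 z₀))
    (hV : ∀ᶠ p in 𝓝 p₀, V p = g (p, ζ p))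
    (hmin : ∀ᶠ p in 𝓝 p₀, IsLocalMin (fun z => g (p, z)) (ζ p)) :
    ContDiffAt ℝ ∞ ζ p₀ ∧ ContDiffAt ℝ ∞ V p₀ ∧
      (∀ u w : E₁, fderiv ℝ (fderiv ℝ V) p₀ u w =
        fderiv ℝ (fderiv ℝ g) (p₀, z₀) (u, fderiv ℝ ζ p₀ u) (w, 0)) ∧
      (∀ (u : E₁) (j : E₂), fderiv ℝ (fderiv ℝ g) (p₀, z₀) (u, fderiv ℝ ζ p₀ u) (0, j) = 0) := by
  have : CompleteSpace E₂ := FiniteDimensional.complete ℝ E₂
  have hζ₀ : ζ p₀ = z₀ := eq_of_tendsto_nhds hζ
  set F : E₁ × E₂ → (E₂ →L[ℝ] ℝ) := fun q => fderiv ℝ g q ∘L ContinuousLinearMap.inr ℝ E₁ E₂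
    with hF
  have hfd : ContDiffAt ℝ ∞ (fderiv ℝ g) (p₀, z₀) := hg.fderiv_right (by simp)
  have hFc : ContDiffAt ℝ ∞ F (p₀, z₀) := by
    have : ContDiffAt ℝ ∞ (fun q : E₁ × E₂ => ((ContinuousLinearMap.compL ℝ E₂ (E₁ × E₂) ℝ).flip
        (ContinuousLinearMap.inr ℝ E₁ E₂)) (fderiv ℝ g q)) (p₀, z₀) :=
      ContDiffAt.continuousLinearMap_comp _ hfd
    exact this
  have hFd : fderiv ℝ F (p₀, z₀) = ((ContinuousLinearMap.compL ℝ E₂ (E₁ × E₂) ℝ).flip
        (ContinuousLinearMap.inr ℝ E₁ E₂)) ∘L (fderiv ℝ (fderiv ℝ g) (p₀, z₀)) := by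
    have h1 : HasFDerivAt (fderiv ℝ g) (fderiv ℝ (fderiv ℝ g) (p₀, z₀)) (p₀, z₀) :=
      (hfd.differentiableAt (by simp)).hasFDerivAt
    exact ((((ContinuousLinearMap.compL ℝ E₂ (E₁ × E₂) ℝ).flip
        (ContinuousLinearMap.inr ℝ E₁ E₂)).hasFDerivAt).comp _ h1).fderiv
  have happ : ∀ h k : E₂, (fderiv ℝ F (p₀, z₀) ∘L ContinuousLinearMap.inr ℝ E₁ E₂) h k =
      fderiv ℝ (fderiv ℝ g) (p₀, z₀) (0, h) (0, k) := by
    intro h k
    rw [hFd]
    simp
  have hinj : Function.Injective (fderiv ℝ F (p₀, z₀) ∘L ContinuousLinearMap.inr ℝ E₁ E₂) := by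
    rw [injective_iff_map_eq_zero]
    intro h hh
    by_contra hne
    have h1 := hpos h hne
    rw [← happ h h, hh] at h1
    simp at h1
  have hfin : Module.finrank ℝ E₂ = Module.finrank ℝ (E₂ →L[ℝ] ℝ) := by
    rw [← (LinearMap.toContinuousLinearMap (𝕜 := ℝ) (E := E₂) (F' := ℝ)).finrank_eq]
    exact (Subspace.dual_finrank_eq (K := ℝ) (V := E₂)).symm
  have hinv : (fderiv ℝ F (p₀, z₀) ∘L ContinuousLinearMap.inr ℝ E₁ E₂).IsInvertible := by
    set L := (fderiv ℝ F (p₀, z₀) ∘L ContinuousLinearMap.inr ℝ E₁ E₂)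
    refine ⟨(LinearEquiv.ofInjectiveOfFinrankEq (L : E₂ →ₗ[ℝ] (E₂ →L[ℝ] ℝ)) hinj
      hfin).toContinuousLinearEquiv, ?_⟩
    ext x y
    rfl
  have hne : (∞ : WithTop ℕ∞) ≠ 0 := by simp
  have key := hFc.eventually_apply_eq_iff_implicitFunction hne hinv
  have hψ := hFc.contDiffAt_implicitFunction hne hinv
  have hψ0 := hFc.implicitFunction_apply_self hne hinv
  set ψ := hFc.implicitFunction hne hinv with hψdef
  have htend : Tendsto (fun p => (p, ζ p)) (𝓝 p₀) (𝓝 (p₀, z₀)) :=
    (tendsto_id).prodMk_nhds hζ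
  have hdiff : ∀ᶠ q in 𝓝 (p₀, z₀), DifferentiableAt ℝ g q := by
    have := (hg.of_le (m := 1) (by simp)).eventually (by simp)
    filter_upwards [this] with q hq using hq.differentiableAt (by simp)
  have hFz : ∀ᶠ p in 𝓝 p₀, F (p, ζ p) = 0 := by
    filter_upwards [hmin, htend.eventually hdiff] with p hp hd
    have h1 : HasFDerivAt (fun z => g (p, z)) (fderiv ℝ g (p, ζ p) ∘L
        ContinuousLinearMap.inr ℝ E₁ E₂) (ζ p) :=
      hd.hasFDerivAt.comp (ζ p) (hasFDerivAt_prodMk_right p (ζ p))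
    exact hp.hasFDerivAt_eq_zero h1
  have hFu : F (p₀, z₀) = 0 := by
    have := hFz.self_of_nhds
    rwa [hζ₀] at this
  have heq : ∀ᶠ p in 𝓝 p₀, ψ p = ζ p := by
    filter_upwards [htend.eventually key, hFz] with p hp hz
    exact hp.1 (by rw [hz, hFu])
  have hζc : ContDiffAt ℝ ∞ ζ p₀ := hψ.congr_of_eventuallyEq (heq.mono fun p hp => hp.symm)
  have hgz : ContDiffAt ℝ ∞ g (p₀, ζ p₀) := by rw [hζ₀]; exact hg
  have hVc : ContDiffAt ℝ ∞ V p₀ := by
    refine ContDiffAt.congr_of_eventuallyEq ?_ hV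
    exact ContDiffAt.comp (f := fun p => (p, ζ p)) p₀ hgz (contDiffAt_id.prodMk hζc)
  -- first derivative of `V`
  have hζd : ∀ᶠ p in 𝓝 p₀, DifferentiableAt ℝ ζ p := by
    have := (hζc.of_le (m := 1) (by simp)).eventually (by simp)
    filter_upwards [this] with q hq using hq.differentiableAt (by simp)
  have hDV : ∀ᶠ p in 𝓝 p₀, fderiv ℝ V p =
      fderiv ℝ g (p, ζ p) ∘L ContinuousLinearMap.inl ℝ E₁ E₂ := by
    filter_upwards [hV.eventually_nhds, htend.eventually hdiff, hζd, hFz] with p hp hd hz hF0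
    have h1 : HasFDerivAt (fun p => (p, ζ p))
        ((ContinuousLinearMap.id ℝ E₁).prod (fderiv ℝ ζ p)) p :=
      (hasFDerivAt_id p).prodMk hz.hasFDerivAt
    have h2 := hd.hasFDerivAt.comp p h1
    have h3 : V =ᶠ[𝓝 p] g ∘ fun p => (p, ζ p) := hp
    rw [h3.fderiv_eq, h2.fderiv]
    ext w
    have h4 : fderiv ℝ g (p, ζ p) (0, fderiv ℝ ζ p w) = 0 := by
      have := congrArg (fun L : E₂ →L[ℝ] ℝ => L (fderiv ℝ ζ p w)) hF0
      simpa [hF] using this
    have h5 : ((w, fderiv ℝ ζ p w) : E₁ × E₂) = (w, 0) + (0, fderiv ℝ ζ p w) := by simp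
    simp only [ContinuousLinearMap.comp_apply, ContinuousLinearMap.prod_apply,
      ContinuousLinearMap.id_apply, ContinuousLinearMap.inl_apply]
    rw [h5, map_add, h4, add_zero]
  have hcurve : HasFDerivAt (fun p => (p, ζ p))
      ((ContinuousLinearMap.id ℝ E₁).prod (fderiv ℝ ζ p₀)) p₀ :=
    (hasFDerivAt_id p₀).prodMk (hζc.differentiableAt (by simp)).hasFDerivAt
  have hg2 : HasFDerivAt (fderiv ℝ g) (fderiv ℝ (fderiv ℝ g) (p₀, z₀)) (p₀, ζ p₀) := by
    rw [hζ₀]
    exact (hfd.differentiableAt (by simp)).hasFDerivAt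
  have hcomp : HasFDerivAt (fun p => fderiv ℝ g (p, ζ p))
      (fderiv ℝ (fderiv ℝ g) (p₀, z₀) ∘L
        ((ContinuousLinearMap.id ℝ E₁).prod (fderiv ℝ ζ p₀))) p₀ := hg2.comp p₀ hcurve
  refine ⟨hζc, hVc, ?_, ?_⟩
  · intro u w
    have h1 : HasFDerivAt (fun p => fderiv ℝ g (p, ζ p) ∘L ContinuousLinearMap.inl ℝ E₁ E₂)
        (((ContinuousLinearMap.compL ℝ E₁ (E₁ × E₂) ℝ).flip
          (ContinuousLinearMap.inl ℝ E₁ E₂)) ∘L (fderiv ℝ (fderiv ℝ g) (p₀, z₀) ∘L
        ((ContinuousLinearMap.id ℝ E₁).prod (fderiv ℝ ζ p₀)))) p₀ :=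
      ((ContinuousLinearMap.compL ℝ E₁ (E₁ × E₂) ℝ).flip
          (ContinuousLinearMap.inl ℝ E₁ E₂)).hasFDerivAt.comp p₀ hcomp
    rw [Filter.EventuallyEq.fderiv_eq hDV, h1.fderiv]
    simp
  · intro u j
    have h1 : HasFDerivAt (fun p => F (p, ζ p))
        (((ContinuousLinearMap.compL ℝ E₂ (E₁ × E₂) ℝ).flip
          (ContinuousLinearMap.inr ℝ E₁ E₂)) ∘L (fderiv ℝ (fderiv ℝ g) (p₀, z₀) ∘L
        ((ContinuousLinearMap.id ℝ E₁).prod (fderiv ℝ ζ p₀)))) p₀ :=
      ((ContinuousLinearMap.compL ℝ E₂ (E₁ × E₂) ℝ).flip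
          (ContinuousLinearMap.inr ℝ E₁ E₂)).hasFDerivAt.comp p₀ hcomp
    have h2 : HasFDerivAt (fun p => F (p, ζ p)) (0 : E₁ →L[ℝ] (E₂ →L[ℝ] ℝ)) p₀ :=
      (hasFDerivAt_const (0 : E₂ →L[ℝ] ℝ) p₀).congr_of_eventuallyEq hFz
    have h3 := h1.unique h2
    have h4 := congrArg (fun L : E₁ →L[ℝ] (E₂ →L[ℝ] ℝ) => L u j) h3
    simpa using h4

/-- **smoothness step**, Euclidean form, with nondegeneracy of the mixed Hessian. -/
theorem value_step2 [FiniteDimensional ℝ E] {f₁ f₂ : E × E → ℝ} {V : E × E → ℝ} {a₀ ζ₀ β₀ : E}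
    (h1 : ContDiffAt ℝ ∞ f₁ (a₀, ζ₀)) (h2 : ContDiffAt ℝ ∞ f₂ (ζ₀, β₀))
    (n1 : ND f₁ (a₀, ζ₀)) (n2 : ND f₂ (ζ₀, β₀))
    (hpos : ∀ h : E, h ≠ 0 → 0 < fderiv ℝ (fderiv ℝ f₁) (a₀, ζ₀) (0, h) (0, h) +
      fderiv ℝ (fderiv ℝ f₂) (ζ₀, β₀) (h, 0) (h, 0))
    {ζ : E × E → E} (hζ : Tendsto ζ (𝓝 (a₀, β₀)) (𝓝 ζ₀))
    (hV : ∀ᶠ p in 𝓝 (a₀, β₀), V p = 2 * f₁ (p.1, ζ p) + 2 * f₂ (ζ p, p.2))
    (hmin : ∀ᶠ p in 𝓝 (a₀, β₀),
      IsLocalMin (fun z => 2 * f₁ (p.1, z) + 2 * f₂ (z, p.2)) (ζ p)) :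
    ContDiffAt ℝ ∞ ζ (a₀, β₀) ∧ ContDiffAt ℝ ∞ V (a₀, β₀) ∧ ND V (a₀, β₀) := by
  have : CompleteSpace E := FiniteDimensional.complete ℝ E
  let L₁ : (E × E) × E →L[ℝ] E × E :=
    ((ContinuousLinearMap.fst ℝ E E) ∘L (ContinuousLinearMap.fst ℝ (E × E) E)).prod
      (ContinuousLinearMap.snd ℝ (E × E) E)
  let L₂ : (E × E) × E →L[ℝ] E × E :=
    (ContinuousLinearMap.snd ℝ (E × E) E).prod
      ((ContinuousLinearMap.snd ℝ E E) ∘L (ContinuousLinearMap.fst ℝ (E × E) E))
  have hL₁ : ∀ q : (E × E) × E, L₁ q + 0 = (q.1.1, q.2) := by intro q; simp [L₁]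
  have hL₂ : ∀ q : (E × E) × E, L₂ q + 0 = (q.2, q.1.2) := by intro q; simp [L₂]
  set g : (E × E) × E → ℝ := fun q => 2 * f₁ (L₁ q + 0) + 2 * f₂ (L₂ q + 0) with hg
  have hgq : ∀ (p : E × E) (z : E), g (p, z) = 2 * f₁ (p.1, z) + 2 * f₂ (z, p.2) := by
    intro p z; simp only [hg, hL₁, hL₂]
  have h1' : ContDiffAt ℝ ∞ f₁ (L₁ ((a₀, β₀), ζ₀) + 0) := by rw [hL₁]; exact h1
  have h2' : ContDiffAt ℝ ∞ f₂ (L₂ ((a₀, β₀), ζ₀) + 0) := by rw [hL₂]; exact h2
  have hg1 : ContDiffAt ℝ ∞ (fun q => f₁ (L₁ q + 0)) ((a₀, β₀), ζ₀) :=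
    ContDiffAt.comp _ (f := fun q => L₁ q + 0) h1' (by fun_prop)
  have hg2 : ContDiffAt ℝ ∞ (fun q => f₂ (L₂ q + 0)) ((a₀, β₀), ζ₀) :=
    ContDiffAt.comp _ (f := fun q => L₂ q + 0) h2' (by fun_prop)
  have hg1' : ContDiffAt ℝ ∞ (fun q => 2 * f₁ (L₁ q + 0)) ((a₀, β₀), ζ₀) :=
    contDiffAt_const.mul hg1
  have hg2' : ContDiffAt ℝ ∞ (fun q => 2 * f₂ (L₂ q + 0)) ((a₀, β₀), ζ₀) :=
    contDiffAt_const.mul hg2
  have hgs : ContDiffAt ℝ ∞ g ((a₀, β₀), ζ₀) := hg1'.add hg2'
  have h2le : (2 : WithTop ℕ∞) ≤ ∞ := ENat.LEInfty.out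
  have hD : ∀ u v : (E × E) × E, fderiv ℝ (fderiv ℝ g) ((a₀, β₀), ζ₀) u v =
      2 * fderiv ℝ (fderiv ℝ f₁) (a₀, ζ₀) (L₁ u) (L₁ v) +
      2 * fderiv ℝ (fderiv ℝ f₂) (ζ₀, β₀) (L₂ u) (L₂ v) := by
    intro u v
    have e1 := hess_add (f := fun q => 2 * f₁ (L₁ q + 0)) (g := fun q => 2 * f₂ (L₂ q + 0))
      (hg1'.of_le h2le) (hg2'.of_le h2le) u v
    have e3 := hess_const_mul (hg1.of_le h2le) 2 u v
    have e4 := hess_const_mul (hg2.of_le h2le) 2 u v
    have e5 := hess_comp_affine L₁ 0 (h1'.of_le h2le) u v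
    have e6 := hess_comp_affine L₂ 0 (h2'.of_le h2le) u v
    rw [hL₁] at e5
    rw [hL₂] at e6
    rw [hg, e1, e3, e4, e5, e6]
  obtain ⟨r1, r2, r3, r4⟩ := argmin_smooth (V := V) hgs
    (fun h hh => by
      rw [hD]
      have := hpos h hh
      have e1 : L₁ (0, h) = (0, h) := by simp [L₁]
      have e2 : L₂ (0, h) = (h, 0) := by simp [L₂]
      rw [e1, e2]
      linarith) hζ
    (by filter_upwards [hV] with p hp; rw [hgq, hp])
    (by filter_upwards [hmin] with p hp; simpa only [hgq] using hp)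
  refine ⟨r1, r2, ?_⟩
  set Z := fderiv ℝ ζ (a₀, β₀) with hZ
  let Zb : E →ₗ[ℝ] E := (Z ∘L ContinuousLinearMap.inr ℝ E E : E →L[ℝ] E)
  have hZb : ∀ k, Zb k = Z (0, k) := fun k => by simp [Zb]
  have hinj : Function.Injective Zb := by
    rw [injective_iff_map_eq_zero]
    intro k hk
    apply n2.symm
    intro j
    have h := r4 (0, k) j
    rw [← hZb, hk, hD] at h
    have e1 : L₁ (((0 : E), k), (0 : E)) = 0 := by simp [L₁]
    have e2 : L₂ (((0 : E), k), (0 : E)) = (0, k) := by simp [L₂]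
    have e3 : L₂ (0, j) = (j, 0) := by simp [L₂]
    rw [e1, e2, e3] at h
    simpa using h
  have hsurj : Function.Surjective Zb := LinearMap.injective_iff_surjective.1 hinj
  intro h hh
  apply n1
  intro j
  obtain ⟨k, rfl⟩ := hsurj j
  have h5 := hh k
  rw [r3, ← hZb, hD] at h5
  have e1 : L₁ (((0 : E), k), Zb k) = (0, Zb k) := by simp [L₁]
  have e2 : L₁ ((h, (0 : E)), (0 : E)) = (h, 0) := by simp [L₁]
  have e3 : L₂ ((h, (0 : E)), (0 : E)) = 0 := by simp [L₂]
  rw [e1, e2, e3] at h5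
  simpa using h5

end

end Crest.Agent.R247.Sm879
end

-- ▼ part R247/Sm2_879
section

/-!
R247 (helper879), block (6b), file 2: local facts near the diagonal, without compactness.
-/

set_option autoImplicit false
set_option maxSynthPendingDepth 3
set_option linter.unusedSectionVars false

open Bundle Set Filter Topology
open scoped Manifold ContDiff
open Crest.GeometryTopology.MTW Crest.Agent.R244 Crest.Agent.R226
open Crest.Agent.R226.DiffAE225 Crest.Agent.R226.EucMin77 Crest.Agent.R226.MTWConc117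
open Crest.Agent.R226.ChartCost77 Crest.Agent.R226.Index77
open Crest.Agent.R226.NearLem90 (dL halfDistSq_comm)
open Crest.Agent.R226.NearDiagThm996 Crest.Agent.R226.LocalNearThm996
open Crest.Agent.R226.NearDiagFinal996 Crest.Agent.R226.ChartMet842 Crest.Agent.R226.GeoLoc577
open Crest.Agent.R226.CutSmooth77 (SC three_point)

namespace Crest.Agent.R247.Sm879

section
variable {n : ℕ} {M : Type*} [MetricSpace M] [ChartedSpace (EuclideanSpace ℝ (Fin n)) M]
  [IsManifold (𝓡 n) ∞ M]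
  [RiemannianBundle (fun p : M => TangentSpace (𝓡 n) p)]

omit [IsManifold (𝓡 n) ∞ M] in
/-- the differential read in the chart centred at the point -/
theorem hasFDerivAt_chart {f : M → ℝ} {z : M} (hf : MDifferentiableAt (𝓡 n) 𝓘(ℝ) f z) :
    HasFDerivAt (𝕜 := ℝ) (E := EE n) (F := ℝ)
      (fun a : EE n => f ((extChartAt (𝓡 n) z).symm a)) (dL n f z) (o z) := by
  have h0 := hf.hasMFDerivAt.2
  simp only [writtenInExtChartAt, extChartAt_model_space_eq_id, PartialEquiv.refl_coe,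
    Function.id_comp, modelWithCornersSelf_coe, range_id] at h0
  exact hasFDerivWithinAt_univ.1 h0

/-- a smooth cost gives a differentiable slice -/
theorem mdiff_left {x y : M} (h : SC n x y) :
    MDifferentiableAt (𝓡 n) 𝓘(ℝ) (fun x' : M => halfDistSq x' y) x := by
  have h2 : ContMDiffAt (𝓡 n) ((𝓡 n).prod (𝓡 n)) ∞ (fun x' : M => (x', y)) x :=
    contMDiffAt_id.prodMk contMDiffAt_const
  have h1 : ContMDiffAt ((𝓡 n).prod (𝓡 n)) 𝓘(ℝ) ∞ (fun q : M × M => halfDistSq q.1 q.2)
    ((fun x' : M => (x', y)) x) := h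
  exact (h1.comp x h2).mdifferentiableAt (by simp)

/-- first partial derivative of the cost read in charts -/
theorem fderiv_cc_dL {z y : M} {b : EE n} (hd : DifferentiableAt ℝ (cc (n := n) z y) (o z, b))
    (hs : SC n z ((extChartAt (𝓡 n) y).symm b)) (ξ : TangentSpace (𝓡 n) z) :
    fderiv ℝ (cc (n := n) z y) (o z, b) ((ξ : EE n), (0 : EE n)) =
      dL n (fun x' => halfDistSq x' ((extChartAt (𝓡 n) y).symm b)) z ξ := by
  have h1 := hasFDerivAt_chart (n := n) (mdiff_left hs)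
  have h2 : HasFDerivAt (fun a : EE n => cc (n := n) z y (a, b))
      (fderiv ℝ (cc (n := n) z y) (o z, b) ∘L ContinuousLinearMap.inl ℝ (EE n) (EE n)) (o z) :=
    HasFDerivAt.comp (o z) (g := cc (n := n) z y) (f := fun a : EE n => (a, b))
      hd.hasFDerivAt (hasFDerivAt_prodMk_left (o z) b)
  have h3 := h2.unique h1
  exact congrArg (fun L : EE n →L[ℝ] ℝ => L (ξ : EE n)) h3

variable {x₀ : M} (L : LocalNear n M x₀)

theorem LN_dist {z : M} (hz : z ∈ L.W) {w : TangentSpace (𝓡 n) z} (hw : ‖w‖ < L.r) :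
    dist z (L.e z w) = ‖w‖ := by
  have := L.dist_eq z hz w hw 0 1 (by simp) (by simp)
  rw [zero_smul, one_smul, L.e_zero z hz] at this
  rw [this]; simp

theorem LN_sc {z y : M} (hz : z ∈ L.W) (h : dist z y < L.r) : SC n z y := L.smooth_cost z hz y h

/-- **nondegeneracy of the mixed Hessian near the diagonal** -/
theorem LN_nd {z y : M} (hz : z ∈ L.W) (h : dist z y < L.r) :
    ND (cc (n := n) z y) (o z, o y) := by
  have hs : ContDiffAt ℝ ∞ (cc (n := n) z y) (o z, o y) := cc_contDiffAt (LN_sc L hz h)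
  set f := cc (n := n) z y with hf
  have : FiniteDimensional ℝ (TangentSpace (𝓡 n) z) :=
    inferInstanceAs (FiniteDimensional ℝ (EE n))
  obtain ⟨w, hw, hwy⟩ := L.surj z hz y h
  have hwr : ‖w‖ < L.r := by rw [hw]; exact h
  obtain ⟨e, he⟩ := exists_riesz (n := n) z
  let ec' : (EE n →L[ℝ] ℝ) →L[ℝ] TangentSpace (𝓡 n) z :=
    LinearMap.toContinuousLinearMap e.symm.toLinearMap
  let cl : ((EE n × EE n) →L[ℝ] ℝ) →L[ℝ] (EE n →L[ℝ] ℝ) :=
    (ContinuousLinearMap.compL ℝ (EE n) (EE n × EE n) ℝ).flip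
      (ContinuousLinearMap.inl ℝ (EE n) (EE n))
  let W : EE n → TangentSpace (𝓡 n) z := fun b => -(ec' (cl (fderiv ℝ f (o z, b))))
  let D2 := fderiv ℝ (fderiv ℝ f) (o z, o y)
  let W' : EE n →L[ℝ] TangentSpace (𝓡 n) z :=
    -(ec' ∘L cl ∘L D2 ∘L ContinuousLinearMap.inr ℝ (EE n) (EE n))
  have h1 : HasFDerivAt (fderiv ℝ f) D2 (o z, o y) :=
    ((hs.fderiv_right (m := ∞) (by simp)).differentiableAt (by simp)).hasFDerivAt
  have h2 : HasFDerivAt (fun b : EE n => ((o z : EE n), b))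
      (ContinuousLinearMap.inr ℝ (EE n) (EE n)) (o y) := hasFDerivAt_prodMk_right _ _
  have h3 : HasFDerivAt (fun b : EE n => fderiv ℝ f (o z, b))
      (D2 ∘L ContinuousLinearMap.inr ℝ (EE n) (EE n)) (o y) := h1.comp (o y) h2
  have hW : HasFDerivAt W W' (o y) :=
    (ec'.hasFDerivAt.comp (o y) (cl.hasFDerivAt.comp (o y) h3)).neg
  have hW1 : ∀ b, DifferentiableAt ℝ f (o z, b) →
      dist z ((extChartAt (𝓡 n) y).symm b) < L.r → ∀ w' : TangentSpace (𝓡 n) z, ‖w'‖ < L.r →
      L.e z w' = (extChartAt (𝓡 n) y).symm b → W b = w' := by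
    intro b hb hbr w' hw' hwb
    have h5 : e w' = -(cl (fderiv ℝ f (o z, b))) := by
      ext ξ
      rw [he w' ξ]
      have h6 := fderiv_cc_dL hb (LN_sc L hz hbr) ξ
      rw [← hwb] at h6
      have h7 := L.grad z hz w' hw' ξ
      show _ = -(fderiv ℝ f (o z, b) (ξ, 0))
      rw [h6, h7, neg_neg]
    have h6 : w' = e.symm (-(cl (fderiv ℝ f (o z, b)))) := by
      rw [← h5, LinearEquiv.symm_apply_apply]
    rw [h6, map_neg]
    rfl
  have hdiff : ∀ᶠ b in 𝓝 (o (n := n) y), DifferentiableAt ℝ f (o z, b) := by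
    have h7 : ∀ᶠ p in 𝓝 ((o z : EE n), (o y : EE n)), DifferentiableAt ℝ f p := by
      have := (hs.of_le (m := 1) (by exact_mod_cast le_top)).eventually (by simp)
      filter_upwards [this] with x hx using hx.differentiableAt (by simp)
    have h8 : Tendsto (fun b : EE n => ((o z : EE n), b)) (𝓝 (o y))
        (𝓝 ((o z : EE n), (o y : EE n))) :=
      (Continuous.prodMk_right (o z)).tendsto _
    exact h8.eventually h7
  have hdist : ∀ᶠ b in 𝓝 (o (n := n) y), dist z ((extChartAt (𝓡 n) y).symm b) < L.r := by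
    have h7 : Tendsto (fun b : EE n => dist z ((extChartAt (𝓡 n) y).symm b)) (𝓝 (o y))
        (𝓝 (dist z y)) := tendsto_const_nhds.dist (tendsto_symm y)
    exact h7.eventually (gt_mem_nhds h)
  have hWw : W (o y) = w := by
    apply hW1 (o y) hdiff.self_of_nhds hdist.self_of_nhds w hwr
    rw [symm_o]; exact hwy
  have hid : (fun b => extChartAt (𝓡 n) y (L.e z (W b))) =ᶠ[𝓝 (o y)] fun b => b := by
    filter_upwards [hdiff, hdist, target_mem (n := n) y] with b hb hbr hbt
    obtain ⟨w', hw'n, hw'⟩ := L.surj z hz _ hbr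
    rw [hW1 b hb hbr w' (by rw [hw'n]; exact hbr) hw']
    rw [hw', (extChartAt (𝓡 n) y).right_inv hbt]
  have hecs : ContDiffAt ℝ ∞ (fun u : TangentSpace (𝓡 n) z => extChartAt (𝓡 n) y (L.e z u)) w := by
    rw [← contMDiffAt_iff_contDiffAt]
    have h7 : ContMDiffAt 𝓘(ℝ, TangentSpace (𝓡 n) z) (𝓡 n) ∞ (L.e z) w := by
      have h8 := L.smooth (⟨z, w⟩ : TangentBundle (𝓡 n) M) hz hwr
      exact ContMDiffAt.comp w (g := fun p : TangentBundle (𝓡 n) M => L.e p.1 p.2)
        (f := fun u : TangentSpace (𝓡 n) z => (⟨z, u⟩ : TangentBundle (𝓡 n) M)) h8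
        ((contMDiff_fiber z).contMDiffAt)
    have h9 : ContMDiffAt (𝓡 n) 𝓘(ℝ, EE n) ∞ (extChartAt (𝓡 n) y) (L.e z w) := by
      rw [hwy]; exact contMDiffAt_extChartAt
    exact ContMDiffAt.comp w (g := extChartAt (𝓡 n) y) (f := L.e z) h9 h7
  have hec := (hecs.differentiableAt (by simp)).hasFDerivAt
  have hec' : HasFDerivAt (fun u : TangentSpace (𝓡 n) z => extChartAt (𝓡 n) y (L.e z u))
      (fderiv ℝ (fun u : TangentSpace (𝓡 n) z => extChartAt (𝓡 n) y (L.e z u)) w) (W (o y)) := by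
    rw [hWw]; exact hec
  have hcomp := hec'.comp (o y) hW
  have hidd : HasFDerivAt (fun b => extChartAt (𝓡 n) y (L.e z (W b)))
      (ContinuousLinearMap.id ℝ (EE n)) (o y) :=
    (hasFDerivAt_id (o y)).congr_of_eventuallyEq hid
  have huniq := hcomp.unique hidd
  apply ND.of_symm
  intro k hk
  have h9 : W' k = -(e.symm (cl (D2 (0, k)))) := rfl
  have h10 : cl (D2 (0, k)) = 0 := by
    ext ξ
    exact hk ξ
  have h11 := congrArg (fun L : EE n →L[ℝ] EE n => L k) huniq
  have h12 : fderiv ℝ (fun u : TangentSpace (𝓡 n) z => extChartAt (𝓡 n) y (L.e z u)) w (W' k) = k :=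
    h11
  rw [h9, h10, map_zero, neg_zero, map_zero] at h12
  exact h12.symm

/-- opposite directions -/
theorem LN_opp {y : M} (hy : y ∈ L.W) {a b : M} (ha : dist y a < L.r) (hb : dist y b < L.r)
    (ha0 : 0 < dist y a) (hb0 : 0 < dist y b) (h : dist a y + dist y b = dist a b)
    {w v : TangentSpace (𝓡 n) y} (hw : ‖w‖ = dist y a) (hwe : L.e y w = a)
    (hv : ‖v‖ = dist y b) (hve : L.e y v = b) :
    (dist y a)⁻¹ • w = -((dist y b)⁻¹ • v) := by
  set α := dist y a with hα
  set β := dist y b with hβ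
  have h1 := hasFDerivAt_chart (n := n) (mdiff_left (LN_sc L hy ha))
  have h2 := hasFDerivAt_chart (n := n) (mdiff_left (LN_sc L hy hb))
  have h3 := (h1.const_mul α⁻¹).add (h2.const_mul β⁻¹)
  have hmin : IsLocalMin (fun p : EE n => α⁻¹ * halfDistSq ((extChartAt (𝓡 n) y).symm p) a +
      β⁻¹ * halfDistSq ((extChartAt (𝓡 n) y).symm p) b) (o y) := by
    refine Filter.Eventually.of_forall fun p => ?_
    dsimp only
    rw [symm_o]
    set q := (extChartAt (𝓡 n) y).symm p
    unfold halfDistSq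
    have t1 : α + β ≤ dist q a + dist q b := by
      have := dist_triangle a q b
      rw [dist_comm a q] at this
      have h4 : dist a y = α := by rw [hα, dist_comm]
      linarith
    have e1 : α⁻¹ * (dist y a ^ 2 / 2) + β⁻¹ * (dist y b ^ 2 / 2) = (α + β) / 2 := by
      rw [← hα, ← hβ]; field_simp
    rw [e1]
    have e2 : α⁻¹ * (dist q a ^ 2 / 2) + β⁻¹ * (dist q b ^ 2 / 2) =
        (dist q a + dist q b) - (α + β) / 2 + (α⁻¹ * (dist q a - α) ^ 2 / 2 +
          β⁻¹ * (dist q b - β) ^ 2 / 2) := by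
      field_simp; ring
    rw [e2]
    have e3 : 0 ≤ α⁻¹ * (dist q a - α) ^ 2 / 2 + β⁻¹ * (dist q b - β) ^ 2 / 2 := by positivity
    linarith
  have h4 := hmin.hasFDerivAt_eq_zero h3
  have key : α⁻¹ • w + β⁻¹ • v = 0 := by
    refine ext_inner_right ℝ (fun ξ => ?_)
    have h5 := congrArg (fun L : EE n →L[ℝ] ℝ => L (ξ : EE n)) h4
    have h6 : α⁻¹ * dL n (fun x' => halfDistSq x' a) y ξ +
        β⁻¹ * dL n (fun x' => halfDistSq x' b) y ξ = 0 := h5
    have h7 := L.grad y hy w (by rw [hw]; exact ha) ξ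
    have h8 := L.grad y hy v (by rw [hv]; exact hb) ξ
    rw [hwe] at h7
    rw [hve] at h8
    rw [h7, h8] at h6
    rw [inner_add_left, real_inner_smul_left, real_inner_smul_left, inner_zero_left]
    linarith
  exact eq_neg_of_add_eq_zero_left key

/-- **local non-branching** -/
theorem LN_nb {y : M} (hy : y ∈ L.W) {a a' b : M} (ha : dist y a < L.r)
    (hb : dist y b < L.r) (hb0 : 0 < dist y b) (haa : dist y a = dist y a')
    (h : dist a y + dist y b = dist a b) (h' : dist a' y + dist y b = dist a' b) : a = a' := by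
  rcases eq_or_lt_of_le (dist_nonneg (x := y) (y := a)) with h0 | h0
  · have e1 : y = a := dist_eq_zero.1 h0.symm
    have e2 : y = a' := dist_eq_zero.1 (by rw [← haa]; exact h0.symm)
    rw [← e1, ← e2]
  · obtain ⟨w, hw, hwe⟩ := L.surj y hy a ha
    obtain ⟨w', hw', hwe'⟩ := L.surj y hy a' (by rw [← haa]; exact ha)
    obtain ⟨v, hv, hve⟩ := L.surj y hy b hb
    have k1 := LN_opp L hy ha hb h0 hb0 h hw hwe hv hve
    have k2 := LN_opp L hy (by rw [← haa]; exact ha) hb (by rw [← haa]; exact h0) hb0 h'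
      hw' hwe' hv hve
    rw [← haa] at k2
    have k3 : (dist y a)⁻¹ • w = (dist y a)⁻¹ • w' := by rw [k1, k2]
    have hne : (dist y a)⁻¹ ≠ 0 := inv_ne_zero h0.ne'
    have k4 : w = w' := by
      have := congrArg (fun u => (dist y a) • u) k3
      simp only [smul_smul] at this
      rwa [mul_inv_cancel₀ h0.ne', one_smul, one_smul] at this
    rw [← hwe, ← hwe', k4]

end

section
variable {n : ℕ} {M : Type*} [MetricSpace M] [ChartedSpace (EuclideanSpace ℝ (Fin n)) M]
  [IsManifold (𝓡 n) ∞ M]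
  [RiemannianBundle (fun p : M => TangentSpace (𝓡 n) p)]
  [IsContMDiffRiemannianBundle (𝓡 n) ∞ (EuclideanSpace ℝ (Fin n)) (fun p : M => TangentSpace (𝓡 n) p)]

theorem nonempty_localNear [IsRiemannianManifold (𝓡 n) M] (x₀ : M) :
    Nonempty (LocalNear n M x₀) := by
  obtain ⟨L⟩ := exists_locGeo (isLC_gm (n := n) x₀) (mem_chart_target _ x₀)
  exact localNear (distFacts x₀ L)

variable (n) in
/-- uniform local facts on a set -/
structure LocU {M : Type*} [MetricSpace M] [ChartedSpace (EuclideanSpace ℝ (Fin n)) M]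
    (K : Set M) (r : ℝ) : Prop where
  pos : 0 < r
  sc : ∀ z ∈ K, ∀ y, dist z y < r → SC n z y
  nd : ∀ z ∈ K, ∀ y, dist z y < r → ND (cc (n := n) z y) (o z, o y)
  nb : ∀ z ∈ K, ∀ a a' b : M, dist z a < r → dist z b < r → 0 < dist z b →
    dist z a = dist z a' → dist a z + dist z b = dist a b → dist a' z + dist z b = dist a' b →
    a = a'

variable (n) in
theorem exists_radius [IsRiemannianManifold (𝓡 n) M] {K : Set M} (hK : IsCompact K) :
    ∃ r : ℝ, 0 < r ∧ ∀ z ∈ K, ∃ x₀ : M, ∃ L : LocalNear n M x₀, z ∈ L.W ∧ r ≤ L.r := by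
  classical
  have L : ∀ x₀ : M, LocalNear n M x₀ := fun x₀ => (nonempty_localNear x₀).some
  obtain ⟨s, -, hs⟩ := hK.elim_nhds_subcover (fun x₀ => (L x₀).W)
    (fun x₀ _ => (L x₀).isOpen_W.mem_nhds (L x₀).mem_W)
  obtain ⟨r, hr, hrle⟩ := exists_pos_le s (fun j => (L j).r) (fun j _ => (L j).r_pos)
  refine ⟨r, hr, fun z hz => ?_⟩
  have := hs hz
  simp only [mem_iUnion, exists_prop] at this
  obtain ⟨i, hi, hzi⟩ := this
  exact ⟨i, L i, hzi, hrle i hi⟩

variable (n) in
theorem exists_locU [IsRiemannianManifold (𝓡 n) M] {K : Set M} (hK : IsCompact K) :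
    ∃ r : ℝ, LocU n K r := by
  obtain ⟨r, hr, h⟩ := exists_radius n hK
  refine ⟨r, hr, ?_, ?_, ?_⟩
  · intro z hz y hy
    obtain ⟨x₀, L, hL, hrL⟩ := h z hz
    exact LN_sc L hL (hy.trans_le hrL)
  · intro z hz y hy
    obtain ⟨x₀, L, hL, hrL⟩ := h z hz
    exact LN_nd L hL (hy.trans_le hrL)
  · intro z hz a a' b ha hb hb0 haa h1 h2
    obtain ⟨x₀, L, hL, hrL⟩ := h z hz
    exact LN_nb L hL (ha.trans_le hrL) (hb.trans_le hrL) hb0 haa h1 h2

end

end Crest.Agent.R247.Sm879
end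

-- ▼ part R247/Sm3_879
section

/-!
R247 (helper879), block (6b), file 3: non-branching, uniqueness of interior points of minimisers,
smoothness of the cost `d²/2` at `(x, y)` when `y` is interior to a minimiser from `x`.
No compactness of `M`: only `ProperSpace M` and exact intermediate points.
-/

set_option autoImplicit false
set_option maxSynthPendingDepth 3
set_option linter.unusedSectionVars false

open Bundle Set Filter Topology
open scoped Manifold ContDiff
open Crest.GeometryTopology.MTW Crest.Agent.R244 Crest.Agent.R226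
open Crest.Agent.R226.DiffAE225 Crest.Agent.R226.EucMin77 Crest.Agent.R226.MTWConc117
open Crest.Agent.R226.ChartCost77 Crest.Agent.R226.Index77
open Crest.Agent.R226.NearLem90 (dL halfDistSq_comm)
open Crest.Agent.R226.NearDiagThm996 Crest.Agent.R226.LocalNearThm996
open Crest.Agent.R226.NearDiagFinal996 Crest.Agent.R226.ChartMet842 Crest.Agent.R226.GeoLoc577
open Crest.Agent.R226.CutSmooth77 (SC three_point)

namespace Crest.Agent.R247.Sm879

section metric
variable {M : Type*} [MetricSpace M]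

/-- exact intermediate points -/
def ExM (M : Type*) [MetricSpace M] : Prop :=
  ∀ a b : M, ∀ t ∈ Icc (0 : ℝ) 1, ∃ c, dist a c = t * dist a b ∧ dist c b = (1 - t) * dist a b

theorem ExM.pt (hm : ExM M) (a b : M) {t : ℝ} (h0 : 0 ≤ t) (h1 : t ≤ dist a b) :
    ∃ c, dist a c = t ∧ dist c b = dist a b - t := by
  rcases eq_or_lt_of_le (dist_nonneg (x := a) (y := b)) with h | h
  · refine ⟨a, ?_, ?_⟩
    · rw [dist_self]; linarith
    · linarith
  · obtain ⟨c, hc1, hc2⟩ := hm a b (t / dist a b) ⟨by positivity, (div_le_one h).2 h1⟩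
    refine ⟨c, ?_, ?_⟩
    · rw [hc1]; field_simp
    · rw [hc2]; field_simp

/-- non-branching, uniform version -/
theorem nb_aux {K : Set M} {r : ℝ} (hr : 0 < r)
    (nb : ∀ z ∈ K, ∀ a a' b : M, dist z a < r → dist z b < r → 0 < dist z b →
      dist z a = dist z a' → dist a z + dist z b = dist a b → dist a' z + dist z b = dist a' b →
      a = a')
    (hm : ExM M) {y y' : M} (hy : y ≠ y') {R : ℝ} (hK : ∀ c, dist c y ≤ R → c ∈ K) (k : ℕ) :
    ∀ c c' : M, dist c y + dist y y' = dist c y' → dist c' y + dist y y' = dist c' y' →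
      dist c y = dist c' y → dist c y ≤ R → dist c y < k * (r / 2) → c = c' := by
  have hy0 : 0 < dist y y' := dist_pos.2 hy
  induction k with
  | zero =>
    intro c c' _ _ _ _ h
    have := dist_nonneg (x := c) (y := y)
    simp at h
    linarith
  | succ k ih =>
    intro c c' h1 h2 h3 hR h4
    set t := dist c y with ht
    have ht0 : 0 ≤ t := dist_nonneg
    rcases lt_or_ge t r with htr | htr
    · -- the base point is `y`
      obtain ⟨e, he1, he2⟩ := hm.pt y y' (t := min (dist y y') (r / 2)) (by positivity)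
        (min_le_left _ _)
      have he0 : 0 < dist y e := by rw [he1]; positivity
      have her : dist y e < r := by
        rw [he1]
        exact (min_le_right _ _).trans_lt (by linarith)
      have hee : dist y e + dist e y' = dist y y' := by rw [he1, he2]; ring
      have hyK : y ∈ K := hK y (by rw [dist_self]; linarith)
      refine nb y hyK c c' e (by rw [dist_comm, ← ht]; exact htr) her he0 ?_ ?_ ?_
      · rw [dist_comm y c, dist_comm y c', ← ht, h3]
      · apply le_antisymm _ (dist_triangle c y e)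
        have := dist_triangle c e y'
        linarith
      · apply le_antisymm _ (dist_triangle c' y e)
        have := dist_triangle c' e y'
        linarith
    · obtain ⟨b, hb1, hb2⟩ := hm.pt c y (t := r / 2) (by linarith) (by linarith)
      obtain ⟨b', hb1', hb2'⟩ := hm.pt c' y (t := r / 2) (by linarith) (by linarith)
      have hb3 : dist b y + dist y y' = dist b y' := by
        apply le_antisymm _ (dist_triangle b y y')
        have := dist_triangle c b y'
        linarith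
      have hb3' : dist b' y + dist y y' = dist b' y' := by
        apply le_antisymm _ (dist_triangle b' y y')
        have := dist_triangle c' b' y'
        linarith
      have hbb : b = b' := by
        apply ih b b' hb3 hb3' (by rw [hb2, hb2', ← ht, h3]) (by rw [hb2, ← ht]; linarith)
        rw [hb2, ← ht]
        push_cast at h4
        linarith
      subst hbb
      obtain ⟨e, he1, he2⟩ := hm.pt b y (t := r / 2) (by linarith) (by rw [hb2]; linarith)
      have hbK : b ∈ K := hK b (by rw [hb2]; linarith)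
      refine nb b hbK c c' e (by rw [dist_comm, hb1]; linarith) (by rw [he1]; linarith)
        (by rw [he1]; linarith) ?_ ?_ ?_
      · rw [dist_comm b c, dist_comm b c', hb1, hb1']
      · apply le_antisymm _ (dist_triangle c b e)
        have := dist_triangle c e y
        linarith
      · apply le_antisymm _ (dist_triangle c' b e)
        have := dist_triangle c' e y
        linarith

/-- convergence of midpoints to a unique midpoint -/
theorem tendsto_mid [ProperSpace M] {m : M × M → M}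
    (hm : ∀ q : M × M, dist q.1 (m q) = dist q.1 q.2 / 2 ∧ dist (m q) q.2 = dist q.1 q.2 / 2)
    {x y z : M} (hz : ∀ c, dist x c = dist x y / 2 → dist c y = dist x y / 2 → c = z) :
    Tendsto m (𝓝 (x, y)) (𝓝 z) := by
  have hc1 : Tendsto (fun q : M × M => dist q.1 q.2) (𝓝 (x, y)) (𝓝 (dist x y)) :=
    (continuous_fst.dist continuous_snd).tendsto (x, y)
  have hc2 : Tendsto (fun q : M × M => dist x q.1) (𝓝 (x, y)) (𝓝 (dist x x)) :=
    (continuous_const.dist continuous_fst).tendsto (x, y)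
  refine (isCompact_closedBall x (dist x y + 2)).tendsto_nhds_of_unique_mapClusterPt ?_ ?_
  · have e1 : ∀ᶠ q in 𝓝 (x, y), dist q.1 q.2 < dist x y + 1 :=
      hc1.eventually (gt_mem_nhds (by linarith))
    have e2 : ∀ᶠ q : M × M in 𝓝 (x, y), dist x q.1 < 1 :=
      hc2.eventually (gt_mem_nhds (by rw [dist_self]; norm_num))
    filter_upwards [e1, e2] with q h1 h2
    rw [Metric.mem_closedBall, dist_comm]
    have h3 := (hm q).1
    have h4 := dist_triangle x q.1 (m q)
    have h5 := dist_nonneg (x := q.1) (y := q.2)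
    have h6 := dist_nonneg (x := x) (y := y)
    linarith
  · intro c _ hc
    obtain ⟨U, hU, hUc⟩ := mapClusterPt_iff_ultrafilter.1 hc
    have l1 : Tendsto (fun q : M × M => q.1) U (𝓝 x) := (continuous_fst.tendsto (x, y)).mono_left hU
    have l2 : Tendsto (fun q : M × M => q.2) U (𝓝 y) := (continuous_snd.tendsto (x, y)).mono_left hU
    have l3 : Tendsto (fun q : M × M => dist q.1 (m q)) U (𝓝 (dist x c)) := l1.dist hUc
    have l4 : Tendsto (fun q : M × M => dist (m q) q.2) U (𝓝 (dist c y)) := hUc.dist l2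
    have l5 : Tendsto (fun q : M × M => dist q.1 q.2 / 2) U (𝓝 (dist x y / 2)) :=
      (l1.dist l2).div_const 2
    apply hz
    · exact tendsto_nhds_unique l3 (l5.congr fun q => ((hm q).1).symm)
    · exact tendsto_nhds_unique l4 (l5.congr fun q => ((hm q).2).symm)

theorem half_le_mid (a b c : M) :
    halfDistSq a b ≤ 2 * halfDistSq a c + 2 * halfDistSq c b := by
  unfold halfDistSq
  have h1 := dist_triangle a c b
  have h2 := dist_nonneg (x := a) (y := b)
  nlinarith [sq_nonneg (dist a c - dist c b)]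

end metric

section
variable {n : ℕ} {M : Type*} [MetricSpace M] [ChartedSpace (EuclideanSpace ℝ (Fin n)) M]
  [IsManifold (𝓡 n) ∞ M]

theorem contDiffAt_slice' {y y' : M} (h : SC n y y') :
    ContDiffAt ℝ ∞ (fun b : EE n => cc (n := n) y y' (b, o y')) (o y) := by
  have h1 := cc_contDiffAt h
  exact ContDiffAt.comp (o y) (f := fun b : EE n => (b, (o y' : EE n))) h1
    (contDiffAt_id.prodMk contDiffAt_const)

/-- **index lemma** -/
theorem index_pos' {x z y y' : M} (h1 : SC n x z) (h2 : SC n z y)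
    (n2 : ND (cc (n := n) z y) (o z, o y)) (h3 : SC n y y')
    (d1 : dist x z = dist x y / 2) (d2 : dist z y = dist x y / 2)
    (hb : dist x y + dist y y' = dist x y') (hxy : x ≠ y) (hy : y ≠ y')
    {h : EE n} (hh : h ≠ 0) :
    0 < fderiv ℝ (fderiv ℝ (cc (n := n) x z)) (o x, o z) (0, h) (0, h) +
      fderiv ℝ (fderiv ℝ (cc (n := n) z y)) (o z, o y) (h, 0) (h, 0) := by
  have h2le : (2 : WithTop ℕ∞) ≤ ∞ := ENat.LEInfty.out
  set D := dist x y with hD
  have hD0 : 0 < D := dist_pos.2 hxy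
  set e := dist y y' with he
  have he0 : 0 < e := dist_pos.2 hy
  set s := e / D with hs
  have hs0 : 0 < s := by positivity
  have hsD : s * D = e := by rw [hs]; field_simp
  have hc3 : ContDiffAt ℝ 2 (fun b : EE n => cc (n := n) y y' (b, o y') / s) (o y) :=
    ((contDiffAt_slice' h3).of_le h2le).div_const s
  refine index_euc (f₃ := fun b : EE n => cc (n := n) y y' (b, o y') / s)
    ((cc_contDiffAt h1).of_le h2le) ((cc_contDiffAt h2).of_le h2le) hc3 ?_ ?_ hh
  · refine Filter.Eventually.of_forall fun q => ?_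
    have hq : halfDistSq x y' / (1 + s) ≤
        2 * cc (n := n) x z (o x, q.1) + 2 * cc (n := n) z y q + cc (n := n) y y' (q.2, o y') / s := by
      have := three_point x ((extChartAt (𝓡 n) z).symm q.1) ((extChartAt (𝓡 n) y).symm q.2) y' hs0
      simpa only [cc, symm_o] using this
    have h0 : 2 * cc (n := n) x z (o x, o z) + 2 * cc (n := n) z y (o z, o y) +
        cc (n := n) y y' (o y, o y') / s = halfDistSq x y' / (1 + s) := by
      rw [cc_o, cc_o, cc_o]
      unfold halfDistSq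
      rw [d1, d2, ← hb, ← he, ← hsD]
      field_simp
      ring
    show 2 * cc (n := n) x z (o x, o z) + 2 * cc (n := n) z y (o z, o y) +
        cc (n := n) y y' (o y, o y') / s ≤ _
    rw [h0]
    exact hq
  · intro h hh
    exact n2 h hh

/-- **smoothness step** -/
theorem sn_step [ProperSpace M] (hm : ExM M) {x z y y' : M}
    (h1 : SC n x z) (n1 : ND (cc (n := n) x z) (o x, o z))
    (h2 : SC n z y) (n2 : ND (cc (n := n) z y) (o z, o y)) (h3 : SC n y y')
    (d1 : dist x z = dist x y / 2) (d2 : dist z y = dist x y / 2)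
    (hz : ∀ c, dist x c = dist x y / 2 → dist c y = dist x y / 2 → c = z)
    (hb : dist x y + dist y y' = dist x y') (hxy : x ≠ y) (hy : y ≠ y') :
    SC n x y ∧ ND (cc (n := n) x y) (o x, o y) := by
  have hex : ∀ q : M × M, ∃ c, dist q.1 c = dist q.1 q.2 / 2 ∧ dist c q.2 = dist q.1 q.2 / 2 := by
    intro q
    obtain ⟨c, hc1, hc2⟩ := hm q.1 q.2 (1 / 2) ⟨by norm_num, by norm_num⟩
    exact ⟨c, by rw [hc1]; ring, by rw [hc2]; ring⟩
  choose m hmm using hex
  let X : EE n × EE n → M × M := fun p =>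
    ((extChartAt (𝓡 n) x).symm p.1, (extChartAt (𝓡 n) y).symm p.2)
  have hX : Tendsto X (𝓝 (o x, o y)) (𝓝 (x, y)) :=
    ((tendsto_symm x).comp (continuous_fst.tendsto ((o x : EE n), (o y : EE n)))).prodMk_nhds
      ((tendsto_symm y).comp (continuous_snd.tendsto ((o x : EE n), (o y : EE n))))
  have hmX : Tendsto (fun p => m (X p)) (𝓝 (o x, o y)) (𝓝 z) := (tendsto_mid hmm hz).comp hX
  have hsrc : ∀ᶠ p in 𝓝 ((o x : EE n), (o y : EE n)), m (X p) ∈ (extChartAt (𝓡 n) z).source :=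
    hmX.eventually (extChartAt_source_mem_nhds (I := 𝓡 n) z)
  have hmid : ∀ q : M × M, halfDistSq q.1 q.2 =
      2 * halfDistSq q.1 (m q) + 2 * halfDistSq (m q) q.2 := by
    intro q
    unfold halfDistSq
    rw [(hmm q).1, (hmm q).2]
    ring
  have hval : ∀ᶠ p in 𝓝 ((o x : EE n), (o y : EE n)), cc (n := n) x y p =
      2 * cc (n := n) x z (p.1, extChartAt (𝓡 n) z (m (X p))) +
      2 * cc (n := n) z y (extChartAt (𝓡 n) z (m (X p)), p.2) := by
    filter_upwards [hsrc] with p hp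
    simp only [cc, (extChartAt (𝓡 n) z).left_inv hp]
    exact hmid (X p)
  have key := value_step2 (f₁ := cc (n := n) x z) (f₂ := cc (n := n) z y) (V := cc (n := n) x y)
    (ζ := fun p => extChartAt (𝓡 n) z (m (X p))) (ζ₀ := o z)
    (cc_contDiffAt h1) (cc_contDiffAt h2) n1 n2
    (fun h hh => index_pos' h1 h2 n2 h3 d1 d2 hb hxy hy hh) ((tendsto_chart z).comp hmX) hval
    (by
      filter_upwards [hval] with p hp
      refine Filter.Eventually.of_forall fun ζ => ?_
      show 2 * cc (n := n) x z (p.1, extChartAt (𝓡 n) z (m (X p))) +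
        2 * cc (n := n) z y (extChartAt (𝓡 n) z (m (X p)), p.2) ≤ _
      rw [← hp]
      exact half_le_mid _ _ _)
  exact ⟨contMDiffAt_of_cc key.2.1, key.2.2⟩

end

section
variable {n : ℕ} {M : Type*} [MetricSpace M] [ChartedSpace (EuclideanSpace ℝ (Fin n)) M]
  [IsManifold (𝓡 n) ∞ M]

/-- symmetry of smoothness -/
theorem sc_symm {x y : M} (h : SC n x y) : SC n y x := by
  have h1 : ContMDiffAt ((𝓡 n).prod (𝓡 n)) ((𝓡 n).prod (𝓡 n)) ∞
      (fun q : M × M => (q.2, q.1)) (y, x) := contMDiffAt_snd.prodMk contMDiffAt_fst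
  have h2 : ContMDiffAt ((𝓡 n).prod (𝓡 n)) 𝓘(ℝ) ∞ (fun q : M × M => halfDistSq q.1 q.2)
    ((fun q : M × M => (q.2, q.1)) (y, x)) := h
  have h3 := h2.comp (y, x) h1
  refine h3.congr_of_eventuallyEq (Filter.Eventually.of_forall fun q => ?_)
  simp only [halfDistSq, Function.comp_apply, dist_comm]

theorem sc_eventually {x y : M} (h : SC n x y) {m : ℕ∞} (hm : m ≠ ⊤) :
    ∀ᶠ q : M × M in 𝓝 (x, y), ContMDiffAt ((𝓡 n).prod (𝓡 n)) 𝓘(ℝ) m
      (fun q : M × M => halfDistSq q.1 q.2) q := by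
  have h1 : ContMDiffAt ((𝓡 n).prod (𝓡 n)) 𝓘(ℝ) m (fun q : M × M => halfDistSq q.1 q.2) (x, y) :=
    ContMDiffAt.of_le h (by exact_mod_cast le_top)
  exact (contMDiffAt_iff_contMDiffAt_nhds (by simpa using hm)).1 h1

end

section
variable {n : ℕ} {M : Type*} [MetricSpace M] [ChartedSpace (EuclideanSpace ℝ (Fin n)) M]
  [IsManifold (𝓡 n) ∞ M]
  [RiemannianBundle (fun p : M => TangentSpace (𝓡 n) p)]
  [IsContMDiffRiemannianBundle (𝓡 n) ∞ (EuclideanSpace ℝ (Fin n)) (fun p : M => TangentSpace (𝓡 n) p)]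
  [IsRiemannianManifold (𝓡 n) M] [ProperSpace M]

variable (n) in
include n in
/-- **non-branching**: minimisers do not branch -/
theorem nonbranching (hm : ExM M) {y y' : M} (hy : y ≠ y') {c c' : M}
    (h1 : dist c y + dist y y' = dist c y') (h2 : dist c' y + dist y y' = dist c' y')
    (h3 : dist c y = dist c' y) : c = c' := by
  obtain ⟨r, hr⟩ := exists_locU n (isCompact_closedBall y (dist c y))
  obtain ⟨k, hk⟩ := exists_nat_gt (dist c y / (r / 2))
  have hr0 := hr.pos
  exact nb_aux hr.pos hr.nb hm hy (R := dist c y) (fun c hc => hc) k c c' h1 h2 h3 le_rfl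
    ((div_lt_iff₀ (by positivity)).1 hk)

variable (n) in
include n in
/-- uniqueness of interior points of minimisers -/
theorem mid_unique (hm : ExM M) {x y y' : M} (hb : dist x y + dist y y' = dist x y')
    (hy : y ≠ y') {c c' : M} (h1 : dist x c + dist c y = dist x y)
    (h2 : dist x c' + dist c' y = dist x y) (h3 : dist c y = dist c' y) : c = c' := by
  refine nonbranching n hm hy ?_ ?_ h3
  · apply le_antisymm _ (dist_triangle c y y')
    have := dist_triangle x c y'
    linarith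
  · apply le_antisymm _ (dist_triangle c' y y')
    have := dist_triangle x c' y'
    linarith

/-- **smoothness of the cost at interior points of minimisers** (with nondegenerate mixed
Hessian) -/
theorem sn_of_btw (hm : ExM M) {x y y' : M} (hb : dist x y + dist y y' = dist x y')
    (hy : y ≠ y') : SC n x y ∧ ND (cc (n := n) x y) (o x, o y) := by
  obtain ⟨r, hr⟩ := exists_locU n (isCompact_closedBall x (dist x y))
  have hr0 := hr.pos
  have key : ∀ k : ℕ, ∀ a b b' : M, dist x a + dist a b ≤ dist x y →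
      dist a b + dist b b' = dist a b' → b ≠ b' → dist a b < 2 ^ k * r →
      SC n a b ∧ ND (cc (n := n) a b) (o a, o b) := by
    have near : ∀ a b : M, dist x a + dist a b ≤ dist x y → dist a b < r →
        SC n a b ∧ ND (cc (n := n) a b) (o a, o b) := by
      intro a b h1 h2
      have ha : a ∈ Metric.closedBall x (dist x y) := by
        rw [Metric.mem_closedBall, dist_comm]
        have := dist_nonneg (x := a) (y := b)
        linarith
      exact ⟨hr.sc a ha b h2, hr.nd a ha b h2⟩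
    intro k
    induction k with
    | zero =>
      intro a b b' h1 _ _ h4
      exact near a b h1 (by simpa using h4)
    | succ k ih =>
      intro a b b' h1 h2 h3 h4
      rcases lt_or_ge (dist a b) r with h5 | h5
      · exact near a b h1 h5
      have hab : a ≠ b := by
        rintro rfl
        rw [dist_self] at h5
        linarith
      have hab0 : 0 < dist a b := dist_pos.2 hab
      obtain ⟨z, hz1, hz2⟩ := hm.pt a b (t := dist a b / 2) (by linarith) (by linarith)
      have hz2' : dist z b = dist a b / 2 := by rw [hz2]; ring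
      have hzb : z ≠ b := by
        rintro rfl
        rw [dist_self] at hz2'
        linarith
      have hlt : dist a b / 2 < 2 ^ k * r := by
        rw [pow_succ] at h4
        linarith
      have hbtw : dist z b + dist b b' = dist z b' := by
        apply le_antisymm _ (dist_triangle z b b')
        have := dist_triangle a z b'
        linarith
      have s1 := ih a z b (by rw [hz1]; linarith) (by rw [hz1, hz2']; ring) hzb
        (by rw [hz1]; exact hlt)
      have s2 := ih z b b' (by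
        have := dist_triangle x a z
        linarith) hbtw h3 (by rw [hz2']; exact hlt)
      -- a near extension point
      have hb'0 : 0 < dist b b' := dist_pos.2 h3
      obtain ⟨e, he1, he2⟩ := hm.pt b b' (t := min (dist b b') (r / 2)) (by positivity)
        (min_le_left _ _)
      have he0 : 0 < dist b e := by rw [he1]; positivity
      have hbe : b ≠ e := dist_pos.1 he0
      have her : dist b e < r := by
        rw [he1]; exact (min_le_right _ _).trans_lt (by linarith)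
      have hbK : b ∈ Metric.closedBall x (dist x y) := by
        rw [Metric.mem_closedBall, dist_comm]
        have := dist_triangle x a b
        linarith
      have s3 := hr.sc b hbK e her
      have hbtw2 : dist a b + dist b e = dist a e := by
        apply le_antisymm _ (dist_triangle a b e)
        have := dist_triangle a e b'
        linarith
      refine sn_step hm s1.1 s1.2 s2.1 s2.2 s3 hz1 hz2' ?_ hbtw2 hab hbe
      intro c hc1 hc2
      exact mid_unique n hm h2 h3 (by rw [hc1, hc2]; ring) (by rw [hz1, hz2']; ring)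
        (by rw [hc2, hz2'])
  obtain ⟨k, hk⟩ : ∃ k : ℕ, dist x y / r < 2 ^ k := pow_unbounded_of_one_lt _ (by norm_num)
  exact key k x y y' (by rw [dist_self]; linarith) hb hy ((div_lt_iff₀ hr0).1 hk)

theorem sc_of_btw (hm : ExM M) {x y y' : M} (hb : dist x y + dist y y' = dist x y')
    (hy : y ≠ y') : SC n x y := (sn_of_btw hm hb hy).1

theorem sc_of_btw' (hm : ExM M) {x' x y : M} (hb : dist x' x + dist x y = dist x' y)
    (hx : x' ≠ x) : SC n x y := by
  apply sc_symm
  refine sc_of_btw hm (x := y) (y := x) (y' := x') ?_ hx.symm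
  rw [dist_comm y x, dist_comm x x', dist_comm y x', add_comm]
  exact hb

end

end Crest.Agent.R247.Sm879
end

-- ▼ part R247/Sm4_879

/-!
R247 (helper879), block (6b), file 4: the gradient of the cost, eikonal equation (on `M` and in
charts), non-branching in the form `NonBr`.
-/

set_option autoImplicit false
set_option maxSynthPendingDepth 3
set_option linter.unusedSectionVars false

open Bundle Set Filter Topology
open scoped Manifold ContDiff
open Crest.GeometryTopology.CoordMetric Crest.GeometryTopology.ChartCurvature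
open Crest.GeometryTopology.MTW Crest.Agent.R244 Crest.Agent.R226
open Crest.Agent.R226.ChartCost77
open Crest.Agent.R226.NearLem90 (dL halfDistSq_comm)
open Crest.Agent.R226.NearDiagThm996
open Crest.Agent.R226.ChartMet842
open Crest.Agent.R226.CutSmooth77 (SC three_point)
open Crest.Agent.R202.Tens Crest.Agent.R247.Ms322 Crest.Agent.R247.Bo84

namespace Crest.Agent.R247.Sm879

theorem ExM.of_exactMid {M : Type*} [MetricSpace M] (h : HR216.ExactMid M) : ExM M :=
  fun a b t ht => h a b t ht.1 ht.2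

section
variable {n : ℕ} {M : Type*} [MetricSpace M] [ChartedSpace (EuclideanSpace ℝ (Fin n)) M]
  [IsManifold (𝓡 n) ∞ M]
  [RiemannianBundle (fun p : M => TangentSpace (𝓡 n) p)]

/-- **first variation** -/
theorem LN_grad {x₀ : M} (L : LocalNear n M x₀) {y : M} (hy : y ∈ L.W) {x c : M} (h : SC n y x)
    (hc : dist x c + dist c y = dist x y) {v : TangentSpace (𝓡 n) y} (hv : ‖v‖ = dist y c)
    (hvr : ‖v‖ < L.r) (hve : L.e y v = c) (hα : 0 < dist y c) (ξ : TangentSpace (𝓡 n) y) :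
    dL n (fun q => halfDistSq q x) y ξ = -(dist x y / dist y c) * inner ℝ v ξ := by
  set D := dist x y with hD
  set α := dist y c with hαd
  set u := dist x c with hu
  have hu0 : 0 ≤ u := dist_nonneg
  have hcy : dist c y = α := by rw [hαd, dist_comm]
  have hDu : D = u + α := by rw [← hc, hcy]
  have h1 := hasFDerivAt_chart (n := n) (mdiff_left (LN_sc L hy (by rw [← hαd, ← hv]; exact hvr)))
  have h2 := hasFDerivAt_chart (n := n) (mdiff_left h)
  have h3 := (h1.const_mul (D / α)).sub h2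
  have hmin : IsLocalMin (fun p : EE n => D / α * halfDistSq ((extChartAt (𝓡 n) y).symm p) c -
      halfDistSq ((extChartAt (𝓡 n) y).symm p) x) (o y) := by
    refine Filter.Eventually.of_forall fun p => ?_
    dsimp only
    rw [symm_o]
    set q := (extChartAt (𝓡 n) y).symm p
    unfold halfDistSq
    have t1 : dist q x ≤ dist q c + u := by
      have := dist_triangle q c x
      rwa [dist_comm c x] at this
    have e1 : D / α * (dist y c ^ 2 / 2) - dist y x ^ 2 / 2 = -(u * D / 2) := by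
      rw [← hαd, dist_comm y x, ← hD, hDu]; field_simp; ring
    rw [e1]
    have e2 : D / α * (dist q c ^ 2 / 2) + u * D / 2 - (dist q c + u) ^ 2 / 2 =
        u * (α - dist q c) ^ 2 / (2 * α) := by
      rw [hDu]; field_simp; ring
    have e3 : 0 ≤ u * (α - dist q c) ^ 2 / (2 * α) := by positivity
    have e4 : dist q x ^ 2 ≤ (dist q c + u) ^ 2 := by
      have := dist_nonneg (x := q) (y := x)
      gcongr
    linarith
  have h4 := hmin.hasFDerivAt_eq_zero h3
  have h5 := congrArg (fun L : EE n →L[ℝ] ℝ => L (ξ : EE n)) h4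
  have h6 : D / α * dL n (fun x' => halfDistSq x' c) y ξ -
      dL n (fun x' => halfDistSq x' x) y ξ = 0 := h5
  have h7 := L.grad y hy v hvr ξ
  rw [hve] at h7
  rw [h7] at h6
  linarith

/-- derivative at the diagonal -/
theorem dL_diag {x : M} (h : SC n x x) (ξ : TangentSpace (𝓡 n) x) :
    dL n (fun q => halfDistSq q x) x ξ = 0 := by
  have h2 := hasFDerivAt_chart (n := n) (mdiff_left h)
  have hmin : IsLocalMin (fun p : EE n => halfDistSq ((extChartAt (𝓡 n) x).symm p) x) (o x) := by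
    refine Filter.Eventually.of_forall fun p => ?_
    dsimp only
    rw [symm_o]
    unfold halfDistSq
    rw [dist_self]
    have := sq_nonneg (dist ((extChartAt (𝓡 n) x).symm p) x)
    linarith
  have h4 := hmin.hasFDerivAt_eq_zero h2
  exact congrArg (fun L : EE n →L[ℝ] ℝ => L (ξ : EE n)) h4

end

section
variable {n : ℕ} {M : Type*} [MetricSpace M] [ChartedSpace (EuclideanSpace ℝ (Fin n)) M]
  [IsManifold (𝓡 n) ∞ M]
  [RiemannianBundle (fun p : M => TangentSpace (𝓡 n) p)]
  [IsContMDiffRiemannianBundle (𝓡 n) ∞ (EuclideanSpace ℝ (Fin n)) (fun p : M => TangentSpace (𝓡 n) p)]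

local notation "𝔼" => EuclideanSpace ℝ (Fin n)

/-- chain rule with the inverse chart -/
theorem hasFDerivAt_comp_symm {f : M → ℝ} (x₀ : M) {a : 𝔼} (ha : a ∈ (chartAt 𝔼 x₀).target)
    (hf : MDifferentiableAt (𝓡 n) 𝓘(ℝ) f ((chartAt 𝔼 x₀).symm a)) :
    HasFDerivAt (fun b => f ((chartAt 𝔼 x₀).symm b))
      ((dL n f ((chartAt 𝔼 x₀).symm a)).comp (dS x₀ a)) a := by
  have h2 : HasMFDerivAt 𝓘(ℝ, 𝔼) (𝓡 n) (chartAt 𝔼 x₀).symm a (dS x₀ a) :=
    ((mdifferentiable_chart' x₀).symm.mdifferentiableAt ha).hasMFDerivAt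
  have h3 := (hf.hasMFDerivAt).comp a h2
  exact h3.hasFDerivAt

/-- the metric in the chart in matrix form -/
theorem bil_chartMetric (x₀ : M) (a u v : 𝔼) : bil (chartMetric n M x₀ a) u v = gm x₀ a u v := by
  rw [bil_apply]
  have hu : u = ∑ i, u i • EuclideanSpace.single i (1 : ℝ) := by
    ext j
    simp [Finset.sum_apply, Pi.single_apply]
  have hv : v = ∑ i, v i • EuclideanSpace.single i (1 : ℝ) := by
    ext j
    simp [Finset.sum_apply, Pi.single_apply]
  have key : ∀ B : 𝔼 →L[ℝ] 𝔼 →L[ℝ] ℝ, B u v =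
      ∑ i, ∑ j, B (EuclideanSpace.single i (1 : ℝ)) (EuclideanSpace.single j (1 : ℝ)) *
        u i * v j := by
    intro B
    calc B u v = B u (∑ j, v j • EuclideanSpace.single j (1 : ℝ)) := by rw [← hv]
      _ = ∑ j, v j * B u (EuclideanSpace.single j (1 : ℝ)) := by
          rw [map_sum]
          exact Finset.sum_congr rfl fun j _ => by rw [map_smul, smul_eq_mul]
      _ = ∑ j, v j * ∑ i, u i * B (EuclideanSpace.single i (1 : ℝ))
            (EuclideanSpace.single j (1 : ℝ)) := by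
          refine Finset.sum_congr rfl fun j _ => ?_
          congr 1
          calc B u (EuclideanSpace.single j (1 : ℝ)) =
              B.flip (EuclideanSpace.single j (1 : ℝ)) u := rfl
            _ = B.flip (EuclideanSpace.single j (1 : ℝ))
                (∑ i, u i • EuclideanSpace.single i (1 : ℝ)) := by rw [← hu]
            _ = _ := by
                rw [map_sum]
                exact Finset.sum_congr rfl fun i _ => by rw [map_smul, smul_eq_mul]; rfl
      _ = _ := by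
          conv_rhs => rw [Finset.sum_comm]
          refine Finset.sum_congr rfl fun j _ => ?_
          rw [Finset.mul_sum]
          exact Finset.sum_congr rfl fun i _ => by ring
  rw [key]
  refine Finset.sum_congr rfl fun i _ => Finset.sum_congr rfl fun j _ => ?_
  rw [chartMetric_apply]

/-- **gradient of the cost**: the differential of `q ↦ d(z,q)²/2` at a point of smoothness is
represented by a vector of norm `d(z,y)`. -/
theorem exists_gradv [IsRiemannianManifold (𝓡 n) M] (hm : ExM M) {z y : M} (h : SC n z y) :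
    ∃ W : TangentSpace (𝓡 n) y, ‖W‖ = dist z y ∧
      ∀ ξ : TangentSpace (𝓡 n) y, dL n (fun q => halfDistSq z q) y ξ = inner ℝ W ξ := by
  have hs : SC n y z := sc_symm h
  have hfun : (fun q => halfDistSq z q) = fun q => halfDistSq q z := by
    funext q; exact halfDistSq_comm _ _
  rw [hfun]
  rcases eq_or_ne z y with rfl | hne
  · refine ⟨0, by simp, fun ξ => ?_⟩
    rw [dL_diag hs, inner_zero_left]
  obtain ⟨L⟩ := nonempty_localNear (n := n) y
  have hy := L.mem_W
  have hr := L.r_pos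
  have hD : 0 < dist z y := dist_pos.2 hne
  obtain ⟨c, hc1, hc2⟩ := hm.pt y z (t := min (dist y z) (L.r / 2)) (by positivity)
    (min_le_left _ _)
  have hα : 0 < dist y c := by
    rw [hc1]
    have : 0 < dist y z := by rw [dist_comm]; exact hD
    positivity
  have hcr : dist y c < L.r := by
    rw [hc1]; exact (min_le_right _ _).trans_lt (by linarith)
  have hbt : dist z c + dist c y = dist z y := by
    rw [dist_comm z c, hc2, dist_comm c y, hc1, dist_comm z y]; ring
  obtain ⟨v, hv, hve⟩ := L.surj y hy c hcr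
  refine ⟨-(dist z y / dist y c) • v, ?_, fun ξ => ?_⟩
  · rw [norm_smul, hv, norm_neg, Real.norm_of_nonneg (by positivity)]
    field_simp
  · rw [LN_grad L hy hs hbt hv (by rw [hv]; exact hcr) hve hα ξ, real_inner_smul_left]

/-- the cost from `z` read in the chart at `x₀` -/
noncomputable def fz (z x₀ : M) (b : 𝔼) : ℝ := halfDistSq z ((chartAt 𝔼 x₀).symm b)

/-- **gradient of the cost in a chart** -/
theorem exists_grad_chart [IsRiemannianManifold (𝓡 n) M] (hm : ExM M) {z x₀ : M} {a : 𝔼}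
    (ha : a ∈ (chartAt 𝔼 x₀).target) (h : SC n z ((chartAt 𝔼 x₀).symm a)) :
    ∃ w : 𝔼, (∀ ξ, fderiv ℝ (fz z x₀) a ξ = gm x₀ a w ξ) ∧
      gm x₀ a w w = dist z ((chartAt 𝔼 x₀).symm a) ^ 2 := by
  obtain ⟨W, hW1, hW2⟩ := exists_gradv hm h
  have hd : MDifferentiableAt (𝓡 n) 𝓘(ℝ) (fun q => halfDistSq z q) ((chartAt 𝔼 x₀).symm a) := by
    have hfun : (fun q => halfDistSq z q) = fun q => halfDistSq q z := by
      funext q; exact halfDistSq_comm _ _
    rw [hfun]
    exact mdiff_left (sc_symm h)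
  have h1 := hasFDerivAt_comp_symm x₀ ha hd
  have h2 : fderiv ℝ (fz z x₀) a = (dL n (fun q => halfDistSq z q) ((chartAt 𝔼 x₀).symm a)).comp
      (dS x₀ a) := h1.fderiv
  have hw : dS x₀ a ((dSe x₀ ha).symm W) = W := by
    rw [← dSe_apply x₀ ha]
    exact (dSe x₀ ha).apply_symm_apply W
  refine ⟨(dSe x₀ ha).symm W, fun ξ => ?_, ?_⟩
  · rw [h2, gm_apply, hw]
    exact hW2 _
  · rw [gm_apply, hw, real_inner_self_eq_norm_sq, hW1]

/-- **eikonal equation** in 84's form -/
theorem gam_fz [IsRiemannianManifold (𝓡 n) M] (hm : ExM M) {z x₀ : M} {a : 𝔼}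
    (ha : a ∈ (chartAt 𝔼 x₀).target) (h : SC n z ((chartAt 𝔼 x₀).symm a)) :
    gam (chartMetric n M x₀) (fz z x₀) (fz z x₀) a = 2 * fz z x₀ a := by
  obtain ⟨w, hw1, hw2⟩ := exists_grad_chart hm ha h
  have hg := isRiemannianOn_chartMetric (n := n) (M := M) x₀
  have hgr : grad (chartMetric n M x₀) (fz z x₀) a = w := by
    apply bil_injective hg ha
    intro Z
    rw [bil_grad hg ha, hw1, bil_chartMetric]
  rw [gam_eq_bil hg ha, hgr, bil_chartMetric, hw2]
  unfold fz halfDistSq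
  ring

theorem contDiffAt_fz {z x₀ : M} {a : 𝔼} (ha : a ∈ (chartAt 𝔼 x₀).target)
    (h : SC n z ((chartAt 𝔼 x₀).symm a)) : ContDiffAt ℝ ∞ (fz z x₀) a := by
  rw [← contMDiffAt_iff_contDiffAt]
  have h1 : ContMDiffAt 𝓘(ℝ, 𝔼) (𝓡 n) ∞ (chartAt 𝔼 x₀).symm a :=
    contMDiffOn_chart_symm.contMDiffAt ((chartAt 𝔼 x₀).open_target.mem_nhds ha)
  have h2 : ContMDiffAt 𝓘(ℝ, 𝔼) ((𝓡 n).prod (𝓡 n)) ∞
      (fun b : 𝔼 => (z, (chartAt 𝔼 x₀).symm b)) a := contMDiffAt_const.prodMk h1
  have h3 : ContMDiffAt ((𝓡 n).prod (𝓡 n)) 𝓘(ℝ) ∞ (fun q : M × M => halfDistSq q.1 q.2)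
      ((fun b : 𝔼 => (z, (chartAt 𝔼 x₀).symm b)) a) := h
  exact ContMDiffAt.comp a (f := fun b : 𝔼 => (z, (chartAt 𝔼 x₀).symm b)) h3 h2

/-- joint smoothness read in charts -/
theorem contDiffAt_pair {x₀ y₀ : M} {a b : 𝔼} (ha : a ∈ (chartAt 𝔼 x₀).target)
    (hb : b ∈ (chartAt 𝔼 y₀).target)
    (h : SC n ((chartAt 𝔼 x₀).symm a) ((chartAt 𝔼 y₀).symm b)) :
    ContDiffAt ℝ ∞ (fun p : 𝔼 × 𝔼 => halfDistSq ((chartAt 𝔼 x₀).symm p.1)
      ((chartAt 𝔼 y₀).symm p.2)) (a, b) := by
  rw [← contMDiffAt_iff_contDiffAt]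
  have h1 : ContMDiffAt 𝓘(ℝ, 𝔼 × 𝔼) (𝓡 n) ∞
      (fun p : 𝔼 × 𝔼 => (chartAt 𝔼 x₀).symm p.1) (a, b) :=
    ContMDiffAt.comp (a, b) (g := (chartAt 𝔼 x₀).symm) (f := Prod.fst)
      (contMDiffOn_chart_symm.contMDiffAt ((chartAt 𝔼 x₀).open_target.mem_nhds ha))
      contDiff_fst.contMDiff.contMDiffAt
  have h2 : ContMDiffAt 𝓘(ℝ, 𝔼 × 𝔼) (𝓡 n) ∞
      (fun p : 𝔼 × 𝔼 => (chartAt 𝔼 y₀).symm p.2) (a, b) :=
    ContMDiffAt.comp (a, b) (g := (chartAt 𝔼 y₀).symm) (f := Prod.snd)
      (contMDiffOn_chart_symm.contMDiffAt ((chartAt 𝔼 y₀).open_target.mem_nhds hb))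
      contDiff_snd.contMDiff.contMDiffAt
  have h3 : ContMDiffAt ((𝓡 n).prod (𝓡 n)) 𝓘(ℝ) ∞ (fun q : M × M => halfDistSq q.1 q.2)
      ((fun p : 𝔼 × 𝔼 => ((chartAt 𝔼 x₀).symm p.1, (chartAt 𝔼 y₀).symm p.2)) (a, b)) := h
  exact ContMDiffAt.comp (a, b)
    (f := fun p : 𝔼 × 𝔼 => ((chartAt 𝔼 x₀).symm p.1, (chartAt 𝔼 y₀).symm p.2)) h3 (h1.prodMk h2)

variable (n) in
include n in
/-- non-branching in the form `Mcs816.NonBr` -/
theorem nonBr [IsRiemannianManifold (𝓡 n) M] [ProperSpace M] (hm : ExM M) (x : M) :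
    ∀ y y' z : M, z ≠ x → z ≠ y → dist x z + dist z y = dist x y →
      dist x z + dist z y' = dist x y' → dist x y = dist x y' → y = y' := by
  intro y y' z hzx _ h1 h2 h3
  refine nonbranching n hm (y := z) (y' := x) hzx ?_ ?_ ?_
  · rw [dist_comm y z, dist_comm z x, dist_comm y x]; linarith
  · rw [dist_comm y' z, dist_comm z x, dist_comm y' x]; linarith
  · rw [dist_comm y z, dist_comm y' z]; linarith

end

end Crest.Agent.R247.Sm879
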