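import Crest.Agent.R247.Mcp1_688
import Crest.Agent.R247.Ms6_322
import Crest.Agent.R247.Sm4_879

-- ▼ part R247/Iso1_311
section

/-!
R247, block (2a) (helper311), part 1: ISOTROPY of the directions `grad d_w (z)` in an annulus, and
absolute Bishop, from the radial contraction and an asymptotically Euclidean chart at `z`.
Abstract form: `AC z` = asymptotically Euclidean chart at `z`.
-/

set_option autoImplicit false
set_option linter.unusedSectionVars false
open MeasureTheory Set Filter Topology Metric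
open scoped ENNReal NNReal RealInnerProductSpace

noncomputable section
namespace Crest.Agent.R247.Iso311

open Mcp688

variable {n : ℕ}

local notation "𝔼" => EuclideanSpace ℝ (Fin n)

/-- `<v,ξ>²/|v|²` -/
def G (ξ v : 𝔼) : ℝ := ⟪v, ξ⟫ ^ 2 / ‖v‖ ^ 2

theorem G_nonneg (ξ v : 𝔼) : 0 ≤ G ξ v := by unfold G; positivity

theorem measurable_G (ξ : 𝔼) : Measurable (G ξ) := by
  unfold G
  have h1 : Measurable fun v : 𝔼 => ⟪v, ξ⟫ ^ 2 := by
    apply Measurable.pow_const
    exact (continuous_id.inner continuous_const).measurable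
  have h2 : Measurable fun v : 𝔼 => ‖v‖ ^ 2 := by fun_prop
  exact h1.div h2

theorem continuousAt_G (ξ : 𝔼) {v : 𝔼} (hv : v ≠ 0) : ContinuousAt (G ξ) v := by
  unfold G
  apply ContinuousAt.div
  · exact ((continuous_id.inner continuous_const).pow 2).continuousAt
  · exact (continuous_norm.pow 2).continuousAt
  · positivity

theorem G_smul (ξ v : 𝔼) {c : ℝ} (hc : c ≠ 0) : G ξ (c • v) = G ξ v := by
  unfold G
  rw [real_inner_smul_left, norm_smul, mul_pow, mul_pow, Real.norm_eq_abs, sq_abs]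
  have : c ^ 2 ≠ 0 := by positivity
  rw [mul_div_mul_left _ _ this]

theorem G_unit (ξ : 𝔼) {e : 𝔼} (he : ‖e‖ = 1) : G ξ e = ⟪e, ξ⟫ ^ 2 := by
  unfold G; rw [he]; simp

theorem G_smul_left (ξ v : 𝔼) (c : ℝ) : G (c • ξ) v = c ^ 2 * G ξ v := by
  unfold G
  rw [real_inner_smul_right, mul_pow, mul_div_assoc]

theorem G_iso (L : 𝔼 ≃ₗᵢ[ℝ] 𝔼) (ξ v : 𝔼) : G (L ξ) (L v) = G ξ v := by
  unfold G
  rw [L.inner_map_map, L.norm_map]

theorem sum_G {v : 𝔼} (hv : v ≠ 0) : ∑ i, G (EuclideanSpace.single i (1 : ℝ)) v = 1 := by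
  unfold G
  rw [← Finset.sum_div]
  have : ∑ i, ⟪v, EuclideanSpace.single i (1 : ℝ)⟫ ^ 2 = ‖v‖ ^ 2 := by
    rw [EuclideanSpace.norm_sq_eq]
    refine Finset.sum_congr rfl fun i _ => ?_
    rw [EuclideanSpace.inner_single_right]
    simp
  rw [this]
  have : ‖v‖ ^ 2 ≠ 0 := by positivity
  exact div_self this

section Euclid

variable (S : Set ℝ)

/-- the radial integral -/
def J (S : Set ℝ) (ξ : 𝔼) : ℝ≥0∞ := ∫⁻ v in {v : 𝔼 | ‖v‖ ∈ S}, ENNReal.ofReal (G ξ v)

theorem measurableSet_radial {S : Set ℝ} (hS : MeasurableSet S) :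
    MeasurableSet {v : 𝔼 | ‖v‖ ∈ S} := measurable_norm hS

theorem J_iso {S : Set ℝ} (hS : MeasurableSet S) (L : 𝔼 ≃ₗᵢ[ℝ] 𝔼) (ξ : 𝔼) :
    J S (L ξ) = J S ξ := by
  unfold J
  have h1 := L.measurePreserving.setLIntegral_comp_preimage
    (measurableSet_radial (n := n) hS) (f := fun v => ENNReal.ofReal (G (L ξ) v))
    (measurable_G (L ξ)).ennreal_ofReal
  rw [← h1]
  have h2 : (L : 𝔼 → 𝔼) ⁻¹' {v : 𝔼 | ‖v‖ ∈ S} = {v : 𝔼 | ‖v‖ ∈ S} := by
    ext v; simp
  rw [h2]
  simp only [G_iso]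

theorem exists_iso {u u' : 𝔼} (h : ‖u‖ = ‖u'‖) : ∃ L : 𝔼 ≃ₗᵢ[ℝ] 𝔼, L u = u' :=
  ⟨_, Submodule.reflection_sub h⟩

theorem J_smul (c : ℝ) (ξ : 𝔼) : J S (c • ξ) = ENNReal.ofReal (c ^ 2) * J S ξ := by
  unfold J
  rw [← lintegral_const_mul' _ _ ENNReal.ofReal_ne_top]
  congr 1
  funext v
  rw [G_smul_left, ENNReal.ofReal_mul (sq_nonneg c)]

/-- **isotropy in the Euclidean space** -/
theorem J_eq {S : Set ℝ} (hS : MeasurableSet S) (h0 : (0 : ℝ) ∉ S) (ξ : 𝔼) :
    (n : ℝ≥0∞) * J S ξ = ENNReal.ofReal (‖ξ‖ ^ 2) * volume {v : 𝔼 | ‖v‖ ∈ S} := by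
  have h1 : ∀ i : Fin n, J S ξ =
      ENNReal.ofReal (‖ξ‖ ^ 2) * J S (EuclideanSpace.single i (1 : ℝ) : 𝔼) := by
    intro i
    obtain ⟨L, hL⟩ := exists_iso (n := n) (u := ‖ξ‖ • (EuclideanSpace.single i (1 : ℝ) : 𝔼)) (u' := ξ)
      (by rw [norm_smul]; simp)
    rw [← J_smul, ← J_iso hS L (‖ξ‖ • (EuclideanSpace.single i (1 : ℝ) : 𝔼)), hL]
  have h2 : (n : ℝ≥0∞) * J S ξ = ∑ _i : Fin n, J S ξ := by simp
  rw [h2]
  calc ∑ _i : Fin n, J S ξ
      = ∑ i : Fin n, ENNReal.ofReal (‖ξ‖ ^ 2) * J S (EuclideanSpace.single i (1 : ℝ) : 𝔼) :=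
        Finset.sum_congr rfl fun i _ => h1 i
    _ = ENNReal.ofReal (‖ξ‖ ^ 2) * ∑ i : Fin n, J S (EuclideanSpace.single i (1 : ℝ) : 𝔼) := by
        rw [Finset.mul_sum]
    _ = ENNReal.ofReal (‖ξ‖ ^ 2) * volume {v : 𝔼 | ‖v‖ ∈ S} := by
        congr 1
        unfold J
        rw [← lintegral_finsetSum _ (fun i _ => (measurable_G _).ennreal_ofReal),
          ← setLIntegral_one]
        refine setLIntegral_congr_fun (measurableSet_radial hS) fun v hv => ?_
        have hv0 : v ≠ 0 := by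
          rintro rfl
          exact h0 (by simpa using hv)
        rw [← ENNReal.ofReal_sum_of_nonneg (fun i _ => G_nonneg _ _), sum_G hv0,
          ENNReal.ofReal_one]

theorem volume_annulus_le {α β : ℝ} (hα : 0 ≤ α) (hαβ : α ≤ β) :
    volume {v : 𝔼 | ‖v‖ ∈ Ioo α β} ≤ ENNReal.ofReal (β ^ n - α ^ n) * volume (ball (0 : 𝔼) 1) := by
  rcases eq_or_lt_of_le hαβ with h | h
  · rw [h]
    simp
  have e : {v : 𝔼 | ‖v‖ ∈ Ioo α β} = ball (0 : 𝔼) β \ closedBall (0 : 𝔼) α := by
    ext v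
    simp [and_comm]
  have hβ : 0 ≤ β := hα.trans hαβ
  have hfr : Module.finrank ℝ 𝔼 = n := finrank_euclideanSpace_fin
  rw [e, measure_sdiff (closedBall_subset_ball h) measurableSet_closedBall.nullMeasurableSet
    measure_closedBall_lt_top.ne]
  have h1 : volume (ball (0 : 𝔼) β) = ENNReal.ofReal (β ^ n) * volume (ball (0 : 𝔼) 1) := by
    rw [Measure.addHaar_ball_of_pos volume (0 : 𝔼) (lt_of_le_of_lt hα h), hfr]
  have h2 : volume (closedBall (0 : 𝔼) α) = ENNReal.ofReal (α ^ n) * volume (ball (0 : 𝔼) 1) := by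
    rw [Measure.addHaar_closedBall volume (0 : 𝔼) hα, hfr]
  rw [h1, h2, ENNReal.ofReal_sub _ (by positivity), ENNReal.sub_mul]
  intro _ _
  exact measure_ball_lt_top.ne

end Euclid

/-- An asymptotically Euclidean chart at `z`. -/
structure AC (n : ℕ) {X : Type*} [MetricSpace X] [MeasurableSpace X] (μ : Measure X) (z : X) where
  φ : X → EuclideanSpace ℝ (Fin n)
  ψ : EuclideanSpace ℝ (Fin n) → X
  meas : Measurable φ
  ψ_zero : ψ 0 = z
  ψφ : ∀ᶠ y in 𝓝 z, ψ (φ y) = y
  near : ∀ η : ℝ, 0 < η → ∀ᶠ y in 𝓝 z, |‖φ y‖ - dist z y| ≤ η * dist z y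
  near' : ∀ η : ℝ, 0 < η → ∀ᶠ a in 𝓝 (0 : EuclideanSpace ℝ (Fin n)), dist z (ψ a) ≤ (1 + η) * ‖a‖
  vol : ∀ η : ℝ, 0 < η → ∃ r : ℝ, 0 < r ∧
    (μ.restrict (ball z r)).map φ ≤ ENNReal.ofReal (1 + η) • volume

variable {κ : ℝ} {X : Type*} [MetricSpace X] [MeasurableSpace X] [BorelSpace X] {μ : Measure X}

/-- the differential of `d_w` at `z` in the chart -/
def AC.L {z : X} (A : AC n μ z) (w : X) : 𝔼 →L[ℝ] ℝ := fderiv ℝ (fun a => dist w (A.ψ a)) 0

/-- the unit direction from `z` to `w` in the chart -/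
def AC.e {z : X} (A : AC n μ z) (w : X) : 𝔼 := -(InnerProductSpace.toDual ℝ 𝔼).symm (A.L w)

theorem AC.inner_e {z : X} (A : AC n μ z) (w : X) (v : 𝔼) : ⟪A.e w, v⟫ = -(A.L w v) := by
  unfold AC.e
  rw [inner_neg_left, InnerProductSpace.toDual_symm_apply]

theorem AC.norm_e {z : X} (A : AC n μ z) (w : X) : ‖A.e w‖ = ‖A.L w‖ := by
  unfold AC.e
  rw [norm_neg, LinearIsometryEquiv.norm_map]

theorem AC.norm_L_le {z : X} (A : AC n μ z) {w : X}
    (hd : DifferentiableAt ℝ (fun a => dist w (A.ψ a)) 0) : ‖A.L w‖ ≤ 1 := by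
  refine le_of_forall_pos_le_add fun η hη => ?_
  refine hd.hasFDerivAt.le_of_lip' (by positivity) ?_
  filter_upwards [A.near' η hη] with a ha
  rw [A.ψ_zero, Real.norm_eq_abs, sub_zero]
  refine le_trans ?_ ha
  have h1 := abs_dist_sub_le (A.ψ a) z w
  rw [dist_comm w (A.ψ a), dist_comm w z, dist_comm z (A.ψ a)]
  exact h1

/-- **first variation**: the ray from `z` to `w` leaves in the direction `e w`. -/
theorem AC.direction {z : X} (A : AC n μ z) (C : Rad n κ X μ) {w : X} (hU : (z, w) ∈ C.U)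
    (hzw : z ≠ w) (hd : DifferentiableAt ℝ (fun a => dist w (A.ψ a)) 0) :
    ‖A.e w‖ = 1 ∧
      Tendsto (fun t : ℝ => t⁻¹ • A.φ (C.T z t w)) (𝓝[>] 0) (𝓝 (dist z w • A.e w)) := by
  set D := dist z w with hD
  have hD0 : 0 < D := dist_pos.2 hzw
  have hI : ∀ᶠ t : ℝ in 𝓝[>] 0, t ∈ Ioo (0 : ℝ) 1 := Ioo_mem_nhdsGT one_pos
  have hdist : ∀ᶠ t : ℝ in 𝓝[>] 0, dist z (C.T z t w) = t * D := by
    filter_upwards [hI] with t ht
    exact C.dist_left hU ⟨ht.1.le, ht.2.le⟩
  have htend : Tendsto (fun t : ℝ => C.T z t w) (𝓝[>] 0) (𝓝 z) := by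
    rw [tendsto_iff_dist_tendsto_zero]
    have h1 : Tendsto (fun t : ℝ => t * D) (𝓝[>] 0) (𝓝 0) := by
      have : Tendsto (fun t : ℝ => t * D) (𝓝 0) (𝓝 (0 * D)) :=
        (continuous_id.mul continuous_const).tendsto 0
      rw [zero_mul] at this
      exact this.mono_left nhdsWithin_le_nhds
    refine h1.congr' ?_
    filter_upwards [hdist] with t ht
    rw [dist_comm, ht]
  -- the norm of `v_t`
  set v : ℝ → 𝔼 := fun t => t⁻¹ • A.φ (C.T z t w) with hv
  have hnorm : Tendsto (fun t => ‖v t‖) (𝓝[>] 0) (𝓝 D) := by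
    rw [Metric.tendsto_nhds]
    intro ε hε
    filter_upwards [hI, hdist, htend.eventually (A.near (ε / (2 * D)) (by positivity))] with t ht1 ht2 ht3
    rw [ht2] at ht3
    have h1 : ‖v t‖ = t⁻¹ * ‖A.φ (C.T z t w)‖ := by
      rw [hv]
      simp only
      rw [norm_smul, Real.norm_eq_abs, abs_of_pos (inv_pos.2 ht1.1)]
    rw [h1, Real.dist_eq]
    have h2 : t⁻¹ * ‖A.φ (C.T z t w)‖ - D = t⁻¹ * (‖A.φ (C.T z t w)‖ - t * D) := by
      rw [mul_sub, ← mul_assoc, inv_mul_cancel₀ ht1.1.ne', one_mul]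
    rw [h2, abs_mul, abs_of_pos (inv_pos.2 ht1.1)]
    calc t⁻¹ * |‖A.φ (C.T z t w)‖ - t * D| ≤ t⁻¹ * (ε / (2 * D) * (t * D)) := by
          have := ht1.1
          gcongr
      _ = ε / 2 := by
          have := ht1.1.ne'
          field_simp
      _ < ε := by linarith
  -- `L v_t → -D`
  have hphi0 : Tendsto (fun t : ℝ => A.φ (C.T z t w)) (𝓝[>] 0) (𝓝 0) := by
    rw [tendsto_zero_iff_norm_tendsto_zero]
    have h1 : Tendsto (fun t : ℝ => t * ‖v t‖) (𝓝[>] 0) (𝓝 (0 * D)) :=
      (tendsto_id.mono_left nhdsWithin_le_nhds).mul hnorm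
    rw [zero_mul] at h1
    refine h1.congr' ?_
    filter_upwards [hI] with t ht
    rw [hv]
    simp only
    rw [norm_smul, Real.norm_eq_abs, abs_of_pos (inv_pos.2 ht.1), ← mul_assoc,
      mul_inv_cancel₀ ht.1.ne', one_mul]
  have hlo := hd.hasFDerivAt.isLittleO
  have hLv : Tendsto (fun t => A.L w (v t)) (𝓝[>] 0) (𝓝 (-D)) := by
    have h1 := hlo.comp_tendsto hphi0
    have h2 : (fun t : ℝ => A.φ (C.T z t w)) =O[𝓝[>] 0] (fun t : ℝ => t) := by
      refine Asymptotics.IsBigO.of_bound (D + 1) ?_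
      filter_upwards [hI, hnorm.eventually (gt_mem_nhds (show D < D + 1 by linarith))] with t ht h3
      rw [hv] at h3
      simp only at h3
      rw [norm_smul, Real.norm_eq_abs, abs_of_pos (inv_pos.2 ht.1)] at h3
      rw [Real.norm_eq_abs, abs_of_pos ht.1]
      have := ht.1
      calc ‖A.φ (C.T z t w)‖ = t * (t⁻¹ * ‖A.φ (C.T z t w)‖) := by
            rw [← mul_assoc, mul_inv_cancel₀ ht.1.ne', one_mul]
        _ ≤ t * (D + 1) := by gcongr
        _ = (D + 1) * t := mul_comm _ _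
    have h2' : ((fun x' : 𝔼 => x' - 0) ∘ fun t : ℝ => A.φ (C.T z t w)) =O[𝓝[>] 0]
        (fun t : ℝ => t) := by
      simpa [Function.comp_def] using h2
    have h3 := h1.trans_isBigO h2'
    have h4 := h3.tendsto_div_nhds_zero
    have h5 : Tendsto (fun t : ℝ => A.L w (v t) + D) (𝓝[>] 0) (𝓝 0) := by
      have h6 := h4.neg
      rw [neg_zero] at h6
      refine h6.congr' ?_
      filter_upwards [hI, htend.eventually A.ψφ] with t ht ht2
      simp only [Function.comp_apply]
      rw [ht2, A.ψ_zero, sub_zero, dist_comm w, C.dist_right hU ⟨ht.1.le, ht.2.le⟩, dist_comm w,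
        ← hD]
      have h7 : A.L w (v t) = t⁻¹ * A.L w (A.φ (C.T z t w)) := by
        rw [hv]; simp
      rw [h7]
      have := ht.1.ne'
      change -(((1 - t) * D - D - (A.L w) (A.φ (C.T z t w))) / t) = _
      field_simp
      ring
    have h8 := h5.sub_const D
    simpa using h8
  -- convexity
  have hsq : Tendsto (fun t => ‖v t - D • A.e w‖ ^ 2) (𝓝[>] 0)
      (𝓝 (D ^ 2 + 2 * D * (-D) + D ^ 2 * ‖A.e w‖ ^ 2)) := by
    have h1 : ∀ t, ‖v t - D • A.e w‖ ^ 2 =
        ‖v t‖ ^ 2 + 2 * D * (A.L w (v t)) + D ^ 2 * ‖A.e w‖ ^ 2 := by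
      intro t
      have h2 : ‖D • A.e w‖ ^ 2 = D ^ 2 * ‖A.e w‖ ^ 2 := by
        rw [norm_smul, mul_pow, Real.norm_eq_abs, sq_abs]
      rw [norm_sub_sq_real, h2, real_inner_smul_right, real_inner_comm, A.inner_e]
      ring
    simp only [h1]
    exact ((hnorm.pow 2).add (hLv.const_mul (2 * D))).add_const _
  have hle : ‖A.e w‖ ≤ 1 := by rw [A.norm_e]; exact A.norm_L_le hd
  have hge : 0 ≤ D ^ 2 + 2 * D * (-D) + D ^ 2 * ‖A.e w‖ ^ 2 :=
    ge_of_tendsto' hsq fun t => by positivity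
  have he0 := norm_nonneg (A.e w)
  have h1le : 1 ≤ ‖A.e w‖ ^ 2 := by
    have : 0 ≤ D ^ 2 * (‖A.e w‖ ^ 2 - 1) := by linarith
    have h3 := nonneg_of_mul_nonneg_right this (by positivity)
    linarith
  have he1 : ‖A.e w‖ = 1 := by nlinarith
  refine ⟨he1, ?_⟩
  rw [he1] at hsq
  have h0 : D ^ 2 + 2 * D * (-D) + D ^ 2 * 1 ^ 2 = 0 := by ring
  rw [h0] at hsq
  rw [tendsto_iff_norm_sub_tendsto_zero]
  have h3 := hsq.sqrt
  simpa using h3


/-- the shell estimate: `∫_{a < d_z < b} g(φ y) dμ ≤ (1+η) ∫_{(1-η)a < |v| < (1+η)b} g`. -/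
theorem AC.shell {z : X} (A : AC n μ z) {η : ℝ} (hη : 0 < η) (hη1 : η < 1) :
    ∃ r : ℝ, 0 < r ∧ ∀ a b : ℝ, b ≤ r → ∀ g : 𝔼 → ℝ≥0∞, Measurable g →
      ∫⁻ y in {y | dist z y ∈ Ioo a b}, g (A.φ y) ∂μ ≤
        ENNReal.ofReal (1 + η) * ∫⁻ v in {v : 𝔼 | ‖v‖ ∈ Ioo ((1 - η) * a) ((1 + η) * b)}, g v := by
  obtain ⟨r1, hr1, hv⟩ := A.vol η hη
  obtain ⟨r2, hr2, hn⟩ := Metric.eventually_nhds_iff.1 (A.near η hη)
  refine ⟨min r1 r2, lt_min hr1 hr2, ?_⟩
  intro a b hb g hg
  set S : Set 𝔼 := {v : 𝔼 | ‖v‖ ∈ Ioo ((1 - η) * a) ((1 + η) * b)} with hS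
  have hSm : MeasurableSet S := measurableSet_radial measurableSet_Ioo
  have hm1 : MeasurableSet {y : X | dist z y ∈ Ioo a b} :=
    (continuous_const.dist continuous_id).measurable measurableSet_Ioo
  have hsub : ∀ y, dist z y ∈ Ioo a b → A.φ y ∈ S ∧ y ∈ ball z r1 := by
    intro y hy
    have h1 : dist z y < r1 := hy.2.trans_le (hb.trans (min_le_left _ _))
    have h2 : dist y z < r2 := by
      rw [dist_comm]; exact hy.2.trans_le (hb.trans (min_le_right _ _))
    have h3 := abs_le.1 (hn h2)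
    refine ⟨⟨?_, ?_⟩, by rw [mem_ball, dist_comm]; exact h1⟩
    · have : (1 - η) * a < (1 - η) * dist z y := by
        have := hy.1
        have : 0 < 1 - η := by linarith
        gcongr
      nlinarith
    · have : (1 + η) * dist z y < (1 + η) * b := by
        have := hy.2
        gcongr
      linarith
  calc ∫⁻ y in {y | dist z y ∈ Ioo a b}, g (A.φ y) ∂μ
      ≤ ∫⁻ y in ball z r1, S.indicator g (A.φ y) ∂μ := by
        rw [← lintegral_indicator hm1, ← lintegral_indicator isOpen_ball.measurableSet]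
        refine lintegral_mono fun y => ?_
        by_cases hy : dist z y ∈ Ioo a b
        · have h1 := hsub y hy
          rw [indicator_of_mem (show y ∈ {y | dist z y ∈ Ioo a b} from hy),
            indicator_of_mem h1.2, indicator_of_mem h1.1]
        · rw [indicator_of_notMem (show y ∉ {y | dist z y ∈ Ioo a b} from hy)]
          exact bot_le
    _ = ∫⁻ v, S.indicator g v ∂((μ.restrict (ball z r1)).map A.φ) :=
        (lintegral_map (hg.indicator hSm) A.meas).symm
    _ ≤ ∫⁻ v, S.indicator g v ∂(ENNReal.ofReal (1 + η) • (volume : Measure 𝔼)) :=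
        lintegral_mono' hv le_rfl
    _ = ENNReal.ofReal (1 + η) * ∫⁻ v in S, g v := by
        rw [lintegral_smul_measure, lintegral_indicator hSm, smul_eq_mul]

/-- **absolute Bishop inequality** from the contraction property and an asymptotically Euclidean
chart at the centre. -/
theorem AC.bishop {z : X} (A : AC n μ z) (C : Rad n κ X μ) (hκ : 0 ≤ κ) (s : ℝ) :
    μ (ball z s) ≤ ENNReal.ofReal (Real.exp (κ * s ^ 2 / 2) * s ^ n) * volume (ball (0 : 𝔼) 1) := by
  rcases le_or_gt s 0 with hs | hs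
  · rw [ball_eq_empty.2 hs]; simp
  have key : ∀ η : ℝ, 0 < η → η < 1 → μ (ball z s) ≤
      ENNReal.ofReal (Real.exp (κ * s ^ 2 / 2) * s ^ n * (1 + η) ^ (n + 1)) *
        volume (ball (0 : 𝔼) 1) := by
    intro η hη hη1
    obtain ⟨r, hr, h⟩ := A.shell hη hη1
    set ρ := min r s with hρ
    have hρ0 : 0 < ρ := lt_min hr hs
    have h1 := h (-1) ρ (min_le_left _ _) (fun _ => 1) measurable_const
    have h2 := C.mu_ball_le hκ z hρ0 (min_le_right r s)
    have e1 : {y | dist z y ∈ Ioo (-1) ρ} = ball z ρ := by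
      ext y
      simp only [mem_ofPred_eq, mem_Ioo, mem_ball]
      rw [dist_comm]
      constructor
      · exact fun h => h.2
      · exact fun h => ⟨by linarith [dist_nonneg (x := y) (y := z)], h⟩
    have e2 : {v : 𝔼 | ‖v‖ ∈ Ioo ((1 - η) * -1) ((1 + η) * ρ)} ⊆ ball (0 : 𝔼) ((1 + η) * ρ) := by
      intro v hv
      simpa using hv.2
    have hfr : Module.finrank ℝ 𝔼 = n := finrank_euclideanSpace_fin
    have h3 : μ (ball z ρ) ≤ ENNReal.ofReal ((1 + η) ^ (n + 1) * ρ ^ n) *
        volume (ball (0 : 𝔼) 1) := by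
      rw [e1] at h1
      simp only [lintegral_one, Measure.restrict_apply_univ] at h1
      refine h1.trans ?_
      calc ENNReal.ofReal (1 + η) * volume {v : 𝔼 | ‖v‖ ∈ Ioo ((1 - η) * -1) ((1 + η) * ρ)}
          ≤ ENNReal.ofReal (1 + η) * volume (ball (0 : 𝔼) ((1 + η) * ρ)) := by gcongr
        _ = _ := by
            rw [Measure.addHaar_ball_of_pos volume (0 : 𝔼) (by positivity), hfr, ← mul_assoc,
              ← ENNReal.ofReal_mul (by positivity)]
            congr 2
            rw [mul_pow]; ring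
    calc μ (ball z s) ≤ ENNReal.ofReal (Real.exp (κ * s ^ 2 / 2) * (s / ρ) ^ n) * μ (ball z ρ) := h2
      _ ≤ ENNReal.ofReal (Real.exp (κ * s ^ 2 / 2) * (s / ρ) ^ n) *
          (ENNReal.ofReal ((1 + η) ^ (n + 1) * ρ ^ n) * volume (ball (0 : 𝔼) 1)) := by gcongr
      _ = _ := by
          rw [← mul_assoc, ← ENNReal.ofReal_mul (by positivity)]
          congr 2
          rw [div_pow]
          field_simp
  have hlim : Tendsto (fun η : ℝ => ENNReal.ofReal (Real.exp (κ * s ^ 2 / 2) * s ^ n *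
      (1 + η) ^ (n + 1)) * volume (ball (0 : 𝔼) 1)) (𝓝[>] 0)
      (𝓝 (ENNReal.ofReal (Real.exp (κ * s ^ 2 / 2) * s ^ n) * volume (ball (0 : 𝔼) 1))) := by
    refine ENNReal.Tendsto.mul_const (ENNReal.tendsto_ofReal ?_) (Or.inr measure_ball_lt_top.ne)
    have hc : Continuous fun η : ℝ => Real.exp (κ * s ^ 2 / 2) * s ^ n * (1 + η) ^ (n + 1) := by
      fun_prop
    have := (hc.tendsto 0).mono_left (nhdsWithin_le_nhds (s := Ioi (0 : ℝ)))
    simpa using this
  refine ge_of_tendsto hlim ?_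
  filter_upwards [Ioo_mem_nhdsGT (show (0 : ℝ) < 1 by norm_num)] with η hη
  exact key η hη.1 hη.2

/-- **isotropy**: the directions of the rays from `z` to the points of an annulus. -/
theorem AC.isotropy {z : X} (A : AC n μ z) (C : Rad n κ X μ) (hκ : 0 ≤ κ) {α β : ℝ} (hα : 0 ≤ α)
    (hαβ : α ≤ β) {W : Set X} (hW : ∀ w ∈ W, dist z w ∈ Ioo α β)
    (hd : ∀ᵐ w ∂μ, DifferentiableAt ℝ (fun a => dist w (A.ψ a)) 0) (ξ : 𝔼) :
    (n : ℝ≥0∞) * ∫⁻ w in W, ENNReal.ofReal ((A.L w ξ) ^ 2) ∂μ ≤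
      ENNReal.ofReal (Real.exp (κ * β ^ 2 / 2) * (β ^ n - α ^ n) * ‖ξ‖ ^ 2) *
        volume (ball (0 : 𝔼) 1) := by
  have hβ : 0 ≤ β := hα.trans hαβ
  set W' : Set X := {y | dist z y ∈ Ioo α β} with hW'
  have hWm : MeasurableSet W' := (continuous_const.dist continuous_id).measurable measurableSet_Ioo
  have hWW : W ⊆ W' := hW
  refine le_trans (by gcongr : (n : ℝ≥0∞) * ∫⁻ w in W, ENNReal.ofReal ((A.L w ξ) ^ 2) ∂μ ≤
    (n : ℝ≥0∞) * ∫⁻ w in W', ENNReal.ofReal ((A.L w ξ) ^ 2) ∂μ) ?_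
  -- the approximating functions
  set t : ℕ → ℝ := fun k => 1 / ((k : ℝ) + 2) with ht
  have ht0 : ∀ k, 0 < t k := fun k => by rw [ht]; positivity
  have ht1 : ∀ k, t k < 1 := fun k => by
    rw [ht]
    simp only
    rw [div_lt_one (by positivity)]
    have : (0 : ℝ) ≤ k := Nat.cast_nonneg k
    linarith
  have htI : ∀ k, t k ∈ Ioc (0 : ℝ) 1 := fun k => ⟨ht0 k, (ht1 k).le⟩
  have htl : Tendsto t atTop (𝓝 0) := by
    have h1 : Tendsto (fun k : ℕ => (k : ℝ) + 2) atTop atTop :=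
      tendsto_atTop_add_const_right _ _ tendsto_natCast_atTop_atTop
    exact h1.const_div_atTop 1
  have htl' : Tendsto t atTop (𝓝[>] 0) :=
    tendsto_nhdsWithin_iff.2 ⟨htl, Filter.Eventually.of_forall ht0⟩
  set F : ℕ → X → ℝ≥0∞ := fun k w => ENNReal.ofReal (G ξ (A.φ (C.T z (t k) w))) with hF
  have hFm : ∀ k, Measurable (F k) := fun k =>
    ((measurable_G ξ).comp (A.meas.comp (C.measT_xt z (t k)))).ennreal_ofReal
  have hlimF : ∀ᵐ w ∂(μ.restrict W'), Tendsto (fun k => F k w) atTop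
      (𝓝 (ENNReal.ofReal ((A.L w ξ) ^ 2))) := by
    rw [ae_restrict_iff' hWm]
    filter_upwards [hd, C.ae_U z] with w h1 h2 h3
    have hzw : z ≠ w := by
      rintro rfl
      have := h3.1
      rw [dist_self] at this
      linarith
    obtain ⟨he, hT⟩ := A.direction C h2 hzw h1
    have hD0 : 0 < dist z w := dist_pos.2 hzw
    have h4 := hT.comp htl'
    have hne : dist z w • A.e w ≠ 0 := by
      rw [smul_ne_zero_iff]
      refine ⟨hD0.ne', ?_⟩
      intro h0
      rw [h0, norm_zero] at he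
      exact zero_ne_one he
    have h5 := (continuousAt_G ξ hne).tendsto.comp h4
    rw [G_smul _ _ hD0.ne', G_unit _ he, A.inner_e, neg_sq] at h5
    refine (ENNReal.tendsto_ofReal h5).congr fun k => ?_
    simp only [Function.comp_apply, hF]
    rw [G_smul _ _ (inv_ne_zero (ht0 k).ne')]
  have hfatou : ∫⁻ w in W', ENNReal.ofReal ((A.L w ξ) ^ 2) ∂μ ≤
      liminf (fun k => ∫⁻ w in W', F k w ∂μ) atTop := by
    calc ∫⁻ w in W', ENNReal.ofReal ((A.L w ξ) ^ 2) ∂μ
        = ∫⁻ w in W', liminf (fun k => F k w) atTop ∂μ := by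
          refine lintegral_congr_ae ?_
          filter_upwards [hlimF] with w hw
          exact hw.liminf_eq.symm
      _ ≤ _ := lintegral_liminf_le hFm
  -- upper bound of the integrals
  have key : ∀ η : ℝ, 0 < η → η < 1 → (n : ℝ≥0∞) * ∫⁻ w in W', ENNReal.ofReal ((A.L w ξ) ^ 2) ∂μ ≤
      ENNReal.ofReal (Real.exp (κ * β ^ 2 / 2) * (1 + η) *
        (((1 + η) * β) ^ n - ((1 - η) * α) ^ n) * ‖ξ‖ ^ 2) * volume (ball (0 : 𝔼) 1) := by
    intro η hη hη1
    obtain ⟨r, hr, h⟩ := A.shell hη hη1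
    have hev : ∀ᶠ k in atTop, t k * β < r := by
      have : Tendsto (fun k => t k * β) atTop (𝓝 (0 * β)) := htl.mul_const β
      rw [zero_mul] at this
      exact this.eventually (gt_mem_nhds hr)
    have hbound : ∀ᶠ k in atTop, (n : ℝ≥0∞) * ∫⁻ w in W', F k w ∂μ ≤
        ENNReal.ofReal (Real.exp (κ * β ^ 2 / 2) * (1 + η) *
          (((1 + η) * β) ^ n - ((1 - η) * α) ^ n) * ‖ξ‖ ^ 2) * volume (ball (0 : 𝔼) 1) := by
      filter_upwards [hev] with k hk
      have h0 := ht0 k
      set V : Set X := {y | dist z y ∈ Ioo (t k * α) (t k * β)} with hV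
      have hVm : MeasurableSet V :=
        (continuous_const.dist continuous_id).measurable measurableSet_Ioo
      have h1 := C.setLIntegral_T_le hκ z (htI k) (D := β) hWm hVm (fun y hy => hy.2.le)
        (fun y hy hU => by
          rw [hV, mem_ofPred_eq, C.dist_left hU ⟨(ht0 k).le, (ht1 k).le⟩]
          exact ⟨by have := hy.1; gcongr, by have := hy.2; gcongr⟩)
        (g := fun y => ENNReal.ofReal (G ξ (A.φ y)))
        ((measurable_G ξ).comp A.meas).ennreal_ofReal
      have h2 := h (t k * α) (t k * β) hk.le (fun v => ENNReal.ofReal (G ξ v))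
        (measurable_G ξ).ennreal_ofReal
      have hle : (1 - η) * (t k * α) ≤ (1 + η) * (t k * β) := by
        have : t k * α ≤ t k * β := by gcongr
        have h3 : 0 ≤ t k * α := by positivity
        nlinarith
      have h0' : 0 ≤ (1 - η) * (t k * α) := by
        have : 0 < 1 - η := by linarith
        positivity
      have h3 := J_eq (n := n) (S := Ioo ((1 - η) * (t k * α)) ((1 + η) * (t k * β)))
        measurableSet_Ioo (by
          intro h
          have := h.1
          linarith) ξ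
      have h4 := volume_annulus_le (n := n) h0' hle
      calc (n : ℝ≥0∞) * ∫⁻ w in W', F k w ∂μ
          ≤ (n : ℝ≥0∞) * (ENNReal.ofReal (Real.exp (κ * β ^ 2 / 2) * ((t k)⁻¹) ^ n) *
            ∫⁻ y in V, ENNReal.ofReal (G ξ (A.φ y)) ∂μ) := by gcongr
        _ ≤ (n : ℝ≥0∞) * (ENNReal.ofReal (Real.exp (κ * β ^ 2 / 2) * ((t k)⁻¹) ^ n) *
            (ENNReal.ofReal (1 + η) *
              J (Ioo ((1 - η) * (t k * α)) ((1 + η) * (t k * β))) ξ)) := by
            gcongr
            exact h2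
        _ = ENNReal.ofReal (Real.exp (κ * β ^ 2 / 2) * ((t k)⁻¹) ^ n) * ENNReal.ofReal (1 + η) *
            ((n : ℝ≥0∞) * J (Ioo ((1 - η) * (t k * α)) ((1 + η) * (t k * β))) ξ) := by ring
        _ ≤ ENNReal.ofReal (Real.exp (κ * β ^ 2 / 2) * ((t k)⁻¹) ^ n) * ENNReal.ofReal (1 + η) *
            (ENNReal.ofReal (‖ξ‖ ^ 2) *
              (ENNReal.ofReal (((1 + η) * (t k * β)) ^ n - ((1 - η) * (t k * α)) ^ n) *
                volume (ball (0 : 𝔼) 1))) := by
            rw [h3]
            gcongr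
        _ = _ := by
            have hnn : 0 ≤ ((1 + η) * β) ^ n - ((1 - η) * α) ^ n := by
              have h5 : (1 - η) * α ≤ (1 + η) * β := by nlinarith
              have h6 : 0 ≤ (1 - η) * α := by
                have : 0 < 1 - η := by linarith
                positivity
              have := pow_le_pow_left₀ h6 h5 n
              linarith
            rw [← mul_assoc (ENNReal.ofReal (‖ξ‖ ^ 2)), ← mul_assoc,
              ← ENNReal.ofReal_mul (by positivity), ← ENNReal.ofReal_mul (by positivity),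
              ← ENNReal.ofReal_mul (by positivity)]
            congr 2
            have e1 : ((1 + η) * (t k * β)) ^ n - ((1 - η) * (t k * α)) ^ n =
                (t k) ^ n * (((1 + η) * β) ^ n - ((1 - η) * α) ^ n) := by
              rw [mul_sub, ← mul_pow, ← mul_pow]
              congr 1 <;> congr 1 <;> ring
            rw [e1]
            have e2 : ((t k)⁻¹) ^ n * (t k) ^ n = 1 := by
              rw [← mul_pow, inv_mul_cancel₀ h0.ne', one_pow]
            calc Real.exp (κ * β ^ 2 / 2) * (t k)⁻¹ ^ n * (1 + η) *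
                  (‖ξ‖ ^ 2 * ((t k) ^ n * (((1 + η) * β) ^ n - ((1 - η) * α) ^ n)))
                = Real.exp (κ * β ^ 2 / 2) * (1 + η) * (((1 + η) * β) ^ n - ((1 - η) * α) ^ n) *
                  ‖ξ‖ ^ 2 * ((t k)⁻¹ ^ n * (t k) ^ n) := by ring
              _ = _ := by rw [e2, mul_one]
    have h6 : (n : ℝ≥0∞) * liminf (fun k => ∫⁻ w in W', F k w ∂μ) atTop ≤
        ENNReal.ofReal (Real.exp (κ * β ^ 2 / 2) * (1 + η) *
          (((1 + η) * β) ^ n - ((1 - η) * α) ^ n) * ‖ξ‖ ^ 2) * volume (ball (0 : 𝔼) 1) := by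
      rcases Nat.eq_zero_or_pos n with hn | hn
      · subst hn; simp
      · have hn0 : (n : ℝ≥0∞) ≠ 0 := by exact_mod_cast hn.ne'
        have hnt : (n : ℝ≥0∞) ≠ ∞ := ENNReal.natCast_ne_top n
        rw [mul_comm, ← ENNReal.le_div_iff_mul_le (Or.inl hn0) (Or.inl hnt)]
        refine liminf_le_of_frequently_le' (hbound.frequently.mono fun k hk => ?_)
        rw [ENNReal.le_div_iff_mul_le (Or.inl hn0) (Or.inl hnt), mul_comm]
        exact hk
    refine le_trans ?_ h6
    gcongr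
  have hlim : Tendsto (fun η : ℝ => ENNReal.ofReal (Real.exp (κ * β ^ 2 / 2) * (1 + η) *
      (((1 + η) * β) ^ n - ((1 - η) * α) ^ n) * ‖ξ‖ ^ 2) * volume (ball (0 : 𝔼) 1)) (𝓝[>] 0)
      (𝓝 (ENNReal.ofReal (Real.exp (κ * β ^ 2 / 2) * (β ^ n - α ^ n) * ‖ξ‖ ^ 2) *
        volume (ball (0 : 𝔼) 1))) := by
    refine ENNReal.Tendsto.mul_const (ENNReal.tendsto_ofReal ?_) (Or.inr measure_ball_lt_top.ne)
    have hc : Continuous fun η : ℝ => Real.exp (κ * β ^ 2 / 2) * (1 + η) *
      (((1 + η) * β) ^ n - ((1 - η) * α) ^ n) * ‖ξ‖ ^ 2 := by fun_prop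
    have := (hc.tendsto 0).mono_left (nhdsWithin_le_nhds (s := Ioi (0 : ℝ)))
    simpa using this
  refine ge_of_tendsto hlim ?_
  filter_upwards [Ioo_mem_nhdsGT (show (0 : ℝ) < 1 by norm_num)] with η hη
  exact key η hη.1 hη.2



end Crest.Agent.R247.Iso311
end
end

-- ▼ part R247/Iso2_311

/-!
R247, block (2a) (helper311), part 2: the asymptotically Euclidean chart of a Riemannian manifold;
a.e. extendability of rays from the radial contraction; absolute Bishop and isotropy on `M`.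
-/

set_option autoImplicit false
set_option maxSynthPendingDepth 3
set_option linter.unusedSectionVars false
set_option linter.unusedVariables false

open Bundle Bornology Set MeasureTheory Manifold Filter Metric Topology
open scoped ENNReal ContDiff Topology NNReal
open Crest.GeometryTopology.CoordMetric Crest.GeometryTopology.ChartCurvature
open Crest.GeometryTopology.Geodesic Crest.GeometryTopology.MTW
open Crest.Agent.R226.ChartMet842
open Crest.Agent.R226.CutSmooth77 (SC)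
open Crest.Agent.R247.Ms322 Crest.Agent.R247.Sm879 Crest.Agent.R247.Mcp688

noncomputable section
namespace Crest.Agent.R247.Iso311

section ext

variable {n : ℕ} {κ : ℝ} {X : Type*} [MetricSpace X] [MeasurableSpace X] [BorelSpace X]
  {μ : Measure X}

/-- the points `w` such that some minimiser from `z` to `w` extends beyond `w` -/
def Ext (z : X) : Set X := {w | ∃ w', w' ≠ w ∧ dist z w + dist w w' = dist z w'}

/-- **a.e. point is interior to a ray** -/
theorem ae_ext [ProperSpace X] [IsFiniteMeasureOnCompacts μ] (C : Rad n κ X μ) (z : X) :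
    ∀ᵐ w ∂μ, w ≠ z → w ∈ Ext z := by
  have key : ∀ R : ℝ, 0 < R → wm μ κ z (ball z R \ (Ext z ∪ {z})) = 0 := by
    intro R hR
    set B := ball z R with hB
    set E : ℝ → Set X := fun t => {w | ∃ w' ∈ closedBall z R, dist z w = t * dist z w' ∧
      dist w w' = (1 - t) * dist z w'} with hE
    have hEc : ∀ t, IsClosed (E t) := by
      intro t
      have hK : IsCompact ((closedBall z R ×ˢ closedBall z R) ∩ {p : X × X |
          dist z p.1 = t * dist z p.2 ∧ dist p.1 p.2 = (1 - t) * dist z p.2}) := by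
        refine ((isCompact_closedBall z R).prod (isCompact_closedBall z R)).inter_right ?_
        exact (isClosed_eq (by fun_prop) (by fun_prop)).inter
          (isClosed_eq (by fun_prop) (by fun_prop))
      have hK' : IsClosed ({p : X × X | dist z p.1 = t * dist z p.2 ∧
          dist p.1 p.2 = (1 - t) * dist z p.2}) :=
        (isClosed_eq (by fun_prop) (by fun_prop)).inter
          (isClosed_eq (by fun_prop) (by fun_prop))
      have e : E t = {w | ∃ w' ∈ closedBall z R, (w, w') ∈ {p : X × X |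
          dist z p.1 = t * dist z p.2 ∧ dist p.1 p.2 = (1 - t) * dist z p.2}} := rfl
      rw [e]
      have := (isCompact_closedBall z R)
      have h2 : IsClosed (Prod.fst '' (univ ×ˢ closedBall z R ∩ {p : X × X |
          dist z p.1 = t * dist z p.2 ∧ dist p.1 p.2 = (1 - t) * dist z p.2})) := by
        -- sequential closedness
        refine isClosed_of_closure_subset fun w hw => ?_
        rw [mem_closure_iff_seq_limit] at hw
        obtain ⟨u, hu, hul⟩ := hw
        choose p hp hpu using hu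
        obtain ⟨q, hq, φ, hφ, hφl⟩ := this.tendsto_subseq (x := fun k => (p k).2)
          (fun k => (hp k).1.2)
        refine ⟨(w, q), ⟨⟨mem_univ _, hq⟩, ?_⟩, rfl⟩
        have h3 : Tendsto (fun k => p (φ k)) atTop (𝓝 (w, q)) := by
          have e1 : (fun k => p (φ k)) = fun k => (u (φ k), (p (φ k)).2) := by
            funext k
            exact Prod.ext (hpu (φ k)) rfl
          rw [e1]
          exact (hul.comp hφ.tendsto_atTop).prodMk_nhds hφl
        exact hK'.mem_of_tendsto h3 (Filter.Eventually.of_forall fun k => (hp (φ k)).2)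
      convert h2 using 1
      ext w
      simp only [mem_ofPred_eq, mem_image, mem_inter_iff, mem_prod, mem_univ, true_and,
        Prod.exists, exists_and_right, exists_eq_right]
    have hfin : wm μ κ z B ≠ ⊤ := by
      have h1 : wm μ κ z B ≤ ENNReal.ofReal (Real.exp (|κ| * R ^ 2 / 2)) * μ B := by
        rw [wm_apply μ z isOpen_ball.measurableSet, ← setLIntegral_const]
        refine setLIntegral_mono measurable_const fun y hy => ?_
        apply ENNReal.ofReal_le_ofReal
        unfold wt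
        apply Real.exp_le_exp.2
        have h2 : dist z y ^ 2 ≤ R ^ 2 := by
          have h3 : dist z y < R := by rw [dist_comm]; exact hy
          have := dist_nonneg (x := z) (y := y)
          gcongr
        have h4 : -κ * dist z y ^ 2 ≤ |κ| * R ^ 2 := by
          have h5 : -κ ≤ |κ| := neg_le_abs κ
          have h6 : 0 ≤ |κ| := abs_nonneg κ
          nlinarith [sq_nonneg (dist z y)]
        linarith
      refine ne_top_of_le_ne_top ?_ h1
      exact ENNReal.mul_ne_top ENNReal.ofReal_ne_top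
        ((measure_mono ball_subset_closedBall).trans_lt
          (isCompact_closedBall z R).measure_lt_top).ne
    have hbd : ∀ t : ℝ, t ∈ Ioo (0 : ℝ) 1 → wm μ κ z (B \ (Ext z ∪ {z})) ≤
        ENNReal.ofReal (1 - t ^ n) * wm μ κ z B := by
      intro t ht
      have h1 : wm μ κ z B ≤ ENNReal.ofReal ((t⁻¹) ^ n) * wm μ κ z (E t ∩ B) := by
        refine C.measure_le_of_mapsTo z ⟨ht.1, ht.2.le⟩
          ((hEc t).measurableSet.inter isOpen_ball.measurableSet) fun y hy hU => ?_
        have hy' : dist z y < R := by rw [dist_comm]; exact hy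
        have htI : t ∈ Icc (0 : ℝ) 1 := ⟨ht.1.le, ht.2.le⟩
        refine ⟨⟨y, by rw [mem_closedBall, dist_comm]; exact hy'.le, C.dist_left hU htI,
          C.dist_right hU htI⟩, ?_⟩
        rw [hB, mem_ball, dist_comm, C.dist_left hU htI]
        have := dist_nonneg (x := z) (y := y)
        have h0 := ht.2
        nlinarith
      have h2 : ENNReal.ofReal (t ^ n) * wm μ κ z B ≤ wm μ κ z (E t ∩ B) :=
        Rad.ofReal_pow_mul n t ht.1 _ _ h1
      have h3 : B \ (Ext z ∪ {z}) ⊆ B \ (E t ∩ B) := by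
        rintro y ⟨hy, hy2⟩
        refine ⟨hy, fun hy3 => hy2 ?_⟩
        obtain ⟨⟨w', hw', h4, h5⟩, -⟩ := hy3
        by_cases hyz : y = z
        · right; exact hyz
        left
        have h6 : 0 < dist z y := dist_pos.2 (Ne.symm hyz)
        have h7 : 0 < dist z w' := by
          by_contra h8
          have h9 : dist z w' = 0 := le_antisymm (not_lt.1 h8) dist_nonneg
          rw [h9, mul_zero] at h4
          linarith
        refine ⟨w', ?_, ?_⟩
        · intro h
          rw [h, dist_self] at h5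
          have h10 : 0 < 1 - t := by linarith [ht.2]
          rw [h] at h7
          nlinarith
        · rw [h4, h5]; ring
      calc wm μ κ z (B \ (Ext z ∪ {z})) ≤ wm μ κ z (B \ (E t ∩ B)) := measure_mono h3
        _ = wm μ κ z B - wm μ κ z (E t ∩ B) := by
            rw [measure_sdiff inter_subset_right
              ((hEc t).measurableSet.inter isOpen_ball.measurableSet).nullMeasurableSet
              (ne_top_of_le_ne_top hfin (measure_mono inter_subset_right))]
        _ ≤ wm μ κ z B - ENNReal.ofReal (t ^ n) * wm μ κ z B := tsub_le_tsub_left h2 _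
        _ = ENNReal.ofReal (1 - t ^ n) * wm μ κ z B := by
            have ht0 := ht.1
            rw [ENNReal.ofReal_sub _ (by positivity), ENNReal.ofReal_one, ENNReal.sub_mul,
              one_mul]
            intro _ _
            exact hfin
    have hlim : Tendsto (fun t : ℝ => ENNReal.ofReal (1 - t ^ n) * wm μ κ z B) (𝓝[<] 1) (𝓝 0) := by
      have h1 : Tendsto (fun t : ℝ => ENNReal.ofReal (1 - t ^ n)) (𝓝[<] 1)
          (𝓝 (ENNReal.ofReal (1 - 1 ^ n))) := by
        apply ENNReal.tendsto_ofReal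
        have hc : Continuous fun t : ℝ => 1 - t ^ n := by fun_prop
        exact (hc.tendsto 1).mono_left nhdsWithin_le_nhds
      have h2 := ENNReal.Tendsto.mul_const h1 (Or.inr hfin)
      simpa using h2
    refine le_antisymm (ge_of_tendsto hlim ?_) bot_le
    filter_upwards [Ioo_mem_nhdsLT (show (0 : ℝ) < 1 by norm_num)] with t ht
    exact hbd t ht
  rw [ae_iff]
  have hsub : {w | ¬(w ≠ z → w ∈ Ext z)} ⊆ ⋃ k : ℕ, ball z ((k : ℝ) + 1) \ (Ext z ∪ {z}) := by
    intro w hw
    simp only [mem_ofPred_eq, Classical.not_imp] at hw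
    obtain ⟨k, hk⟩ := exists_nat_gt (dist w z)
    refine mem_iUnion.2 ⟨k, ?_, ?_⟩
    · rw [mem_ball]; linarith
    · rintro (h | h)
      · exact hw.2 h
      · exact hw.1 h
  refine measure_mono_null hsub (measure_iUnion_null fun k => ?_)
  rw [← wm_eq_zero_iff μ z κ]
  exact key _ (by positivity)

end ext

variable {n : ℕ} {M : Type*} [MetricSpace M] [ChartedSpace (EuclideanSpace ℝ (Fin n)) M]
  [IsManifold (𝓡 n) ∞ M]
  [RiemannianBundle (fun p : M => TangentSpace (𝓡 n) p)]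
  [IsContMDiffRiemannianBundle (𝓡 n) ∞ (EuclideanSpace ℝ (Fin n)) (fun p : M => TangentSpace (𝓡 n) p)]
  [IsRiemannianManifold (𝓡 n) M] [MeasurableSpace M] [BorelSpace M]

local notation "𝔼" => EuclideanSpace ℝ (Fin n)

open Classical in
/-- the asymptotically Euclidean chart at `z = (chartAt x).symm a`. -/
def acφ (x : M) (a : 𝔼) (A : 𝔼 ≃L[ℝ] 𝔼) : M → 𝔼 :=
  (chartAt 𝔼 x).source.piecewise (fun y => A (chartAt 𝔼 x y - a)) (fun _ => 0)

theorem acφ_apply (x : M) (a : 𝔼) (A : 𝔼 ≃L[ℝ] 𝔼) {y : M} (hy : y ∈ (chartAt 𝔼 x).source) :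
    acφ x a A y = A (chartAt 𝔼 x y - a) := by
  classical
  unfold acφ
  simp [hy]

theorem measurable_acφ (x : M) (a : 𝔼) (A : 𝔼 ≃L[ℝ] 𝔼) : Measurable (acφ x a A) := by
  classical
  unfold acφ
  refine ContinuousOn.measurable_piecewise ?_ continuousOn_const
    (chartAt 𝔼 x).open_source.measurableSet
  exact A.continuous.comp_continuousOn ((chartAt 𝔼 x).continuousOn.sub continuousOn_const)

theorem exists_ac (x : M) {a : 𝔼} (ha : a ∈ (chartAt 𝔼 x).target) {A : 𝔼 ≃L[ℝ] 𝔼}
    (hA : ∀ u v, inner ℝ (A u) (A v) = gm x a u v) :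
    ∃ Φ : AC n (μHE[n] : Measure M) ((chartAt 𝔼 x).symm a),
      Φ.ψ = fun v => (chartAt 𝔼 x).symm (a + A.symm v) := by
  set z := (chartAt 𝔼 x).symm a with hz
  have hzs : z ∈ (chartAt 𝔼 x).source := (chartAt 𝔼 x).map_target ha
  have hcz : chartAt 𝔼 x z = a := (chartAt 𝔼 x).right_inv ha
  have hsrc : (chartAt 𝔼 x).source ∈ 𝓝 z := (chartAt 𝔼 x).open_source.mem_nhds hzs
  -- the basic near isometry
  have hbil : ∀ η : ℝ, 0 < η → ∃ r : ℝ, 0 < r ∧ ball a r ⊆ (chartAt 𝔼 x).target ∧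
      (∀ y, chartAt 𝔼 x y ∈ ball a r → y ∈ (chartAt 𝔼 x).source →
        dist z y ≤ (1 + η) * ‖A (chartAt 𝔼 x y - a)‖ ∧
        ‖A (chartAt 𝔼 x y - a)‖ ≤ (1 + η) * dist z y) ∧
      (∀ B ⊆ ball a r, μHE[n] ((chartAt 𝔼 x).symm '' B) ≤
        ENNReal.ofReal ((1 + η) ^ n) * volume (A '' B)) := by
    intro η hη
    obtain ⟨r, hr, hb, h1, h2⟩ := exists_bilip x ha hA (η := ⟨η, hη.le⟩) hη
    refine ⟨r, hr, hb, fun y hy hys => ?_, fun B hB => ?_⟩
    · have hy1 : (chartAt 𝔼 x).symm (chartAt 𝔼 x y) = y := (chartAt 𝔼 x).left_inv hys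
      have m1 : A (chartAt 𝔼 x y) ∈ A '' ball a r := ⟨_, hy, rfl⟩
      have m2 : A a ∈ A '' ball a r := ⟨_, mem_ball_self hr, rfl⟩
      have m3 : y ∈ (chartAt 𝔼 x).symm '' ball a r := ⟨_, hy, hy1⟩
      have m4 : z ∈ (chartAt 𝔼 x).symm '' ball a r := ⟨_, mem_ball_self hr, rfl⟩
      have e1 := h1.dist_le_mul _ m2 _ m1
      have e2 := h2.dist_le_mul _ m3 _ m4
      simp only [A.symm_apply_apply, hy1, ← hz] at e1
      simp only [hcz] at e2
      rw [dist_eq_norm, ← map_sub, ← norm_neg, ← map_neg, neg_sub] at e1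
      rw [dist_eq_norm, ← map_sub, dist_comm y z] at e2
      exact ⟨e1, e2⟩
    · have e1 := muHE_image_le (n := n) (h1.mono (image_mono hB))
      rw [image_image, EuclideanSpace.euclideanHausdorffMeasure_eq_volume] at e1
      simp only [A.symm_apply_apply] at e1
      refine e1.trans (le_of_eq ?_)
      congr 1
      rw [ENNReal.ofReal_pow (by positivity)]
      congr 1
      rw [ENNReal.ofReal_add (by norm_num) hη.le, ENNReal.ofReal_one,
        ENNReal.ofReal_eq_coe_nnreal hη.le]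
      rfl
  have hcont : ContinuousAt (chartAt 𝔼 x) z := (chartAt 𝔼 x).continuousAt hzs
  have hball : ∀ r : ℝ, 0 < r → ∀ᶠ y in 𝓝 z, chartAt 𝔼 x y ∈ ball a r := by
    intro r hr
    have := hcont.tendsto
    rw [hcz] at this
    exact this.eventually (ball_mem_nhds a hr)
  have hAc : Tendsto (fun v : 𝔼 => a + A.symm v) (𝓝 0) (𝓝 a) := by
    have hc : Continuous fun v : 𝔼 => a + A.symm v := continuous_const.add A.symm.continuous
    simpa using hc.tendsto 0
  refine ⟨{ φ := acφ x a A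
            ψ := fun v => (chartAt 𝔼 x).symm (a + A.symm v)
            meas := ?_, ψ_zero := ?_, ψφ := ?_, near := ?_, near' := ?_, vol := ?_ }, rfl⟩
  · exact measurable_acφ x a A
  · simp [hz]
  · filter_upwards [hsrc] with y hy
    rw [acφ_apply x a A hy, A.symm_apply_apply, add_sub_cancel, (chartAt 𝔼 x).left_inv hy]
  · intro η hη
    obtain ⟨r, hr, hb, h1, -⟩ := hbil η hη
    filter_upwards [hsrc, hball r hr] with y hy hyb
    obtain ⟨h2, h3⟩ := h1 y hyb hy
    rw [acφ_apply x a A hy, abs_le]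
    have h4 := norm_nonneg (A (chartAt 𝔼 x y - a))
    have h5 := dist_nonneg (x := z) (y := y)
    constructor
    · -- `d ≤ (1+η) |φ|` implies `d - |φ| ≤ η d`
      rcases le_or_gt (dist z y) ‖A (chartAt 𝔼 x y - a)‖ with h | h
      · nlinarith
      · nlinarith
    · linarith
  · intro η hη
    obtain ⟨r, hr, hb, h1, -⟩ := hbil η hη
    filter_upwards [hAc.eventually (ball_mem_nhds a hr)] with v hv
    have ht := hb hv
    have h2 := h1 ((chartAt 𝔼 x).symm (a + A.symm v))
      (by rw [(chartAt 𝔼 x).right_inv ht]; exact hv) ((chartAt 𝔼 x).map_target ht)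
    rw [(chartAt 𝔼 x).right_inv ht, add_sub_cancel_left, A.apply_symm_apply] at h2
    exact h2.1
  · intro η hη
    -- choose `η'` with `(1+η')^n ≤ 1+η`
    obtain ⟨η', hη'0, hη'⟩ : ∃ η' : ℝ, 0 < η' ∧ (1 + η') ^ n ≤ 1 + η := by
      have hc : Continuous fun t : ℝ => (1 + t) ^ n := by fun_prop
      have h1 : ∀ᶠ t : ℝ in 𝓝 0, (1 + t) ^ n < 1 + η := by
        have := hc.tendsto 0
        simp only [add_zero, one_pow] at this
        exact this.eventually (gt_mem_nhds (by linarith))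
      obtain ⟨ε, hε, h2⟩ := Metric.eventually_nhds_iff.1 h1
      refine ⟨ε / 2, by positivity, (h2 ?_).le⟩
      rw [Real.dist_eq, sub_zero, abs_of_pos (by positivity)]
      linarith
    obtain ⟨r, hr, hb, -, h1⟩ := hbil η' hη'0
    obtain ⟨ρ, hρ, h2⟩ := Metric.mem_nhds_iff.1 (inter_mem hsrc (hball r hr))
    refine ⟨ρ, hρ, Measure.le_iff.2 fun B hB => ?_⟩
    have hmeas := measurable_acφ x a A
    rw [Measure.map_apply hmeas hB, Measure.restrict_apply (hmeas hB), Measure.smul_apply,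
      smul_eq_mul]
    set B' : Set 𝔼 := {b | b ∈ ball a r ∧ A (b - a) ∈ B} with hB'
    have hsub : acφ x a A ⁻¹' B ∩ ball z ρ ⊆ (chartAt 𝔼 x).symm '' B' := by
      rintro y ⟨hy1, hy2⟩
      have h3 := h2 hy2
      rw [mem_preimage, acφ_apply x a A h3.1] at hy1
      exact ⟨chartAt 𝔼 x y, ⟨h3.2, hy1⟩, (chartAt 𝔼 x).left_inv h3.1⟩
    have hsub2 : A '' B' ⊆ (fun v => v + A a) '' B := by
      rintro _ ⟨b, ⟨-, hb2⟩, rfl⟩
      exact ⟨A (b - a), hb2, by simp⟩
    calc μHE[n] (acφ x a A ⁻¹' B ∩ ball z ρ) ≤ μHE[n] ((chartAt 𝔼 x).symm '' B') :=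
          measure_mono hsub
      _ ≤ ENNReal.ofReal ((1 + η') ^ n) * volume (A '' B') := h1 B' fun b hb => hb.1
      _ ≤ ENNReal.ofReal (1 + η) * volume ((fun v => v + A a) '' B) := by
          gcongr
      _ = ENNReal.ofReal (1 + η) * volume B := by
          rw [image_add_right, measure_preimage_add_right]

/-- points are null in positive dimension -/
theorem muHE_singleton (hn : n ≠ 0) (z : M) : (μHE[n] : Measure M) {z} = 0 := by
  have hz := mem_chart_source 𝔼 z
  have ha : chartAt 𝔼 z z ∈ (chartAt 𝔼 z).target := (chartAt 𝔼 z).map_source hz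
  have h1 := muHE_symm_image (n := n) z (B := {chartAt 𝔼 z z}) (singleton_subset_iff.2 ha)
    (measurableSet_singleton _)
  rw [image_singleton, (chartAt 𝔼 z).left_inv hz] at h1
  rw [h1]
  have : Nontrivial 𝔼 := by
    have : Nonempty (Fin n) := ⟨⟨0, Nat.pos_of_ne_zero hn⟩⟩
    infer_instance
  rw [Measure.restrict_eq_zero.2 (measure_singleton _), lintegral_zero_measure]

variable [ProperSpace M]

/-- `d_w` read in a chart is differentiable at a point of smoothness of the cost -/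
theorem differentiableAt_dist_chart {w x : M} {a : 𝔼} (ha : a ∈ (chartAt 𝔼 x).target)
    (h : SC n w ((chartAt 𝔼 x).symm a)) (hw : w ≠ (chartAt 𝔼 x).symm a) :
    DifferentiableAt ℝ (fun b => dist w ((chartAt 𝔼 x).symm b)) a := by
  have h1 : DifferentiableAt ℝ (fz w x) a := (contDiffAt_fz ha h).differentiableAt (by simp)
  have h2 : (fun b => dist w ((chartAt 𝔼 x).symm b)) = fun b => √(2 * fz w x b) := by
    funext b
    unfold fz halfDistSq
    rw [mul_div_cancel₀ _ (by norm_num : (2 : ℝ) ≠ 0), Real.sqrt_sq dist_nonneg]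
  rw [h2]
  refine (h1.const_mul 2).sqrt ?_
  unfold fz halfDistSq
  have := dist_pos.2 hw
  positivity

theorem ae_sc {κ : ℝ} (C : Rad n κ M (μHE[n] : Measure M)) (hm : ExM M)
    [IsFiniteMeasureOnCompacts (μHE[n] : Measure M)] (z : M) :
    ∀ᵐ w ∂(μHE[n] : Measure M), w ≠ z → SC n w z ∧ SC n z w := by
  filter_upwards [ae_ext C z] with w hw hwz
  obtain ⟨w', h1, h2⟩ := hw hwz
  have h3 : SC n z w := sc_of_btw hm h2 h1.symm
  exact ⟨sc_symm h3, h3⟩

/-- **absolute Bishop inequality** on `M`. -/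
theorem bishop {κ : ℝ} (C : Rad n κ M (μHE[n] : Measure M)) (hκ : 0 ≤ κ) (z : M) (s : ℝ) :
    μHE[n] (ball z s) ≤
      ENNReal.ofReal (Real.exp (κ * s ^ 2 / 2) * s ^ n) * volume (ball (0 : 𝔼) 1) := by
  have ha : chartAt 𝔼 z z ∈ (chartAt 𝔼 z).target := (chartAt 𝔼 z).map_source (mem_chart_source 𝔼 z)
  obtain ⟨A, hA, -⟩ := exists_isometry z ha
  obtain ⟨Φ, -⟩ := exists_ac z ha hA
  have h1 := Φ.bishop C hκ s
  rwa [(chartAt 𝔼 z).left_inv (mem_chart_source 𝔼 z)] at h1

/-- everything at one point: for a.e. `w` the function `d_w` is differentiable at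
`z = (chartAt x).symm a` and its gradient is a unit vector. -/
theorem ae_unit {κ : ℝ} (C : Rad n κ M (μHE[n] : Measure M)) (hm : ExM M)
    [IsFiniteMeasureOnCompacts (μHE[n] : Measure M)] (x : M) {a : 𝔼}
    (ha : a ∈ (chartAt 𝔼 x).target) :
    ∀ᵐ w ∂(μHE[n] : Measure M), w ≠ (chartAt 𝔼 x).symm a →
      DifferentiableAt ℝ (fun b => dist w ((chartAt 𝔼 x).symm b)) a ∧
      ∃ u : 𝔼, (∀ ξ, fderiv ℝ (fun b => dist w ((chartAt 𝔼 x).symm b)) a ξ = gm x a u ξ) ∧
        gm x a u u = 1 := by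
  filter_upwards [ae_sc C hm ((chartAt 𝔼 x).symm a)] with w hw hwz
  have h1 := (hw hwz).1
  have h2 := differentiableAt_dist_chart ha h1 hwz
  refine ⟨h2, ?_⟩
  obtain ⟨u, hu1, hu2⟩ := exists_grad_chart hm ha h1
  set D := dist w ((chartAt 𝔼 x).symm a) with hD
  have hD0 : 0 < D := dist_pos.2 hwz
  refine ⟨D⁻¹ • u, fun ξ => ?_, ?_⟩
  · have h3 : HasFDerivAt (fz w x) (D • fderiv ℝ (fun b => dist w ((chartAt 𝔼 x).symm b)) a) a := by
      have h4 := (h2.hasFDerivAt.pow 2).const_mul (1 / 2)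
      have e : (fun b => 1 / 2 * dist w ((chartAt 𝔼 x).symm b) ^ 2) = fz w x := by
        funext b
        unfold fz halfDistSq
        ring
      rw [e] at h4
      refine h4.congr_fderiv ?_
      ext ξ
      simp [← hD]
      ring
    have h5 := hu1 ξ
    rw [h3.fderiv] at h5
    have h6 : gm x a (D⁻¹ • u) ξ = D⁻¹ * gm x a u ξ := by simp
    rw [h6, ← h5]
    simp only [FunLike.coe_smul, Pi.smul_apply, smul_eq_mul]
    field_simp
  · have h6 : gm x a (D⁻¹ • u) (D⁻¹ • u) = D⁻¹ * (D⁻¹ * gm x a u u) := by simp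
    rw [h6, hu2]
    field_simp

/-- **ISOTROPY** on `M`, in a chart. -/
theorem isotropy {κ : ℝ} (C : Rad n κ M (μHE[n] : Measure M)) (hκ : 0 ≤ κ) (hm : ExM M)
    [IsFiniteMeasureOnCompacts (μHE[n] : Measure M)] (x : M) {a : 𝔼}
    (ha : a ∈ (chartAt 𝔼 x).target) {α β : ℝ} (hα : 0 ≤ α) (hαβ : α ≤ β) {W : Set M}
    (hW : ∀ w ∈ W, dist ((chartAt 𝔼 x).symm a) w ∈ Ioo α β) (v : 𝔼) :
    (n : ℝ≥0∞) * ∫⁻ w in W, ENNReal.ofReal
        ((fderiv ℝ (fun b => dist w ((chartAt 𝔼 x).symm b)) a v) ^ 2) ∂(μHE[n] : Measure M) ≤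
      ENNReal.ofReal (Real.exp (κ * β ^ 2 / 2) * (β ^ n - α ^ n) * gm x a v v) *
        volume (ball (0 : 𝔼) 1) := by
  rcases Nat.eq_zero_or_pos n with hn | hn
  · subst hn; simp
  obtain ⟨A, hA, -⟩ := exists_isometry x ha
  obtain ⟨Φ, hΦ⟩ := exists_ac x ha hA
  have hne : ∀ᵐ w ∂(μHE[n] : Measure M), w ≠ (chartAt 𝔼 x).symm a := by
    rw [ae_iff]; simpa using muHE_singleton (n := n) hn.ne' ((chartAt 𝔼 x).symm a)
  have hcomp : ∀ w, DifferentiableAt ℝ (fun b => dist w ((chartAt 𝔼 x).symm b)) a →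
      HasFDerivAt (fun v => dist w (Φ.ψ v))
        ((fderiv ℝ (fun b => dist w ((chartAt 𝔼 x).symm b)) a).comp (A.symm : 𝔼 →L[ℝ] 𝔼)) 0 := by
    intro w hw
    rw [hΦ]
    have h1 : HasFDerivAt (fun v : 𝔼 => a + A.symm v) (A.symm : 𝔼 →L[ℝ] 𝔼) 0 :=
      (A.symm : 𝔼 →L[ℝ] 𝔼).hasFDerivAt.const_add a
    have h2 : HasFDerivAt (fun b => dist w ((chartAt 𝔼 x).symm b))
        (fderiv ℝ (fun b => dist w ((chartAt 𝔼 x).symm b)) a) ((fun v : 𝔼 => a + A.symm v) 0) := by
      simpa using hw.hasFDerivAt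
    exact h2.comp (0 : 𝔼) h1
  have hd : ∀ᵐ w ∂(μHE[n] : Measure M), DifferentiableAt ℝ
      (fun b => dist w ((chartAt 𝔼 x).symm b)) a := by
    filter_upwards [ae_unit C hm x ha, hne] with w h1 h2
    exact (h1 h2).1
  have hd' : ∀ᵐ w ∂(μHE[n] : Measure M), DifferentiableAt ℝ (fun v => dist w (Φ.ψ v)) 0 := by
    filter_upwards [hd] with w h1
    exact (hcomp w h1).differentiableAt
  have h1 := Φ.isotropy C hκ hα hαβ hW hd' (A v)
  have h2 : ‖A v‖ ^ 2 = gm x a v v := by rw [← hA, real_inner_self_eq_norm_sq]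
  rw [h2] at h1
  refine le_trans (le_of_eq ?_) h1
  congr 1
  refine lintegral_congr_ae ?_
  refine ae_restrict_of_ae ?_
  filter_upwards [hd] with w h3
  have h4 : Φ.L w = (fderiv ℝ (fun b => dist w ((chartAt 𝔼 x).symm b)) a).comp
      (A.symm : 𝔼 →L[ℝ] 𝔼) := (hcomp w h3).fderiv
  rw [h4]
  simp

/-! ### the frame gradient of `d_w` -/

section frame

variable [SecondCountableTopology M] [Nonempty M]

/-- **ISOTROPY** in the frame. -/
theorem isotropy_Gr {κ : ℝ} (C : Rad n κ M (μHE[n] : Measure M)) (hκ : 0 ≤ κ) (hm : ExM M)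
    [IsFiniteMeasureOnCompacts (μHE[n] : Measure M)] (u : M) {α β : ℝ} (hα : 0 ≤ α) (hαβ : α ≤ β)
    {W : Set M} (hW : ∀ w ∈ W, dist u w ∈ Ioo α β) (ξ : 𝔼) :
    (n : ℝ≥0∞) * ∫⁻ w in W, ENNReal.ofReal
        ((inner ℝ (Gr (n := n) (fun z => dist w z) u) ξ) ^ 2) ∂(μHE[n] : Measure M) ≤
      ENNReal.ofReal (Real.exp (κ * β ^ 2 / 2) * (β ^ n - α ^ n) * ‖ξ‖ ^ 2) *
        volume (ball (0 : 𝔼) 1) := by
  set v : 𝔼 := ∑ j, ξ j • colv (sel n u) (crd n u) j with hv
  have h1 := isotropy C hκ hm (sel n u) (crd_mem (n := n) u) hα hαβ (W := W)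
    (by rw [symm_crd]; exact hW) v
  have h2 : gm (sel n u) (crd n u) v v = ‖ξ‖ ^ 2 := by
    have h3 : gm (sel n u) (crd n u) v v = ∑ j, ∑ k, ξ j * (ξ k *
        gm (sel n u) (crd n u) (colv (sel n u) (crd n u) j) (colv (sel n u) (crd n u) k)) := by
      rw [hv]
      simp only [map_sum, map_smul, sum_apply, smul_apply, smul_eq_mul, Finset.mul_sum]
      rw [Finset.sum_comm]
      refine Finset.sum_congr rfl fun i _ => Finset.sum_congr rfl fun j _ => ?_
      ring
    rw [h3, EuclideanSpace.norm_sq_eq]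
    refine Finset.sum_congr rfl fun j _ => ?_
    rw [Finset.sum_eq_single j]
    · rw [gm_colv _ (crd_mem (n := n) u), if_pos rfl, mul_one, Real.norm_eq_abs, sq_abs, sq]
    · intro k _ hk
      rw [gm_colv _ (crd_mem (n := n) u), if_neg (Ne.symm hk), mul_zero, mul_zero]
    · intro h; exact absurd (Finset.mem_univ _) h
  rw [h2] at h1
  refine le_trans (le_of_eq ?_) h1
  congr 1
  refine lintegral_congr fun w => ?_
  congr 2
  rw [hv, map_sum, PiLp.inner_apply]
  refine Finset.sum_congr rfl fun j _ => ?_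
  rw [map_smul, Gr_apply_chart]
  simp [mul_comm]

/-- for a.e. `w` the function `d_w` is differentiable at `u` with unit gradient. -/
theorem ae_norm_Gr {κ : ℝ} (C : Rad n κ M (μHE[n] : Measure M)) (hm : ExM M)
    [IsFiniteMeasureOnCompacts (μHE[n] : Measure M)] (u : M) :
    ∀ᵐ w ∂(μHE[n] : Measure M), w ≠ u →
      MDifferentiableAt (𝓡 n) 𝓘(ℝ) (fun z => dist w z) u ∧
        ‖Gr (n := n) (fun z => dist w z) u‖ = 1 := by
  filter_upwards [ae_unit C hm (sel n u) (crd_mem (n := n) u)] with w hw hwu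
  rw [symm_crd] at hw
  obtain ⟨h1, e, he1, he2⟩ := hw hwu
  refine ⟨?_, ?_⟩
  · rw [mdifferentiableAt_iff_chart (sel n u) (mem_sel (n := n) u)]
    exact h1
  · -- Parseval for the `gm`-orthonormal basis `colv`
    set E : 𝔼 := Gr (n := n) (fun z => dist w z) u with hE
    have hEj : ∀ j, E j = gm (sel n u) (crd n u) e (colv (sel n u) (crd n u) j) := by
      intro j
      rw [hE, Gr_apply_chart, he1]
    set e' : 𝔼 := ∑ j, E j • colv (sel n u) (crd n u) j with he'
    -- `e' = e` because they have the same products with the orthonormal basis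
    have hnd : ∀ y : 𝔼, (∀ j, gm (sel n u) (crd n u) y (colv (sel n u) (crd n u) j) = 0) → y = 0 := by
      intro y hy
      have hli : LinearIndependent ℝ (fun j => colv (sel n u) (crd n u) j) := by
        rw [Fintype.linearIndependent_iff]
        intro c hc k
        have h3 : gm (sel n u) (crd n u) (∑ j, c j • colv (sel n u) (crd n u) j)
            (colv (sel n u) (crd n u) k) = c k := by
          simp only [map_sum, map_smul, sum_apply, smul_apply, smul_eq_mul]
          rw [Finset.sum_eq_single k]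
          · rw [gm_colv _ (crd_mem (n := n) u), if_pos rfl, mul_one]
          · intro j _ hj
            rw [gm_colv _ (crd_mem (n := n) u), if_neg hj, mul_zero]
          · intro h; exact absurd (Finset.mem_univ _) h
        rw [hc] at h3
        simpa using h3.symm
      have hspan : Submodule.span ℝ (range fun j => colv (sel n u) (crd n u) j) = ⊤ :=
        hli.span_eq_top_of_card_eq_finrank' (by
          rw [Fintype.card_fin]; exact finrank_euclideanSpace_fin.symm)
      have h4 : gm (sel n u) (crd n u) y y = 0 := by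
        have h5 : y ∈ Submodule.span ℝ (range fun j => colv (sel n u) (crd n u) j) := by
          rw [hspan]; trivial
        obtain ⟨c, hc⟩ := (Submodule.mem_span_range_iff_exists_fun ℝ).1 h5
        have h6 : gm (sel n u) (crd n u) y (∑ j, c j • colv (sel n u) (crd n u) j) = 0 := by
          simp only [map_sum, map_smul, hy, smul_zero, Finset.sum_const_zero]
        rwa [hc] at h6
      by_contra hne
      exact (gm_self_pos (sel n u) (crd_mem (n := n) u) hne).ne' h4
    have hee : e' = e := by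
      have h7 : e' - e = 0 := by
        apply hnd
        intro k
        have h8 : gm (sel n u) (crd n u) e' (colv (sel n u) (crd n u) k) = E k := by
          rw [he']
          simp only [map_sum, map_smul, sum_apply, smul_apply, smul_eq_mul]
          rw [Finset.sum_eq_single k]
          · rw [gm_colv _ (crd_mem (n := n) u), if_pos rfl, mul_one]
          · intro j _ hj
            rw [gm_colv _ (crd_mem (n := n) u), if_neg hj, mul_zero]
          · intro h; exact absurd (Finset.mem_univ _) h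
        rw [map_sub, sub_apply, h8, hEj, sub_self]
      exact sub_eq_zero.1 h7
    have h9 : ‖E‖ ^ 2 = 1 := by
      rw [← he2, ← hee]
      have h3 : gm (sel n u) (crd n u) e' e' = ∑ j, ∑ k, E j * (E k *
          gm (sel n u) (crd n u) (colv (sel n u) (crd n u) j) (colv (sel n u) (crd n u) k)) := by
        rw [he']
        simp only [map_sum, map_smul, sum_apply, smul_apply, smul_eq_mul, Finset.mul_sum]
        rw [Finset.sum_comm]
        refine Finset.sum_congr rfl fun i _ => Finset.sum_congr rfl fun j _ => ?_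
        ring
      rw [h3, EuclideanSpace.norm_sq_eq]
      refine Finset.sum_congr rfl fun j _ => ?_
      rw [Finset.sum_eq_single j]
      · rw [gm_colv _ (crd_mem (n := n) u), if_pos rfl, mul_one, Real.norm_eq_abs, sq_abs, sq]
      · intro k _ hk
        rw [gm_colv _ (crd_mem (n := n) u), if_neg (Ne.symm hk), mul_zero, mul_zero]
      · intro h; exact absurd (Finset.mem_univ _) h
    have h10 := norm_nonneg E
    nlinarith

end frame

end Crest.Agent.R247.Iso311
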