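import Crest.Agent.R247.Rdg2_879
import Crest.Agent.R247.Cal_550
import Crest.Agent.R247.Ms8_322
import Crest.Agent.R247.Iso2_311
import Crest.Agent.R247.Mcp7_688

-- ▼ part R247/Rdg3_879
section

/-!
R247 (helper879), leaf (RDG), file 3: `∃ G, GRep C G` (JC5)

* `exists_GRep` (abstract, from the symmetry of the radial derivatives)
* `exists_GRep_mfd` (on the manifold)
* `rd_locLip` : `RD C x φ ⟪Gr f_x, Gr φ⟫` for `φ` locally Lipschitz, `μ = μHE[n]`
-/

set_option autoImplicit false
set_option maxSynthPendingDepth 3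
set_option linter.unusedSectionVars false

open Bundle Set Filter Topology MeasureTheory
open scoped Manifold ContDiff
open Crest.GeometryTopology.MTW Crest.Agent.R226
open Crest.Agent.R226.NearLem90 (dL halfDistSq_comm hasDerivAt_comp_curve)
open Crest.Agent.R226.CutSmooth77 (SC)
open Crest.Agent.R247.Sm879
open Crest.Agent.R247.Mcp688
open Crest.Agent.R247.Ms322
open Crest.Agent.R247.Cal550

noncomputable section
namespace Crest.Agent.R247.Rdg879

section abstract
variable {n : ℕ} {κ : ℝ} {X : Type*} [MetricSpace X] [MeasurableSpace X] [BorelSpace X]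
  {μ : Measure X} (C : Rad n κ X μ)

include C in
/-- the radial derivative of `d_b²/2` from `a` is at most `d_a d_b` -/
theorem rd_bound {a b : X} {D : X → ℝ} (h : RD C a (fun u => dist b u ^ 2 / 2) D) :
    ∀ᵐ u ∂μ, |D u| ≤ dist a u * dist b u := by
  filter_upwards [h.tendsto, C.ae_U a] with u hu hU
  set t : ℕ → ℝ := fun k => 1 - 1 / ((k : ℝ) + 2) with ht
  have ht0 : ∀ k, 0 ≤ t k := by
    intro k
    have h1 : 1 / ((k : ℝ) + 2) ≤ 1 := by
      rw [div_le_one (by positivity)]
      have : (0 : ℝ) ≤ k := Nat.cast_nonneg k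
      linarith
    simp only [ht]; linarith
  have ht1 : ∀ k, t k < 1 := by
    intro k
    have h1 : (0 : ℝ) < 1 / ((k : ℝ) + 2) := by positivity
    simp only [ht]; linarith
  have htl : Tendsto t atTop (𝓝 1) := by
    have h1 : Tendsto (fun k : ℕ => 1 / ((k : ℝ) + 2)) atTop (𝓝 0) := by
      have h2 : Tendsto (fun k : ℕ => ((k : ℝ) + 2)) atTop atTop :=
        tendsto_atTop_add_const_right _ _ tendsto_natCast_atTop_atTop
      simpa using h2.const_div_atTop (1 : ℝ)
    simpa [ht] using (tendsto_const_nhds (x := (1 : ℝ))).sub h1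
  have hl : Tendsto (fun k : ℕ => (2 * dist b u + (1 - t k) * dist a u) / 2 * dist a u) atTop
      (𝓝 ((2 * dist b u + (1 - 1) * dist a u) / 2 * dist a u)) :=
    ((((tendsto_const_nhds.sub htl).mul_const _).const_add _).div_const _).mul_const _
  have e : (2 * dist b u + (1 - 1) * dist a u) / 2 * dist a u = dist a u * dist b u := by ring
  rw [e] at hl
  refine le_of_tendsto_of_tendsto' hu.abs hl fun k => ?_
  have hI : t k ∈ Icc (0 : ℝ) 1 := ⟨ht0 k, (ht1 k).le⟩
  have hr := C.dist_right hU hI
  set y := C.T a (t k) u with hy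
  have hd := dist_nonneg (x := a) (y := u)
  have hb := dist_nonneg (x := b) (y := u)
  have hby := dist_nonneg (x := b) (y := y)
  have h1 : |dist b y - dist b u| ≤ dist y u := by
    rw [abs_le]
    have h3 := dist_triangle b y u
    have h4 := dist_triangle b u y
    rw [dist_comm u y] at h4
    constructor <;> linarith
  have h2 : dist b y ≤ dist b u + dist y u := by
    have := (abs_le.1 h1).2; linarith
  have h5 : 0 < 1 - t k := by linarith [ht1 k]
  have h6 : |t k - 1| = 1 - t k := by rw [abs_of_neg (by linarith)]; ring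
  show |(dist b y ^ 2 / 2 - dist b u ^ 2 / 2) / (t k - 1)| ≤ _
  rw [abs_div, h6, div_le_iff₀ h5]
  have h7 : dist b y ^ 2 / 2 - dist b u ^ 2 / 2 =
      (dist b y - dist b u) * ((dist b y + dist b u) / 2) := by ring
  rw [h7, abs_mul, abs_of_nonneg (by positivity : 0 ≤ (dist b y + dist b u) / 2)]
  calc |dist b y - dist b u| * ((dist b y + dist b u) / 2)
      ≤ dist y u * ((dist b u + dist y u + dist b u) / 2) := by gcongr
    _ = _ := by rw [hr]; ring

open Classical in
/-- **JC5**: a jointly measurable, symmetric, bounded representative of all the brackets -/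
theorem exists_GRep [SecondCountableTopology X]
    (hsym : ∀ a b : X, ∃ D : X → ℝ, RD C a (fun u => dist b u ^ 2 / 2) D ∧
      RD C b (fun u => dist a u ^ 2 / 2) D) : ∃ G, GRep C G := by
  set q : ℕ → X × X × X → ℝ := fun k p =>
    (dist p.2.1 (C.T p.1 (1 - 1 / ((k : ℝ) + 2)) p.2.2) ^ 2 / 2 - dist p.2.1 p.2.2 ^ 2 / 2) /
      ((1 - 1 / ((k : ℝ) + 2)) - 1) with hq
  have hqm : ∀ k, Measurable (q k) := by
    intro k
    have h1 : Measurable (fun p : X × X × X => C.T p.1 (1 - 1 / ((k : ℝ) + 2)) p.2.2) :=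
      C.measT.comp (measurable_fst.prodMk (measurable_const.prodMk measurable_snd.snd))
    have h2 : Measurable (fun p : X × X × X => p.2.1) := measurable_snd.fst
    have h3 : Measurable (fun p : X × X × X => p.2.2) := measurable_snd.snd
    exact ((((h2.dist h1).pow_const 2).div_const 2).sub
      (((h2.dist h3).pow_const 2).div_const 2)).div_const _
  set G0 : X × X × X → ℝ := fun p => limsup (fun k => q k p) atTop with hG0
  have hG0m : Measurable G0 := Measurable.limsup hqm
  set G0' : X × X × X → ℝ := fun p => G0 (p.2.1, p.1, p.2.2) with hG0'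
  have hG0m' : Measurable G0' :=
    hG0m.comp (measurable_snd.fst.prodMk (measurable_fst.prodMk measurable_snd.snd))
  set S : Set (X × X × X) := {p | G0 p = G0' p ∧ |G0 p| ≤ dist p.1 p.2.2 * dist p.2.1 p.2.2}
    with hS
  have hSm : MeasurableSet S := by
    have e1 : MeasurableSet {p : X × X × X | G0 p = G0' p} := measurableSet_eq_fun hG0m hG0m'
    have e2 : MeasurableSet {p : X × X × X | |G0 p| ≤ dist p.1 p.2.2 * dist p.2.1 p.2.2} :=
      measurableSet_le (continuous_abs.measurable.comp hG0m)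
        ((measurable_fst.dist measurable_snd.snd).mul (measurable_snd.fst.dist measurable_snd.snd))
    exact e1.inter e2
  set Dg : Set (X × X × X) := {p | p.1 = p.2.1} with hDg
  have hDgm : MeasurableSet Dg := measurableSet_eq_fun measurable_fst measurable_snd.fst
  have hD0 : ∀ a b : X, ∀ D : X → ℝ, RD C a (fun u => dist b u ^ 2 / 2) D →
      ∀ᵐ u ∂μ, G0 (a, b, u) = D u := by
    intro a b D hD
    filter_upwards [hD.tendsto] with u hu
    exact hu.limsup_eq
  refine ⟨fun a b u => if (a, b, u) ∈ Dg then dist a u ^ 2 else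
    if (a, b, u) ∈ S then G0 (a, b, u) else 0, ?_, ?_, ?_, ?_, ?_⟩
  · have h1 : Measurable (fun p : X × X × X => if p ∈ Dg then dist p.1 p.2.2 ^ 2 else
        if p ∈ S then G0 p else 0) :=
      Measurable.ite hDgm ((measurable_fst.dist measurable_snd.snd).pow_const 2)
        (Measurable.ite hSm hG0m measurable_const)
    exact h1
  · intro a b u
    rcases eq_or_ne a b with rfl | hab
    · rfl
    · have n1 : (a, b, u) ∉ Dg := hab
      have n2 : (b, a, u) ∉ Dg := hab.symm
      simp only [n1, n2, if_false]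
      have hSS : (a, b, u) ∈ S ↔ (b, a, u) ∈ S := by
        simp only [hS, hG0', mem_ofPred_eq]
        constructor
        · rintro ⟨h1, h2⟩
          exact ⟨h1.symm, by rw [← h1, mul_comm]; exact h2⟩
        · rintro ⟨h1, h2⟩
          exact ⟨h1.symm, by rw [← h1, mul_comm]; exact h2⟩
      by_cases h : (a, b, u) ∈ S
      · rw [if_pos h, if_pos (hSS.1 h)]
        exact h.1
      · rw [if_neg h, if_neg (fun h' => h (hSS.2 h'))]
  · intro a u
    have : (a, a, u) ∈ Dg := rfl
    simp only [this, if_true]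
  · intro a b u
    show |if (a, b, u) ∈ Dg then dist a u ^ 2 else if (a, b, u) ∈ S then G0 (a, b, u) else 0| ≤ _
    by_cases h1 : (a, b, u) ∈ Dg
    · have hab : a = b := h1
      subst hab
      rw [if_pos h1, abs_of_nonneg (by positivity), sq]
    · rw [if_neg h1]
      by_cases h2 : (a, b, u) ∈ S
      · rw [if_pos h2]; exact h2.2
      · rw [if_neg h2, abs_zero]; positivity
  · intro a b
    rcases eq_or_ne a b with rfl | hab
    · have h := RD.radial (C := C) (x := a) (η := fun s => s ^ 2 / 2) (η' := fun s => s)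
        (Eventually.of_forall fun z _ => by
          apply HasDerivAt.hasDerivWithinAt
          exact ((hasDerivAt_pow 2 (dist a z)).div_const 2).congr_deriv (by push_cast; ring))
      refine h.congr (Eventually.of_forall fun u => ?_)
      have : (a, a, u) ∈ Dg := rfl
      simp only [this, if_true, sq]
    · obtain ⟨D, hD1, hD2⟩ := hsym a b
      refine hD1.congr ?_
      filter_upwards [hD0 a b D hD1, hD0 b a D hD2, rd_bound C hD1] with u h1 h2 h3
      have n1 : (a, b, u) ∉ Dg := hab
      have n2 : (a, b, u) ∈ S := by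
        refine ⟨?_, ?_⟩
        · show G0 (a, b, u) = G0 (b, a, u)
          rw [h1, h2]
        · rw [h1]; exact h3
      simp only [n1, n2, if_false, if_true, h1]

end abstract

section mfd
variable {n : ℕ} {M : Type*} [MetricSpace M] [ChartedSpace (EuclideanSpace ℝ (Fin n)) M]
  [IsManifold (𝓡 n) ∞ M]
  [RiemannianBundle (fun p : M => TangentSpace (𝓡 n) p)]
  [IsContMDiffRiemannianBundle (𝓡 n) ∞ (EuclideanSpace ℝ (Fin n)) (fun p : M => TangentSpace (𝓡 n) p)]
  [IsRiemannianManifold (𝓡 n) M] [ProperSpace M]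
  [MeasurableSpace M] [BorelSpace M] {κ : ℝ}

local notation "𝔼" => EuclideanSpace ℝ (Fin n)

theorem hds_eq (x : M) : (fun u : M => dist x u ^ 2 / 2) = fun u => halfDistSq u x := by
  funext u
  rw [dist_comm]; rfl

section
variable {μ : Measure M} (C : Rad n κ M μ) [Nontrivial M] [IsFiniteMeasureOnCompacts μ]
  [SecondCountableTopology M] [Nonempty M]






end


end mfd

end Crest.Agent.R247.Rdg879
end
end

-- ▼ part R247/Rdg4_879

/-!
R247 (helper879), leaf (RDG), file 4: block-level forms (instances of S0381, `μ = μHE[n]`, `1 ≤ n`,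
any real `κ`)

* `rd_block` : `RD C x φ ⟪Gr (d_x²/2), Gr φ⟫` for `φ` locally Lipschitz
* `grep_block` : `∃ G, GRep C G`
* `dw_block` : 656's form of JC5
-/

set_option autoImplicit false
set_option maxSynthPendingDepth 3
set_option linter.unusedSectionVars false

open Bundle Set Filter Topology MeasureTheory
open scoped Manifold ContDiff
open Crest.GeometryTopology.MTW Crest.Agent.R226
open Crest.Agent.R226.NearLem90 (dL halfDistSq_comm hasDerivAt_comp_curve)
open Crest.Agent.R226.CutSmooth77 (SC)
open Crest.Agent.R247.Sm879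
open Crest.Agent.R247.Mcp688
open Crest.Agent.R247.Ms322
open Crest.Agent.R247.Cal550

noncomputable section
namespace Crest.Agent.R247.Rdg879

section core
variable {n : ℕ} {M : Type*} [MetricSpace M] [ChartedSpace (EuclideanSpace ℝ (Fin n)) M]
  [IsManifold (𝓡 n) ∞ M]
  [RiemannianBundle (fun p : M => TangentSpace (𝓡 n) p)]
  [IsContMDiffRiemannianBundle (𝓡 n) ∞ (EuclideanSpace ℝ (Fin n)) (fun p : M => TangentSpace (𝓡 n) p)]
  [IsRiemannianManifold (𝓡 n) M] [ProperSpace M] [SecondCountableTopology M] [Nonempty M]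
  [MeasurableSpace M] [BorelSpace M] {κ : ℝ}

local notation "𝔼" => EuclideanSpace ℝ (Fin n)

/-- the core form: only `SC n z x` a.e. -/
theorem rd_grad_of {μ : Measure M} (C : Rad n κ M μ) {x : M} (hsc : ∀ᵐ z ∂μ, SC n z x)
    {φ : M → ℝ} (hφ : ∀ᵐ z ∂μ, MDifferentiableAt (𝓡 n) 𝓘(ℝ) φ z) :
    RD C x φ (fun z => inner ℝ (Gr (n := n) (fun u => dist x u ^ 2 / 2) z) (Gr (n := n) φ z)) := by
  have h : RD C x φ
      (fun z => inner ℝ (Gr (n := n) (fun q => halfDistSq q x) z) (Gr (n := n) φ z)) := by
    filter_upwards [hsc, hφ, C.ae_U x] with z h1 h2 h3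
    exact ((seg_of_U C h3).grad_end h1 h2).mono Iio_subset_Iic_self
  rwa [← hds_eq] at h

variable (C : Rad n κ M (Measure.euclideanHausdorffMeasure n : Measure M))
  [IsFiniteMeasureOnCompacts (Measure.euclideanHausdorffMeasure n : Measure M)]

include C in
theorem ae_sc_muHE (hn : 1 ≤ n) (hm : ExM M) (x : M) :
    ∀ᵐ z ∂(Measure.euclideanHausdorffMeasure n : Measure M), SC n z x := by
  have h1 := Iso311.ae_sc C hm x
  have h2 : ∀ᵐ z ∂(Measure.euclideanHausdorffMeasure n : Measure M), z ≠ x := by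
    rw [ae_iff]
    have : {a : M | ¬a ≠ x} = {x} := by ext; simp
    rw [this]
    exact muHE_singleton n hn x
  filter_upwards [h1, h2] with z hz hzx using (hz hzx).1

theorem rd_muHE (hn : 1 ≤ n) (hm : ExM M) (x : M) {φ : M → ℝ}
    (hφ : ∀ᵐ z ∂(Measure.euclideanHausdorffMeasure n : Measure M),
      MDifferentiableAt (𝓡 n) 𝓘(ℝ) φ z) :
    RD C x φ (fun z => inner ℝ (Gr (n := n) (fun u => dist x u ^ 2 / 2) z) (Gr (n := n) φ z)) :=
  rd_grad_of C (ae_sc_muHE C hn hm x) hφ

include C in
theorem ae_mdiff_muHE (hn : 1 ≤ n) (hm : ExM M) (b : M) :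
    ∀ᵐ z ∂(Measure.euclideanHausdorffMeasure n : Measure M),
      MDifferentiableAt (𝓡 n) 𝓘(ℝ) (fun u => dist b u ^ 2 / 2) z := by
  filter_upwards [ae_sc_muHE C hn hm b] with z hz
  rw [hds_eq b]
  exact mdiff_left hz

theorem rd_symm_muHE (hn : 1 ≤ n) (hm : ExM M) (a b : M) : ∃ D : M → ℝ,
    RD C a (fun u => dist b u ^ 2 / 2) D ∧ RD C b (fun u => dist a u ^ 2 / 2) D := by
  refine ⟨_, rd_muHE C hn hm a (ae_mdiff_muHE C hn hm b), ?_⟩
  have := rd_muHE C hn hm b (ae_mdiff_muHE C hn hm a)
  simpa only [real_inner_comm] using this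

theorem exists_GRep_muHE (hn : 1 ≤ n) (hm : ExM M) : ∃ G, GRep C G :=
  exists_GRep C (rd_symm_muHE C hn hm)

end core

section block
universe u
variable {n : ℕ} {M : Type u} [MetricSpace M] [CompleteSpace M] [ConnectedSpace M]
    [ChartedSpace (EuclideanSpace ℝ (Fin n)) M]
    [IsManifold 𝓘(ℝ, EuclideanSpace ℝ (Fin n)) ∞ M]
    [RiemannianBundle (fun x : M => TangentSpace 𝓘(ℝ, EuclideanSpace ℝ (Fin n)) x)]
    [IsContMDiffRiemannianBundle 𝓘(ℝ, EuclideanSpace ℝ (Fin n)) ∞ (EuclideanSpace ℝ (Fin n))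
      (fun x : M => TangentSpace 𝓘(ℝ, EuclideanSpace ℝ (Fin n)) x)]
    [IsRiemannianManifold 𝓘(ℝ, EuclideanSpace ℝ (Fin n)) M]

variable (n M) in
include n in
theorem exM_block : ExM M :=
  have := HR216.properSpace_of_riemannian n M
  ExM.of_exactMid (HR216.approxMid_of_riemannian n M).exactMid

variable [MeasurableSpace M] [BorelSpace M] {κ : ℝ}

/-- **(RDG), block form** -/
theorem rd_block [SecondCountableTopology M] [Nonempty M] (hn : 1 ≤ n)
    (C : Rad n κ M (Measure.euclideanHausdorffMeasure n : Measure M))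
    (x : M) {φ : M → ℝ} (hφ : LocallyLipschitz φ) :
    RD C x φ (fun z => inner ℝ (Gr (n := n) (fun u => dist x u ^ 2 / 2) z)
      (Gr (n := n) φ z)) := by
  have := HR216.properSpace_of_riemannian n M
  have := isLocallyFinite_muHE n M
  exact rd_muHE C hn (exM_block n M) x (ae_mdifferentiableAt hφ)

/-- **(JC5), block form** -/
theorem grep_block (hn : 1 ≤ n)
    (C : Rad n κ M (Measure.euclideanHausdorffMeasure n : Measure M)) : ∃ G, GRep C G := by
  have := HR216.properSpace_of_riemannian n M
  have := isLocallyFinite_muHE n M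
  have := HR216.secondCountable_of_riemannian n M
  exact exists_GRep_muHE C hn (exM_block n M)



end block

end Crest.Agent.R247.Rdg879
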