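import Crest.Agent.R247.Loc1_710
import Crest.Agent.R247.Cal_550
import Crest.Agent.R247.Fd0_656

-- ▼ part R247/Loc2_710
section

/-!
# (L2): the local Pythagoras theorem for two centres (`L¹` form)

For two centres `x, y` and a measurable set `A ⊆ ball x r ∩ ball y r` the function
`u ↦ ⟨∇f_x,∇f_y⟩(u) - f_x(u) - f_y(u)` is `L¹(A)`-close to a constant, the error being controlled by
the local Hessian defects of `x` and `y`.
-/

set_option autoImplicit false
set_option linter.unusedSectionVars false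
open MeasureTheory Set Filter Topology Metric
open Crest.Agent.R247.Mcp688 Crest.Agent.R247.Pyt710 Crest.Agent.R247.Dir593
  Crest.Agent.R247.Hes124
open scoped ENNReal NNReal RealInnerProductSpace

noncomputable section
namespace Crest.Agent.R247.Loc710

variable {n : ℕ} {κ κ' : ℝ} {X : Type*} [MetricSpace X] [MeasurableSpace X] [BorelSpace X]
  {μ : Measure X} [IsFiniteMeasureOnCompacts μ] [SFinite μ]

/-- The gradient and Hessian parts of `HFloc` (all that `(L2)` needs). -/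
def HF2 (B : BochS n κ X μ) (x : X) (r D : ℝ) : Prop :=
  ∃ w ∈ B.core,
    ∫⁻ z in ball x r, ENNReal.ofReal (‖B.G w z - B.G (fx x) z‖ ^ 2) ∂μ ≤
      ENNReal.ofReal (D * r ^ (n + 2)) ∧
    ∫⁻ z in ball x r, ENNReal.ofReal (‖B.H w z - idm n‖ ^ 2) ∂μ ≤ ENNReal.ofReal (D * r ^ n)

lemma HFloc.hf2 {B : BochS n κ X μ} {x : X} {r D : ℝ} (h : HFloc B x r D) : HF2 B x r D := by
  obtain ⟨w, hw, _, -, h2, h3⟩ := h
  exact ⟨w, hw, h2, h3⟩

lemma HF2.mono {B : BochS n κ X μ} {x : X} {r D D' : ℝ} (h : HF2 B x r D) (hr : 0 ≤ r)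
    (hD : D ≤ D') : HF2 B x r D' := by
  obtain ⟨w, hw, h2, h3⟩ := h
  exact ⟨w, hw, h2.trans (ENNReal.ofReal_le_ofReal (by gcongr)),
    h3.trans (ENNReal.ofReal_le_ofReal (by gcongr))⟩

/-- locally Lipschitz functions are Lipschitz on bounded sets of a proper space -/
lemma lip_bdd [ProperSpace X] {q : X → ℝ} (hq : LocallyLipschitz q) (x : X) :
    ∀ R : ℝ, ∃ L : ℝ, ∀ y z, dist x y ≤ R → dist x z ≤ R → |q y - q z| ≤ L * dist y z := by
  intro R
  obtain ⟨K, hK⟩ := (hq.locallyLipschitzOn (s := closedBall x R)).exists_lipschitzOnWith_of_compact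
    (isCompact_closedBall x R)
  refine ⟨K, fun y z hy hz => ?_⟩
  have := hK.dist_le_mul y (by rwa [mem_closedBall, dist_comm]) z
    (by rwa [mem_closedBall, dist_comm])
  rwa [Real.dist_eq] at this

/-- the oscillation of `P` on a minimiser is at most the integral of `|∇P|` -/
lemma pair_le [ProperSpace X] (S : GradS X (F n) μ) (C : Rad n κ' X μ) (hR : RDG S C)
    (hU : UnitA S) {P : X → ℝ} (hP : LocallyLipschitz P) (u : X) :
    ∀ᵐ v ∂μ, ENNReal.ofReal |P u - P v| ≤ ENNReal.ofReal (dist u v) *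
      ∫⁻ t in Icc (0 : ℝ) 1, ENNReal.ofReal ‖S.G P (C.T u t v)‖ := by
  filter_upwards [C.ray_ftc u (hR u P hP) (lip_bdd hP u), C.ae_ray u (hU u), C.ae_U u]
    with v hv hu hUv
  have key : ∀ a ∈ Ioc (0 : ℝ) 1, ENNReal.ofReal |P (C.T u 1 v) - P (C.T u a v)| ≤
      ENNReal.ofReal (dist u v) *
        ∫⁻ t in Icc (0 : ℝ) 1, ENNReal.ofReal ‖S.G P (C.T u t v)‖ := by
    intro a ha
    obtain ⟨hi, he⟩ := hv a 1 ha.1 ha.2 le_rfl
    rw [← he, intervalIntegral.integral_of_le ha.2, ← Real.enorm_eq_ofReal_abs]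
    refine (enorm_integral_le_lintegral_enorm _).trans ?_
    rw [← lintegral_const_mul' _ _ ENNReal.ofReal_ne_top]
    calc ∫⁻ t in Ioc a 1, ‖⟪S.G (fx u) (C.T u t v), S.G P (C.T u t v)⟫ / t‖ₑ
        ≤ ∫⁻ t in Ioc a 1, ENNReal.ofReal (dist u v) *
            ENNReal.ofReal ‖S.G P (C.T u t v)‖ := by
          apply lintegral_mono_ae
          filter_upwards [ae_restrict_of_ae_restrict_of_subset
            (Ioc_subset_Ioc ha.1.le le_rfl) hu, ae_restrict_mem measurableSet_Ioc] with t ht htm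
          have ht0 : 0 < t := ha.1.trans htm.1
          have htI : t ∈ Icc (0 : ℝ) 1 := ⟨ht0.le, htm.2⟩
          rw [Real.enorm_eq_ofReal_abs, ← ENNReal.ofReal_mul dist_nonneg]
          apply ENNReal.ofReal_le_ofReal
          rw [abs_div, abs_of_pos ht0, div_le_iff₀ ht0]
          calc |⟪S.G (fx u) (C.T u t v), S.G P (C.T u t v)⟫|
              ≤ ‖S.G (fx u) (C.T u t v)‖ * ‖S.G P (C.T u t v)‖ := abs_real_inner_le_norm _ _
            _ = dist u v * ‖S.G P (C.T u t v)‖ * t := by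
                rw [ht, C.dist_left hUv htI]
                ring
      _ ≤ ∫⁻ t in Icc (0 : ℝ) 1, ENNReal.ofReal (dist u v) *
            ENNReal.ofReal ‖S.G P (C.T u t v)‖ := by
          apply lintegral_mono_set
          intro t ht
          exact ⟨ha.1.le.trans ht.1.le, ht.2⟩
  have hcont : Tendsto (fun a : ℝ => ENNReal.ofReal |P (C.T u 1 v) - P (C.T u a v)|) (𝓝[>] 0)
      (𝓝 (ENNReal.ofReal |P (C.T u 1 v) - P (C.T u 0 v)|)) := by
    have h1 : Tendsto (fun a : ℝ => C.T u a v) (𝓝[>] 0) (𝓝 (C.T u 0 v)) := by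
      rw [tendsto_iff_dist_tendsto_zero]
      have h2 : Tendsto (fun a : ℝ => |a - 0| * dist u v) (𝓝[>] 0) (𝓝 (|(0 : ℝ) - 0| * dist u v)) := by
        have : Continuous (fun a : ℝ => |a - 0| * dist u v) := by fun_prop
        exact (this.tendsto 0).mono_left nhdsWithin_le_nhds
      simp only [sub_zero, abs_zero, zero_mul] at h2
      refine h2.congr' ?_
      filter_upwards [Ioc_mem_nhdsGT (show (0 : ℝ) < 1 by norm_num)] with a ha
      rw [C.dist_T u v hUv a ⟨ha.1.le, ha.2⟩ 0 ⟨le_rfl, zero_le_one⟩, sub_zero]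
    have h3 : Tendsto (fun a : ℝ => P (C.T u a v)) (𝓝[>] 0) (𝓝 (P (C.T u 0 v))) :=
      (hP.continuous.tendsto _).comp h1
    exact (ENNReal.continuous_ofReal.tendsto _).comp ((tendsto_const_nhds.sub h3).abs)
  have hfin := le_of_tendsto hcont (by
    filter_upwards [Ioc_mem_nhdsGT (show (0 : ℝ) < 1 by norm_num)] with a ha
    exact key a ha)
  rwa [C.T_one u v hUv, C.T_zero u v hUv, abs_sub_comm] at hfin

/-- bound of the Pythagoras defect -/
lemma abs_Pyd_le (S : GradS X (F n) μ) {x y u : X} {r : ℝ} (hx : ‖S.G (fx x) u‖ = dist x u)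
    (hy : ‖S.G (fx y) u‖ = dist y u) (hxr : dist x u ≤ r) (hyr : dist y u ≤ r) :
    |Pyd S x y u| ≤ 3 * r ^ 2 := by
  have hr : 0 ≤ r := dist_nonneg.trans hxr
  have h1 : |⟪S.G (fx x) u, S.G (fx y) u⟫| ≤ r ^ 2 := by
    refine (abs_real_inner_le_norm _ _).trans ?_
    rw [hx, hy, sq]
    gcongr
  have h2 : fx x u ≤ r ^ 2 / 2 := by unfold fx; gcongr
  have h3 : fx y u ≤ r ^ 2 / 2 := by unfold fx; gcongr
  have h4 : fx x y ≤ 2 * r ^ 2 := by
    unfold fx
    have h5 : dist x y ≤ 2 * r := by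
      have := dist_triangle x u y
      rw [dist_comm u y] at this
      linarith
    have h6 : dist x y ^ 2 ≤ (2 * r) ^ 2 := by gcongr
    nlinarith
  have h20 : 0 ≤ fx x u := by unfold fx; positivity
  have h30 : 0 ≤ fx y u := by unfold fx; positivity
  have h40 : 0 ≤ fx x y := by unfold fx; positivity
  unfold Pyd
  rw [abs_le] at h1 ⊢
  constructor <;> nlinarith [h1.1, h1.2, sq_nonneg r]

/-- `P_{x,y} = f_x(y) - |∇f_x - ∇f_y|²/2` -/
lemma Pyd_eq (S : GradS X (F n) μ) {x y u : X} (hx : ‖S.G (fx x) u‖ = dist x u)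
    (hy : ‖S.G (fx y) u‖ = dist y u) :
    Pyd S x y u = fx x y - ‖S.G (fx x) u - S.G (fx y) u‖ ^ 2 / 2 := by
  unfold Pyd
  rw [@norm_sub_sq_real, hx, hy]
  unfold fx
  ring

lemma Pyd_symm (S : GradS X (F n) μ) (x y u : X) : Pyd S x y u = Pyd S y x u := by
  unfold Pyd
  rw [real_inner_comm]
  have : fx x y = fx y x := by unfold fx; rw [dist_comm]
  rw [this]
  ring

lemma aesm_Pyd (S : GradS X (F n) μ) (x y : X) : AEStronglyMeasurable (Pyd S x y) μ := by
  unfold Pyd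
  exact ((((S.meas (locLip_fx x)).inner (S.meas (locLip_fx y))).sub
    (locLip_fx x).continuous.aestronglyMeasurable).sub
    (locLip_fx y).continuous.aestronglyMeasurable).add aestronglyMeasurable_const

/-- real inequality for the gradient of `|∇w|²/2` -/
lemma real_GP {a b σ r : ℝ} (hr : 0 < r) (hσ : 0 < σ) (hσ1 : σ ≤ 1) {hx hy gx gy : ℝ}
    (ha0 : 0 ≤ a) (hb0 : 0 ≤ b) (ha : a ≤ hx + hy) (hb : b ≤ gx + gy + 6 * r) :
    a * b ≤ 7 * r / σ * (hx ^ 2 + hy ^ 2) + 1 / r * (gx ^ 2 + gy ^ 2) + 3 * r * σ := by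
  have h1 : a * b ≤ (hx + hy) * (gx + gy + 6 * r) :=
    mul_le_mul ha hb hb0 (ha0.trans ha)
  have h2 : (hx + hy) * (gx + gy) ≤ r / 2 * (hx + hy) ^ 2 + 1 / (2 * r) * (gx + gy) ^ 2 := by
    have h3 : r / 2 * (hx + hy) ^ 2 + 1 / (2 * r) * (gx + gy) ^ 2 - (hx + hy) * (gx + gy) =
        1 / (2 * r) * (r * (hx + hy) - (gx + gy)) ^ 2 := by
      field_simp
      ring
    have : 0 ≤ 1 / (2 * r) * (r * (hx + hy) - (gx + gy)) ^ 2 := by positivity
    linarith
  have h4 : (hx + hy) * (6 * r) ≤ 3 * r / σ * (hx + hy) ^ 2 + 3 * r * σ := by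
    have h3 : 3 * r / σ * (hx + hy) ^ 2 + 3 * r * σ - (hx + hy) * (6 * r) =
        3 * r / σ * ((hx + hy) - σ) ^ 2 := by
      field_simp
      ring
    have : 0 ≤ 3 * r / σ * ((hx + hy) - σ) ^ 2 := by positivity
    linarith
  have h5 : (hx + hy) ^ 2 ≤ 2 * (hx ^ 2 + hy ^ 2) := by nlinarith [sq_nonneg (hx - hy)]
  have h6 : (gx + gy) ^ 2 ≤ 2 * (gx ^ 2 + gy ^ 2) := by nlinarith [sq_nonneg (gx - gy)]
  have h7 : r / 2 ≤ r / (2 * σ) := by
    apply div_le_div_of_nonneg_left hr.le (by positivity) (by linarith)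
  calc a * b ≤ (hx + hy) * (gx + gy) + (hx + hy) * (6 * r) := by rw [← mul_add]; exact h1
    _ ≤ (r / 2 * (hx + hy) ^ 2 + 1 / (2 * r) * (gx + gy) ^ 2) +
        (3 * r / σ * (hx + hy) ^ 2 + 3 * r * σ) := add_le_add h2 h4
    _ ≤ (r / (2 * σ) * (2 * (hx ^ 2 + hy ^ 2)) + 1 / (2 * r) * (2 * (gx ^ 2 + gy ^ 2))) +
        (3 * r / σ * (2 * (hx ^ 2 + hy ^ 2)) + 3 * r * σ) := by gcongr
    _ = 7 * r / σ * (hx ^ 2 + hy ^ 2) + 1 / r * (gx ^ 2 + gy ^ 2) + 3 * r * σ := by
        field_simp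
        ring

/-- real inequality for the zero order error -/
lemma real_err {b σ r gx gy m : ℝ} (hr : 0 < r) (hσ : 0 < σ) (hσ1 : σ ≤ 1) (hb0 : 0 ≤ b)
    (hb : b ≤ gx + gy) (hm0 : 0 ≤ m) (hm : m ≤ 2 * r) :
    m * b + b ^ 2 / 2 ≤ 3 / σ * (gx ^ 2 + gy ^ 2) + σ * r ^ 2 := by
  have h6 : b ^ 2 ≤ 2 * (gx ^ 2 + gy ^ 2) := by
    calc b ^ 2 ≤ (gx + gy) ^ 2 := by gcongr
      _ ≤ _ := by nlinarith [sq_nonneg (gx - gy)]
  have h1 : m * b ≤ 2 * r * b := by gcongr
  have h2 : 2 * r * b ≤ b ^ 2 / σ + σ * r ^ 2 := by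
    have h3 : b ^ 2 / σ + σ * r ^ 2 - 2 * r * b = 1 / σ * (b - σ * r) ^ 2 := by
      field_simp
      ring
    have : 0 ≤ 1 / σ * (b - σ * r) ^ 2 := by positivity
    linarith
  have h3 : b ^ 2 / 2 ≤ b ^ 2 / (2 * σ) := by
    apply div_le_div_of_nonneg_left (sq_nonneg _) (by positivity) (by linarith)
  calc m * b + b ^ 2 / 2 ≤ b ^ 2 / σ + σ * r ^ 2 + b ^ 2 / (2 * σ) := by linarith
    _ = 3 / (2 * σ) * b ^ 2 + σ * r ^ 2 := by field_simp; ring
    _ ≤ 3 / (2 * σ) * (2 * (gx ^ 2 + gy ^ 2)) + σ * r ^ 2 := by gcongr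
    _ = _ := by field_simp

/-- pair form of `(L2)` -/
theorem pairs2 [ProperSpace X] (B : BochS n κ X μ) (C : Rad n κ' X μ) (hκ : 0 ≤ κ')
    (hκ1 : κ' ≤ 1) (hR : RDG B.toGradS C) (hU : UnitA B.toGradS) {x y : X} {r σ V : ℝ}
    (hr : 0 < r) (hr1 : r ≤ 1) (hσ : 0 < σ) (hσ1 : σ ≤ 1) (hV : 0 ≤ V)
    (hx : HF2 B x (3 * r) (σ ^ 2)) (hy : HF2 B y (3 * r) (σ ^ 2))
    (hvol : μ (ball x (3 * r)) ≤ ENNReal.ofReal (V * r ^ n)) {A : Set X} (hA : MeasurableSet A)
    (hAx : ∀ a ∈ A, dist x a < r) (hAy : ∀ a ∈ A, dist y a < r) :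
    ∫⁻ u in A, ∫⁻ v in A, ENNReal.ofReal |Pyd B.toGradS x y u - Pyd B.toGradS x y v| ∂μ ∂μ ≤
      μ A * ENNReal.ofReal (2000 * 6 ^ n * (1 + V) * σ * r ^ (n + 2)) := by
  obtain ⟨wx, hwx, hx2, hx3⟩ := hx
  obtain ⟨wy, hwy, hy2, hy3⟩ := hy
  have hTx := B.core_test hwx
  have hTy := B.core_test hwy
  have hw := B.core_sub hwx hwy
  obtain ⟨P, hPT, hP1, hP2⟩ := B.half_sq hw
  set W : Set X := ball x (3 * r) ∩ ball y (3 * r) with hWdef
  have hW : MeasurableSet W := measurableSet_ball.inter measurableSet_ball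
  have hdist : ∀ a ∈ A, ∀ b ∈ A, dist a b ≤ 2 * r := fun a ha b hb => by
    have h1 := hAx a ha
    have h2 := hAx b hb
    have := dist_triangle a x b
    rw [dist_comm a x] at this
    linarith
  have hAW : ∀ a ∈ A, ∀ b ∈ A, (a, b) ∈ C.U → ∀ t ∈ Icc (0 : ℝ) 1, C.T a t b ∈ W := by
    intro a ha b hb hab t ht
    have h3 : dist a (C.T a t b) = t * dist a b := C.dist_left hab ht
    have h4 := hdist a ha b hb
    have h5 : t * dist a b ≤ 1 * dist a b := mul_le_mul_of_nonneg_right ht.2 dist_nonneg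
    have h6 := hAx a ha
    have h7 := hAy a ha
    constructor
    · rw [mem_ball, dist_comm]
      have := dist_triangle x a (C.T a t b)
      linarith
    · rw [mem_ball, dist_comm]
      have := dist_triangle y a (C.T a t b)
      linarith
  -- the functions
  set hxf : X → ℝ := fun z => ‖B.H wx z - idm n‖ with hhxf
  set hyf : X → ℝ := fun z => ‖B.H wy z - idm n‖ with hhyf
  set gxf : X → ℝ := fun z => ‖B.G wx z - B.G (fx x) z‖ with hgxf
  set gyf : X → ℝ := fun z => ‖B.G wy z - B.G (fx y) z‖ with hgyf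
  have mhx : AEMeasurable hxf μ := ((B.H_meas hwx).sub aestronglyMeasurable_const).norm.aemeasurable
  have mhy : AEMeasurable hyf μ := ((B.H_meas hwy).sub aestronglyMeasurable_const).norm.aemeasurable
  have mgx : AEMeasurable gxf μ :=
    ((B.meas hTx.1).sub (B.meas (locLip_fx x))).norm.aemeasurable
  have mgy : AEMeasurable gyf μ :=
    ((B.meas hTy.1).sub (B.meas (locLip_fx y))).norm.aemeasurable
  -- gradient of P
  set GP : X → ℝ≥0∞ := fun z => ENNReal.ofReal ‖B.G P z‖ with hGP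
  have hGPm : AEMeasurable GP μ := (B.meas hPT.1).norm.aemeasurable.ennreal_ofReal
  set af : X → ℝ≥0∞ := fun z => ENNReal.ofReal (3 / σ * (gxf z ^ 2 + gyf z ^ 2) + σ * r ^ 2)
    with haf
  have hafm : AEMeasurable af μ :=
    ((((mgx.pow_const 2).add (mgy.pow_const 2)).const_mul _).add_const _).ennreal_ofReal
  -- pointwise facts
  have hGw : ∀ᵐ z ∂μ, B.G (fun x => wx x - wy x) z = B.G wx z - B.G wy z :=
    B.toGradS.sub hTx.1 hTy.1
  have hpoint : ∀ᵐ z ∂μ, z ∈ W → GP z ≤ ENNReal.ofReal (7 * r / σ * (hxf z ^ 2 + hyf z ^ 2)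
      + 1 / r * (gxf z ^ 2 + gyf z ^ 2) + 3 * r * σ) := by
    filter_upwards [hP2, hGw, B.H_sub hwx hwy, hU x, hU y] with z e1 e2 e3 e4 e5 hz
    apply ENNReal.ofReal_le_ofReal
    rw [e1]
    refine (norm_mv_le _ _).trans (real_GP hr hσ hσ1 (norm_nonneg _) (norm_nonneg _) ?_ ?_)
    · rw [e3]
      have : B.H wx z - B.H wy z = (B.H wx z - idm n) - (B.H wy z - idm n) := by abel
      rw [this]
      exact norm_sub_le _ _
    · rw [e2]
      have h1 : B.G wx z - B.G wy z = (B.G wx z - B.G (fx x) z) - (B.G wy z - B.G (fx y) z)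
          + (B.G (fx x) z - B.G (fx y) z) := by abel
      rw [h1]
      have h2 : dist x z < 3 * r := by have := hz.1; rwa [mem_ball, dist_comm] at this
      have h3 : dist y z < 3 * r := by have := hz.2; rwa [mem_ball, dist_comm] at this
      calc ‖(B.G wx z - B.G (fx x) z) - (B.G wy z - B.G (fx y) z)
          + (B.G (fx x) z - B.G (fx y) z)‖
          ≤ ‖(B.G wx z - B.G (fx x) z) - (B.G wy z - B.G (fx y) z)‖
            + ‖B.G (fx x) z - B.G (fx y) z‖ := norm_add_le _ _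
        _ ≤ (gxf z + gyf z) + (‖B.G (fx x) z‖ + ‖B.G (fx y) z‖) :=
            add_le_add (norm_sub_le _ _) (norm_sub_le _ _)
        _ ≤ gxf z + gyf z + 6 * r := by rw [e4, e5]; linarith
  have herr : ∀ᵐ z ∂μ, z ∈ A → ENNReal.ofReal |Pyd B.toGradS x y z + P z - fx x y| ≤ af z := by
    filter_upwards [hP1, hGw, hU x, hU y] with z e1 e2 e4 e5 hz
    apply ENNReal.ofReal_le_ofReal
    rw [Pyd_eq B.toGradS e4 e5, e1, e2]
    set m := B.G (fx x) z - B.G (fx y) z with hm
    set δ := (B.G wx z - B.G (fx x) z) - (B.G wy z - B.G (fx y) z) with hδ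
    have h1 : B.G wx z - B.G wy z = m + δ := by rw [hm, hδ]; abel
    rw [h1, @norm_add_sq_real]
    have h2 : fx x y - ‖m‖ ^ 2 / 2 + (‖m‖ ^ 2 + 2 * ⟪m, δ⟫ + ‖δ‖ ^ 2) / 2 - fx x y =
        ⟪m, δ⟫ + ‖δ‖ ^ 2 / 2 := by ring
    rw [h2]
    have h3 : |⟪m, δ⟫ + ‖δ‖ ^ 2 / 2| ≤ ‖m‖ * ‖δ‖ + ‖δ‖ ^ 2 / 2 := by
      refine (abs_add_le _ _).trans ?_
      rw [abs_of_nonneg (show 0 ≤ ‖δ‖ ^ 2 / 2 by positivity)]
      gcongr
      exact abs_real_inner_le_norm _ _
    refine h3.trans (real_err hr hσ hσ1 (norm_nonneg _) (norm_sub_le _ _) (norm_nonneg _) ?_)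
    calc ‖m‖ ≤ ‖B.G (fx x) z‖ + ‖B.G (fx y) z‖ := norm_sub_le _ _
      _ ≤ 2 * r := by
        rw [e4, e5]
        have := hAx z hz
        have := hAy z hz
        linarith
  -- the pair inequality
  have hF : ∀ᵐ u ∂(μ.restrict A), ∀ᵐ v ∂(μ.restrict A),
      ENNReal.ofReal |Pyd B.toGradS x y u - Pyd B.toGradS x y v| ≤
      ENNReal.ofReal (2 * r) * (∫⁻ t in Icc (0 : ℝ) 1, hGPm.mk GP (C.T u t v))
        + hafm.mk af u + hafm.mk af v := by
    rw [ae_restrict_iff' hA]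
    filter_upwards [herr, hafm.ae_eq_mk] with u hu1 hu2 huA
    rw [ae_restrict_iff' hA]
    filter_upwards [herr, hafm.ae_eq_mk, pair_le B.toGradS C hR hU hPT.1 u,
      seg_congr C hGPm.ae_eq_mk u] with v hv1 hv2 hv3 hv4 hvA
    rw [← hu2, ← hv2, ← hv4]
    have h1 : Pyd B.toGradS x y u - Pyd B.toGradS x y v =
        -(P u - P v) + (Pyd B.toGradS x y u + P u - fx x y)
          + (-(Pyd B.toGradS x y v + P v - fx x y)) := by ring
    calc ENNReal.ofReal |Pyd B.toGradS x y u - Pyd B.toGradS x y v|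
        ≤ ENNReal.ofReal (|P u - P v| + |Pyd B.toGradS x y u + P u - fx x y|
          + |Pyd B.toGradS x y v + P v - fx x y|) := by
          apply ENNReal.ofReal_le_ofReal
          rw [h1]
          refine (abs_add_le _ _).trans ?_
          rw [abs_neg]
          gcongr
          refine (abs_add_le _ _).trans ?_
          rw [abs_neg]
      _ = ENNReal.ofReal |P u - P v| + ENNReal.ofReal |Pyd B.toGradS x y u + P u - fx x y|
          + ENNReal.ofReal |Pyd B.toGradS x y v + P v - fx x y| := by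
          rw [ENNReal.ofReal_add (by positivity) (by positivity),
            ENNReal.ofReal_add (by positivity) (by positivity)]
      _ ≤ _ := by
          gcongr
          · refine hv3.trans ?_
            gcongr
            exact hdist u huA v hvA
          · exact hu1 huA
          · exact hv1 hvA
  have hmain := poincare_pairs_ae C hκ hA hW hdist hAW hGPm.measurable_mk hafm.measurable_mk hF
  -- integrals
  have hWx : W ⊆ ball x (3 * r) := inter_subset_left
  have hWy : W ⊆ ball y (3 * r) := inter_subset_right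
  have hAWs : A ⊆ W := fun a ha => by
    constructor
    · rw [mem_ball, dist_comm]; linarith [hAx a ha]
    · rw [mem_ball, dist_comm]; linarith [hAy a ha]
  have hWvol : μ W ≤ ENNReal.ofReal (V * r ^ n) := (measure_mono hWx).trans hvol
  have iHx : ∫⁻ z in W, ENNReal.ofReal (hxf z ^ 2) ∂μ ≤ ENNReal.ofReal (σ ^ 2 * (3 * r) ^ n) :=
    (lintegral_mono_set hWx).trans hx3
  have iHy : ∫⁻ z in W, ENNReal.ofReal (hyf z ^ 2) ∂μ ≤ ENNReal.ofReal (σ ^ 2 * (3 * r) ^ n) :=
    (lintegral_mono_set hWy).trans hy3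
  have iGx : ∫⁻ z in W, ENNReal.ofReal (gxf z ^ 2) ∂μ ≤
      ENNReal.ofReal (σ ^ 2 * (3 * r) ^ (n + 2)) := (lintegral_mono_set hWx).trans hx2
  have iGy : ∫⁻ z in W, ENNReal.ofReal (gyf z ^ 2) ∂μ ≤
      ENNReal.ofReal (σ ^ 2 * (3 * r) ^ (n + 2)) := (lintegral_mono_set hWy).trans hy2
  have I1 : ∫⁻ z in W, hGPm.mk GP z ∂μ ≤
      ENNReal.ofReal ((32 * 3 ^ n + 3 * V) * σ * r ^ (n + 1)) := by
    calc ∫⁻ z in W, hGPm.mk GP z ∂μ = ∫⁻ z in W, GP z ∂μ := by
          apply lintegral_congr_ae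
          exact ae_restrict_of_ae (hGPm.ae_eq_mk.symm)
      _ ≤ ∫⁻ z in W, ENNReal.ofReal (7 * r / σ * (hxf z ^ 2 + hyf z ^ 2)
            + 1 / r * (gxf z ^ 2 + gyf z ^ 2) + 3 * r * σ) ∂μ := by
          exact lintegral_mono_ae ((ae_restrict_iff' hW).2 hpoint)
      _ = ∫⁻ z in W, (ENNReal.ofReal (7 * r / σ) * (ENNReal.ofReal (hxf z ^ 2)
            + ENNReal.ofReal (hyf z ^ 2)) + ENNReal.ofReal (1 / r) * (ENNReal.ofReal (gxf z ^ 2)
            + ENNReal.ofReal (gyf z ^ 2)) + ENNReal.ofReal (3 * r * σ)) ∂μ := by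
          apply lintegral_congr
          intro z
          rw [ENNReal.ofReal_add (by positivity) (by positivity),
            ENNReal.ofReal_add (by positivity) (by positivity),
            ENNReal.ofReal_mul (by positivity), ENNReal.ofReal_mul (by positivity),
            ENNReal.ofReal_add (by positivity) (by positivity),
            ENNReal.ofReal_add (by positivity) (by positivity)]
      _ = ENNReal.ofReal (7 * r / σ) * (∫⁻ z in W, ENNReal.ofReal (hxf z ^ 2) ∂μ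
            + ∫⁻ z in W, ENNReal.ofReal (hyf z ^ 2) ∂μ) + ENNReal.ofReal (1 / r) *
            (∫⁻ z in W, ENNReal.ofReal (gxf z ^ 2) ∂μ + ∫⁻ z in W, ENNReal.ofReal (gyf z ^ 2) ∂μ)
            + ENNReal.ofReal (3 * r * σ) * μ W := by
          have m1 : AEMeasurable (fun z => ENNReal.ofReal (hxf z ^ 2)) (μ.restrict W) :=
            ((mhx.restrict).pow_const 2).ennreal_ofReal
          have m2 : AEMeasurable (fun z => ENNReal.ofReal (hyf z ^ 2)) (μ.restrict W) :=
            ((mhy.restrict).pow_const 2).ennreal_ofReal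
          have m3 : AEMeasurable (fun z => ENNReal.ofReal (gxf z ^ 2)) (μ.restrict W) :=
            ((mgx.restrict).pow_const 2).ennreal_ofReal
          have m4 : AEMeasurable (fun z => ENNReal.ofReal (gyf z ^ 2)) (μ.restrict W) :=
            ((mgy.restrict).pow_const 2).ennreal_ofReal
          have m12 : AEMeasurable (fun z => ENNReal.ofReal (7 * r / σ) *
              (ENNReal.ofReal (hxf z ^ 2) + ENNReal.ofReal (hyf z ^ 2))) (μ.restrict W) :=
            (m1.add m2).const_mul _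
          rw [lintegral_add_right' _ aemeasurable_const, lintegral_add_left' m12,
            lintegral_const_mul' _ _ ENNReal.ofReal_ne_top, lintegral_const_mul' _ _ ENNReal.ofReal_ne_top,
            lintegral_add_left' m1, lintegral_add_left' m3, lintegral_const,
            Measure.restrict_apply_univ]
      _ ≤ ENNReal.ofReal (7 * r / σ) * (ENNReal.ofReal (σ ^ 2 * (3 * r) ^ n)
            + ENNReal.ofReal (σ ^ 2 * (3 * r) ^ n)) + ENNReal.ofReal (1 / r) *
            (ENNReal.ofReal (σ ^ 2 * (3 * r) ^ (n + 2)) + ENNReal.ofReal (σ ^ 2 * (3 * r) ^ (n + 2)))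
            + ENNReal.ofReal (3 * r * σ) * ENNReal.ofReal (V * r ^ n) := by gcongr
      _ = ENNReal.ofReal (7 * r / σ * (σ ^ 2 * (3 * r) ^ n + σ ^ 2 * (3 * r) ^ n) + 1 / r *
            (σ ^ 2 * (3 * r) ^ (n + 2) + σ ^ 2 * (3 * r) ^ (n + 2))
            + 3 * r * σ * (V * r ^ n)) := by
          rw [← ENNReal.ofReal_add (by positivity) (by positivity),
            ← ENNReal.ofReal_add (by positivity) (by positivity),
            ← ENNReal.ofReal_mul (by positivity), ← ENNReal.ofReal_mul (by positivity),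
            ← ENNReal.ofReal_mul (by positivity),
            ← ENNReal.ofReal_add (by positivity) (by positivity),
            ← ENNReal.ofReal_add (by positivity) (by positivity)]
      _ ≤ ENNReal.ofReal ((32 * 3 ^ n + 3 * V) * σ * r ^ (n + 1)) := by
          apply ENNReal.ofReal_le_ofReal
          have e1 : 7 * r / σ * (σ ^ 2 * (3 * r) ^ n + σ ^ 2 * (3 * r) ^ n) + 1 / r *
            (σ ^ 2 * (3 * r) ^ (n + 2) + σ ^ 2 * (3 * r) ^ (n + 2))
            + 3 * r * σ * (V * r ^ n) =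
            (14 * 3 ^ n + 18 * 3 ^ n * σ + 3 * V) * σ * r ^ (n + 1) := by
            rw [mul_pow, mul_pow]
            field_simp
            ring
          rw [e1]
          have : 18 * 3 ^ n * σ ≤ 18 * 3 ^ n * 1 := by gcongr
          have h2 : 14 * 3 ^ n + 18 * 3 ^ n * σ + 3 * V ≤ 32 * 3 ^ n + 3 * V := by linarith
          gcongr
  have I2 : ∫⁻ z in A, hafm.mk af z ∂μ ≤
      ENNReal.ofReal ((54 * 3 ^ n + V) * σ * r ^ (n + 2)) := by
    calc ∫⁻ z in A, hafm.mk af z ∂μ = ∫⁻ z in A, af z ∂μ := by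
          apply lintegral_congr_ae
          exact ae_restrict_of_ae (hafm.ae_eq_mk.symm)
      _ ≤ ∫⁻ z in W, af z ∂μ := lintegral_mono_set hAWs
      _ = ∫⁻ z in W, (ENNReal.ofReal (3 / σ) * (ENNReal.ofReal (gxf z ^ 2)
            + ENNReal.ofReal (gyf z ^ 2)) + ENNReal.ofReal (σ * r ^ 2)) ∂μ := by
          apply lintegral_congr
          intro z
          rw [haf]
          simp only
          rw [ENNReal.ofReal_add (by positivity) (by positivity),
            ENNReal.ofReal_mul (by positivity),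
            ENNReal.ofReal_add (by positivity) (by positivity)]
      _ = ENNReal.ofReal (3 / σ) *
            (∫⁻ z in W, ENNReal.ofReal (gxf z ^ 2) ∂μ + ∫⁻ z in W, ENNReal.ofReal (gyf z ^ 2) ∂μ)
            + ENNReal.ofReal (σ * r ^ 2) * μ W := by
          have m3 : AEMeasurable (fun z => ENNReal.ofReal (gxf z ^ 2)) (μ.restrict W) :=
            ((mgx.restrict).pow_const 2).ennreal_ofReal
          have m4 : AEMeasurable (fun z => ENNReal.ofReal (gyf z ^ 2)) (μ.restrict W) :=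
            ((mgy.restrict).pow_const 2).ennreal_ofReal
          rw [lintegral_add_right' _ aemeasurable_const, lintegral_const_mul' _ _ ENNReal.ofReal_ne_top,
            lintegral_add_left' m3, lintegral_const, Measure.restrict_apply_univ]
      _ ≤ ENNReal.ofReal (3 / σ) *
            (ENNReal.ofReal (σ ^ 2 * (3 * r) ^ (n + 2)) + ENNReal.ofReal (σ ^ 2 * (3 * r) ^ (n + 2)))
            + ENNReal.ofReal (σ * r ^ 2) * ENNReal.ofReal (V * r ^ n) := by gcongr
      _ = ENNReal.ofReal (3 / σ *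
            (σ ^ 2 * (3 * r) ^ (n + 2) + σ ^ 2 * (3 * r) ^ (n + 2))
            + σ * r ^ 2 * (V * r ^ n)) := by
          rw [← ENNReal.ofReal_add (by positivity) (by positivity),
            ← ENNReal.ofReal_mul (by positivity), ← ENNReal.ofReal_mul (by positivity),
            ← ENNReal.ofReal_add (by positivity) (by positivity)]
      _ = ENNReal.ofReal ((54 * 3 ^ n + V) * σ * r ^ (n + 2)) := by
          congr 1
          rw [mul_pow]
          field_simp
          ring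
  have hseg : segC n κ' (2 * r) ≤ ENNReal.ofReal (9 * 2 ^ n) := by
    unfold segC
    apply ENNReal.ofReal_le_ofReal
    gcongr
    have h4 : κ' * (2 * r) ^ 2 / 2 ≤ 2 := by
      have : (2 * r) ^ 2 ≤ 4 := by nlinarith
      have h5 : κ' * (2 * r) ^ 2 ≤ 1 * 4 := by
        gcongr
      linarith
    calc Real.exp (κ' * (2 * r) ^ 2 / 2) ≤ Real.exp 2 := Real.exp_le_exp.2 h4
      _ ≤ 9 := by
        have h6 : Real.exp 2 = Real.exp 1 ^ 2 := by rw [← Real.exp_nat_mul]; norm_num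
        have h7 := Real.exp_one_lt_d9
        have h8 := Real.exp_pos 1
        rw [h6]
        nlinarith
  calc ∫⁻ u in A, ∫⁻ v in A, ENNReal.ofReal |Pyd B.toGradS x y u - Pyd B.toGradS x y v| ∂μ ∂μ
      ≤ ENNReal.ofReal (2 * r) * (segC n κ' (2 * r) * (μ A + μ A) * ∫⁻ z in W, hGPm.mk GP z ∂μ)
        + 2 * (μ A * ∫⁻ z in A, hafm.mk af z ∂μ) := hmain
    _ ≤ ENNReal.ofReal (2 * r) * (ENNReal.ofReal (9 * 2 ^ n) * (μ A + μ A) *
          ENNReal.ofReal ((32 * 3 ^ n + 3 * V) * σ * r ^ (n + 1)))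
        + 2 * (μ A * ENNReal.ofReal ((54 * 3 ^ n + V) * σ * r ^ (n + 2))) := by gcongr
    _ = μ A * (2 * (ENNReal.ofReal (2 * r) * (ENNReal.ofReal (9 * 2 ^ n) *
          ENNReal.ofReal ((32 * 3 ^ n + 3 * V) * σ * r ^ (n + 1))))
        + 2 * ENNReal.ofReal ((54 * 3 ^ n + V) * σ * r ^ (n + 2))) := by ring
    _ = μ A * ENNReal.ofReal (2 * (2 * r * (9 * 2 ^ n * ((32 * 3 ^ n + 3 * V) * σ * r ^ (n + 1))))
        + 2 * ((54 * 3 ^ n + V) * σ * r ^ (n + 2))) := by
        congr 1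
        have e2 : (2 : ℝ≥0∞) = ENNReal.ofReal 2 := by norm_num
        rw [e2, ← ENNReal.ofReal_mul (by positivity), ← ENNReal.ofReal_mul (by positivity),
          ← ENNReal.ofReal_mul (by positivity), ← ENNReal.ofReal_mul (by positivity),
          ← ENNReal.ofReal_add (by positivity) (by positivity)]
    _ ≤ μ A * ENNReal.ofReal (2000 * 6 ^ n * (1 + V) * σ * r ^ (n + 2)) := by
        gcongr
        have e1 : 2 * (2 * r * (9 * 2 ^ n * ((32 * 3 ^ n + 3 * V) * σ * r ^ (n + 1))))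
          + 2 * ((54 * 3 ^ n + V) * σ * r ^ (n + 2)) =
          (1152 * (2 ^ n * 3 ^ n) + 108 * 2 ^ n * V + 108 * 3 ^ n + 2 * V) *
            (σ * r ^ (n + 2)) := by ring
        have h6 : (2 : ℝ) ^ n * 3 ^ n = 6 ^ n := by rw [← mul_pow]; norm_num
        rw [e1, h6]
        have h3 : (3 : ℝ) ^ n ≤ 6 ^ n := by gcongr; norm_num
        have h2 : (2 : ℝ) ^ n ≤ 6 ^ n := by gcongr; norm_num
        have h1 : (1 : ℝ) ≤ 6 ^ n := one_le_pow₀ (by norm_num)
        have h7 : 1152 * (6 : ℝ) ^ n + 108 * 2 ^ n * V + 108 * 3 ^ n + 2 * V ≤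
            2000 * 6 ^ n * (1 + V) := by
          have a1 : 108 * (2 : ℝ) ^ n * V ≤ 108 * 6 ^ n * V := by gcongr
          have a2 : 2 * V ≤ 2 * (6 ^ n * V) := by nlinarith
          have a3 : 0 ≤ 6 ^ n * V := by positivity
          nlinarith
        calc (1152 * (6 : ℝ) ^ n + 108 * 2 ^ n * V + 108 * 3 ^ n + 2 * V) * (σ * r ^ (n + 2))
            ≤ (2000 * 6 ^ n * (1 + V)) * (σ * r ^ (n + 2)) := by gcongr
          _ = _ := by ring

lemma integrableOn_Pyd (S : GradS X (F n) μ) (hU : UnitA S) {x y : X} {r : ℝ} {A : Set X}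
    (hA : MeasurableSet A) (hAf : μ A ≠ ∞)
    (hAx : ∀ a ∈ A, dist x a < r) (hAy : ∀ a ∈ A, dist y a < r) :
    IntegrableOn (Pyd S x y) A μ := by
  refine Integrable.mono' (g := fun _ => 3 * r ^ 2) (integrableOn_const hAf)
    (aesm_Pyd S x y).restrict ?_
  rw [ae_restrict_iff' hA]
  filter_upwards [hU x, hU y] with z h1 h2 hz
  exact abs_Pyd_le S h1 h2 (hAx z hz).le (hAy z hz).le

/-- **(L2)**, `L¹` form. -/
theorem local_pythagoras2 [ProperSpace X] (B : BochS n κ X μ) (C : Rad n κ' X μ) (hκ : 0 ≤ κ')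
    (hκ1 : κ' ≤ 1) (hR : RDG B.toGradS C) (hU : UnitA B.toGradS) {x y : X} {r D V : ℝ}
    (hr : 0 < r) (hr1 : r ≤ 1) (hD : 0 ≤ D) (hD1 : D ≤ 1) (hV : 0 ≤ V)
    (hx : HF2 B x (3 * r) D) (hy : HF2 B y (3 * r) D)
    (hvol : μ (ball x (3 * r)) ≤ ENNReal.ofReal (V * r ^ n)) {A : Set X} (hA : MeasurableSet A)
    (hAx : ∀ a ∈ A, dist x a < r) (hAy : ∀ a ∈ A, dist y a < r) :
    ∫⁻ u in A, ENNReal.ofReal
        |Pyd B.toGradS x y u - ⨍ v in A, Pyd B.toGradS x y v ∂μ| ∂μ ≤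
      ENNReal.ofReal (2000 * 6 ^ n * (1 + V) * Real.sqrt D * r ^ (n + 2)) := by
  by_cases hA0 : μ A = 0
  · rw [setLIntegral_measure_zero _ _ hA0]
    exact bot_le
  have hAf : μ A ≠ ∞ := by
    refine ne_top_of_le_ne_top ENNReal.ofReal_ne_top ((measure_mono ?_).trans hvol)
    intro a ha
    rw [mem_ball, dist_comm]
    linarith [hAx a ha]
  have hint := integrableOn_Pyd B.toGradS hU hA hAf hAx hAy
  have hσ : ∀ σ : ℝ, 0 < σ → σ ≤ 1 → D ≤ σ ^ 2 →
      ∫⁻ u in A, ENNReal.ofReal |Pyd B.toGradS x y u - ⨍ v in A, Pyd B.toGradS x y v ∂μ| ∂μ ≤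
      ENNReal.ofReal (2000 * 6 ^ n * (1 + V) * σ * r ^ (n + 2)) := by
    intro σ h0 h1 h2
    exact dev_mean_le hA0 hAf hint (pairs2 B C hκ hκ1 hR hU hr hr1 h0 h1 hV
      (hx.mono (by positivity) h2) (hy.mono (by positivity) h2) hvol hA hAx hAy)
  rcases hD.eq_or_lt with h0 | h0
  · -- D = 0
    have ht : Tendsto (fun σ : ℝ => ENNReal.ofReal (2000 * 6 ^ n * (1 + V) * σ * r ^ (n + 2)))
        (𝓝[>] 0) (𝓝 (ENNReal.ofReal (2000 * 6 ^ n * (1 + V) * 0 * r ^ (n + 2)))) := by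
      have : Continuous (fun σ : ℝ => ENNReal.ofReal
          (2000 * 6 ^ n * (1 + V) * σ * r ^ (n + 2))) := by
        apply ENNReal.continuous_ofReal.comp
        fun_prop
      exact (this.tendsto 0).mono_left nhdsWithin_le_nhds
    rw [← h0, Real.sqrt_zero]
    refine ge_of_tendsto ht ?_
    filter_upwards [Ioc_mem_nhdsGT (show (0 : ℝ) < 1 by norm_num)] with σ hσ'
    exact hσ σ hσ'.1 hσ'.2 (by rw [← h0]; positivity)
  · exact hσ (Real.sqrt D) (Real.sqrt_pos.2 h0) (by rw [Real.sqrt_le_one]; exact hD1)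
      (by rw [Real.sq_sqrt hD])

/-- the constant of `(L2)` is bounded by `3 r²` -/
theorem abs_mean_Pyd_le (S : GradS X (F n) μ) (hU : UnitA S) {x y : X} {r : ℝ} {A : Set X}
    (hA : MeasurableSet A) (hAf : μ A ≠ ∞)
    (hAx : ∀ a ∈ A, dist x a < r) (hAy : ∀ a ∈ A, dist y a < r) :
    |⨍ v in A, Pyd S x y v ∂μ| ≤ 3 * r ^ 2 := by
  by_cases hA0 : μ A = 0
  · rw [Measure.restrict_eq_zero.2 hA0]
    simp only [average_zero_measure, abs_zero]
    positivity
  have hpos : 0 < (μ A).toReal := ENNReal.toReal_pos hA0 hAf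
  rw [setAverage_eq, smul_eq_mul, abs_mul, abs_inv, Measure.real, abs_of_pos hpos,
    inv_mul_le_iff₀ hpos]
  have h1 : ‖∫ v in A, Pyd S x y v ∂μ‖ ≤ 3 * r ^ 2 * (μ A).toReal := by
    apply norm_setIntegral_le_of_norm_le_const_ae hAf.lt_top
    rw [ae_restrict_iff' hA]
    filter_upwards [hU x, hU y] with z h1 h2 hz
    exact abs_Pyd_le S h1 h2 (hAx z hz).le (hAy z hz).le
  rw [Real.norm_eq_abs] at h1
  linarith

end Crest.Agent.R247.Loc710
end
end

-- ▼ part R247/Loc3_710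

/-!
# (L2) in the literal form of `Q9550.PkOn` (helper710)

* `unitA_of_rdg`, `Pyd_eq_PP` : passage from the gradient structure to `GRep`;
* `L2_gen` : (L2) with two different (possibly vanishing or large) defects;
* `hf2_of_obj` : `HF2` from the Hessian objects `Fd656.HObj` and the field `d2_ball`;
* `L2_pk` : the field `PkOn.L2`.
-/

set_option autoImplicit false
set_option linter.unusedSectionVars false
open MeasureTheory Set Filter Topology Metric
open Crest.Agent.R247.Mcp688 Crest.Agent.R247.Pyt710 Crest.Agent.R247.Dir593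
  Crest.Agent.R247.Hes124 Crest.Agent.R247.Far553 Crest.Agent.R247.Cal550
open scoped ENNReal NNReal RealInnerProductSpace

noncomputable section
namespace Crest.Agent.R247.Loc710

section A

variable {n : ℕ} {κ κ' : ℝ} {X : Type*} [MetricSpace X] [MeasurableSpace X] [BorelSpace X]
  {μ : Measure X}

lemma fx_eq_ff (x : X) : (fx x : X → ℝ) = fun u => dist x u ^ 2 / 2 := rfl

/-- radial derivative of `f_x` with respect to `x` -/
lemma rd_self (C : Rad n κ' X μ) (x : X) : RD C x (fx x) (fun z => dist x z ^ 2) := by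
  filter_upwards [C.ae_U x] with z hz
  have h1 : HasDerivWithinAt (fun t : ℝ => (t * dist x z) ^ 2 / 2) (dist x z ^ 2) (Iio 1) 1 := by
    have h2 : HasDerivAt (fun t : ℝ => (t * dist x z) ^ 2 / 2) (dist x z ^ 2) 1 := by
      have h3 : HasDerivAt (fun t : ℝ => (t * dist x z) ^ 2 / 2)
          ((2 : ℕ) * (1 * dist x z) ^ (2 - 1) * (1 * dist x z) / 2) 1 :=
        (((hasDerivAt_id (1 : ℝ)).mul_const (dist x z)).pow 2).div_const 2
      convert h3 using 1
      norm_num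
      ring
    exact h2.hasDerivWithinAt
  refine h1.congr_of_eventuallyEq ?_ ?_
  · filter_upwards [Ioo_mem_nhdsLT (show (0 : ℝ) < 1 by norm_num)] with t ht
    have : dist x (C.T x t z) = t * dist x z := C.dist_left hz ⟨ht.1.le, ht.2.le⟩
    show dist x (C.T x t z) ^ 2 / 2 = _
    rw [this]
  · show dist x (C.T x 1 z) ^ 2 / 2 = _
    rw [C.T_one x z hz, one_mul]

/-- `|∇f_x| = d_x` follows from the identification of the radial derivatives -/
theorem unitA_of_rdg {S : GradS X (F n) μ} {C : Rad n κ' X μ} (hR : RDG S C) : UnitA S := by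
  intro x
  have h1 := hR x (fx x) (locLip_fx x)
  filter_upwards [h1.unique (rd_self C x)] with z hz
  rw [real_inner_self_eq_norm_sq] at hz
  exact (pow_left_inj₀ (norm_nonneg _) dist_nonneg two_ne_zero).1 hz

/-- passage to `GRep` -/
theorem Pyd_eq_PP {S : GradS X (F n) μ} {C : Rad n κ' X μ} (hR : RDG S C)
    {G : X → X → X → ℝ} (hG : GRep C G) (x v : X) : ∀ᵐ u ∂μ, Pyd S x v u = PP G x v u := by
  have h1 := hR x (fx v) (locLip_fx v)
  filter_upwards [h1.unique (hG.rd x v)] with u hu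
  unfold Pyd PP
  rw [hu]
  rfl

end A

section L2

variable {n : ℕ} {κ κ' : ℝ} {X : Type*} [MetricSpace X] [MeasurableSpace X] [BorelSpace X]
  {μ : Measure X} [IsFiniteMeasureOnCompacts μ] [SFinite μ]

/-- **(L2)** for two centres with defects `Dx`, `Dy` (no smallness required). -/
theorem L2_gen [ProperSpace X] (B : BochS n κ X μ) (C : Rad n κ' X μ) (hκ : 0 ≤ κ')
    (hκ1 : κ' ≤ 1) (hR : RDG B.toGradS C) (hU : UnitA B.toGradS) {x y : X} {r Dx Dy V : ℝ}
    (hr : 0 < r) (hr1 : r ≤ 1) (hDx : 0 ≤ Dx) (hDy : 0 ≤ Dy) (hV : 0 ≤ V)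
    (hx : ∀ D', Dx < D' → HF2 B x (3 * r) D') (hy : ∀ D', Dy < D' → HF2 B y (3 * r) D')
    (hvol : μ (ball x (3 * r)) ≤ ENNReal.ofReal (V * r ^ n)) {A : Set X} (hA : MeasurableSet A)
    (hAx : ∀ a ∈ A, dist x a < r) (hAy : ∀ a ∈ A, dist y a < r) :
    ∫⁻ u in A, ENNReal.ofReal
        |Pyd B.toGradS x y u - ⨍ v in A, Pyd B.toGradS x y v ∂μ| ∂μ ≤
      ENNReal.ofReal (2000 * 6 ^ n * (1 + V) * Real.sqrt (Dx + Dy) * r ^ (n + 2)) := by
  by_cases hA0 : μ A = 0
  · rw [setLIntegral_measure_zero _ _ hA0]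
    exact bot_le
  have hAv : μ A ≤ ENNReal.ofReal (V * r ^ n) := by
    refine (measure_mono ?_).trans hvol
    intro a ha
    rw [mem_ball, dist_comm]
    linarith [hAx a ha]
  have hAf : μ A ≠ ∞ := ne_top_of_le_ne_top ENNReal.ofReal_ne_top hAv
  have hint := integrableOn_Pyd B.toGradS hU hA hAf hAx hAy
  have h6 : (1 : ℝ) ≤ 6 ^ n := one_le_pow₀ (by norm_num)
  rcases le_or_gt 1 (Dx + Dy) with h1 | h1
  · -- large defect
    have hm := abs_mean_Pyd_le B.toGradS hU hA hAf hAx hAy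
    calc ∫⁻ u in A, ENNReal.ofReal
          |Pyd B.toGradS x y u - ⨍ v in A, Pyd B.toGradS x y v ∂μ| ∂μ
        ≤ ∫⁻ _ in A, ENNReal.ofReal (6 * r ^ 2) ∂μ := by
          apply lintegral_mono_ae
          refine (ae_restrict_iff' hA).2 ?_
          filter_upwards [hU x, hU y] with z h1 h2 hz
          apply ENNReal.ofReal_le_ofReal
          have h3 := abs_Pyd_le B.toGradS h1 h2 (hAx z hz).le (hAy z hz).le
          calc |Pyd B.toGradS x y z - ⨍ v in A, Pyd B.toGradS x y v ∂μ|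
              ≤ |Pyd B.toGradS x y z| + |⨍ v in A, Pyd B.toGradS x y v ∂μ| := abs_sub _ _
            _ ≤ 6 * r ^ 2 := by linarith
      _ = ENNReal.ofReal (6 * r ^ 2) * μ A := by
          rw [lintegral_const, Measure.restrict_apply_univ]
      _ ≤ ENNReal.ofReal (6 * r ^ 2) * ENNReal.ofReal (V * r ^ n) := by gcongr
      _ = ENNReal.ofReal (6 * r ^ 2 * (V * r ^ n)) := by rw [← ENNReal.ofReal_mul (by positivity)]
      _ ≤ _ := by
          apply ENNReal.ofReal_le_ofReal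
          have h2 : 1 ≤ Real.sqrt (Dx + Dy) := by
            rw [Real.one_le_sqrt]; exact h1
          have h3 : 0 < r ^ (n + 2) := by positivity
          have h4 : 6 * V ≤ 2000 * 6 ^ n * (1 + V) * 1 := by nlinarith
          calc 6 * r ^ 2 * (V * r ^ n) = 6 * V * r ^ (n + 2) := by ring
            _ ≤ (2000 * 6 ^ n * (1 + V) * 1) * r ^ (n + 2) := by gcongr
            _ ≤ 2000 * 6 ^ n * (1 + V) * Real.sqrt (Dx + Dy) * r ^ (n + 2) := by gcongr
  · -- small defect
    have hσ : ∀ σ : ℝ, 0 < σ → σ ≤ 1 → Dx + Dy < σ ^ 2 →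
        ∫⁻ u in A, ENNReal.ofReal |Pyd B.toGradS x y u - ⨍ v in A, Pyd B.toGradS x y v ∂μ| ∂μ ≤
        ENNReal.ofReal (2000 * 6 ^ n * (1 + V) * σ * r ^ (n + 2)) := by
      intro σ h0 h1 h2
      exact dev_mean_le hA0 hAf hint (pairs2 B C hκ hκ1 hR hU hr hr1 h0 h1 hV
        (hx _ (by linarith)) (hy _ (by linarith)) hvol hA hAx hAy)
    have ht : Tendsto (fun σ : ℝ => ENNReal.ofReal (2000 * 6 ^ n * (1 + V) * σ * r ^ (n + 2)))
        (𝓝[>] (Real.sqrt (Dx + Dy)))
        (𝓝 (ENNReal.ofReal (2000 * 6 ^ n * (1 + V) * Real.sqrt (Dx + Dy) * r ^ (n + 2)))) := by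
      have : Continuous (fun σ : ℝ => ENNReal.ofReal
          (2000 * 6 ^ n * (1 + V) * σ * r ^ (n + 2))) := by
        apply ENNReal.continuous_ofReal.comp
        fun_prop
      exact (this.tendsto _).mono_left nhdsWithin_le_nhds
    refine ge_of_tendsto ht ?_
    have hlt : Real.sqrt (Dx + Dy) < 1 := by
      rw [Real.sqrt_lt' (by norm_num)]; linarith
    filter_upwards [Ioc_mem_nhdsGT hlt] with σ hσ'
    have h0 := Real.sqrt_nonneg (Dx + Dy)
    refine hσ σ (h0.trans_lt hσ'.1) hσ'.2 ?_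
    exact (Real.sqrt_lt' (h0.trans_lt hσ'.1)).1 hσ'.1

omit [IsFiniteMeasureOnCompacts μ] [SFinite μ] in
/-- replacing the constant by the mean over a smaller set -/
theorem mean_small {A A₀ : Set X} (hA₀ : MeasurableSet A₀) (hsub : A₀ ⊆ A) (h0 : μ A₀ ≠ 0)
    (hAf : μ A ≠ ∞) {F : X → ℝ} (hF : IntegrableOn F A μ) {c : ℝ} {K Q : ℝ≥0∞}
    (h : ∫⁻ u in A, ENNReal.ofReal |F u - c| ∂μ ≤ K) (hQ : μ A ≤ Q * μ A₀) :
    ∫⁻ u in A, ENNReal.ofReal |F u - ⨍ v in A₀, F v ∂μ| ∂μ ≤ (1 + Q) * K := by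
  set c₀ := ⨍ v in A₀, F v ∂μ with hc₀
  have hf0 : μ A₀ ≠ ∞ := ne_top_of_le_ne_top hAf (measure_mono hsub)
  have hF0 : IntegrableOn F A₀ μ := hF.mono_set hsub
  have hpos : 0 < (μ A₀).toReal := ENNReal.toReal_pos h0 hf0
  have hint : IntegrableOn (fun v => F v - c) A₀ μ := hF0.sub (integrableOn_const hf0)
  have h1 : (μ A₀).toReal * (c₀ - c) = ∫ v in A₀, (F v - c) ∂μ := by
    rw [integral_sub hF0 (integrableOn_const hf0), setIntegral_const, hc₀, setAverage_eq]
    simp only [smul_eq_mul, Measure.real]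
    field_simp
  have h2 : |(μ A₀).toReal * (c₀ - c)| ≤ ∫ v in A₀, |F v - c| ∂μ := by
    rw [h1]
    exact abs_integral_le_integral_abs
  rw [abs_mul, abs_of_pos hpos] at h2
  have h3 : ENNReal.ofReal (∫ v in A₀, |F v - c| ∂μ) = ∫⁻ v in A₀, ENNReal.ofReal |F v - c| ∂μ :=
    ofReal_integral_eq_lintegral_ofReal hint.abs (Eventually.of_forall fun v => abs_nonneg _)
  have h4 : μ A₀ * ENNReal.ofReal |c₀ - c| ≤ K := by
    calc μ A₀ * ENNReal.ofReal |c₀ - c|
        = ENNReal.ofReal ((μ A₀).toReal * |c₀ - c|) := by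
          rw [ENNReal.ofReal_mul hpos.le, ENNReal.ofReal_toReal hf0]
      _ ≤ ENNReal.ofReal (∫ v in A₀, |F v - c| ∂μ) := ENNReal.ofReal_le_ofReal h2
      _ = ∫⁻ v in A₀, ENNReal.ofReal |F v - c| ∂μ := h3
      _ ≤ ∫⁻ v in A, ENNReal.ofReal |F v - c| ∂μ := lintegral_mono_set hsub
      _ ≤ K := h
  calc ∫⁻ u in A, ENNReal.ofReal |F u - c₀| ∂μ
      ≤ ∫⁻ u in A, (ENNReal.ofReal |F u - c| + ENNReal.ofReal |c₀ - c|) ∂μ := by
        apply lintegral_mono
        intro u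
        show ENNReal.ofReal |F u - c₀| ≤ ENNReal.ofReal |F u - c| + ENNReal.ofReal |c₀ - c|
        rw [← ENNReal.ofReal_add (abs_nonneg _) (abs_nonneg _)]
        apply ENNReal.ofReal_le_ofReal
        have : F u - c₀ = (F u - c) - (c₀ - c) := by ring
        rw [this]
        exact abs_sub _ _
    _ = ∫⁻ u in A, ENNReal.ofReal |F u - c| ∂μ + ENNReal.ofReal |c₀ - c| * μ A := by
        rw [lintegral_add_right' _ aemeasurable_const, lintegral_const,
          Measure.restrict_apply_univ]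
    _ ≤ K + ENNReal.ofReal |c₀ - c| * (Q * μ A₀) := by gcongr
    _ = K + Q * (μ A₀ * ENNReal.ofReal |c₀ - c|) := by ring
    _ ≤ K + Q * K := by gcongr
    _ = (1 + Q) * K := by ring

/-- the constant `c_k(x,y)` : mean of `PP` over `ball x r ∪ ball y r`, `r = dy (k+7)` -/
def ccm (μ : Measure X) (G : X → X → X → ℝ) (k : ℕ) (x y : X) : ℝ :=
  ⨍ u in ball x (dy (k + 7)) ∪ ball y (dy (k + 7)), PP G x y u ∂μ

lemma ccm_symm {C : Rad n κ' X μ} {G : X → X → X → ℝ} (hG : GRep C G) (k : ℕ) (x y : X) :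
    ccm μ G k x y = ccm μ G k y x := by
  unfold ccm
  rw [union_comm]
  congr 1
  funext u
  exact hG.PP_symm x y u

omit [IsFiniteMeasureOnCompacts μ] [SFinite μ] in
lemma abs_PP_le {C : Rad n κ' X μ} {G : X → X → X → ℝ} (hG : GRep C G) {x y u : X} {r : ℝ}
    (hxy : dist x y ≤ 8 * r) (hu : u ∈ ball x r ∪ ball y r) : |PP G x y u| ≤ 50 * r ^ 2 := by
  have hr : 0 ≤ r := by
    have := dist_nonneg (x := x) (y := y)
    linarith
  have h0 := hG.bd x y u
  -- both distances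
  have key : ∀ a b : ℝ, 0 ≤ a → 0 ≤ b → a ≤ r → b ≤ 9 * r → a * b ≤ 9 * r ^ 2 ∧
      a ^ 2 / 2 + b ^ 2 / 2 ≤ 41 * r ^ 2 := by
    intro a b ha hb har hbr
    constructor
    · calc a * b ≤ r * (9 * r) := by gcongr
        _ = _ := by ring
    · have : a ^ 2 ≤ r ^ 2 := by gcongr
      have : b ^ 2 ≤ (9 * r) ^ 2 := by gcongr
      nlinarith
  have h4 : ff x y ≤ 32 * r ^ 2 := by
    unfold ff
    have h6 : dist x y ^ 2 ≤ (8 * r) ^ 2 := by gcongr
    nlinarith
  have h40 := ff_nonneg x y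
  have h20 := ff_nonneg x u
  have h30 := ff_nonneg y u
  have h5 : dist x u * dist y u ≤ 9 * r ^ 2 ∧ ff x u + ff y u ≤ 41 * r ^ 2 := by
    unfold ff
    rcases hu with hu | hu
    · rw [mem_ball, dist_comm] at hu
      have h7 := dist_triangle y x u
      rw [dist_comm y x] at h7
      exact key _ _ dist_nonneg dist_nonneg hu.le (by linarith)
    · rw [mem_ball, dist_comm] at hu
      have h7 := dist_triangle x y u
      have h8 := key _ _ (dist_nonneg (x := y) (y := u)) (dist_nonneg (x := x) (y := u)) hu.le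
        (by linarith)
      constructor
      · rw [mul_comm]; exact h8.1
      · rw [add_comm]; exact h8.2
  unfold PP
  have h8 := abs_le.1 (h0.trans h5.1)
  rw [abs_le]
  constructor <;> nlinarith [h8.1, h8.2, h5.2, sq_nonneg r]

lemma aesm_PP {C : Rad n κ' X μ} {G : X → X → X → ℝ} (hG : GRep C G) (x y : X) :
    AEStronglyMeasurable (PP G x y) μ := by
  have h1 : Measurable (fun u => G x y u) :=
    hG.meas.comp (measurable_const.prodMk (measurable_const.prodMk measurable_id))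
  have h2 : ∀ a : X, Measurable (fun u => ff a u) := fun a => by
    unfold ff
    exact (((continuous_const.dist continuous_id).pow 2).div_const 2).measurable
  exact (((h1.sub (h2 x)).sub (h2 y)).add_const _).aestronglyMeasurable

omit [SFinite μ] in
lemma abs_ccm_le [ProperSpace X] {C : Rad n κ' X μ} {G : X → X → X → ℝ} (hG : GRep C G) {k : ℕ}
    {x y : X} (hxy : dist x y ≤ 8 * dy (k + 7)) : |ccm μ G k x y| ≤ 50 * dy (k + 7) ^ 2 := by
  unfold ccm
  set A := ball x (dy (k + 7)) ∪ ball y (dy (k + 7)) with hAdef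
  have hA : MeasurableSet A := measurableSet_ball.union measurableSet_ball
  have hAf : μ A ≠ ∞ := (measure_union_lt_top measure_ball_lt_top measure_ball_lt_top).ne
  by_cases hA0 : μ A = 0
  · rw [Measure.restrict_eq_zero.2 hA0]
    simp only [average_zero_measure, abs_zero]
    positivity
  have hpos : 0 < (μ A).toReal := ENNReal.toReal_pos hA0 hAf
  rw [setAverage_eq, smul_eq_mul, abs_mul, abs_inv, Measure.real, abs_of_pos hpos,
    inv_mul_le_iff₀ hpos]
  have h1 : ‖∫ v in A, PP G x y v ∂μ‖ ≤ 50 * dy (k + 7) ^ 2 * (μ A).toReal := by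
    apply norm_setIntegral_le_of_norm_le_const_ae hAf.lt_top
    refine (ae_restrict_iff' hA).2 (Eventually.of_forall fun z hz => ?_)
    exact abs_PP_le hG hxy hz
  rw [Real.norm_eq_abs] at h1
  linarith

/-- the constant of `(L2)` -/
def AL2 (n : ℕ) (V v : ℝ) : ℝ :=
  (1 + V * 128 ^ n / v) * (2000 * 6 ^ n * (1 + 3 ^ n * V) * 2 ^ (n + 2))

/-- **(L2)** in the form of `PkOn.L2`, for one pair and one scale. -/
theorem LP_of_hf2 [ProperSpace X] (B : BochS n κ X μ) (C : Rad n κ' X μ) (hκ : 0 ≤ κ')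
    (hκ1 : κ' ≤ 1) (hR : RDG B.toGradS C) {G : X → X → X → ℝ} (hG : GRep C G) {x y : X}
    {k : ℕ} (hk : 4 ≤ k) {Dx Dy V v : ℝ} (hDx : 0 ≤ Dx) (hDy : 0 ≤ Dy) (hV : 0 ≤ V) (hv : 0 < v)
    (hxy : dist x y ≤ 8 * dy (k + 7))
    (hx : ∀ D', Dx < D' → HF2 B x (6 * dy k) D') (hy : ∀ D', Dy < D' → HF2 B y (6 * dy k) D')
    (hvol : ∀ s, 0 < s → s ≤ 1 → μ (ball x s) ≤ ENNReal.ofReal (V * s ^ n))
    (hvol' : ∀ s, 0 < s → s ≤ 1 → ENNReal.ofReal (v * s ^ n) ≤ μ (ball x s)) :
    ∫⁻ u in ball x (dy k), ENNReal.ofReal |PP G x y u - ccm μ G k x y| ∂μ ≤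
      ENNReal.ofReal (AL2 n V v * (Real.sqrt Dx + Real.sqrt Dy) * dy k ^ (n + 2)) := by
  have hU := unitA_of_rdg hR
  have hk0 := dy_pos k
  have hk4 : dy k ≤ 1 / 16 := by
    have h1 := dy_anti hk
    have h2 : dy 4 = 1 / 16 := by unfold dy; norm_num
    linarith
  have h7 : dy k = 128 * dy (k + 7) := by
    unfold dy; rw [pow_add]; ring
  have hr7 := dy_pos (k + 7)
  set R := dy k with hRdef
  have hAx : ∀ a ∈ ball x R, dist x a < 2 * R := fun a ha => by
    rw [mem_ball, dist_comm] at ha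
    linarith
  have hAy : ∀ a ∈ ball x R, dist y a < 2 * R := fun a ha => by
    rw [mem_ball, dist_comm] at ha
    have := dist_triangle y x a
    rw [dist_comm y x] at this
    linarith
  have e6 : 3 * (2 * R) = 6 * R := by ring
  have hmain := L2_gen B C hκ hκ1 hR hU (x := x) (y := y) (r := 2 * R) (V := 3 ^ n * V)
    (A := ball x R) (by positivity) (by linarith) hDx hDy (by positivity)
    (by rw [e6]; exact hx) (by rw [e6]; exact hy)
    (by
      rw [e6]
      refine (hvol (6 * R) (by positivity) (by linarith)).trans (le_of_eq ?_)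
      congr 1
      rw [show 6 * R = 3 * (2 * R) by ring, mul_pow 3 (2 * R)]
      ring) measurableSet_ball hAx hAy
  -- integrability of `Pyd` on the ball
  have hAf : μ (ball x R) ≠ ∞ := measure_ball_lt_top.ne
  have hint := integrableOn_Pyd B.toGradS hU measurableSet_ball hAf hAx hAy
  set A₀ : Set X := ball x (dy (k + 7)) ∪ ball y (dy (k + 7)) with hA₀def
  have hA₀ : MeasurableSet A₀ := measurableSet_ball.union measurableSet_ball
  have hsub : A₀ ⊆ ball x R := by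
    intro u hu
    rw [mem_ball]
    rcases hu with hu | hu
    · rw [mem_ball] at hu; linarith
    · rw [mem_ball] at hu
      have := dist_triangle u y x
      rw [dist_comm y x] at this
      linarith
  have hA₀v : ENNReal.ofReal (v * dy (k + 7) ^ n) ≤ μ A₀ :=
    (hvol' _ hr7 (dy_le_one _)).trans (measure_mono subset_union_left)
  have hA₀0 : μ A₀ ≠ 0 := by
    intro h
    rw [h] at hA₀v
    have : 0 < v * dy (k + 7) ^ n := by positivity
    exact absurd hA₀v (not_le.2 (ENNReal.ofReal_pos.2 this))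
  have hQ : μ (ball x R) ≤ ENNReal.ofReal (V * 128 ^ n / v) * μ A₀ := by
    calc μ (ball x R) ≤ ENNReal.ofReal (V * R ^ n) := hvol R hk0 (by linarith)
      _ = ENNReal.ofReal (V * 128 ^ n / v) * ENNReal.ofReal (v * dy (k + 7) ^ n) := by
          rw [← ENNReal.ofReal_mul (by positivity)]
          congr 1
          rw [h7, mul_pow]
          field_simp
      _ ≤ _ := by gcongr
  have h2 := mean_small hA₀ hsub hA₀0 hAf hint hmain hQ
  -- pass to PP
  have hPP := Pyd_eq_PP hR hG x y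
  have hcc : ⨍ v in A₀, Pyd B.toGradS x y v ∂μ = ccm μ G k x y := by
    unfold ccm
    exact average_congr (ae_restrict_of_ae hPP)
  rw [hcc] at h2
  calc ∫⁻ u in ball x R, ENNReal.ofReal |PP G x y u - ccm μ G k x y| ∂μ
      = ∫⁻ u in ball x R, ENNReal.ofReal |Pyd B.toGradS x y u - ccm μ G k x y| ∂μ := by
        apply lintegral_congr_ae
        filter_upwards [ae_restrict_of_ae hPP] with u hu
        rw [hu]
    _ ≤ _ := h2
    _ = ENNReal.ofReal ((1 + V * 128 ^ n / v) *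
          (2000 * 6 ^ n * (1 + 3 ^ n * V) * Real.sqrt (Dx + Dy) * (2 * R) ^ (n + 2))) := by
        rw [← ENNReal.ofReal_one, ← ENNReal.ofReal_add (by norm_num) (by positivity),
          ← ENNReal.ofReal_mul (by positivity)]
    _ ≤ _ := by
        apply ENNReal.ofReal_le_ofReal
        have h3 : Real.sqrt (Dx + Dy) ≤ Real.sqrt Dx + Real.sqrt Dy := by
          rw [Real.sqrt_le_left (by positivity)]
          nlinarith [Real.sq_sqrt hDx, Real.sq_sqrt hDy,
            mul_nonneg (Real.sqrt_nonneg Dx) (Real.sqrt_nonneg Dy)]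
        calc (1 + V * 128 ^ n / v) *
              (2000 * 6 ^ n * (1 + 3 ^ n * V) * Real.sqrt (Dx + Dy) * (2 * R) ^ (n + 2))
            ≤ (1 + V * 128 ^ n / v) *
              (2000 * 6 ^ n * (1 + 3 ^ n * V) * (Real.sqrt Dx + Real.sqrt Dy) *
                (2 * R) ^ (n + 2)) := by gcongr
          _ = AL2 n V v * (Real.sqrt Dx + Real.sqrt Dy) * R ^ (n + 2) := by
              unfold AL2
              rw [mul_pow]
              ring

end L2

section D

open Crest.Agent.R242 Crest.Agent.R247.Dir593.GradS Crest.Agent.R247.Obj554 Crest.Agent.R247.Fd656 Crest.Agent.R247.Smv126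

variable {n : ℕ} {κ κ' : ℝ} {X : Type*} [MetricSpace X] [ProperSpace X] [MeasurableSpace X]
  [BorelSpace X] {μ : Measure X} [IsFiniteMeasureOnCompacts μ]

/-- `L2To` in `lintegral` form -/
lemma L2To.eventually_le {E : Type*} [NormedAddCommGroup E] [InnerProductSpace ℝ E]
    {f : ℕ → X → E} {g : X → E} (h : L2To μ f g) {ε : ℝ} (hε : 0 < ε) :
    ∀ᶠ i in atTop, ∫⁻ z, ENNReal.ofReal (‖f i z - g z‖ ^ 2) ∂μ ≤ ENNReal.ofReal ε := by
  filter_upwards [h.lim.eventually (gt_mem_nhds hε)] with i hi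
  have h1 : Integrable (fun z => ‖f i z - g z‖ ^ 2) μ :=
    ((h.mem i).sub h.mem').integrable_norm_pow (by norm_num)
  rw [← ofReal_integral_eq_lintegral_ofReal h1 (Eventually.of_forall fun z => by positivity)]
  exact ENNReal.ofReal_le_ofReal hi.le

lemma approx_sq {E : Type*} [NormedAddCommGroup E] [InnerProductSpace ℝ E] {A : Set X}
    (hA : MeasurableSet A) {f g h : X → E}
    (hm : AEStronglyMeasurable (fun z => g z - h z) (μ.restrict A)) {a b c : ℝ} (ha : 0 ≤ a)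
    (hb : 0 ≤ b) (hc : 2 * a + 2 * b ≤ c)
    (h1 : ∫⁻ z in A, ENNReal.ofReal (‖f z - g z‖ ^ 2) ∂μ ≤ ENNReal.ofReal a)
    (h2 : ∫⁻ z in A, ENNReal.ofReal (‖g z - h z‖ ^ 2) ∂μ ≤ ENNReal.ofReal b) :
    ∫⁻ z in A, ENNReal.ofReal (‖f z - h z‖ ^ 2) ∂μ ≤ ENNReal.ofReal c := by
  have e2 : (2 : ℝ≥0∞) = ENNReal.ofReal 2 := by norm_num
  calc ∫⁻ z in A, ENNReal.ofReal (‖f z - h z‖ ^ 2) ∂μ
      ≤ ∫⁻ z in A, (2 * ENNReal.ofReal (‖f z - g z‖ ^ 2) + 2 * ENNReal.ofReal (‖g z - h z‖ ^ 2))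
          ∂μ := by
        apply lintegral_mono
        intro z
        show ENNReal.ofReal (‖f z - h z‖ ^ 2) ≤
          2 * ENNReal.ofReal (‖f z - g z‖ ^ 2) + 2 * ENNReal.ofReal (‖g z - h z‖ ^ 2)
        rw [e2, ← ENNReal.ofReal_mul (by norm_num), ← ENNReal.ofReal_mul (by norm_num),
          ← ENNReal.ofReal_add (by positivity) (by positivity)]
        apply ENNReal.ofReal_le_ofReal
        have h3 : ‖f z - h z‖ ≤ ‖f z - g z‖ + ‖g z - h z‖ := norm_sub_le_norm_sub_add_norm_sub _ _ _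
        have h4 : ‖f z - h z‖ ^ 2 ≤ (‖f z - g z‖ + ‖g z - h z‖) ^ 2 := by gcongr
        nlinarith [sq_nonneg (‖f z - g z‖ - ‖g z - h z‖)]
    _ = 2 * ∫⁻ z in A, ENNReal.ofReal (‖f z - g z‖ ^ 2) ∂μ +
          2 * ∫⁻ z in A, ENNReal.ofReal (‖g z - h z‖ ^ 2) ∂μ := by
        have m2 : AEMeasurable (fun z => 2 * ENNReal.ofReal (‖g z - h z‖ ^ 2)) (μ.restrict A) :=
          ((hm.norm.aemeasurable.pow_const 2).ennreal_ofReal).const_mul _
        rw [lintegral_add_right' _ m2, lintegral_const_mul' _ _ (by norm_num),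
          lintegral_const_mul' _ _ (by norm_num)]
    _ ≤ 2 * ENNReal.ofReal a + 2 * ENNReal.ofReal b := by gcongr
    _ = ENNReal.ofReal (2 * a + 2 * b) := by
        rw [e2, ← ENNReal.ofReal_mul (by norm_num), ← ENNReal.ofReal_mul (by norm_num),
          ← ENNReal.ofReal_add (by positivity) (by positivity)]
    _ ≤ _ := ENNReal.ofReal_le_ofReal hc

/-- `‖∇u_k - ∇f_x‖ = ρ · gf` on the ball of radius 32 -/
lemma norm_Duk (B : BochS n κ X μ) (x : X) (k : ℕ) :
    ∀ᵐ z ∂μ, dist x z ≤ 32 → ‖B.D (uk B x k) z - B.G (fx x) z‖ = dy k * gf B x k z := by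
  have h1 := D_uL (S := B.toGradS) (n := n) (κ := κ) (dy_pos k) x
  have h2 : B.D (uk B x k) = B.D (tL (isT_f0 x)) - dy k ^ 2 • B.D (qk B x k) := h1
  filter_upwards [Lp.coeFn_sub (B.D (tL (isT_f0 x))) (dy k ^ 2 • B.D (qk B x k)),
    Lp.coeFn_smul (dy k ^ 2) (B.D (qk B x k)), B.D_tL (isT_f0 x), G_f0 B.toGradS x]
    with z a1 a2 a3 a4 hz
  rw [h2, a1, Pi.sub_apply, a2, Pi.smul_apply, a3, a4]
  have h3 : et x z = 1 := eta_one (hf_le_S0 hz)
  rw [h3, one_smul]
  have h4 : B.G (hf x) z = B.G (fx x) z := rfl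
  rw [h4]
  have h5 : B.G (fx x) z - dy k ^ 2 • (B.D (qk B x k)) z - B.G (fx x) z =
      -(dy k ^ 2 • (B.D (qk B x k)) z) := by abel
  rw [h5, norm_neg, norm_smul, Real.norm_of_nonneg (by have := dy_pos k; positivity)]
  unfold gf
  ring

/-- **`HF2` from the objects of block (5)** -/
theorem hf2_of_obj (B : BochS n κ X μ) {x : X} (O : HObj B x) {k : ℕ} (hk : 4 ≤ k) {b : ℝ}
    (hb : 0 ≤ b)
    (hd2 : ∫⁻ z in ball x (16 * dy k), ENNReal.ofReal (Hf O k z ^ 2 + gf B x k z ^ 2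
      + qf B x k z) ∂μ ≤ ENNReal.ofReal (b * dy k ^ n)) {D' : ℝ} (hD' : 2 * b < D') :
    HF2 B x (6 * dy k) D' := by
  have hρ := dy_pos k
  have hρ1 := dy_le_one k
  set R := 6 * dy k with hR
  have hR0 : 0 < R := by positivity
  have hball : ball x R ⊆ ball x (16 * dy k) := ball_subset_ball (by linarith)
  have hK : ball x R ⊆ closedBall x R := ball_subset_closedBall
  have hcomp : IsCompact (closedBall x R) := isCompact_closedBall x R
  have hd := O.hd k
  set ε : ℝ := (D' - 2 * b) * dy k ^ (n + 2) / 2 with hε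
  have hε0 : 0 < ε := by
    have : 0 < D' - 2 * b := by linarith
    positivity
  have hA := L2To.eventually_le (hd.toA _ hcomp) hε0
  have hD := L2To.eventually_le (hd.toD _ hcomp) hε0
  obtain ⟨i, hiA, hiD⟩ := (hA.and hD).exists
  have hH0 : ∫⁻ z in ball x R, ENNReal.ofReal (‖O.A k z - idm n‖ ^ 2) ∂μ ≤
      ENNReal.ofReal (b * dy k ^ n) := by
    refine le_trans ?_ ((lintegral_mono_set hball).trans hd2)
    apply lintegral_mono
    intro z
    apply ENNReal.ofReal_le_ofReal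
    have h1 := qf_nonneg B x k z
    have h2 : Hf O k z = ‖O.A k z - idm n‖ := rfl
    rw [h2]
    nlinarith [sq_nonneg (gf B x k z)]
  have hG0 : ∫⁻ z in ball x R, ENNReal.ofReal (‖B.D (uk B x k) z - B.G (fx x) z‖ ^ 2) ∂μ ≤
      ENNReal.ofReal (b * dy k ^ (n + 2)) := by
    calc ∫⁻ z in ball x R, ENNReal.ofReal (‖B.D (uk B x k) z - B.G (fx x) z‖ ^ 2) ∂μ
        ≤ ∫⁻ z in ball x R, ENNReal.ofReal (dy k ^ 2) * ENNReal.ofReal (Hf O k z ^ 2 +
            gf B x k z ^ 2 + qf B x k z) ∂μ := by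
          apply lintegral_mono_ae
          refine (ae_restrict_iff' measurableSet_ball).2 ?_
          filter_upwards [norm_Duk B x k] with z hz hzR
          have h1 : dist x z ≤ 32 := by
            rw [mem_ball, dist_comm] at hzR
            linarith
          rw [hz h1, ← ENNReal.ofReal_mul (by positivity)]
          apply ENNReal.ofReal_le_ofReal
          rw [mul_pow]
          have h2 := qf_nonneg B x k z
          gcongr
          nlinarith [sq_nonneg (Hf O k z)]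
      _ = ENNReal.ofReal (dy k ^ 2) * ∫⁻ z in ball x R, ENNReal.ofReal (Hf O k z ^ 2 +
            gf B x k z ^ 2 + qf B x k z) ∂μ := by
          rw [lintegral_const_mul' _ _ ENNReal.ofReal_ne_top]
      _ ≤ ENNReal.ofReal (dy k ^ 2) * ENNReal.ofReal (b * dy k ^ n) := by
          gcongr
          exact (lintegral_mono_set hball).trans hd2
      _ = _ := by
          rw [← ENNReal.ofReal_mul (by positivity)]
          congr 1
          ring
  have hRn : dy k ^ n ≤ R ^ n := by gcongr; linarith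
  have hRn2 : dy k ^ (n + 2) ≤ R ^ (n + 2) := by gcongr; linarith
  have hdn : dy k ^ (n + 2) ≤ dy k ^ n := pow_le_pow_of_le_one hρ.le hρ1 (by omega)
  refine ⟨O.w k i, hd.core i, ?_, ?_⟩
  · refine approx_sq measurableSet_ball ?_ hε0.le (by positivity) ?_
      ((lintegral_mono_set hK).trans hiD) hG0
    · exact ((Lp.aestronglyMeasurable _).sub (B.meas (locLip_fx x))).restrict
    · calc 2 * ε + 2 * (b * dy k ^ (n + 2)) = D' * dy k ^ (n + 2) := by rw [hε]; ring
        _ ≤ D' * R ^ (n + 2) := by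
          have : 0 ≤ D' := by linarith
          gcongr
  · refine approx_sq measurableSet_ball ?_ hε0.le (by positivity) ?_
      ((lintegral_mono_set hK).trans hiA) hH0
    · exact (((O.A_meas k).aestronglyMeasurable).sub aestronglyMeasurable_const).restrict
    · calc 2 * ε + 2 * (b * dy k ^ n) = (D' - 2 * b) * dy k ^ (n + 2) + 2 * b * dy k ^ n := by
            rw [hε]; ring
        _ ≤ (D' - 2 * b) * dy k ^ n + 2 * b * dy k ^ n := by
            have : 0 ≤ D' - 2 * b := by linarith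
            gcongr
        _ = D' * dy k ^ n := by ring
        _ ≤ D' * R ^ n := by
          have : 0 ≤ D' := by linarith
          gcongr

/-- **The field `PkOn.L2`** (with the explicit constant `AL2 n V v * √(2 b)`), from the Hessian
objects and the literal field `d2_ball`. -/
theorem L2_pk (B : BochS n κ X μ) (C : Rad n κ' X μ) (hκ : 0 ≤ κ')
    (hκ1 : κ' ≤ 1) (hR : RDG B.toGradS C) {G : X → X → X → ℝ} (hG : GRep C G) {q : X}
    (O : ∀ x, HObj B x) {ph : X → ℕ → ℝ} {b V v A : ℝ} (hb : 0 ≤ b) (hV : 0 ≤ V) (hv : 0 < v)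
    (hvol : ∀ x, dist x q < 1 → ∀ s, 0 < s → s ≤ 1 → μ (ball x s) ≤ ENNReal.ofReal (V * s ^ n))
    (hvol' : ∀ x, dist x q < 1 → ∀ s, 0 < s → s ≤ 1 →
      ENNReal.ofReal (v * s ^ n) ≤ μ (ball x s))
    (hph : ∀ x, dist x q < 1 → ∀ j, 0 ≤ ph x j)
    (hd2 : ∀ x, dist x q < 1 → ∀ k, 4 ≤ k →
      ∫⁻ z in ball x (16 * dy k), ENNReal.ofReal (Hf (O x) k z ^ 2 + gf B x k z ^ 2
        + qf B x k z) ∂μ ≤ ENNReal.ofReal (b * ph x k * dy k ^ n))
    (hA : AL2 n V v * Real.sqrt (2 * b) ≤ A) :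
    ∃ cc : ℕ → X → X → ℝ, (∀ k x y, cc k x y = cc k y x) ∧
    ∀ k, 4 ≤ k → ∀ x, dist x q < 1 → ∀ y, dist y q < 1 → dist x y ≤ 8 * dy (k + 7) →
      |cc k x y| ≤ 200 * dy (k + 7) ^ 2 ∧
      ∫⁻ u in ball x (dy k), ENNReal.ofReal |PP G x y u - cc k x y| ∂μ ≤
        ENNReal.ofReal (A * (Real.sqrt (ph x k) + Real.sqrt (ph y k)) * dy k ^ (n + 2)) := by
  refine ⟨fun k x y => ccm μ G k x y, fun k x y => ccm_symm hG k x y, ?_⟩
  intro k hk x hx y hy hxy
  have hsq := sq_nonneg (dy (k + 7))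
  refine ⟨(abs_ccm_le hG hxy).trans (by linarith), ?_⟩
  have hpx := hph x hx k
  have hpy := hph y hy k
  have h := LP_of_hf2 B C hκ hκ1 hR hG (x := x) (y := y) hk (Dx := 2 * (b * ph x k))
    (Dy := 2 * (b * ph y k)) (by positivity) (by positivity) hV hv hxy
    (fun D' hD' => hf2_of_obj B (O x) hk (by positivity) (hd2 x hx k hk) hD')
    (fun D' hD' => hf2_of_obj B (O y) hk (by positivity) (hd2 y hy k hk) hD')
    (hvol x hx) (hvol' x hx)
  refine h.trans (ENNReal.ofReal_le_ofReal ?_)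
  have e1 : ∀ a : ℝ, 0 ≤ a → Real.sqrt (2 * (b * a)) = Real.sqrt (2 * b) * Real.sqrt a := by
    intro a ha
    rw [← mul_assoc, Real.sqrt_mul (by positivity)]
  rw [e1 _ hpx, e1 _ hpy]
  have hd := dy_pos k
  calc AL2 n V v * (Real.sqrt (2 * b) * Real.sqrt (ph x k) + Real.sqrt (2 * b) *
        Real.sqrt (ph y k)) * dy k ^ (n + 2)
      = (AL2 n V v * Real.sqrt (2 * b)) * (Real.sqrt (ph x k) + Real.sqrt (ph y k)) *
          dy k ^ (n + 2) := by ring
    _ ≤ A * (Real.sqrt (ph x k) + Real.sqrt (ph y k)) * dy k ^ (n + 2) := by gcongr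

end D

end Crest.Agent.R247.Loc710
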