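import Mathlib
import Crest.Agent.R247.Ray3_97
import Crest.Agent.R247.Bo8_84
import Crest.Agent.R247.Rdg2_879
import Crest.Agent.R247.Loc1_710
import Crest.Agent.R247.Ib1_939
import Crest.Agent.R247.Ms8_322

-- ▼ part R247/Ray4a_97
section

/-!
R247 (helper97), block (6f), part 4a: first and second order Taylor inequalities on `[0,1]` for a
function which is (twice) differentiable on the open interval, with `ℝ≥0∞`-valued bounds
(no integrability or measurability hypothesis on the bound).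
-/

set_option autoImplicit false
open MeasureTheory Set Filter Topology
open scoped ENNReal

namespace Crest.Agent.R247.Ray97

/-- **FTC inequality** -/
theorem ftc_1d {φ φ' : ℝ → ℝ} {K : ℝ → ℝ≥0∞} (hc : ContinuousOn φ (Icc 0 1))
    (h1 : ∀ t ∈ Ioo (0 : ℝ) 1, HasDerivAt φ (φ' t) t)
    (hK : ∀ t ∈ Ioo (0 : ℝ) 1, ENNReal.ofReal |φ' t| ≤ K t) :
    ENNReal.ofReal |φ 1 - φ 0| ≤ ∫⁻ t in Icc (0 : ℝ) 1, K t := by
  set I := ∫⁻ t in Icc (0 : ℝ) 1, K t with hI
  rcases eq_or_ne I ∞ with htop | hfin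
  · rw [htop]; exact le_top
  -- integrability of `φ'`
  have hmeas : AEStronglyMeasurable φ' (volume.restrict (Ioo (0 : ℝ) 1)) := by
    have h2 : AEStronglyMeasurable (deriv φ) (volume.restrict (Ioo (0 : ℝ) 1)) :=
      (measurable_deriv φ).aestronglyMeasurable
    refine h2.congr ?_
    filter_upwards [ae_restrict_mem measurableSet_Ioo] with t ht using (h1 t ht).deriv
  have hle : ∫⁻ t in Ioo (0 : ℝ) 1, ‖φ' t‖ₑ ≤ I := by
    calc ∫⁻ t in Ioo (0 : ℝ) 1, ‖φ' t‖ₑ ≤ ∫⁻ t in Ioo (0 : ℝ) 1, K t := by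
          apply lintegral_mono_ae
          filter_upwards [ae_restrict_mem measurableSet_Ioo] with t ht
          rw [← Real.enorm_abs, Real.enorm_of_nonneg (abs_nonneg _)]
          exact hK t ht
      _ ≤ I := lintegral_mono_set Ioo_subset_Icc_self
  have hint : IntegrableOn φ' (Ioo 0 1) volume :=
    ⟨hmeas, lt_of_le_of_lt hle (lt_top_iff_ne_top.2 hfin)⟩
  have hii : IntervalIntegrable φ' volume 0 1 := by
    rw [intervalIntegrable_iff_integrableOn_Ioo_of_le (by norm_num)]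
    exact hint
  have hftc := intervalIntegral.integral_eq_sub_of_hasDerivAt_of_le (by norm_num : (0 : ℝ) ≤ 1)
    hc h1 hii
  rw [← hftc, intervalIntegral.integral_of_le (by norm_num), integral_Ioc_eq_integral_Ioo,
    ← Real.enorm_of_nonneg (abs_nonneg _), Real.enorm_abs]
  exact (enorm_integral_le_lintegral_enorm _).trans hle

/-- **second order Taylor inequality** -/
theorem taylor_1d {φ φ' φ'' : ℝ → ℝ} {d0 c : ℝ} {K : ℝ → ℝ≥0∞}
    (hc : ContinuousOn φ (Icc 0 1))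
    (h1 : ∀ t ∈ Ioo (0 : ℝ) 1, HasDerivAt φ (φ' t) t)
    (h2 : ∀ t ∈ Ioo (0 : ℝ) 1, HasDerivAt φ' (φ'' t) t)
    (h0 : Tendsto φ' (𝓝[>] 0) (𝓝 d0))
    (hK : ∀ t ∈ Ioo (0 : ℝ) 1, ENNReal.ofReal |φ'' t - c| ≤ K t) :
    ENNReal.ofReal |φ 1 - φ 0 - d0 - c / 2| ≤
      ∫⁻ t in Icc (0 : ℝ) 1, ENNReal.ofReal (1 - t) * K t := by
  set I := ∫⁻ t in Icc (0 : ℝ) 1, ENNReal.ofReal (1 - t) * K t with hI
  rcases eq_or_ne I ∞ with htop | hfin
  · rw [htop]; exact le_top
  -- the inequality on `[ε, 1-ε]`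
  have key : ∀ ε ∈ Ioo (0 : ℝ) (1 / 2), ENNReal.ofReal |φ (1 - ε) - φ ε - (1 - 2 * ε) * φ' ε
      - c * (1 - 2 * ε) ^ 2 / 2| ≤ I := by
    intro ε hε
    set g : ℝ → ℝ := fun t => (1 - ε - t) * (φ'' t - c) with hg
    set Ψ : ℝ → ℝ := fun t => φ t + (1 - ε - t) * φ' t + c * (1 - ε - t) ^ 2 / 2 with hΨ
    have hε1 : ε ≤ 1 - ε := by linarith [hε.2]
    have hsub : Icc ε (1 - ε) ⊆ Ioo 0 1 := fun t ht =>
      ⟨lt_of_lt_of_le hε.1 ht.1, lt_of_le_of_lt ht.2 (by linarith [hε.1])⟩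
    have hd : ∀ t ∈ Icc ε (1 - ε), HasDerivAt Ψ (g t) t := by
      intro t ht
      have ht' := hsub ht
      have e1 := h1 t ht'
      have e2 := h2 t ht'
      have e3 : HasDerivAt (fun t : ℝ => 1 - ε - t) (-1) t := by
        simpa using (hasDerivAt_id t).const_sub (1 - ε)
      have e4 := (e3.fun_pow 2)
      have e5 := (e1.add (e3.mul e2)).add ((e4.const_mul c).div_const 2)
      refine e5.congr_deriv ?_
      simp only [hg]
      push_cast
      ring
    have hmeas : AEStronglyMeasurable g (volume.restrict (Ioc ε (1 - ε))) := by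
      have m1 : AEStronglyMeasurable (deriv φ') (volume.restrict (Ioc ε (1 - ε))) :=
        (measurable_deriv φ').aestronglyMeasurable
      have m2 : AEStronglyMeasurable φ'' (volume.restrict (Ioc ε (1 - ε))) := by
        refine m1.congr ?_
        filter_upwards [ae_restrict_mem measurableSet_Ioc] with t ht
        exact (h2 t (hsub (Ioc_subset_Icc_self ht))).deriv
      exact ((continuous_const.sub continuous_id).aestronglyMeasurable.mul
        (m2.sub aestronglyMeasurable_const))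
    have hle : ∫⁻ t in Ioc ε (1 - ε), ‖g t‖ₑ ≤ I := by
      calc ∫⁻ t in Ioc ε (1 - ε), ‖g t‖ₑ
          ≤ ∫⁻ t in Ioc ε (1 - ε), ENNReal.ofReal (1 - t) * K t := by
            apply lintegral_mono_ae
            filter_upwards [ae_restrict_mem measurableSet_Ioc] with t ht
            have ht' := hsub (Ioc_subset_Icc_self ht)
            simp only [hg]
            rw [enorm_mul, ← Real.enorm_abs (φ'' t - c), Real.enorm_of_nonneg (abs_nonneg _),
              Real.enorm_of_nonneg (by linarith [ht.2])]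
            gcongr
            · linarith [hε.1]
            · exact hK t ht'
        _ ≤ I := lintegral_mono_set (fun t ht =>
            ⟨(hsub (Ioc_subset_Icc_self ht)).1.le, (hsub (Ioc_subset_Icc_self ht)).2.le⟩)
    have hii : IntervalIntegrable g volume ε (1 - ε) := by
      rw [intervalIntegrable_iff_integrableOn_Ioc_of_le hε1]
      exact ⟨hmeas, lt_of_le_of_lt hle (lt_top_iff_ne_top.2 hfin)⟩
    have hftc := intervalIntegral.integral_eq_sub_of_hasDerivAt
      (fun t ht => hd t (by rwa [uIcc_of_le hε1] at ht)) hii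
    have e : Ψ (1 - ε) - Ψ ε = φ (1 - ε) - φ ε - (1 - 2 * ε) * φ' ε
      - c * (1 - 2 * ε) ^ 2 / 2 := by simp only [hΨ]; ring
    rw [← e, ← hftc, intervalIntegral.integral_of_le hε1,
      ← Real.enorm_of_nonneg (abs_nonneg _), Real.enorm_abs]
    exact (enorm_integral_le_lintegral_enorm _).trans hle
  -- the limit
  have hφ0 : Tendsto φ (𝓝[>] 0) (𝓝 (φ 0)) :=
    (hc 0 (by simp)).mono_left (nhdsWithin_le_of_mem (by
      exact mem_of_superset (Ioo_mem_nhdsGT (zero_lt_one (α := ℝ))) Ioo_subset_Icc_self))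
  have hφ1 : Tendsto (fun ε : ℝ => φ (1 - ε)) (𝓝[>] 0) (𝓝 (φ 1)) := by
    have ht : Tendsto (fun ε : ℝ => 1 - ε) (𝓝[>] 0) (𝓝[Icc 0 1] 1) := by
      rw [tendsto_nhdsWithin_iff]
      constructor
      · have : Tendsto (fun ε : ℝ => 1 - ε) (𝓝 0) (𝓝 (1 - 0)) := by
          exact (continuous_const.sub continuous_id).tendsto _
        rw [sub_zero] at this
        exact this.mono_left nhdsWithin_le_nhds
      · filter_upwards [Ioo_mem_nhdsGT (zero_lt_one (α := ℝ))] with ε hε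
        exact ⟨by linarith [hε.2], by linarith [hε.1]⟩
    have h3 : Tendsto φ (𝓝[Icc 0 1] 1) (𝓝 (φ 1)) := hc 1 (by simp)
    exact h3.comp ht
  have hid : Tendsto (fun ε : ℝ => ε) (𝓝[>] 0) (𝓝 0) := nhdsWithin_le_nhds
  have hlim : Tendsto (fun ε : ℝ => ENNReal.ofReal |φ (1 - ε) - φ ε - (1 - 2 * ε) * φ' ε
      - c * (1 - 2 * ε) ^ 2 / 2|) (𝓝[>] 0)
      (𝓝 (ENNReal.ofReal |φ 1 - φ 0 - (1 - 2 * 0) * d0 - c * (1 - 2 * 0) ^ 2 / 2|)) := by
    refine (ENNReal.continuous_ofReal.tendsto _).comp ?_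
    refine Tendsto.abs ?_
    have h12 : Tendsto (fun ε : ℝ => 1 - 2 * ε) (𝓝[>] 0) (𝓝 (1 - 2 * 0)) :=
      tendsto_const_nhds.sub (hid.const_mul 2)
    exact ((hφ1.sub hφ0).sub (h12.mul h0)).sub (((h12.pow 2).const_mul c).div_const 2)
  have hfinal := le_of_tendsto hlim (by
    filter_upwards [Ioo_mem_nhdsGT (show (0 : ℝ) < 1 / 2 by norm_num)] with ε hε using key ε hε)
  have e : φ 1 - φ 0 - (1 - 2 * 0) * d0 - c * (1 - 2 * 0) ^ 2 / 2 = φ 1 - φ 0 - d0 - c / 2 := by
    ring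
  rwa [e] at hfinal

end Crest.Agent.R247.Ray97
end

-- ▼ part R247/Ray4_97
section

/-!
R247 (helper97), block (6f), part 4: first and second order Taylor inequalities along a minimiser.
-/

set_option autoImplicit false
set_option maxSynthPendingDepth 3
set_option linter.unusedSectionVars false

open Bundle Set Filter Topology Metric MeasureTheory
open scoped Manifold ContDiff NNReal ENNReal
open Crest.GeometryTopology.CoordMetric Crest.GeometryTopology.ChartCurvature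
open Crest.GeometryTopology.MTW Crest.Agent.R244 Crest.Agent.R226
open Crest.Agent.R226.CutSmooth77 (SC)
open Crest.Agent.R247.Bo84 (mGam mHess mgrad contMDiffAt_mGam mGam_sq_le mGam_self mHess_smul_left
  mHess_smul_right)
open Crest.Agent.R247.Sm879

namespace Crest.Agent.R247.Ray97

variable {n : ℕ} {M : Type*} [MetricSpace M] [ChartedSpace (EuclideanSpace ℝ (Fin n)) M]
  [IsManifold (𝓡 n) ∞ M]
  [RiemannianBundle (fun p : M => TangentSpace (𝓡 n) p)]
  [IsContMDiffRiemannianBundle (𝓡 n) ∞ (EuclideanSpace ℝ (Fin n)) (fun p : M => TangentSpace (𝓡 n) p)]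
  [IsRiemannianManifold (𝓡 n) M] [ProperSpace M]
  {x : M} {γ : ℝ → M} {ℓ b s : ℝ}

local notation "𝔼" => EuclideanSpace ℝ (Fin n)

/-- the cost from `x` is smooth at a point of smoothness -/
theorem contMDiffAt_halfDistSq {p : M} (h : SC n x p) :
    ContMDiffAt (𝓡 n) 𝓘(ℝ, ℝ) ∞ (halfDistSq x) p := by
  have h2 : ContMDiffAt (𝓡 n) ((𝓡 n).prod (𝓡 n)) ∞ (fun q : M => (x, q)) p :=
    contMDiffAt_const.prodMk contMDiffAt_id
  have h3 : ContMDiffAt ((𝓡 n).prod (𝓡 n)) 𝓘(ℝ) ∞ (fun q : M × M => halfDistSq q.1 q.2)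
      ((fun q : M => (x, q)) p) := h
  exact ContMDiffAt.comp p (f := fun q : M => (x, q)) h3 h2

/-- the velocity from both ends -/
theorem IsRay.vel_eq (hm : ExM M) (h : IsRay x γ ℓ b) (hs : s ∈ Ioo 0 b) {w : M → ℝ}
    (hw : MDifferentiableAt (𝓡 n) 𝓘(ℝ, ℝ) w (γ s)) :
    s⁻¹ * mGam n w (halfDistSq x) (γ s) = -((b - s)⁻¹ * mGam n w (halfDistSq (γ b)) (γ s)) := by
  have h1 := h.hasDerivAt_comp (n := n) hm hs hw
  have h2 := h.reverse
  have hs' : b - s ∈ Ioo 0 b := ⟨by linarith [hs.2], by linarith [hs.1]⟩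
  have e0 : γ (b - (b - s)) = γ s := by congr 1; ring
  have h3 := h2.hasDerivAt_comp (n := n) hm hs' (w := w) (by rw [e0]; exact hw)
  rw [e0] at h3
  have h4 : HasDerivAt (fun t : ℝ => b - t) (-1) s := by
    simpa using (hasDerivAt_id s).const_sub b
  have h5 := HasDerivAt.comp s (h₂ := fun t => w (γ (b - t))) (h := fun t => b - t) h3 h4
  have h6 : HasDerivAt (fun t => w (γ t))
      ((b - s)⁻¹ * mGam n w (halfDistSq (γ b)) (γ s) * -1) s := by
    refine h5.congr_of_eventuallyEq (Eventually.of_forall fun t => ?_)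
    simp [Function.comp]
  rw [h1.unique h6]; ring

/-- the first derivative tends to the one-sided derivative at the starting point. -/
theorem IsRay.tendsto_deriv (hm : ExM M) (h : IsRay x γ ℓ b) (hSC : SC n (γ b) x) {w : M → ℝ}
    (hw : ContMDiffAt (𝓡 n) 𝓘(ℝ, ℝ) 2 w x) :
    Tendsto (fun s => s⁻¹ * mGam n w (halfDistSq x) (γ s)) (𝓝[>] 0)
      (𝓝 (-(b⁻¹ * mGam n w (halfDistSq (γ b)) x))) := by
  have : IsManifold (𝓡 n) (2 : WithTop ℕ∞) M :=
    IsManifold.of_le (n := ∞) Crest.Agent.R247.Bo84.two_le_infty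
  have hmd : ∀ᶠ p in 𝓝 x, MDifferentiableAt (𝓡 n) 𝓘(ℝ, ℝ) w p := by
    have h2 := (contMDiffAt_iff_contMDiffAt_nhds (n := 2) (by decide)).1 hw
    filter_upwards [h2] with p hp using hp.mdifferentiableAt (by norm_num)
  have hb := h.bpos
  have hγ : Tendsto γ (𝓝[>] 0) (𝓝 x) := by
    have h1 : Tendsto γ (𝓝[Icc 0 b] 0) (𝓝 (γ 0)) := h.continuousOn 0 ⟨le_rfl, hb.le⟩
    rw [h.zero] at h1
    exact h1.mono_left (nhdsWithin_le_of_mem
      (mem_of_superset (Ioo_mem_nhdsGT hb) Ioo_subset_Icc_self))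
  have hcont : ContinuousAt (mGam n w (halfDistSq (γ b))) x :=
    (contMDiffAt_mGam (m := 0) (a := 2) hw
      ((contMDiffAt_halfDistSq hSC).of_le Crest.Agent.R247.Bo84.two_le_infty)
      (by norm_num) Crest.Agent.R247.Bo84.two_le_infty).continuousAt
  have hlim : Tendsto (fun s => -((b - s)⁻¹ * mGam n w (halfDistSq (γ b)) (γ s))) (𝓝[>] 0)
      (𝓝 (-((b - 0)⁻¹ * mGam n w (halfDistSq (γ b)) x))) := by
    refine Tendsto.neg (Tendsto.mul ?_ (hcont.tendsto.comp hγ))
    refine Tendsto.inv₀ ?_ (by simpa using hb.ne')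
    exact ((continuous_const.sub continuous_id).tendsto 0).mono_left nhdsWithin_le_nhds
  rw [sub_zero] at hlim
  refine hlim.congr' ?_
  filter_upwards [Ioo_mem_nhdsGT hb, hγ.eventually hmd] with s hs hs2
  exact (h.vel_eq hm hs hs2).symm

/-- **second order Taylor inequality along a minimiser** (literal form of doc 1349, sec. 2). -/
theorem IsRay.taylor (hm : ExM M) (h : IsRay x γ ℓ 1) (hSC : SC n (γ 1) x) {w : M → ℝ}
    (hw : ∀ t ∈ Icc (0 : ℝ) 1, ContMDiffAt (𝓡 n) 𝓘(ℝ, ℝ) 2 w (γ t)) {K : M → ℝ≥0∞}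
    (hK : ∀ t ∈ Ioo (0 : ℝ) 1, ∀ ξ : TangentSpace (𝓡 n) (γ t),
      ENNReal.ofReal |mHess n w (γ t) ξ ξ - ‖ξ‖ ^ 2| ≤ K (γ t) * ENNReal.ofReal (‖ξ‖ ^ 2)) :
    ENNReal.ofReal |mGam n w (halfDistSq (γ 1)) x - w x - halfDistSq (γ 1) x + w (γ 1)| ≤
      ENNReal.ofReal (ℓ ^ 2) * ∫⁻ t in Icc (0 : ℝ) 1, ENNReal.ofReal (1 - t) * K (γ t) := by
  have hwd : ∀ t ∈ Icc (0 : ℝ) 1, MDifferentiableAt (𝓡 n) 𝓘(ℝ, ℝ) w (γ t) := fun t ht =>
    (hw t ht).mdifferentiableAt (by norm_num)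
  have hcont : ContinuousOn (fun t => w (γ t)) (Icc 0 1) := fun t ht =>
    ((hw t ht).continuousAt.comp_continuousWithinAt (h.continuousOn t ht))
  have h1 := taylor_1d (φ := fun t => w (γ t))
    (φ' := fun t => t⁻¹ * mGam n w (halfDistSq x) (γ t))
    (φ'' := fun t => t⁻¹ ^ 2 * mHess n w (γ t) (mgrad n (halfDistSq x) (γ t))
      (mgrad n (halfDistSq x) (γ t)))
    (d0 := -((1 : ℝ)⁻¹ * mGam n w (halfDistSq (γ 1)) x)) (c := ℓ ^ 2)
    (K := fun t => K (γ t) * ENNReal.ofReal (ℓ ^ 2)) hcont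
    (fun t ht => h.hasDerivAt_comp hm ht (hwd t (Ioo_subset_Icc_self ht)))
    (fun t ht => h.hasDerivAt_mGam hm ht (hw t (Ioo_subset_Icc_self ht)))
    (h.tendsto_deriv hm hSC (by
      have := hw 0 (by simp)
      rwa [h.zero] at this))
    (fun t ht => by
      have h2 := h.norm_vel (n := n) hm ht
      have h3 := hK t ht (t⁻¹ • mgrad n (halfDistSq x) (γ t))
      have hwt := hw t (Ioo_subset_Icc_self ht)
      rw [mHess_smul_left, mHess_smul_right, h2, ← mul_assoc, ← sq] at h3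
      exact h3)
  have h0 : γ 0 = x := h.zero
  have hd : halfDistSq (γ 1) x = ℓ ^ 2 / 2 := by
    have := h.dist_x (s := 1) (by simp)
    unfold halfDistSq
    rw [dist_comm, this, mul_one]
  have e : w (γ 1) - w (γ 0) - -((1 : ℝ)⁻¹ * mGam n w (halfDistSq (γ 1)) x) - ℓ ^ 2 / 2 =
      mGam n w (halfDistSq (γ 1)) x - w x - halfDistSq (γ 1) x + w (γ 1) := by
    rw [h0, hd, inv_one]; ring
  rw [e] at h1
  refine h1.trans (le_of_eq ?_)
  rw [← lintegral_const_mul' _ _ ENNReal.ofReal_ne_top]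
  refine lintegral_congr fun t => ?_
  ring

/-- **first order inequality along a minimiser** -/
theorem IsRay.ftc (hm : ExM M) (h : IsRay x γ ℓ 1) {w : M → ℝ}
    (hw : ∀ t ∈ Icc (0 : ℝ) 1, MDifferentiableAt (𝓡 n) 𝓘(ℝ, ℝ) w (γ t)) :
    ENNReal.ofReal |w (γ 1) - w x| ≤
      ENNReal.ofReal ℓ * ∫⁻ t in Icc (0 : ℝ) 1, ENNReal.ofReal ‖mgrad n w (γ t)‖ := by
  have hcont : ContinuousOn (fun t => w (γ t)) (Icc 0 1) := fun t ht =>
    ((hw t ht).continuousAt.comp_continuousWithinAt (h.continuousOn t ht))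
  have h1 := ftc_1d (φ := fun t => w (γ t))
    (φ' := fun t => t⁻¹ * mGam n w (halfDistSq x) (γ t))
    (K := fun t => ENNReal.ofReal ℓ * ENNReal.ofReal ‖mgrad n w (γ t)‖) hcont
    (fun t ht => h.hasDerivAt_comp hm ht (hw t (Ioo_subset_Icc_self ht)))
    (fun t ht => by
      have h2 := h.norm_vel (n := n) hm ht
      rw [← ENNReal.ofReal_mul h.pos.le]
      apply ENNReal.ofReal_le_ofReal
      rw [Crest.Agent.R247.Bo84.mGam_eq_inner, ← real_inner_smul_right, ← h2, mul_comm]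
      exact abs_real_inner_le_norm _ _)
  rw [h.zero] at h1
  refine h1.trans (le_of_eq ?_)
  rw [lintegral_const_mul' _ _ ENNReal.ofReal_ne_top]

end Crest.Agent.R247.Ray97
end

-- ▼ part R247/Ray5_97

/-!
R247 (helper97), block (6f), part 5: the manifold instances of the hypotheses `TaylorP`, `UnitA`,
`UnitP`, `RDG` of `Loc1_710` (over `Gr`, `mHess` in the frame of `Ms6_322`, and any `Rad`).
-/

set_option autoImplicit false
set_option maxSynthPendingDepth 3
set_option linter.unusedSectionVars false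

open Bundle Set Filter Topology Metric MeasureTheory
open scoped Manifold ContDiff NNReal ENNReal
open Crest.GeometryTopology.CoordMetric Crest.GeometryTopology.ChartCurvature
open Crest.GeometryTopology.MTW Crest.Agent.R244 Crest.Agent.R226
open Crest.Agent.R226.CutSmooth77 (SC)
open Crest.Agent.R247.Bo84 (mGam mHess mgrad mGam_eq_inner mGam_self)
open Crest.Agent.R247.Sm879 Crest.Agent.R247.Mcp688 Crest.Agent.R247.Rdg879
open Crest.Agent.R247.Ms322 Crest.Agent.R247.Hes124 Crest.Agent.R247.Loc710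
open Crest.Agent.R247.Dir593
open Crest.Agent.R247.Ib939 (vf inner_Gr_mGam mgrad_eq_vf norm_vf inner_mv_Hf)

namespace Crest.Agent.R247.Ray97

section alg
variable {n : ℕ}

lemma mv_idm (v : F n) : mv (idm n) v = v := by
  ext i
  rw [mv_apply, Finset.sum_eq_single i]
  · simp [idm]
  · intro j _ hj
    simp [idm, Ne.symm hj]
  · intro h
    exact absurd (Finset.mem_univ i) h

lemma abs_inner_mv_sub (A : S n) (v : F n) :
    |inner ℝ (mv A v) v - ‖v‖ ^ 2| ≤ ‖A - idm n‖ * ‖v‖ ^ 2 := by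
  have e : inner ℝ (mv A v) v - ‖v‖ ^ 2 = inner ℝ (mv (A - idm n) v) v := by
    rw [mv_sub_left, mv_idm, inner_sub_left, real_inner_self_eq_norm_sq]
  rw [e]
  calc |inner ℝ (mv (A - idm n) v) v| ≤ ‖mv (A - idm n) v‖ * ‖v‖ := abs_real_inner_le_norm _ _
    _ ≤ (‖A - idm n‖ * ‖v‖) * ‖v‖ := by gcongr; exact norm_mv_le _ _
    _ = _ := by ring

end alg

variable {n : ℕ} {M : Type*} [MetricSpace M] [ChartedSpace (EuclideanSpace ℝ (Fin n)) M]
  [IsManifold (𝓡 n) ∞ M]
  [RiemannianBundle (fun p : M => TangentSpace (𝓡 n) p)]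
  [IsContMDiffRiemannianBundle (𝓡 n) ∞ (EuclideanSpace ℝ (Fin n)) (fun p : M => TangentSpace (𝓡 n) p)]
  [SecondCountableTopology M] [Nonempty M]

local notation "𝔼" => EuclideanSpace ℝ (Fin n)

/-- every tangent vector is a frame vector -/
theorem exists_vf (z : M) (ξ : TangentSpace (𝓡 n) z) : ∃ v : 𝔼, ξ = vf z v := by
  refine ⟨WithLp.toLp 2 fun j => (frB z).repr ξ j, ?_⟩
  have h := (frB z).sum_repr ξ
  conv_lhs => rw [← h]
  unfold vf
  refine Finset.sum_congr rfl fun j _ => ?_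
  rw [frB_apply]

/-- the deviation of the Hessian from the metric, on vectors, is controlled by the norm of the
frame matrix. -/
theorem abs_mHess_sub_le {w : M → ℝ} {z : M} {A : S n}
    (hA : ∀ i j, A (i, j) = mHess n w z (fr z i) (fr z j)) (ξ : TangentSpace (𝓡 n) z) :
    |mHess n w z ξ ξ - ‖ξ‖ ^ 2| ≤ ‖A - idm n‖ * ‖ξ‖ ^ 2 := by
  obtain ⟨v, rfl⟩ := exists_vf z ξ
  have hAe : A = Crest.Agent.R247.Ib939.Hf w z := by
    ext p
    obtain ⟨i, j⟩ := p
    exact hA i j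
  rw [norm_vf, ← inner_mv_Hf, ← hAe]
  exact abs_inner_mv_sub A v

variable [IsRiemannianManifold (𝓡 n) M] [ProperSpace M]

theorem fx_eq (x : M) : fx x = halfDistSq x := rfl

theorem mGam_halfDistSq_self (hm : ExM M) {x p : M} (h : SC n x p) :
    ‖Gr (n := n) (fx x) p‖ = dist x p := by
  have h1 := norm_mgrad_halfDistSq (n := n) hm h
  have h2 : ‖Gr (n := n) (halfDistSq x) p‖ ^ 2 = ‖mgrad n (halfDistSq x) p‖ ^ 2 := by
    rw [← real_inner_self_eq_norm_sq, inner_Gr_mGam, mGam_self]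
  rw [fx_eq, ← h1]
  exact (pow_left_inj₀ (norm_nonneg _) (norm_nonneg _) (by norm_num)).1 h2

variable [MeasurableSpace M] [BorelSpace M] {κ' : ℝ} {μ : Measure M}

theorem isRay_of_U (C : Rad n κ' M μ) {u v : M} (h : (u, v) ∈ C.U) (huv : u ≠ v) :
    IsRay u (fun t => C.T u t v) (dist u v) 1 :=
  ⟨dist_pos.2 huv, one_pos, C.T_zero u v h, fun s hs t ht => by
    rw [C.dist_T u v h s hs t ht]; ring⟩

/-- **pointwise Taylor inequality** -/
theorem taylor_pt (hm : ExM M) (C : Rad n κ' M μ) {w : M → ℝ}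
    (hw : ContMDiff (𝓡 n) 𝓘(ℝ, ℝ) 2 w) {A : M → S n}
    (hA : ∀ z i j, A z (i, j) = mHess n w z (fr z i) (fr z j)) {u v : M} (hU : (u, v) ∈ C.U)
    (hSC : SC n v u) :
    ENNReal.ofReal |inner ℝ (Gr (n := n) w u) (Gr (n := n) (fx v) u) - w u - fx v u + w v| ≤
      ENNReal.ofReal (dist u v ^ 2) *
        ∫⁻ t in Icc (0 : ℝ) 1, ENNReal.ofReal ‖A (C.T u t v) - idm n‖ := by
  rcases eq_or_ne u v with rfl | huv
  · have h1 := mGam_halfDistSq_self (n := n) hm hSC
    rw [dist_self, norm_eq_zero] at h1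
    rw [h1, inner_zero_right]
    have : fx u u = 0 := by simp [fx]
    rw [this]
    simp
  · have h := isRay_of_U C hU huv
    have h1 : C.T u 1 v = v := C.T_one u v hU
    have key := h.taylor (n := n) hm (by simpa only [h1] using hSC) (w := w)
      (fun t _ => hw _) (K := fun z => ENNReal.ofReal ‖A z - idm n‖) (fun t _ ξ => by
        rw [← ENNReal.ofReal_mul (norm_nonneg _)]
        exact ENNReal.ofReal_le_ofReal (abs_mHess_sub_le (hA _) ξ))
    simp only [h1] at key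
    rw [inner_Gr_mGam, fx_eq]
    refine key.trans (mul_le_mul_right (lintegral_mono_ae ?_) _)
    filter_upwards [ae_restrict_mem measurableSet_Icc] with t ht
    calc ENNReal.ofReal (1 - t) * ENNReal.ofReal ‖A (C.T u t v) - idm n‖
        ≤ 1 * ENNReal.ofReal ‖A (C.T u t v) - idm n‖ := by
          gcongr
          exact ENNReal.ofReal_le_one.2 (by linarith [ht.1])
      _ = _ := one_mul _

/-- **pointwise first order inequality** -/
theorem ftc_pt (hm : ExM M) (C : Rad n κ' M μ) {w : M → ℝ} {u v : M} (hU : (u, v) ∈ C.U)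
    (hw : ∀ t ∈ Icc (0 : ℝ) 1, MDifferentiableAt (𝓡 n) 𝓘(ℝ, ℝ) w (C.T u t v)) :
    ENNReal.ofReal |w v - w u| ≤
      ENNReal.ofReal (dist u v) *
        ∫⁻ t in Icc (0 : ℝ) 1, ENNReal.ofReal ‖Gr (n := n) w (C.T u t v)‖ := by
  rcases eq_or_ne u v with rfl | huv
  · simp
  · have h := isRay_of_U C hU huv
    have h1 : C.T u 1 v = v := C.T_one u v hU
    have key := h.ftc (n := n) hm (w := w) hw
    simp only [h1] at key
    refine key.trans (le_of_eq ?_)
    congr 1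
    refine lintegral_congr fun t => ?_
    congr 1
    have h2 : ‖Gr (n := n) w (C.T u t v)‖ ^ 2 = ‖mgrad n w (C.T u t v)‖ ^ 2 := by
      rw [← real_inner_self_eq_norm_sq, inner_Gr_mGam, mGam_self]
    exact ((pow_left_inj₀ (norm_nonneg _) (norm_nonneg _) (by norm_num)).1 h2).symm

variable [Nontrivial M] [IsFiniteMeasureOnCompacts μ]

/-- **`TaylorP` of `Loc1_710`** -/
theorem taylorP (hκ : 0 ≤ κ') (hm : ExM M) (C : Rad n κ' M μ) {κ : ℝ} (B : BochS n κ M μ)
    (hG : B.G = Gr (n := n)) (hcore : ∀ w ∈ B.core, ContMDiff (𝓡 n) 𝓘(ℝ, ℝ) 2 w)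
    (hH : ∀ w ∈ B.core, ∀ z i j, B.H w z (i, j) = mHess n w z (fr z i) (fr z j)) :
    TaylorP B C := by
  intro w hw
  refine Eventually.of_forall fun u => ?_
  filter_upwards [C.ae_U u, ae_SC C hκ hm u] with v hU hSC
  rw [hG]
  exact taylor_pt hm C (hcore w hw) (hH w hw) hU hSC

/-- `UnitA` of `Loc1_710` -/
theorem unitA (hκ : 0 ≤ κ') (hm : ExM M) (C : Rad n κ' M μ) (S : GradS M (F n) μ)
    (hG : S.G = Gr (n := n)) : UnitA S := by
  intro x
  filter_upwards [ae_Om C hκ hm x] with u hu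
  rw [hG]
  exact mGam_halfDistSq_self hm (sc_of_Om hm hu)

/-- `UnitP` of `Loc1_710` -/
theorem unitP (hκ : 0 ≤ κ') (hm : ExM M) (C : Rad n κ' M μ) (S : GradS M (F n) μ)
    (hG : S.G = Gr (n := n)) : UnitP S := by
  refine Eventually.of_forall fun u => ?_
  filter_upwards [ae_SC C hκ hm u] with v hv
  rw [hG]
  exact mGam_halfDistSq_self hm hv

/-- `RDG` of `Loc1_710` (for the Riemannian measure) -/
theorem rdg [IsFiniteMeasureOnCompacts (μHE[n] : Measure M)] (hκ : 0 ≤ κ') (hm : ExM M)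
    (C : Rad n κ' M (μHE[n] : Measure M)) (S : GradS M (F n) (μHE[n] : Measure M))
    (hG : S.G = Gr (n := n)) : RDG S C := by
  intro x φ hφ
  have h := rd_grad C hκ hm x (φ := φ) (ae_mdifferentiableAt hφ)
  rw [hG]
  have e : (fun q => halfDistSq q x) = fx x := by
    funext q
    unfold fx halfDistSq
    rw [dist_comm]
  rw [e] at h
  exact h

end Crest.Agent.R247.Ray97
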