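import Crest.Agent.R247.Ms3_322
import Crest.Agent.R247.Ar3_659
import Crest.Agent.R247.Ms8_322
import Crest.Agent.R247.VC2_402

-- ▼ part R247/Ar1_659
section

/-!
# R247, block (3)/(I4): the area inequality, flat part (helper659)

* `abs_det_le_prod` : Hadamard, `|det L| ≤ ∏ ‖L_i‖` (`L_i` = the components of `L`);
* `flat_area` : if every component of `f : ℝⁿ → ℝⁿ` is `K`-Lipschitz on the open set `V`, then
  `volume (f '' B) ≤ Kⁿ volume B` for measurable `B ⊆ V`.
-/

set_option autoImplicit false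
set_option linter.unusedSectionVars false
set_option linter.unusedVariables false

open Set MeasureTheory Filter Metric
open scoped ENNReal Topology NNReal

namespace Crest.Agent.R247.Ar659

noncomputable section

variable {n : ℕ}

local notation "𝔼" => EuclideanSpace ℝ (Fin n)

/-- Hadamard's inequality for the vectors `v i` of `ℝⁿ`. -/
theorem abs_basis_det_le (v : Fin n → 𝔼) :
    |(EuclideanSpace.basisFun (Fin n) ℝ).toBasis.det v| ≤ ∏ i, ‖v i‖ := by
  have : Fact (Module.finrank ℝ 𝔼 = n) := ⟨finrank_euclideanSpace_fin⟩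
  have h := ((EuclideanSpace.basisFun (Fin n) ℝ).toBasis.orientation).abs_volumeForm_apply_le v
  rwa [Orientation.volumeForm_robust' _ (EuclideanSpace.basisFun (Fin n) ℝ) v] at h

/-- Hadamard's inequality: `|det L| ≤ ∏ ‖component i of L‖`. -/
theorem abs_det_le_prod (L : 𝔼 →L[ℝ] 𝔼) (l : Fin n → (𝔼 →L[ℝ] ℝ))
    (hl : ∀ i v, l i v = (L v) i) : |L.det| ≤ ∏ i, ‖l i‖ := by
  set b := (EuclideanSpace.basisFun (Fin n) ℝ) with hb
  have hfin : FiniteDimensional ℝ 𝔼 := inferInstance
  let R : Fin n → 𝔼 := fun i => (InnerProductSpace.toDual ℝ 𝔼).symm (l i)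
  have hR : ∀ i v, inner ℝ (R i) v = (L v) i := by
    intro i v
    rw [← hl]
    exact InnerProductSpace.toDual_symm_apply
  have hnorm : ∀ i, ‖R i‖ = ‖l i‖ := fun i => LinearIsometryEquiv.norm_map _ _
  have hdet : L.det = b.toBasis.det R := by
    have e1 : (L.det : ℝ) = (LinearMap.toMatrix b.toBasis b.toBasis (L : 𝔼 →ₗ[ℝ] 𝔼)).det := by
      rw [LinearMap.det_toMatrix]
    rw [e1, Module.Basis.det_apply, ← Matrix.det_transpose]
    congr 1
    ext i j
    rw [Matrix.transpose_apply, LinearMap.toMatrix_apply, Module.Basis.toMatrix_apply]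
    have h1 : (b.toBasis.repr (L (b.toBasis i))) j = (L (EuclideanSpace.single i 1)) j := by
      simp [hb]
    have h2 : (b.toBasis.repr (R j)) i = (R j) i := by
      simp [hb]
    have h3 : (R j) i = inner ℝ (R j) (EuclideanSpace.single i (1 : ℝ)) := by
      simp [EuclideanSpace.inner_single_right]
    rw [h2, h3, hR]
    exact h1
  rw [hdet]
  refine (abs_basis_det_le R).trans (le_of_eq ?_)
  exact Finset.prod_congr rfl fun i _ => hnorm i

/-- a map with Lipschitz components is Lipschitz. -/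
theorem lipschitzOnWith_of_components {X : Type*} [PseudoMetricSpace X] {K : ℝ≥0} {V : Set X}
    {f : X → 𝔼} (hf : ∀ i, LipschitzOnWith K (fun x => f x i) V) :
    LipschitzOnWith (NNReal.sqrt n * K) f V := by
  refine LipschitzOnWith.of_dist_le_mul fun x hx y hy => ?_
  rw [EuclideanSpace.dist_eq]
  have h1 : ∑ i, dist (f x i) (f y i) ^ 2 ≤ ∑ _i : Fin n, ((K : ℝ) * dist x y) ^ 2 := by
    refine Finset.sum_le_sum fun i _ => ?_
    have := (hf i).dist_le_mul x hx y hy
    gcongr
  have h2 : ∑ _i : Fin n, ((K : ℝ) * dist x y) ^ 2 = (√(n : ℝ) * ((K : ℝ) * dist x y)) ^ 2 := by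
    rw [Finset.sum_const, Finset.card_univ, Fintype.card_fin, nsmul_eq_mul,
      mul_pow (√(n : ℝ)), Real.sq_sqrt (Nat.cast_nonneg n)]
  rw [h2] at h1
  refine (Real.sqrt_le_sqrt h1).trans ?_
  rw [Real.sqrt_sq (by positivity)]
  simp [mul_assoc]

/-- **Area inequality, flat version.** -/
theorem flat_area {K : ℝ≥0} {V : Set 𝔼} (hV : IsOpen V) {f : 𝔼 → 𝔼}
    (hf : ∀ i, LipschitzOnWith K (fun x => f x i) V) {B : Set 𝔼} (hB : B ⊆ V)
    (hBm : MeasurableSet B) : volume (f '' B) ≤ (K : ℝ≥0∞) ^ n * volume B := by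
  have hL := lipschitzOnWith_of_components hf
  set D : Set 𝔼 := {x | DifferentiableAt ℝ f x} with hD
  have hDm : MeasurableSet D := measurableSet_of_differentiableAt ℝ f
  have hnull : volume (B \ D) = 0 := by
    have h := hL.ae_differentiableWithinAt_of_mem (μ := (volume : Measure 𝔼))
    refine measure_mono_null ?_ h
    intro x hx
    rw [mem_compl_iff, mem_ofPred_eq]
    intro hc
    refine hx.2 ?_
    have hxV := hB hx.1
    exact (hc hxV).differentiableAt (hV.mem_nhds hxV)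
  have hnull' : volume (f '' (B \ D)) = 0 := by
    have h := Ms322.muHE_image_le (n := n) (hL.mono (sdiff_subset.trans hB) : LipschitzOnWith _ f (B \ D))
    rw [EuclideanSpace.euclideanHausdorffMeasure_eq_volume, hnull, mul_zero] at h
    exact le_antisymm h bot_le
  have hmain : volume (f '' (B ∩ D)) ≤ (K : ℝ≥0∞) ^ n * volume (B ∩ D) := by
    have h1 : volume (f '' (B ∩ D)) ≤
        ∫⁻ x in B ∩ D, ENNReal.ofReal |(fderiv ℝ f x).det| := by
      refine addHaar_image_le_lintegral_abs_det_fderiv volume (hBm.inter hDm)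
        (fun x hx => ?_)
      exact (DifferentiableAt.hasFDerivAt hx.2).hasFDerivWithinAt
    refine h1.trans ?_
    rw [← setLIntegral_const]
    refine setLIntegral_mono' (hBm.inter hDm) fun x hx => ?_
    have hxV := hB hx.1
    have hdx : HasFDerivAt f (fderiv ℝ f x) x := DifferentiableAt.hasFDerivAt hx.2
    have hcomp : ∀ i, HasFDerivAt (fun y => f y i)
        ((EuclideanSpace.proj (𝕜 := ℝ) i : 𝔼 →L[ℝ] ℝ).comp (fderiv ℝ f x)) x := by
      intro i
      exact (EuclideanSpace.proj (𝕜 := ℝ) i : 𝔼 →L[ℝ] ℝ).hasFDerivAt.comp x hdx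
    have hle : ∀ i, ‖(EuclideanSpace.proj (𝕜 := ℝ) i : 𝔼 →L[ℝ] ℝ).comp (fderiv ℝ f x)‖ ≤ K :=
      fun i => (hcomp i).le_of_lipschitzOn (hV.mem_nhds hxV) (hf i)
    have h2 := abs_det_le_prod (fderiv ℝ f x)
      (fun i => (EuclideanSpace.proj (𝕜 := ℝ) i : 𝔼 →L[ℝ] ℝ).comp (fderiv ℝ f x))
      (fun i v => rfl)
    have h3 : |(fderiv ℝ f x).det| ≤ (K : ℝ) ^ n := by
      refine h2.trans ?_
      calc _ ≤ ∏ _i : Fin n, (K : ℝ) := Finset.prod_le_prod (fun i _ => norm_nonneg _)
            (fun i _ => hle i)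
        _ = (K : ℝ) ^ n := by simp
    calc ENNReal.ofReal |(fderiv ℝ f x).det| ≤ ENNReal.ofReal ((K : ℝ) ^ n) :=
          ENNReal.ofReal_le_ofReal h3
      _ = (K : ℝ≥0∞) ^ n := by
          rw [ENNReal.ofReal_pow (NNReal.coe_nonneg K), ENNReal.ofReal_coe_nnreal]
  calc volume (f '' B) = volume (f '' (B ∩ D) ∪ f '' (B \ D)) := by
        rw [← image_union, inter_union_sdiff]
    _ ≤ volume (f '' (B ∩ D)) + volume (f '' (B \ D)) := measure_union_le _ _
    _ = volume (f '' (B ∩ D)) := by rw [hnull', add_zero]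
    _ ≤ (K : ℝ≥0∞) ^ n * volume (B ∩ D) := hmain
    _ ≤ (K : ℝ≥0∞) ^ n * volume B := by gcongr; exact inter_subset_left

end

end Crest.Agent.R247.Ar659
end

-- ▼ part R247/Ar2_659
section

/-!
# R247, block (3)/(I4): the area inequality on a Riemannian manifold (helper659)

* `area_on` : `U ⊆ M` open, every `b i` is `L`-Lipschitz on `U`, `A ⊆ U` measurable ⇒
  `volume ((b₁,…,bₙ) '' A) ≤ Lⁿ μHE[n] A`;
* `area` : the global `1`-Lipschitz form (field `area` of `VC402.Setup`).
-/

set_option autoImplicit false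
set_option maxSynthPendingDepth 3
set_option linter.unusedSectionVars false
set_option linter.unusedVariables false

open Bundle Bornology Set MeasureTheory Manifold Filter Metric
open scoped ENNReal ContDiff Topology NNReal
open Crest.GeometryTopology.CoordMetric Crest.GeometryTopology.ChartCurvature
open Crest.GeometryTopology.Geodesic
open Crest.Agent.R226.ChartMet842 Crest.Agent.R247.Ms322

namespace Crest.Agent.R247.Ar659

noncomputable section

variable {n : ℕ} {M : Type*} [MetricSpace M] [ChartedSpace (EuclideanSpace ℝ (Fin n)) M]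
  [IsManifold (𝓡 n) ∞ M]
  [RiemannianBundle (fun p : M => TangentSpace (𝓡 n) p)]
  [IsContMDiffRiemannianBundle (𝓡 n) ∞ (EuclideanSpace ℝ (Fin n)) (fun p : M => TangentSpace (𝓡 n) p)]

local notation "𝔼" => EuclideanSpace ℝ (Fin n)

/-- the map `(b₁,…,bₙ)`. -/
def mp (b : Fin n → M → ℝ) (x : M) : 𝔼 := WithLp.toLp 2 (fun i => b i x)


variable [IsRiemannianManifold (𝓡 n) M] [MeasurableSpace M] [BorelSpace M]

/-- local version. -/
theorem area_local {U : Set M} (hU : IsOpen U) {L : ℝ≥0} {b : Fin n → M → ℝ}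
    (hb : ∀ i, LipschitzOnWith L (b i) U) {z : M} (hz : z ∈ U) {K : ℝ≥0} (hK : 1 < K) :
    ∃ W : Set M, IsOpen W ∧ z ∈ W ∧ W ⊆ U ∧ ∀ S ⊆ W, MeasurableSet S →
      volume (mp b '' S) ≤ (K : ℝ≥0∞) * ((L : ℝ≥0∞) ^ n * μHE[n] S) := by
  obtain ⟨η, hη, hηK⟩ : ∃ η : ℝ≥0, 0 < η ∧ (1 + η) ^ (n + n) ≤ K := by
    have hc : ContinuousAt (fun t : ℝ≥0 => (1 + t) ^ (n + n)) 0 := by fun_prop
    have h1 : (fun t : ℝ≥0 => (1 + t) ^ (n + n)) 0 < K := by simpa using hK
    have h2 := hc.eventually_lt continuousAt_const h1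
    obtain ⟨ε, hε, h3⟩ := Metric.eventually_nhds_iff.1 h2
    refine ⟨Real.toNNReal (ε / 2), Real.toNNReal_pos.2 (half_pos hε), le_of_lt (h3 ?_)⟩
    rw [NNReal.dist_eq, Real.coe_toNNReal _ (half_pos hε).le, NNReal.coe_zero, sub_zero,
      abs_of_pos (half_pos hε)]
    linarith
  have hzs : z ∈ (chartAt 𝔼 z).source := mem_chart_source 𝔼 z
  set a : 𝔼 := chartAt 𝔼 z z with ha_def
  have ha : a ∈ (chartAt 𝔼 z).target := (chartAt 𝔼 z).map_source hzs
  obtain ⟨A, hA, -⟩ := exists_isometry z ha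
  obtain ⟨r, hr0, hrt, hL1, hL2⟩ := exists_bilip z ha hA hη
  set u : Set M := (chartAt 𝔼 z).symm '' ball a r with hu
  have huo : IsOpen u := (chartAt 𝔼 z).symm.isOpen_image_of_subset_source isOpen_ball hrt
  have hus : u ⊆ (chartAt 𝔼 z).source := by
    rintro _ ⟨c, hc, rfl⟩
    exact (chartAt 𝔼 z).map_target (hrt hc)
  have hzu : z ∈ u := ⟨a, mem_ball_self hr0, (chartAt 𝔼 z).left_inv hzs⟩
  refine ⟨u ∩ U, huo.inter hU, ⟨hzu, hz⟩, inter_subset_right, ?_⟩
  intro S hS hSm
  have hSu : S ⊆ u := hS.trans inter_subset_left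
  have hSU : S ⊆ U := hS.trans inter_subset_right
  set F : 𝔼 → M := fun w => (chartAt 𝔼 z).symm (A.symm w) with hF
  set G : M → 𝔼 := fun y => A (chartAt 𝔼 z y) with hG
  have hFG : ∀ y ∈ u, F (G y) = y := by
    intro y hy
    simp only [hF, hG, A.symm_apply_apply]
    exact (chartAt 𝔼 z).left_inv (hus hy)
  have hGF : ∀ w ∈ A '' ball a r, G (F w) = w := by
    rintro _ ⟨c, hc, rfl⟩
    simp only [hF, hG, A.symm_apply_apply]
    rw [(chartAt 𝔼 z).right_inv (hrt hc)]
  have hGu : MapsTo G u (A '' ball a r) := by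
    rintro _ ⟨c, hc, rfl⟩
    refine ⟨c, hc, ?_⟩
    simp only [hG]
    rw [(chartAt 𝔼 z).right_inv (hrt hc)]
  have hAo : IsOpen (A '' ball a r) := A.isOpenMap _ isOpen_ball
  have hFc : ContinuousOn F (A '' ball a r) := hL1.continuousOn
  set V : Set 𝔼 := (A '' ball a r) ∩ F ⁻¹' U with hV
  have hVo : IsOpen V := hFc.isOpen_inter_preimage hAo hU
  set B : Set 𝔼 := (A '' ball a r) ∩ F ⁻¹' S with hB
  have hBS : B = G '' S := by
    ext w
    constructor
    · rintro ⟨hw, hwS⟩
      exact ⟨F w, hwS, hGF w hw⟩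
    · rintro ⟨y, hy, rfl⟩
      refine ⟨hGu (hSu hy), ?_⟩
      rw [mem_preimage, hFG y (hSu hy)]
      exact hy
  have hBm : MeasurableSet B := by
    have h1 : Continuous (fun w : (A '' ball a r : Set 𝔼) => F w) :=
      hFc.comp_continuous continuous_subtype_val (fun w => w.2)
    have h2 := MeasurableSet.subtype_image hAo.measurableSet (h1.measurable hSm)
    convert h2 using 1
    ext w
    simp only [hB, mem_inter_iff, mem_preimage, mem_image, Subtype.exists, exists_and_right,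
      exists_eq_right]
    constructor
    · rintro ⟨h, h'⟩; exact ⟨h, h'⟩
    · rintro ⟨h, h'⟩; exact ⟨h, h'⟩
  have hBV : B ⊆ V := fun w hw => ⟨hw.1, hSU hw.2⟩
  have hcomp : ∀ i, LipschitzOnWith (L * (1 + η)) (fun w => (mp b (F w)) i) V := by
    intro i
    have h1 : LipschitzOnWith (1 + η) F V := hL1.mono inter_subset_left
    exact (hb i).comp h1 (fun w hw => hw.2)
  have h1 := flat_area hVo (f := fun w => mp b (F w)) hcomp hBV hBm
  have h2 : (fun w => mp b (F w)) '' B = mp b '' S := by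
    rw [hBS, image_image]
    exact image_congr fun y hy => by rw [hFG y (hSu hy)]
  rw [h2] at h1
  have h3 : volume B ≤ ((1 + η : ℝ≥0) : ℝ≥0∞) ^ n * μHE[n] S := by
    have h4 := muHE_image_le (n := n) (hL2.mono hSu)
    rw [EuclideanSpace.euclideanHausdorffMeasure_eq_volume] at h4
    rwa [hBS]
  calc volume (mp b '' S) ≤ ((L * (1 + η) : ℝ≥0) : ℝ≥0∞) ^ n * volume B := h1
    _ ≤ ((L * (1 + η) : ℝ≥0) : ℝ≥0∞) ^ n * (((1 + η : ℝ≥0) : ℝ≥0∞) ^ n * μHE[n] S) := by gcongr
    _ = (((1 + η) ^ (n + n) : ℝ≥0) : ℝ≥0∞) * ((L : ℝ≥0∞) ^ n * μHE[n] S) := by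
        rw [ENNReal.coe_mul, ENNReal.coe_pow]; ring
    _ ≤ (K : ℝ≥0∞) * ((L : ℝ≥0∞) ^ n * μHE[n] S) := by
        gcongr

theorem ennreal_key (a b : ℝ≥0∞) (h : ∀ K : ℝ≥0, 1 < K → a ≤ K * b) : a ≤ b := by
  rcases eq_or_ne b ⊤ with hb | hb
  · rw [hb]; exact le_top
  rcases eq_or_ne b 0 with hb0 | hb0
  · have := h 2 (by norm_num)
    rw [hb0, mul_zero] at this
    rw [hb0]; exact this
  refine ENNReal.le_of_forall_pos_le_add fun ε hε _ => ?_
  have hbp : 0 < b.toNNReal := ENNReal.toNNReal_pos hb0 hb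
  have h1 := h (1 + ε / b.toNNReal) (by
    have : 0 < ε / b.toNNReal := div_pos hε hbp
    exact lt_add_of_pos_right 1 this)
  refine h1.trans (le_of_eq ?_)
  have hb' : b = (b.toNNReal : ℝ≥0∞) := (ENNReal.coe_toNNReal hb).symm
  have h2 : (1 + ε / b.toNNReal) * b.toNNReal = b.toNNReal + ε := by
    field_simp
  calc ((1 + ε / b.toNNReal : ℝ≥0) : ℝ≥0∞) * b
      = (((1 + ε / b.toNNReal) * b.toNNReal : ℝ≥0) : ℝ≥0∞) := by
        rw [ENNReal.coe_mul, ← hb']
    _ = b + ε := by rw [h2, ENNReal.coe_add, ← hb']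

/-- **Area inequality**, on an open set. -/
theorem area_on [SecondCountableTopology M] {U : Set M} (hU : IsOpen U) {L : ℝ≥0}
    {b : Fin n → M → ℝ} (hb : ∀ i, LipschitzOnWith L (b i) U) {A : Set M} (hA : A ⊆ U)
    (hAm : MeasurableSet A) : volume (mp b '' A) ≤ (L : ℝ≥0∞) ^ n * μHE[n] A := by
  refine ennreal_key _ _ fun K hK => ?_
  choose W hWo hzW hWU hW using fun z : U => area_local hU hb (z := (z : M)) z.2 hK
  obtain ⟨T, hT, hTu⟩ := TopologicalSpace.isOpen_iUnion_countable W hWo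
  have hcov : A ⊆ ⋃ z ∈ T, W z := by
    rw [hTu]
    intro y hy
    exact mem_iUnion.2 ⟨⟨y, hA hy⟩, hzW _⟩
  rcases T.eq_empty_or_nonempty with hTe | hTn
  · have : A = ∅ := by
      rw [hTe] at hcov
      simpa using hcov
    subst this
    simp
  obtain ⟨f, hf⟩ := hT.exists_eq_range hTn
  set Wf : ℕ → Set M := fun k => W (f k) with hWf
  have hcov' : A ⊆ ⋃ k, Wf k := by
    intro y hy
    have := hcov hy
    rw [hf] at this
    simpa [hWf] using this
  set P : ℕ → Set M := fun k => A ∩ disjointed Wf k with hP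
  have hWm : ∀ k, MeasurableSet (Wf k) := fun k => (hWo _).measurableSet
  have hPm : ∀ k, MeasurableSet (P k) := fun k => hAm.inter (MeasurableSet.disjointed hWm k)
  have hPd : Pairwise (Function.onFun Disjoint P) := by
    intro i j hij
    exact ((disjoint_disjointed Wf) hij).mono inter_subset_right inter_subset_right
  have hPW : ∀ k, P k ⊆ Wf k := fun k => inter_subset_right.trans (disjointed_subset Wf k)
  have hPA : A = ⋃ k, P k := by
    rw [hP, ← inter_iUnion, iUnion_disjointed]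
    exact (inter_eq_left.2 hcov').symm
  calc volume (mp b '' A) = volume (⋃ k, mp b '' P k) := by rw [← image_iUnion, ← hPA]
    _ ≤ ∑' k, volume (mp b '' P k) := measure_iUnion_le _
    _ ≤ ∑' k, (K : ℝ≥0∞) * ((L : ℝ≥0∞) ^ n * μHE[n] (P k)) :=
        ENNReal.tsum_le_tsum fun k => hW (f k) (P k) (hPW k) (hPm k)
    _ = (K : ℝ≥0∞) * ((L : ℝ≥0∞) ^ n * ∑' k, μHE[n] (P k)) := by
        rw [ENNReal.tsum_mul_left, ENNReal.tsum_mul_left]
    _ = (K : ℝ≥0∞) * ((L : ℝ≥0∞) ^ n * μHE[n] A) := by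
        rw [← measure_iUnion hPd hPm, ← hPA]

/-- **Area inequality**, global `1`-Lipschitz form. -/
theorem area [SecondCountableTopology M] (b : Fin n → M → ℝ)
    (hb : ∀ i x y, |b i x - b i y| ≤ dist x y) (A : Set M) (hAm : MeasurableSet A) :
    volume ((fun x => (WithLp.toLp 2 (fun i => b i x) : 𝔼)) '' A) ≤ μHE[n] A := by
  have h := area_on (U := univ) isOpen_univ (L := 1) (b := b) (fun i => by
    refine LipschitzOnWith.of_dist_le_mul fun x _ y _ => ?_
    rw [Real.dist_eq]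
    simpa using hb i x y) (subset_univ A) hAm
  rw [ENNReal.coe_one, one_pow, one_mul] at h
  exact h

end

end Crest.Agent.R247.Ar659
end

-- ▼ part R247/Ar4_659

/-!
# R247, block (3): the instance `setup : VC402.Setup n M μHE[n]` (helper659)

`M` a complete Riemannian manifold of dimension `n ≥ 1` (for `n = 0` the field `unit` is false).
-/

set_option autoImplicit false
set_option maxSynthPendingDepth 3
set_option linter.unusedSectionVars false
set_option linter.unusedVariables false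

open Bundle Bornology Set MeasureTheory Manifold Filter Metric
open scoped ENNReal ContDiff Topology NNReal
open Crest.Agent.R247.Ms322

namespace Crest.Agent.R247.Ar659

noncomputable section

variable {n : ℕ} {M : Type*} [MetricSpace M] [ChartedSpace (EuclideanSpace ℝ (Fin n)) M]
  [IsManifold (𝓡 n) ∞ M]
  [RiemannianBundle (fun p : M => TangentSpace (𝓡 n) p)]
  [IsContMDiffRiemannianBundle (𝓡 n) ∞ (EuclideanSpace ℝ (Fin n)) (fun p : M => TangentSpace (𝓡 n) p)]

local notation "𝔼" => EuclideanSpace ℝ (Fin n)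

/-- points are null in dimension `≥ 1`. -/
theorem muHE_singleton {X : Type*} [MetricSpace X] [MeasurableSpace X] [BorelSpace X] {n : ℕ}
    (hn : 1 ≤ n) (q : X) : (μHE[n] : Measure X) {q} = 0 := by
  rw [Measure.euclideanHausdorffMeasure_def, Measure.smul_apply]
  have : (μH[(n : ℝ)] : Measure X) {q} = 0 := by
    haveI := Measure.noAtoms_hausdorff X (d := (n : ℝ)) (by exact_mod_cast hn)
    exact measure_singleton q
  rw [this, smul_zero]

variable [SecondCountableTopology M] [Nonempty M] [IsRiemannianManifold (𝓡 n) M]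
  [MeasurableSpace M] [BorelSpace M]

/-- `|∇ d_q| = 1` a.e. -/
theorem ae_norm_Gr_dist [CompleteSpace M] (hn : 1 ≤ n) (q : M) :
    ∀ᵐ z ∂(μHE[n] : Measure M), ‖Gr (n := n) (fun y => dist q y) z‖ = 1 := by
  have h1 : ∀ᵐ z ∂(μHE[n] : Measure M), MDifferentiableAt (𝓡 n) 𝓘(ℝ) (fun y => dist q y) z :=
    ae_mdifferentiableAt (LipschitzWith.dist_right q).locallyLipschitz
  have h2 : ∀ᵐ z ∂(μHE[n] : Measure M), z ≠ q := by
    rw [ae_iff]
    simpa using muHE_singleton hn q
  filter_upwards [h1, h2] with z hz hzq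
  exact norm_Gr_dist n hzq hz

variable (n M) in
/-- **The instance.** -/
def setup [CompleteSpace M] (hn : 1 ≤ n) : VC402.Setup n M (μHE[n] : Measure M) where
  cd := cdc n M
  rad f hf := by
    obtain ⟨K, hK⟩ := hf
    exact ae_mdifferentiableAt hK.locallyLipschitz
  meas f g _ _ :=
    ((measurable_Gr (n := n) f).inner (measurable_Gr (n := n) g)).aestronglyMeasurable
  unit q := by
    filter_upwards [ae_norm_Gr_dist (n := n) hn q] with z hz
    show inner ℝ (Gr (n := n) (fun y => dist q y) z) (Gr (n := n) (fun y => dist q y) z) = 1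
    rw [real_inner_self_eq_norm_sq, hz, one_pow]
  area b hb A hA := area b hb A hA

end

end Crest.Agent.R247.Ar659
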