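import Crest.Agent.R247.Asm1_951
import Crest.Agent.R247.Opn_79

/-!
# R247, assembly (2): from near isometries to bi-Lipschitz charts

* `EFF3` : the near-isometric form of the volume-pinched theorem;
* `eff2_of_eff3`, `eff1_of_eff3`.
-/

set_option autoImplicit false
noncomputable section
open Set Filter Topology MeasureTheory Metric
open scoped ContDiff Manifold ENNReal NNReal
open Bundle Crest.GeometryTopology.CoordMetric Crest.GeometryTopology.ChartCurvature
  Crest.GeometryTopology.PointedLimit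

namespace Crest.Agent.R247.Asm951

universe u


/-- On a small near-isometric ball there is no ball of radius `1` with almost full volume. -/
theorem radius_le_one {n : ℕ} (hn : n ≠ 0) {X : Type*} [MetricSpace X] [MeasurableSpace X]
    [BorelSpace X] {F : X → EuclideanSpace ℝ (Fin n)} {q : X} {R ε c : ℝ}
    (hc : 0 < c) (hε : 0 ≤ ε) (hε1 : ε ≤ 1 / 2) (hR0 : 0 < R) (hR : R ≤ 1 / 6)
    (hF : ∀ x z : X, dist q x < R → dist q z < R →
      |c * dist (F x) (F z) - dist x z| ≤ ε * dist x z) {z : X}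
    (hz : ∀ x, dist z x < 1 → dist q x < R) :
    ¬ (ENNReal.ofReal (3 / 4) * volume (ball (0 : EuclideanSpace ℝ (Fin n)) 1) ≤
      Measure.euclideanHausdorffMeasure n (ball z 1)) := by
  intro hvol
  set V := volume (ball (0 : EuclideanSpace ℝ (Fin n)) 1) with hV
  have hV0 : V ≠ 0 := (measure_ball_pos _ _ one_pos).ne'
  have hVt : V ≠ ⊤ := measure_ball_lt_top.ne
  set G : X → EuclideanSpace ℝ (Fin n) := fun x => c • F x with hG
  have hGd : ∀ x z, dist (G x) (G z) = c * dist (F x) (F z) := by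
    intro x z
    simp only [hG, dist_smul₀, Real.norm_eq_abs, abs_of_pos hc]
  have hqq : dist q q < R := by rw [dist_self]; exact hR0
  have h1 : Measure.euclideanHausdorffMeasure n (ball z 1) ≤
      ((2 : ℝ≥0) : ℝ≥0∞) ^ n * volume (G '' (ball z 1)) := by
    apply Opn79.vol_le
    intro x hx y hy
    have hx' := hz x (by rw [dist_comm]; exact hx)
    have hy' := hz y (by rw [dist_comm]; exact hy)
    have := (abs_le.1 (hF x y hx' hy')).1
    rw [hGd]
    have hd : 0 ≤ dist x y := dist_nonneg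
    push_cast
    nlinarith
  have h2 : G '' (ball z 1) ⊆ ball (G q) (1 / 4) := by
    rintro _ ⟨x, hx, rfl⟩
    have hx' := hz x (by rw [dist_comm]; exact hx)
    have := (abs_le.1 (hF x q hx' hqq)).2
    rw [mem_ball, hGd]
    have hd : dist x q < R := by rw [dist_comm]; exact hx'
    nlinarith
  have h3 : volume (G '' (ball z 1)) ≤ ENNReal.ofReal ((1 / 4) ^ n) * V :=
    (measure_mono h2).trans (Opn79.vol_ball (G q) (by norm_num)).le
  have h4 : ENNReal.ofReal (3 / 4) * V ≤ ENNReal.ofReal (2 ^ n * (1 / 4) ^ n) * V := by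
    calc ENNReal.ofReal (3 / 4) * V ≤ _ := hvol
      _ ≤ _ := h1
      _ ≤ ((2 : ℝ≥0) : ℝ≥0∞) ^ n * (ENNReal.ofReal ((1 / 4) ^ n) * V) := by gcongr
      _ = _ := by
        rw [ENNReal.ofReal_mul (by positivity), mul_assoc,
          ENNReal.ofReal_pow (by norm_num)]
        congr 2
        simp
  have h5 := (ENNReal.mul_le_mul_iff_left hV0 hVt).1 h4
  rw [ENNReal.ofReal_le_ofReal_iff (by positivity), ← mul_pow] at h5
  have h6 : (2 * (1 / 4) : ℝ) ^ n ≤ 1 / 2 := by
    calc (2 * (1 / 4) : ℝ) ^ n ≤ (2 * (1 / 4)) ^ 1 :=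
          pow_le_pow_of_le_one (by norm_num) (by norm_num) (Nat.one_le_iff_ne_zero.2 hn)
      _ = 1 / 2 := by norm_num
  linarith



end Crest.Agent.R247.Asm951
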