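import Crest.Agent.R247.GluM3_923
import Crest.Agent.R247.Scal4_386
import Crest.Agent.R247.Asm2_951

/-!
# R247, assembly (3): rescaling of the output of blocks (1), (2)

`GluM923.GlueDataT A n` is `GluM923.GlueData n` under the hypothesis of volume pinching at all
scales `≤ A` (instead of `≤ 1`).  By rescaling it implies `GlueData n`.
-/

set_option autoImplicit false
noncomputable section
open Set Filter Topology MeasureTheory Metric
open scoped ContDiff Manifold ENNReal NNReal
open Bundle Crest.GeometryTopology.CoordMetric Crest.GeometryTopology.ChartCurvature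
  Crest.GeometryTopology.PointedLimit
open Crest.Agent.R247.Scal386

namespace Crest.Agent.R247.Asm951

universe u

/-- **Volume pinching passes to the rescaled manifold**: if `M` is pinched at all scales `≤ s₁` on
`ball q (r * R₀)`, then `Sc r M` (distances divided by `r`) is pinched at all scales `≤ s₁ / r` on
`ball q R₀`. -/
theorem pinch_sc {n : ℕ} {M : Type u} [MetricSpace M] [MeasurableSpace M] [BorelSpace M]
    (r : {r : ℝ // 0 < r}) {q : M} {R₀ δ s₁ A : ℝ} (hA : r.1 * A ≤ s₁)
    (h : ∀ x ∈ ball q (r.1 * R₀), ∀ s : ℝ, 0 < s → s ≤ s₁ →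
      ENNReal.ofReal (1 - δ) * volume (ball (0 : EuclideanSpace ℝ (Fin n)) s) ≤
        Measure.euclideanHausdorffMeasure n (ball x s)) :
    ∀ x ∈ ball (toSc r q) R₀, ∀ s : ℝ, 0 < s → s ≤ A →
      ENNReal.ofReal (1 - δ) * volume (ball (0 : EuclideanSpace ℝ (Fin n)) s) ≤
        Measure.euclideanHausdorffMeasure n (ball x s) := by
  intro x hx s hs hsA
  have hr := r.2
  have hx' : ofSc r x ∈ ball q (r.1 * R₀) := by
    have := ball_sc r q R₀
    rw [← this] at hx
    exact hx
  have h1 := h (ofSc r x) hx' (r.1 * s) (by positivity)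
    ((mul_le_mul_of_nonneg_left hsA hr.le).trans hA)
  have h2 := h1.trans (muHE_sc r n (ball (ofSc r x) (r.1 * s)))
  have h3 := ball_sc r (ofSc r x) s
  have h4 : toSc r (ofSc r x) = x := rfl
  rw [h4] at h3
  rw [h3, volume_ball_scale (r.1 * s) (by positivity), mul_pow,
    ENNReal.ofReal_mul (by positivity)] at h2
  rw [volume_ball_scale s hs]
  have h5 : ENNReal.ofReal (r.1 ^ n) ≠ 0 := by
    rw [Ne, ENNReal.ofReal_eq_zero, not_le]; positivity
  refine (ENNReal.mul_le_mul_iff_right h5 ENNReal.ofReal_ne_top).1 ?_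
  refine le_trans (le_of_eq ?_) h2
  ring




end Crest.Agent.R247.Asm951
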