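import Mathlib
import Crest.Agent.R247.Lc2_582
import Crest.Agent.R247.Ms2_322
import Crest.Agent.R247.Ray2_97
import Crest.Agent.R247.Sm5_879

-- ▼ part R247/Bs1_342
section

/-!
R247 (helper342), block (1-B), file 1: base case of Lemma CE, the abstract differential inequality.

For a vector field `V` on a normed space with a varying bilinear form `G` (the metric in a chart) and
two solutions of `p' = s⁻¹ V(p)`, the quantity `w = G(p)(q - p, q - p)` satisfies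
`w' ≥ s⁻¹ (lam - ε) w` near a point where `(L_V G)(ζ,ζ) ≥ lam G(ζ,ζ)`.
-/

set_option autoImplicit false
set_option maxSynthPendingDepth 3

open Filter Set Topology

namespace Crest.Agent.R247.Bs342

section infin
variable {E : Type*} [NormedAddCommGroup E] [NormedSpace ℝ E]

/-- the Lie derivative of `G` along `V`, with `V' = DV` at the point -/
noncomputable def lieq (G : E → E →L[ℝ] E →L[ℝ] ℝ) (V : E → E) (V' : E →L[ℝ] E) (a ζ : E) : ℝ :=
  fderiv ℝ G a (V a) ζ ζ + G a (V' ζ) ζ + G a ζ (V' ζ)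

/-- **infinitesimal inequality near a point** -/
theorem lie_near {G : E → E →L[ℝ] E →L[ℝ] ℝ} {V : E → E} {V' : E →L[ℝ] E} {a : E}
    (hV : HasStrictFDerivAt V V' a) (hG : ContinuousAt G a) (hG' : ContinuousAt (fderiv ℝ G) a)
    {c : ℝ} (hc : 0 < c) (hco : ∀ ζ, c * ‖ζ‖ ^ 2 ≤ G a ζ ζ) {lam : ℝ}
    (hlam : ∀ ζ, lam * G a ζ ζ ≤ lieq G V V' a ζ) {ε : ℝ} (hε : 0 < ε) :
    ∀ᶠ r : E × E in 𝓝 (a, a), (lam - ε) * G r.1 (r.2 - r.1) (r.2 - r.1) ≤
      fderiv ℝ G r.1 (V r.1) (r.2 - r.1) (r.2 - r.1) + G r.1 (V r.2 - V r.1) (r.2 - r.1) +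
        G r.1 (r.2 - r.1) (V r.2 - V r.1) := by
  -- the bilinear form `B p`
  set B : E → E →L[ℝ] E →L[ℝ] ℝ := fun p =>
    fderiv ℝ G p (V p) + (G p).comp V' + ((G p).flip.comp V').flip - (lam - ε) • G p with hB
  have hBa : ∀ p ζ, B p ζ ζ = fderiv ℝ G p (V p) ζ ζ + G p (V' ζ) ζ + G p ζ (V' ζ) -
      (lam - ε) * G p ζ ζ := by
    intro p ζ
    simp [hB]
  have hBc : ContinuousAt B a := by
    have h1 : ContinuousAt (fun p => fderiv ℝ G p (V p)) a := hG'.clm_apply hV.continuousAt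
    have h2 : ContinuousAt (fun p => (G p).comp V') a := hG.clm_comp continuousAt_const
    have h3 : ContinuousAt (fun p => (G p).flip) a :=
      (ContinuousLinearMap.flipₗᵢ ℝ E E ℝ).continuous.continuousAt.comp hG
    have h4 : ContinuousAt (fun p => (G p).flip.comp V') a := h3.clm_comp continuousAt_const
    have h5 : ContinuousAt (fun p => ((G p).flip.comp V').flip) a :=
      (ContinuousLinearMap.flipₗᵢ ℝ E E ℝ).continuous.continuousAt.comp h4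
    exact ((h1.add h2).add h5).sub (hG.const_smul (lam - ε))
  have hB0 : ∀ ζ, ε * c * ‖ζ‖ ^ 2 ≤ B a ζ ζ := by
    intro ζ
    rw [hBa]
    have h1 := hlam ζ
    have h2 := hco ζ
    unfold lieq at h1
    nlinarith
  set K : ℝ := ‖G a‖ + 1 with hK
  have hK0 : 0 < K := by have := norm_nonneg (G a); linarith
  have e1 : ∀ᶠ p in 𝓝 a, ‖B p - B a‖ < ε * c / 2 := by
    have : Tendsto (fun p => ‖B p - B a‖) (𝓝 a) (𝓝 ‖B a - B a‖) := (hBc.sub continuousAt_const).norm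
    rw [sub_self, norm_zero] at this
    exact this.eventually (gt_mem_nhds (by positivity))
  have e2 : ∀ᶠ p in 𝓝 a, ‖G p‖ < K := by
    have : Tendsto (fun p => ‖G p‖) (𝓝 a) (𝓝 ‖G a‖) := hG.norm
    exact this.eventually (gt_mem_nhds (by rw [hK]; linarith))
  have e3 : ∀ᶠ r : E × E in 𝓝 (a, a), ‖V r.1 - V r.2 - V' (r.1 - r.2)‖ ≤
      (ε * c / (4 * K)) * ‖r.1 - r.2‖ :=
    hV.isLittleO.def (by positivity)
  have f1 : ∀ᶠ r : E × E in 𝓝 (a, a), ‖B r.1 - B a‖ < ε * c / 2 :=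
    (continuous_fst.tendsto (a, a)).eventually e1
  have f2 : ∀ᶠ r : E × E in 𝓝 (a, a), ‖G r.1‖ < K := (continuous_fst.tendsto (a, a)).eventually e2
  have f3 : ∀ᶠ r : E × E in 𝓝 (a, a), ‖V r.2 - V r.1 - V' (r.2 - r.1)‖ ≤
      (ε * c / (4 * K)) * ‖r.2 - r.1‖ := by
    have : Tendsto (fun r : E × E => (r.2, r.1)) (𝓝 (a, a)) (𝓝 (a, a)) :=
      (continuous_snd.prodMk continuous_fst).tendsto (a, a)
    exact this.eventually e3
  filter_upwards [f1, f2, f3] with r h1 h2 h3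
  set p := r.1
  set ζ := r.2 - r.1 with hζ
  set ρ := V r.2 - V r.1 - V' ζ with hρ
  have hVq : V r.2 - V r.1 = V' ζ + ρ := by rw [hρ]; abel
  rw [hVq]
  have g1 : |B p ζ ζ - B a ζ ζ| ≤ ε * c / 2 * ‖ζ‖ ^ 2 := by
    have : B p ζ ζ - B a ζ ζ = (B p - B a) ζ ζ := by simp
    rw [this, ← Real.norm_eq_abs]
    calc ‖(B p - B a) ζ ζ‖ ≤ ‖B p - B a‖ * ‖ζ‖ * ‖ζ‖ := (B p - B a).le_opNorm₂ ζ ζ
      _ ≤ ε * c / 2 * ‖ζ‖ * ‖ζ‖ := by gcongr
      _ = ε * c / 2 * ‖ζ‖ ^ 2 := by ring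
  have g2 : |G p ρ ζ| ≤ ε * c / 4 * ‖ζ‖ ^ 2 := by
    rw [← Real.norm_eq_abs]
    calc ‖G p ρ ζ‖ ≤ ‖G p‖ * ‖ρ‖ * ‖ζ‖ := (G p).le_opNorm₂ ρ ζ
      _ ≤ K * (ε * c / (4 * K) * ‖ζ‖) * ‖ζ‖ := by gcongr
      _ = ε * c / 4 * ‖ζ‖ ^ 2 := by field_simp
  have g3 : |G p ζ ρ| ≤ ε * c / 4 * ‖ζ‖ ^ 2 := by
    rw [← Real.norm_eq_abs]
    calc ‖G p ζ ρ‖ ≤ ‖G p‖ * ‖ζ‖ * ‖ρ‖ := (G p).le_opNorm₂ ζ ρ
      _ ≤ K * ‖ζ‖ * (ε * c / (4 * K) * ‖ζ‖) := by gcongr
      _ = ε * c / 4 * ‖ζ‖ ^ 2 := by field_simp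
  have g4 := hB0 ζ
  have g5 := hBa p ζ
  have h6 : G p (V' ζ + ρ) ζ = G p (V' ζ) ζ + G p ρ ζ := by simp
  have h7 : G p ζ (V' ζ + ρ) = G p ζ (V' ζ) + G p ζ ρ := by simp
  rw [h6, h7]
  have a1 := (abs_le.1 g1).1
  have a2 := (abs_le.1 g2).1
  have a3 := (abs_le.1 g3).1
  linarith

end infin

section ode
variable {E : Type*} [NormedAddCommGroup E] [NormedSpace ℝ E]

/-- **ODE comparison**: `w(a) ≤ (a/b)^lam w(b)` in the form `w(a) a^{-lam} ≤ w(b) b^{-lam}`. -/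
theorem ode_pair {G : E → E →L[ℝ] E →L[ℝ] ℝ} {V : E → E} {lam : ℝ} {p q : ℝ → E} {a b : ℝ}
    (ha : 0 < a) (hab : a ≤ b)
    (hp : ContinuousOn p (Icc a b)) (hq : ContinuousOn q (Icc a b))
    (hp' : ∀ s ∈ Ioo a b, HasDerivAt p (s⁻¹ • V (p s)) s)
    (hq' : ∀ s ∈ Ioo a b, HasDerivAt q (s⁻¹ • V (q s)) s)
    (hGc : ∀ s ∈ Icc a b, ContinuousAt G (p s))
    (hGd : ∀ s ∈ Ioo a b, DifferentiableAt ℝ G (p s))
    (hin : ∀ s ∈ Ioo a b, lam * G (p s) (q s - p s) (q s - p s) ≤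
      fderiv ℝ G (p s) (V (p s)) (q s - p s) (q s - p s) +
      G (p s) (V (q s) - V (p s)) (q s - p s) + G (p s) (q s - p s) (V (q s) - V (p s))) :
    G (p a) (q a - p a) (q a - p a) ≤
      Real.exp (lam * (Real.log a - Real.log b)) * G (p b) (q b - p b) (q b - p b) := by
  set w : ℝ → ℝ := fun s => G (p s) (q s - p s) (q s - p s) with hw
  set F : ℝ → ℝ := fun s => Real.exp (-(lam * Real.log s)) * w s with hF
  have hwc : ContinuousOn w (Icc a b) := by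
    have h1 : ContinuousOn (fun s => G (p s)) (Icc a b) := by
      intro s hs
      exact (hGc s hs).comp_continuousWithinAt (hp s hs)
    have h2 : ContinuousOn (fun s => q s - p s) (Icc a b) := hq.sub hp
    exact (h1.clm_apply h2).clm_apply h2
  have hFc : ContinuousOn F (Icc a b) := by
    have h1 : ContinuousOn (fun s => Real.exp (-(lam * Real.log s))) (Icc a b) := by
      apply Real.continuous_exp.comp_continuousOn
      apply ContinuousOn.neg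
      apply ContinuousOn.mul continuousOn_const
      exact Real.continuousOn_log.mono fun s hs => (ha.trans_le hs.1).ne'
    exact h1.mul hwc
  have hwd : ∀ s ∈ Ioo a b, HasDerivAt w (s⁻¹ * (fderiv ℝ G (p s) (V (p s)) (q s - p s) (q s - p s) +
      G (p s) (V (q s) - V (p s)) (q s - p s) + G (p s) (q s - p s) (V (q s) - V (p s)))) s := by
    intro s hs
    have h1 : HasDerivAt (fun s => G (p s)) (fderiv ℝ G (p s) (s⁻¹ • V (p s))) s :=
      (hGd s hs).hasFDerivAt.comp_hasDerivAt s (hp' s hs)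
    have h2 : HasDerivAt (fun s => q s - p s) (s⁻¹ • V (q s) - s⁻¹ • V (p s)) s :=
      (hq' s hs).sub (hp' s hs)
    have h3 := (h1.clm_apply h2).clm_apply h2
    refine h3.congr_deriv ?_
    rw [← smul_sub]
    simp only [map_smul, add_apply, FunLike.coe_smul, Pi.smul_apply, smul_eq_mul]
    ring
  have hFd : ∀ s ∈ Ioo a b, ∃ F', HasDerivAt F F' s ∧ 0 ≤ F' := by
    intro s hs
    have hs0 : 0 < s := ha.trans hs.1
    have h1 : HasDerivAt (fun s => Real.exp (-(lam * Real.log s)))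
        (Real.exp (-(lam * Real.log s)) * (-(lam * s⁻¹))) s :=
      (((Real.hasDerivAt_log hs0.ne').const_mul lam).neg).exp
    refine ⟨_, h1.mul (hwd s hs), ?_⟩
    have h2 := hin s hs
    have h3 : 0 < Real.exp (-(lam * Real.log s)) := Real.exp_pos _
    have h4 : 0 < s⁻¹ := by positivity
    have key : 0 ≤ Real.exp (-(lam * Real.log s)) * (s⁻¹ *
        ((fderiv ℝ G (p s) (V (p s)) (q s - p s) (q s - p s) +
      G (p s) (V (q s) - V (p s)) (q s - p s) + G (p s) (q s - p s) (V (q s) - V (p s))) -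
        lam * w s)) := by
      apply mul_nonneg h3.le
      apply mul_nonneg h4.le
      rw [hw]
      linarith
    calc (0 : ℝ) ≤ _ := key
      _ = _ := by ring
  have hmono : MonotoneOn F (Icc a b) := by
    apply monotoneOn_of_deriv_nonneg (convex_Icc a b) hFc
    · intro s hs
      rw [interior_Icc] at hs
      obtain ⟨F', h1, _⟩ := hFd s hs
      exact h1.differentiableAt.differentiableWithinAt
    · intro s hs
      rw [interior_Icc] at hs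
      obtain ⟨F', h1, h2⟩ := hFd s hs
      rw [h1.deriv]
      exact h2
  have h1 := hmono (left_mem_Icc.2 hab) (right_mem_Icc.2 hab) hab
  simp only [hF, hw] at h1
  have h2 : Real.exp (lam * (Real.log a - Real.log b)) =
      Real.exp (lam * Real.log a) * Real.exp (-(lam * Real.log b)) := by
    rw [← Real.exp_add]; congr 1; ring
  rw [h2, mul_assoc]
  calc G (p a) (q a - p a) (q a - p a) = Real.exp (lam * Real.log a) *
      (Real.exp (-(lam * Real.log a)) * G (p a) (q a - p a) (q a - p a)) := by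
        rw [← mul_assoc, ← Real.exp_add]; simp
    _ ≤ _ := by
        apply mul_le_mul_of_nonneg_left h1 (Real.exp_pos _).le

end ode

end Crest.Agent.R247.Bs342
end

-- ▼ part R247/Bs2_342
section

/-!
R247 (helper342), block (1-B), file 2: the infinitesimal inequality for the gradient flow of `f` in
coordinates: `(L_{∇f} g)(ζ,ζ) = 2 Hess f(ζ,ζ) ≥ 2 (1 - |Hess f - g|) g(ζ,ζ)`.
-/

set_option autoImplicit false
set_option maxSynthPendingDepth 3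

open scoped ContDiff Topology Manifold
open Filter Set
open Crest.GeometryTopology.CoordMetric Crest.GeometryTopology.ChartCurvature
open Crest.Agent.R202.Tens
open Crest.Agent.R247.Bo84 Crest.Agent.R247.Lc582

noncomputable section

namespace Crest.Agent.R247.Bs342

variable {n : ℕ}

local notation "𝔼" => EuclideanSpace ℝ (Fin n)

variable {g : MetricField n} {U : Set (EuclideanSpace ℝ (Fin n))} {x : EuclideanSpace ℝ (Fin n)}

/-- `(Hess f (X,Y) - ⟨X,Y⟩)² ≤ |Hess f - g|² |X|² |Y|²`. -/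
theorem dev_sq_le (hg : IsRiemannianOn g U) (hx : x ∈ U) {f : 𝔼 → ℝ}
    (hf : ContDiffAt ℝ 2 f x) (X Y : 𝔼) :
    (hess g f x X Y - bil (g x) X Y) ^ 2 ≤ hessDev g f x * bil (g x) X X * bil (g x) Y Y := by
  obtain ⟨ξ, hξ⟩ := exists_frame hg hx
  set p : Fin n → ℝ := fun a => bil (g x) X (ξ a) with hp
  set q : Fin n → ℝ := fun a => bil (g x) Y (ξ a) with hq
  set B : 𝔼 →L[ℝ] 𝔼 →L[ℝ] ℝ := hess g f x - bil (g x) with hB
  have hBX : ∀ X Y, B X Y = hess g f x X Y - bil (g x) X Y := by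
    intro X Y; rw [hB]; rfl
  have h1 : B X Y = ∑ ab : Fin n × Fin n, B (ξ ab.1) (ξ ab.2) * (p ab.1 * q ab.2) := by
    rw [Fintype.sum_prod_type]
    have e1 : B X = ∑ a, p a • B (ξ a) := by
      conv_lhs => rw [hξ.expand hg hx X]
      rw [map_sum]
      exact Finset.sum_congr rfl fun a _ => map_smul _ _ _
    rw [e1, sum_apply]
    refine Finset.sum_congr rfl fun a _ => ?_
    rw [smul_apply]
    conv_lhs => rw [hξ.expand hg hx Y]
    rw [map_sum, Finset.smul_sum]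
    refine Finset.sum_congr rfl fun b _ => ?_
    rw [map_smul, smul_eq_mul, smul_eq_mul]
    ring
  rw [← hBX, h1, hessDev_frame hg hx hf hξ, hξ.bil_eq hg hx X X, hξ.bil_eq hg hx Y Y]
  refine (Finset.sum_mul_sq_le_sq_mul_sq _ _ _).trans (le_of_eq ?_)
  rw [Fintype.sum_prod_type, Fintype.sum_prod_type, mul_assoc]
  congr 1
  · refine Finset.sum_congr rfl fun a _ => Finset.sum_congr rfl fun b _ => ?_
    rw [hBX, hξ.orth]
  rw [Finset.sum_mul_sum]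
  refine Finset.sum_congr rfl fun a _ => Finset.sum_congr rfl fun b _ => ?_
  simp only [hp, hq]
  ring

theorem hess_self_ge (hg : IsRiemannianOn g U) (hx : x ∈ U) {f : 𝔼 → ℝ}
    (hf : ContDiffAt ℝ 2 f x) (X : 𝔼) :
    (1 - √(hessDev g f x)) * bil (g x) X X ≤ hess g f x X X := by
  have h1 := dev_sq_le hg hx hf X X
  have h0 : 0 ≤ bil (g x) X X := bil_self_nonneg hg hx X
  have h2 : (hess g f x X X - bil (g x) X X) ^ 2 ≤ (√(hessDev g f x) * bil (g x) X X) ^ 2 := by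
    rw [mul_pow, Real.sq_sqrt (hessDev_nonneg hg hx hf)]
    calc _ ≤ _ := h1
      _ = _ := by ring
  have h3 := abs_le_of_sq_le_sq h2 (by positivity)
  linarith [(abs_le.1 h3).1]

theorem Gf_apply' (g : MetricField n) (y X Y : 𝔼) : Gf g y X Y = bil (g y) X Y := rfl

/-- **the Lie derivative of the metric along a gradient field** -/
theorem lieq_grad (hg : IsRiemannianOn g U) (hx : x ∈ U) {f : 𝔼 → ℝ}
    (hf : ContDiffAt ℝ 2 f x) (ζ : 𝔼) :
    lieq (Gf g) (grad g f) (fderiv ℝ (grad g f) x) x ζ = 2 * hess g f x ζ ζ := by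
  have h1 := metric_compat hg hx (grad g f x) ζ ζ
  have h2 : hessE g f x ζ = fderiv ℝ (grad g f) x ζ + Gam g x (grad g f x) ζ := by
    rw [hessE_apply, Gam_symm hg hx]
  have h3 := bil_hessE hg hx hf ζ ζ
  have h4 := bil_symm hg hx ζ (hessE g f x ζ)
  rw [h3] at h4
  unfold lieq
  rw [Gf_apply', Gf_apply', h1]
  rw [h2, map_add, add_apply] at h3
  rw [h2, map_add] at h4
  linarith

theorem lieq_lower (hg : IsRiemannianOn g U) (hx : x ∈ U) {f : 𝔼 → ℝ}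
    (hf : ContDiffAt ℝ 2 f x) (ζ : 𝔼) :
    2 * (1 - √(hessDev g f x)) * Gf g x ζ ζ ≤
      lieq (Gf g) (grad g f) (fderiv ℝ (grad g f) x) x ζ := by
  rw [lieq_grad hg hx hf, Gf_apply']
  have := hess_self_ge hg hx hf ζ
  linarith

theorem contDiffAt_Gf (hg : IsRiemannianOn g U) (hx : x ∈ U) : ContDiffAt ℝ ∞ (Gf g) x := by
  have h : Gf g = fun y => ∑ i, ∑ j, g y i j • eij i j := rfl
  rw [h]
  refine ContDiffAt.sum fun i _ => ContDiffAt.sum fun j _ => ?_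
  exact (contDiffAt_entry hg hx i j).smul contDiffAt_const

/-- **local differential inequality** for two solutions of the gradient flow near `x` -/
theorem grad_near (hg : IsRiemannianOn g U) (hx : x ∈ U) {f : 𝔼 → ℝ}
    (hf : ContDiffAt ℝ ∞ f x) {c : ℝ} (hc : 0 < c) (hco : ∀ ζ, c * ‖ζ‖ ^ 2 ≤ bil (g x) ζ ζ)
    {ε : ℝ} (hε : 0 < ε) :
    ∀ᶠ r : 𝔼 × 𝔼 in 𝓝 (x, x), (2 * (1 - √(hessDev g f x)) - ε) * Gf g r.1 (r.2 - r.1) (r.2 - r.1) ≤
      fderiv ℝ (Gf g) r.1 (grad g f r.1) (r.2 - r.1) (r.2 - r.1) +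
        Gf g r.1 (grad g f r.2 - grad g f r.1) (r.2 - r.1) +
        Gf g r.1 (r.2 - r.1) (grad g f r.2 - grad g f r.1) := by
  have hf2 : ContDiffAt ℝ 2 f x := hf.of_le (by norm_cast)
  have h1 : ContDiffAt ℝ 1 (grad g f) x := contDiffAt_grad hg hx hf2 (by norm_num) (by simp)
  have h2 : HasStrictFDerivAt (grad g f) (fderiv ℝ (grad g f) x) x :=
    h1.hasStrictFDerivAt (by norm_num)
  have h3 := contDiffAt_Gf hg hx
  have h4 : ContinuousAt (fderiv ℝ (Gf g)) x :=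
    (h3.fderiv_right (m := 0) (by norm_cast)).continuousAt
  exact lie_near h2 h3.continuousAt h4 hc hco (fun ζ => lieq_lower hg hx hf2 ζ) hε

end Crest.Agent.R247.Bs342
end
end

-- ▼ part R247/Bs3_342
section

/-!
R247 (helper342), block (1-B), file 3: the local lemma on the manifold.  Near a point `P₀` of the
smooth locus of `d_x²/2`, two minimisers issued from `x` spread at a rate controlled by
`|Hess f - g|(P₀)`.
-/

set_option autoImplicit false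
set_option maxSynthPendingDepth 3
set_option linter.unusedSectionVars false

open Bundle Set Filter Topology Metric
open scoped Manifold ContDiff NNReal
open Crest.GeometryTopology.CoordMetric Crest.GeometryTopology.ChartCurvature
open Crest.GeometryTopology.MTW Crest.Agent.R244 Crest.Agent.R226
open Crest.Agent.R226.ChartMet842
open Crest.Agent.R226.CutSmooth77 (SC)
open Crest.Agent.R202.Tens Crest.Agent.R247.Ms322 Crest.Agent.R247.Bo84
open Crest.Agent.R247.Sm879 Crest.Agent.R247.Lc582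

noncomputable section

namespace Crest.Agent.R247.Bs342

/-- a piece of a minimiser issued from `x`, with speed `ℓ`, defined on `[a,b]` -/
structure RayP {M : Type*} [MetricSpace M] (x : M) (γ : ℝ → M) (a b ℓ : ℝ) : Prop where
  nonneg : 0 ≤ ℓ
  left : ∀ t ∈ Icc a b, dist x (γ t) = ℓ * t
  lip : ∀ s ∈ Icc a b, ∀ t ∈ Icc a b, dist (γ s) (γ t) = |s - t| * ℓ

section
variable {n : ℕ} {M : Type*} [MetricSpace M] [ChartedSpace (EuclideanSpace ℝ (Fin n)) M]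
  [IsManifold (𝓡 n) ∞ M]
  [RiemannianBundle (fun p : M => TangentSpace (𝓡 n) p)]
  [IsContMDiffRiemannianBundle (𝓡 n) ∞ (EuclideanSpace ℝ (Fin n)) (fun p : M => TangentSpace (𝓡 n) p)]

local notation "𝔼" => EuclideanSpace ℝ (Fin n)

/-- squared length of `φ Q - φ P` for the metric at `P`, in the chart `φ` at `x₀` -/
def wq (x₀ P Q : M) : ℝ :=
  gm (n := n) x₀ (chartAt 𝔼 x₀ P) (chartAt 𝔼 x₀ Q - chartAt 𝔼 x₀ P)
    (chartAt 𝔼 x₀ Q - chartAt 𝔼 x₀ P)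

theorem wq_nonneg (x₀ P Q : M) : 0 ≤ wq (n := n) x₀ P Q := gm_self_nonneg _ _ _

/-- coercivity of the metric at a point of the chart -/
theorem exists_coercive (x₀ : M) {a : 𝔼} (ha : a ∈ (chartAt 𝔼 x₀).target) :
    ∃ c : ℝ, 0 < c ∧ ∀ ζ : 𝔼, c * ‖ζ‖ ^ 2 ≤ gm x₀ a ζ ζ := by
  obtain ⟨A, hA, -⟩ := exists_isometry (n := n) x₀ ha
  set K : ℝ := ‖(A.symm : 𝔼 →L[ℝ] 𝔼)‖ + 1 with hK
  have hK0 : 0 < K := by positivity
  refine ⟨(K ^ 2)⁻¹, by positivity, fun ζ => ?_⟩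
  have h1 : gm x₀ a ζ ζ = ‖A ζ‖ ^ 2 := by rw [← hA, real_inner_self_eq_norm_sq]
  have h2 : ‖ζ‖ ≤ K * ‖A ζ‖ := by
    calc ‖ζ‖ = ‖A.symm (A ζ)‖ := by rw [A.symm_apply_apply]
      _ ≤ ‖(A.symm : 𝔼 →L[ℝ] 𝔼)‖ * ‖A ζ‖ := (A.symm : 𝔼 →L[ℝ] 𝔼).le_opNorm _
      _ ≤ K * ‖A ζ‖ := by gcongr; rw [hK]; linarith
  rw [h1]
  have h3 : ‖ζ‖ ^ 2 ≤ K ^ 2 * ‖A ζ‖ ^ 2 := by
    rw [← mul_pow]; gcongr
  calc (K ^ 2)⁻¹ * ‖ζ‖ ^ 2 ≤ (K ^ 2)⁻¹ * (K ^ 2 * ‖A ζ‖ ^ 2) := by gcongr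
    _ = ‖A ζ‖ ^ 2 := by field_simp

variable (n) in
/-- `|Hess f - g|²` at `P` for `f = d_x²/2` -/
def devA (x P : M) : ℝ :=
  hessDev (chartMetric n M P) (fz (n := n) x P) (chartAt (EuclideanSpace ℝ (Fin n)) P P)

variable [IsRiemannianManifold (𝓡 n) M] [ProperSpace M]

variable (n) in
/-- **local lemma** -/
theorem local_lemma (hm : ExM M) {x P₀ : M} (h : (x, P₀) ∈ Om M) {ε : ℝ} (hε : 0 < ε) :
    ∃ δ > 0, ball P₀ δ ⊆ (chartAt (EuclideanSpace ℝ (Fin n)) P₀).source ∧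
      ∀ (γ₁ γ₂ : ℝ → M) (a b ℓ₁ ℓ₂ : ℝ), 0 < a → a ≤ b → RayP x γ₁ a b ℓ₁ → RayP x γ₂ a b ℓ₂ →
        (∀ t ∈ Icc a b, γ₁ t ∈ ball P₀ δ) → (∀ t ∈ Icc a b, γ₂ t ∈ ball P₀ δ) →
        wq (n := n) P₀ (γ₁ a) (γ₂ a) ≤
          Real.exp ((2 * (1 - √(devA n x P₀)) - ε) * (Real.log a - Real.log b)) *
            wq (n := n) P₀ (γ₁ b) (γ₂ b) := by
  have hg := isRiemannianOn_chartMetric (n := n) (M := M) P₀
  set a₀ : 𝔼 := chartAt 𝔼 P₀ P₀ with ha₀
  have hsrc : P₀ ∈ (chartAt 𝔼 P₀).source := mem_chart_source 𝔼 P₀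
  have ha : a₀ ∈ (chartAt 𝔼 P₀).target := (chartAt 𝔼 P₀).map_source hsrc
  have hsa : (chartAt 𝔼 P₀).symm a₀ = P₀ := (chartAt 𝔼 P₀).left_inv hsrc
  have hf : ContDiffAt ℝ ∞ (fz (n := n) x P₀) a₀ := by
    refine contDiffAt_fz ha ?_
    rw [hsa]
    exact sc_of_Om hm h
  obtain ⟨c, hc, hco⟩ := exists_coercive (n := n) P₀ ha
  have hco' : ∀ ζ : 𝔼, c * ‖ζ‖ ^ 2 ≤ bil (chartMetric n M P₀ a₀) ζ ζ := by
    intro ζ
    rw [bil_chartMetric]
    exact hco ζ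
  have hev := grad_near hg ha hf hc hco' hε
  rw [nhds_prod_eq] at hev
  obtain ⟨r, hr, hr'⟩ := (Metric.nhds_basis_ball.prod_self).eventually_iff.1 hev
  have hev2 : ∀ᶠ z in 𝓝 P₀, z ∈ (chartAt 𝔼 P₀).source ∧ chartAt 𝔼 P₀ z ∈ ball a₀ r ∧
      z ∈ OmA x := by
    have e1 : ∀ᶠ z in 𝓝 P₀, z ∈ (chartAt 𝔼 P₀).source :=
      (chartAt 𝔼 P₀).open_source.mem_nhds hsrc
    have e2 : ∀ᶠ z in 𝓝 P₀, chartAt 𝔼 P₀ z ∈ ball a₀ r :=
      ((chartAt 𝔼 P₀).continuousAt hsrc).eventually (ball_mem_nhds _ hr)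
    have e3 : ∀ᶠ z in 𝓝 P₀, z ∈ OmA x := (isOpen_OmA n hm x).mem_nhds h
    exact e1.and (e2.and e3)
  obtain ⟨δ, hδ, hδ'⟩ := Metric.eventually_nhds_iff_ball.1 hev2
  refine ⟨δ, hδ, fun z hz => (hδ' z hz).1, ?_⟩
  intro γ₁ γ₂ a b ℓ₁ ℓ₂ ha0 hab h₁ h₂ hi₁ hi₂
  have cont : ∀ (γ : ℝ → M) (ℓ : ℝ), RayP x γ a b ℓ → (∀ t ∈ Icc a b, γ t ∈ ball P₀ δ) →
      ContinuousOn (fun s => chartAt 𝔼 P₀ (γ s)) (Icc a b) := by
    intro γ ℓ hγ hi
    have hγc : ContinuousOn γ (Icc a b) := by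
      have : LipschitzOnWith ⟨ℓ, hγ.nonneg⟩ γ (Icc a b) := by
        apply LipschitzOnWith.of_dist_le_mul
        intro s hs t ht
        rw [hγ.lip s hs t ht, Real.dist_eq, mul_comm]
        rfl
      exact this.continuousOn
    exact (chartAt 𝔼 P₀).continuousOn.comp hγc fun s hs => (hδ' _ (hi s hs)).1
  have der : ∀ (γ : ℝ → M) (ℓ : ℝ), RayP x γ a b ℓ → (∀ t ∈ Icc a b, γ t ∈ ball P₀ δ) →
      ∀ s ∈ Ioo a b, HasDerivAt (fun s => chartAt 𝔼 P₀ (γ s))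
        (s⁻¹ • grad (chartMetric n M P₀) (fz x P₀) (chartAt 𝔼 P₀ (γ s))) s := by
    intro γ ℓ hγ hi s hs
    have hs' : s ∈ Icc a b := Ioo_subset_Icc_self hs
    obtain ⟨q1, _, q3⟩ := hδ' _ (hi s hs')
    have hnb : ∀ᶠ t in 𝓝[univ] s, t ∈ Icc a b := by
      rw [nhdsWithin_univ]
      exact Icc_mem_nhds hs.1 hs.2
    have := Ray97.hasDerivWithinAt_from (n := n) hm P₀ (x := x) (γ := γ) (S := univ) (s := s)
      (ℓ := ℓ) (ha0.trans hs.1) q1 (sc_of_Om hm q3) hγ.nonneg (hγ.left s hs')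
      (hnb.mono fun t ht => hγ.left t ht)
      (hnb.mono fun t ht => by rw [hγ.lip t ht s hs', mul_comm])
    exact hasDerivWithinAt_univ.1 this
  have key := ode_pair (G := Gf (chartMetric n M P₀)) (V := grad (chartMetric n M P₀) (fz x P₀))
    (lam := 2 * (1 - √(devA n x P₀)) - ε)
    (p := fun s => chartAt 𝔼 P₀ (γ₁ s)) (q := fun s => chartAt 𝔼 P₀ (γ₂ s)) ha0 hab
    (cont γ₁ ℓ₁ h₁ hi₁) (cont γ₂ ℓ₂ h₂ hi₂) (der γ₁ ℓ₁ h₁ hi₁) (der γ₂ ℓ₂ h₂ hi₂)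
    (fun s hs => (contDiffAt_Gf hg ((chartAt 𝔼 P₀).map_source (hδ' _ (hi₁ s hs)).1)).continuousAt)
    (fun s hs => (contDiffAt_Gf hg ((chartAt 𝔼 P₀).map_source
      (hδ' _ (hi₁ s (Ioo_subset_Icc_self hs))).1)).differentiableAt (by simp))
    (fun s hs => by
      have hs' := Ioo_subset_Icc_self hs
      exact hr' (x := (chartAt 𝔼 P₀ (γ₁ s), chartAt 𝔼 P₀ (γ₂ s)))
        ⟨(hδ' _ (hi₁ s hs')).2.1, (hδ' _ (hi₂ s hs')).2.1⟩)
  simp only [Gf_apply', bil_chartMetric] at key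
  exact key

end

end Crest.Agent.R247.Bs342
end
end

-- ▼ part R247/Bs4_342

/-!
R247 (helper342), block (1-B), file 4: conversion between the distance and the metric at a point,
and the continuation argument along the whole ray.
-/

set_option autoImplicit false
set_option maxSynthPendingDepth 3
set_option linter.unusedSectionVars false

open Bundle Set Filter Topology Metric MeasureTheory
open scoped Manifold ContDiff NNReal
open Crest.GeometryTopology.CoordMetric Crest.GeometryTopology.ChartCurvature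
open Crest.GeometryTopology.MTW Crest.Agent.R244 Crest.Agent.R226
open Crest.Agent.R226.ChartMet842
open Crest.Agent.R226.CutSmooth77 (SC)
open Crest.Agent.R202.Tens Crest.Agent.R247.Ms322 Crest.Agent.R247.Bo84
open Crest.Agent.R247.Sm879 Crest.Agent.R247.Lc582

noncomputable section

namespace Crest.Agent.R247.Bs342

/-- real induction, downwards from `1` -/
theorem real_ind {tmin : ℝ} (h01 : tmin ≤ 1) {K : ℝ → Prop} (h1 : K 1)
    (hstep : ∀ t₀ ∈ Icc tmin 1, ∃ δ > 0, ∀ a b, a ∈ Icc tmin 1 → b ∈ Icc tmin 1 → a ≤ b →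
      |a - t₀| < δ → |b - t₀| < δ → K b → K a) : K tmin := by
  set S : Set ℝ := {t | t ∈ Icc tmin 1 ∧ K t} with hS
  have hne : S.Nonempty := ⟨1, right_mem_Icc.2 h01, h1⟩
  have hbdd : BddBelow S := ⟨tmin, fun t ht => ht.1.1⟩
  set s := sInf S with hs
  have hs0 : tmin ≤ s := le_csInf hne fun t ht => ht.1.1
  have hs1 : s ≤ 1 := csInf_le hbdd ⟨right_mem_Icc.2 h01, h1⟩
  obtain ⟨δ, hδ, hδ'⟩ := hstep s ⟨hs0, hs1⟩
  obtain ⟨b, hb, hbs⟩ := exists_lt_of_csInf_lt hne (show sInf S < s + δ by rw [← hs]; linarith)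
  have hsb : s ≤ b := csInf_le hbdd hb
  set a := max tmin (s - δ / 2) with ha
  have ha0 : tmin ≤ a := le_max_left _ _
  have has : a ≤ s := max_le hs0 (by linarith)
  have ha1 : s - δ / 2 ≤ a := le_max_right _ _
  have hKa : K a := hδ' a b ⟨ha0, has.trans hs1⟩ hb.1 (has.trans hsb)
    (by rw [abs_lt]; constructor <;> linarith) (by rw [abs_lt]; constructor <;> linarith) hb.2
  have hsa : s ≤ a := csInf_le hbdd ⟨⟨ha0, has.trans hs1⟩, hKa⟩
  have : a = tmin := by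
    rcases max_choice tmin (s - δ / 2) with h | h
    · rw [ha, h]
    · rw [← ha] at h
      linarith
  rw [← this]
  exact hKa

section
variable {n : ℕ} {M : Type*} [MetricSpace M] [ChartedSpace (EuclideanSpace ℝ (Fin n)) M]
  [IsManifold (𝓡 n) ∞ M]
  [RiemannianBundle (fun p : M => TangentSpace (𝓡 n) p)]
  [IsContMDiffRiemannianBundle (𝓡 n) ∞ (EuclideanSpace ℝ (Fin n)) (fun p : M => TangentSpace (𝓡 n) p)]
  [IsRiemannianManifold (𝓡 n) M]

local notation "𝔼" => EuclideanSpace ℝ (Fin n)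

variable (n) in
/-- comparison of `dist P' Q` and `wq` as `Q → P'` -/
theorem conv_point (x₀ : M) {P : M} (hP : P ∈ (chartAt (EuclideanSpace ℝ (Fin n)) x₀).source)
    {η : ℝ} (hη : 0 < η) :
    ∃ ρ > 0, ∀ Q, dist Q P < ρ → wq (n := n) x₀ P Q ≤ ((1 + η) * dist Q P) ^ 2 ∧
      dist Q P ^ 2 ≤ (1 + η) ^ 2 * wq (n := n) x₀ P Q := by
  set a : 𝔼 := chartAt 𝔼 x₀ P with ha'
  have ha : a ∈ (chartAt 𝔼 x₀).target := (chartAt 𝔼 x₀).map_source hP
  have hsa : (chartAt 𝔼 x₀).symm a = P := (chartAt 𝔼 x₀).left_inv hP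
  obtain ⟨A, hA, -⟩ := exists_isometry (n := n) x₀ ha
  obtain ⟨r, hr, hrt, hL1, hL2⟩ := exists_bilip x₀ ha hA (η := ⟨η, hη.le⟩) (by exact_mod_cast hη)
  have hev : ∀ᶠ z in 𝓝 P, z ∈ (chartAt 𝔼 x₀).source ∧ chartAt 𝔼 x₀ z ∈ ball a r := by
    have e1 : ∀ᶠ z in 𝓝 P, z ∈ (chartAt 𝔼 x₀).source := (chartAt 𝔼 x₀).open_source.mem_nhds hP
    have e2 : ∀ᶠ z in 𝓝 P, chartAt 𝔼 x₀ z ∈ ball a r :=
      ((chartAt 𝔼 x₀).continuousAt hP).eventually (ball_mem_nhds _ hr)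
    exact e1.and e2
  obtain ⟨ρ, hρ, hρ'⟩ := Metric.eventually_nhds_iff.1 hev
  refine ⟨ρ, hρ, fun Q hQ => ?_⟩
  obtain ⟨hQ1, hQ2⟩ := hρ' hQ
  have hQs : (chartAt 𝔼 x₀).symm (chartAt 𝔼 x₀ Q) = Q := (chartAt 𝔼 x₀).left_inv hQ1
  have hw : wq (n := n) x₀ P Q = ‖A (chartAt 𝔼 x₀ Q) - A a‖ ^ 2 := by
    unfold wq
    rw [← ha', ← hA, real_inner_self_eq_norm_sq, map_sub]
  have d1 : dist Q P ≤ (1 + η) * ‖A (chartAt 𝔼 x₀ Q) - A a‖ := by
    have := hL1.dist_le_mul (A (chartAt 𝔼 x₀ Q)) (mem_image_of_mem _ hQ2) (A a)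
      (mem_image_of_mem _ (mem_ball_self hr))
    simp only [A.symm_apply_apply, hsa, hQs] at this
    rw [dist_eq_norm] at this
    exact this
  have d2 : ‖A (chartAt 𝔼 x₀ Q) - A a‖ ≤ (1 + η) * dist Q P := by
    have := hL2.dist_le_mul Q ⟨_, hQ2, hQs⟩ P ⟨_, mem_ball_self hr, hsa⟩
    rw [dist_eq_norm] at this
    exact this
  constructor
  · rw [hw]; gcongr
  · rw [hw, ← mul_pow]; gcongr

variable (n) in
/-- comparison of `dist P Q` and `wq`, uniformly near the centre of the chart -/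
theorem conv_near (x₀ : M) {η : ℝ} (hη : 0 < η) :
    ∃ δ > 0, ∀ P ∈ ball x₀ δ, ∀ Q ∈ ball x₀ δ, dist Q P ^ 2 ≤ (1 + η) ^ 4 * wq (n := n) x₀ P Q := by
  have hP : x₀ ∈ (chartAt 𝔼 x₀).source := mem_chart_source 𝔼 x₀
  set a : 𝔼 := chartAt 𝔼 x₀ x₀ with ha'
  have ha : a ∈ (chartAt 𝔼 x₀).target := (chartAt 𝔼 x₀).map_source hP
  obtain ⟨A, hA, -⟩ := exists_isometry (n := n) x₀ ha
  obtain ⟨r, hr, hrt, hL1, hL2⟩ := exists_bilip x₀ ha hA (η := ⟨η, hη.le⟩) (by exact_mod_cast hη)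
  have hgm := eventually_gm_le x₀ ha hA hη
  have hev : ∀ᶠ z in 𝓝 x₀, z ∈ (chartAt 𝔼 x₀).source ∧ chartAt 𝔼 x₀ z ∈ ball a r ∧
      ∀ v, gm x₀ (chartAt 𝔼 x₀ z) v v ≤ ((1 + η) * ‖A v‖) ^ 2 ∧
        ‖A v‖ ^ 2 ≤ (1 + η) ^ 2 * gm x₀ (chartAt 𝔼 x₀ z) v v := by
    have e1 : ∀ᶠ z in 𝓝 x₀, z ∈ (chartAt 𝔼 x₀).source := (chartAt 𝔼 x₀).open_source.mem_nhds hP
    have e2 : ∀ᶠ z in 𝓝 x₀, chartAt 𝔼 x₀ z ∈ ball a r :=
      ((chartAt 𝔼 x₀).continuousAt hP).eventually (ball_mem_nhds _ hr)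
    exact e1.and (e2.and (((chartAt 𝔼 x₀).continuousAt hP).eventually hgm))
  obtain ⟨ρ, hρ, hρ'⟩ := Metric.eventually_nhds_iff_ball.1 hev
  refine ⟨ρ, hρ, fun P hP Q hQ => ?_⟩
  obtain ⟨hP1, hP2, hP3⟩ := hρ' P hP
  obtain ⟨hQ1, hQ2, _⟩ := hρ' Q hQ
  have hPs : (chartAt 𝔼 x₀).symm (chartAt 𝔼 x₀ P) = P := (chartAt 𝔼 x₀).left_inv hP1
  have hQs : (chartAt 𝔼 x₀).symm (chartAt 𝔼 x₀ Q) = Q := (chartAt 𝔼 x₀).left_inv hQ1
  have d1 : dist Q P ≤ (1 + η) * ‖A (chartAt 𝔼 x₀ Q - chartAt 𝔼 x₀ P)‖ := by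
    have := hL1.dist_le_mul (A (chartAt 𝔼 x₀ Q)) (mem_image_of_mem _ hQ2) (A (chartAt 𝔼 x₀ P))
      (mem_image_of_mem _ hP2)
    simp only [A.symm_apply_apply, hPs, hQs] at this
    rw [dist_eq_norm, ← map_sub] at this
    exact this
  have d2 := (hP3 (chartAt 𝔼 x₀ Q - chartAt 𝔼 x₀ P)).2
  calc dist Q P ^ 2 ≤ ((1 + η) * ‖A (chartAt 𝔼 x₀ Q - chartAt 𝔼 x₀ P)‖) ^ 2 := by gcongr
    _ = (1 + η) ^ 2 * ‖A (chartAt 𝔼 x₀ Q - chartAt 𝔼 x₀ P)‖ ^ 2 := by ring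
    _ ≤ (1 + η) ^ 2 * ((1 + η) ^ 2 * wq (n := n) x₀ P Q) := by gcongr; exact d2
    _ = _ := by ring

end

end Crest.Agent.R247.Bs342
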