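import Crest.Agent.R247.Fd2_656
import Crest.Agent.R247.Bs6_342
import Crest.Agent.R247.Far0_553

-- ▼ part R247/Fd4_656
section

/-!
# R247, FD-ASM (5) (helper656): the term `FarD` from the literal Props of the fields
-/

set_option autoImplicit false
set_option linter.unusedSectionVars false
set_option linter.unusedVariables false

open MeasureTheory Filter Topology Set Metric
open scoped RealInnerProductSpace ENNReal NNReal

noncomputable section

namespace Crest.Agent.R247.Fd656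

universe u

open Crest.Agent.R242 Crest.Agent.R247.Dir593 Crest.Agent.R247.Dir593.GradS
open Crest.Agent.R247.Smv126 Crest.Agent.R247.Obj554 Crest.Agent.R247.Hes124
open Crest.Agent.R247.Far553 Crest.Agent.R247.Mcp688 Crest.Agent.R247.Max193

lemma choose1 {P : ℝ → ℝ → Prop} (h : ∀ K, 1 ≤ K → ∃ A, 0 < A ∧ P K A) :
    ∃ f : ℝ → ℝ, (∀ K, 0 < f K) ∧ ∀ K, 1 ≤ K → P K (f K) := by
  have h1 : ∀ K, ∃ A, 0 < A ∧ (1 ≤ K → P K A) := fun K => by
    by_cases hK : 1 ≤ K
    · obtain ⟨A, h0, h1⟩ := h K hK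
      exact ⟨A, h0, fun _ => h1⟩
    · exact ⟨1, one_pos, fun h => absurd h hK⟩
  choose f h0 h1 using h1
  exact ⟨f, h0, h1⟩

lemma choose2 {P : ℝ → ℝ → ℝ → Prop} (h : ∀ K s, 1 ≤ K → 0 < s → ∃ A, 0 < A ∧ P K s A) :
    ∃ f : ℝ → ℝ → ℝ, (∀ K s, 0 < f K s) ∧ ∀ K s, 1 ≤ K → 0 < s → P K s (f K s) := by
  have h1 : ∀ K s, ∃ A, 0 < A ∧ (1 ≤ K → 0 < s → P K s A) := fun K s => by
    by_cases hK : 1 ≤ K ∧ 0 < s
    · obtain ⟨A, h0, h1⟩ := h K s hK.1 hK.2
      exact ⟨A, h0, fun _ _ => h1⟩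
    · exact ⟨1, one_pos, fun h1 h2 => absurd ⟨h1, h2⟩ hK⟩
  choose f h0 h1 using h1
  exact ⟨f, h0, h1⟩

/-- all abstract fields together -/
structure Fields (n : ℕ) : Prop where
  d1a : D1aP.{u} n
  d1b : D1bP.{u} n
  d2H : D2HP.{u} n
  d2g : D2gP.{u} n
  d2q : D2qP.{u} n
  d2k : D2kP.{u} n
  d2n2 : D2n2P.{u} n
  d2n1 : D2n1P.{u} n
  d2b : D2bP.{u} n
  pe : PeP.{u} n
  d3 : D3P.{u} n

/-- the fields of `FarD` which are proved directly on the manifold -/
structure MFld {n : ℕ} {κ : ℝ} {X : Type u} [MetricSpace X] [MeasurableSpace X]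
    [BorelSpace X] {μ : Measure X} (C : Rad n κ X μ) (x : X) (N0 : ℝ) : Prop where
  sym : ∀ a b : X, ∃ Γ : X → ℝ, Measurable Γ ∧
    RD C a (fun z => dist b z ^ 2 / 2) Γ ∧ RD C b (fun z => dist a z ^ 2 / 2) Γ
  vel : ∀ᵐ p ∂(μ.prod μ), ∃ cs ∈ Icc (-1 : ℝ) 1,
    HasDerivWithinAt (fun t : ℝ => dist x (C.T p.1 t p.2)) (cs * dist p.1 p.2) (Iio 1) 1 ∧
    ∀ a b : ℝ, 0 ≤ a → 0 ≤ b →
      Tendsto (fun ε : ℝ => dist (C.T x (1 - a * ε) p.2) (C.T p.1 (1 - b * ε) p.2) / ε) (𝓝[>] 0)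
        (𝓝 (Real.sqrt ((a * dist x p.2) ^ 2 + (b * dist p.1 p.2) ^ 2
          - 2 * (a * dist x p.2) * (b * dist p.1 p.2) * cs)))
  base : ∀ᵐ v ∂μ, dist x v < 12 → ∀ r L : ℝ, 0 < L → N0 * L ≤ r → N0 * L ≤ dist x v - r →
    ∃ ρ₀ > 0, ∀ y, dist y (ray C x v r) < ρ₀ → (x, y) ∈ C.U →
      ∀ t ∈ Icc (1 - 4 * L / r) 1,
        dist (C.T x t y) (C.T x t (ray C x v r)) ≤ 2 * t * dist y (ray C x v r)

/-- the constants -/
structure CstOK (n : ℕ) (c : FarK) : Prop where
  ω : c.ω = om n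
  N0 : 3200 * ((n : ℝ) + 12) ≤ c.N0
  q : max (1 / 2) (CN n 1) ≤ c.B1 1

/-- **the term `FarD`** -/
theorem exists_farD {n : ℕ} (F : Fields.{u} n) :
    ∃ c : FarK, CstOK n c ∧
      ∀ (κ : ℝ) (X : Type u) [MetricSpace X] [ProperSpace X] [MeasurableSpace X] [BorelSpace X]
        (μ : Measure X) [IsFiniteMeasureOnCompacts μ] (B : BochS n κ X μ) (C : Rad n κ X μ) (x : X)
        (δ : ℝ), EnvF B C x δ → HObj B x → MFld C x (3200 * ((n : ℝ) + 12)) →
        Nonempty (FarD c C x δ (phx n κ μ x)) := by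
  obtain ⟨f1, f10, f1h⟩ := choose1 F.d1a
  obtain ⟨f2, f20, f2h⟩ := choose2 F.d1b
  obtain ⟨gH, gH0, gHh⟩ := choose2 F.d2H
  obtain ⟨gg, gg0, ggh⟩ := choose2 F.d2g
  obtain ⟨gq, gq0, gqh⟩ := choose2 F.d2q
  obtain ⟨gk, gk0, gkh⟩ := choose2 F.d2k
  obtain ⟨g2, g20, g2h⟩ := choose2 F.d2n2
  obtain ⟨g1, g10, g1h⟩ := choose2 F.d2n1
  obtain ⟨Ab, Ab0, hAb⟩ := F.d2b
  have om0 : 0 < om n :=
    ENNReal.toReal_pos (measure_ball_pos _ _ one_pos).ne' measure_ball_lt_top.ne
  have hCN : 0 ≤ CN n 1 := CN_nonneg n zero_le_one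
  let B1 : ℝ → ℝ := fun K => f1 K + (1 / 2 + CN n 1)
  let B3 : ℝ → ℝ → ℝ := fun K s => gH K s + gg K s + gq K s + gk K s + g2 K s + g1 K s + Ab
  have hB3 : ∀ K s, gH K s ≤ B3 K s ∧ gg K s ≤ B3 K s ∧ gq K s ≤ B3 K s ∧ gk K s ≤ B3 K s ∧
      g2 K s ≤ B3 K s ∧ g1 K s ≤ B3 K s ∧ Ab ≤ B3 K s ∧ 0 < B3 K s := by
    intro K s
    have a1 := gH0 K s
    have a2 := gg0 K s
    have a3 := gq0 K s
    have a4 := gk0 K s
    have a5 := g20 K s
    have a6 := g10 K s
    simp only [B3]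
    refine ⟨by linarith, by linarith, by linarith, by linarith, by linarith, by linarith,
      by linarith, by linarith⟩
  let c : FarK :=
    { ω := om n
      N0 := 3200 * ((n : ℝ) + 12)
      B1 := B1
      B2 := f2
      B3 := B3
      ω_pos := om0
      N0_ge := by
        have : (0 : ℝ) ≤ n := Nat.cast_nonneg n
        linarith
      B1_pos := fun K => by
        have := f10 K
        simp only [B1]
        linarith
      B2_pos := f20
      B3_pos := fun K s => (hB3 K s).2.2.2.2.2.2.2 }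
  refine ⟨c, ⟨rfl, le_refl _, ?_⟩, ?_⟩
  · have := f10 1
    show _ ≤ f1 1 + (1 / 2 + CN n 1)
    rcases max_choice (1 / 2 : ℝ) (CN n 1) with h | h <;> rw [h] <;> linarith
  intro κ X _ _ _ _ μ _ B C x δ E O Mf
  have hκ := E.κ_nonneg
  have hκ1 : κ ≤ 1 := by have := E.κ_le; linarith
  have hph : ∀ j, 0 ≤ phx n κ μ x j := fun j => phat_nonneg' C hκ x _ j
  have hd : ∀ j, 0 < dy j := dy_pos
  have hpn : ∀ j, 0 ≤ phx n κ μ x j * dy j ^ n := fun j =>
    mul_nonneg (hph j) (pow_pos (hd j) n).le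
  exact ⟨
    { H := Hf O
      g := gf B x
      q := qf B x
      kk := kf B x
      nk := nf O
      H_meas := Hf_meas B x O
      g_meas := gf_meas B x
      q_meas := qf_meas B x
      kk_meas := kf_meas B x
      nk_meas := nf_meas B x O
      H_nonneg := fun k z => Hf_nonneg B x O k z
      g_nonneg := fun k z => gf_nonneg B x k z
      q_nonneg := fun k z => qf_nonneg B x k z
      nk_nonneg := fun k z => nf_nonneg B x O k z
      ph_nonneg := hph
      q_le := fun k => by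
        have h1 := f10 1
        exact qf_le x k E.W hκ (C := c.B1 1) (by
          show (1:ℝ) / 2 ≤ f1 1 + (1 / 2 + CN n 1)
          linarith) (by
          show CN n κ ≤ f1 1 + (1 / 2 + CN n 1)
          have := CN_mono n hκ1
          linarith)
      vol_ge := fun y r h1 h2 h3 => E.vol_ge y r h1 h2 h3
      vol_le := fun y r h1 h2 h3 => E.vol_le y r h1 h2 h3
      sym := Mf.sym
      vel := Mf.vel
      pe := fun k => F.pe κ X μ B C x δ E O k
      base := Mf.base
      d1a := fun K hK => by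
        filter_upwards [f1h K hK κ X μ B C x δ E O] with v hv hv12 k a b h0 h1 h2 h3 h4 h5
        refine (hv hv12 k a b h0 h1 h2 h3 h4 h5).trans (ENNReal.ofReal_le_ofReal ?_)
        have h6 : f1 K ≤ c.B1 K := by
          show f1 K ≤ f1 K + (1 / 2 + CN n 1)
          linarith
        gcongr
      d1b := fun K ε hK hε j hj => f2h K ε hK hε κ X μ B C x δ E O j hj
      d2_H := fun K s hK hs j k hj hjk => by
        refine (gHh K s hK hs κ X μ B C x δ E O j k hj hjk).trans (ENNReal.ofReal_le_ofReal ?_)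
        rw [mul_assoc, mul_assoc]
        exact mul_le_mul_of_nonneg_right (hB3 K s).1 (hpn j)
      d2_g := fun K s hK hs j k hj hjk => by
        refine (ggh K s hK hs κ X μ B C x δ E O j k hj hjk).trans (ENNReal.ofReal_le_ofReal ?_)
        rw [mul_assoc, mul_assoc]
        exact mul_le_mul_of_nonneg_right (hB3 K s).2.1 (hpn j)
      d2_q := fun K s hK hs j k hj hjk => by
        refine (gqh K s hK hs κ X μ B C x δ E O j k hj hjk).trans (ENNReal.ofReal_le_ofReal ?_)
        rw [mul_assoc, mul_assoc]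
        exact mul_le_mul_of_nonneg_right (hB3 K s).2.2.1 (hpn j)
      d2_k := fun K s hK hs j k hj hjk => by
        refine (gkh K s hK hs κ X μ B C x δ E O j k hj hjk).trans (ENNReal.ofReal_le_ofReal ?_)
        have h1 := (hB3 K s).2.2.2.1
        have h2 := hph j
        have h3 := (hd j).le
        have h4 := (hd k).le
        gcongr
      d2_nk2 := fun K s hK hs j k hj hjk => by
        refine (g2h K s hK hs κ X μ B C x δ E O j k hj hjk).trans (ENNReal.ofReal_le_ofReal ?_)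
        have h1 := (hB3 K s).2.2.2.2.1
        have h2 := hph j
        have h3 := (hd j).le
        have h4 := (hd k).le
        gcongr
      d2_nk1 := fun K s hK hs j k hj hjk => by
        refine (g1h K s hK hs κ X μ B C x δ E O j k hj hjk).trans (ENNReal.ofReal_le_ofReal ?_)
        have h1 := (hB3 K s).2.2.2.2.2.1
        have h2 := hph j
        have h3 := (hd j).le
        have h4 := (hd k).le
        gcongr
      d2_ball := fun j hj => by
        refine (hAb κ X μ B C x δ E O j hj).trans (ENNReal.ofReal_le_ofReal ?_)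
        rw [mul_assoc, mul_assoc]
        exact mul_le_mul_of_nonneg_right (hB3 1 1).2.2.2.2.2.2.1 (hpn j)
      d3 := fun k => F.d3 κ X μ B C x δ E O k }⟩

end Crest.Agent.R247.Fd656
end
end

-- ▼ part R247/Bs7_342

/-!
R247 (helper342), block (1-B), file 7: **(BASE)**, the field `base` of `FarD`.
-/

set_option autoImplicit false
set_option maxSynthPendingDepth 3
set_option linter.unusedSectionVars false

open Bundle Set Filter Topology Metric MeasureTheory
open scoped Manifold ContDiff NNReal Interval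
open Crest.GeometryTopology.CoordMetric Crest.GeometryTopology.ChartCurvature
  Crest.GeometryTopology.PointedLimit
open Crest.GeometryTopology.MTW Crest.Agent.R244 Crest.Agent.R226
open Crest.Agent.R226.ChartMet842
open Crest.Agent.R226.CutSmooth77 (SC)
open Crest.Agent.R202.Tens Crest.Agent.R247.Ms322 Crest.Agent.R247.Bo84
open Crest.Agent.R247.Sm879 Crest.Agent.R247.Lc582
open Crest.Agent.R247.Mcp688 (Rad)
open Crest.Agent.R247.Far553 (ray)

noncomputable section

namespace Crest.Agent.R247.Bs342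

theorem exp_fifth : Real.exp (1 / 5) ≤ 5 / 4 := by
  have h1 := Real.add_one_le_exp (-(1 / 5 : ℝ))
  rw [Real.exp_neg] at h1
  have h2 : 0 < Real.exp (1 / 5) := Real.exp_pos _
  rw [← one_div, le_div_iff₀ h2] at h1
  linarith

/-- the exponent is harmless -/
theorem exp_bound {H : ℝ → ℝ} {δ B : ℝ} (hδ : 0 < δ) (hδ2 : δ ≤ 1 / 2)
    (hH : ContinuousOn H (Icc (1 - δ) 1))
    (hI : ∀ t ∈ Icc (1 - δ) 1, ∫ τ in t..1, H τ ^ 2 ≤ B) (hB : δ * B ≤ 1 / 400) {t : ℝ}
    (ht : t ∈ Icc (1 - δ) 1) : 3 / 2 * Real.exp (-Psi H (1 / 10) t) ≤ 2 * t := by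
  have ht0 : 0 < t := by linarith [ht.1]
  have hsub : Icc t 1 ⊆ Icc (1 - δ) 1 := Icc_subset_Icc ht.1 le_rfl
  have hHt : ContinuousOn H (Icc t 1) := hH.mono hsub
  have hinv : ContinuousOn (fun τ : ℝ => τ⁻¹) (Icc t 1) :=
    ContinuousOn.inv₀ continuousOn_id fun τ hτ => (ht0.trans_le hτ.1).ne'
  have e1 : -Psi H (1 / 10) t = Real.log t + ∫ τ in t..1, (H τ + 1 / 10) * τ⁻¹ := by
    have h1 : ∫ τ in t..1, (1 - H τ - 1 / 10) * τ⁻¹ =
        (∫ τ in t..1, τ⁻¹) - ∫ τ in t..1, (H τ + 1 / 10) * τ⁻¹ := by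
      rw [← intervalIntegral.integral_sub]
      · congr 1
        funext τ
        ring
      · exact hinv.intervalIntegrable_of_Icc ht.2
      · exact ((hHt.add continuousOn_const).mul hinv).intervalIntegrable_of_Icc ht.2
    unfold Psi
    rw [h1, integral_inv_of_pos ht0 one_pos, one_div, Real.log_inv]
    ring
  have e2 : ∫ τ in t..1, (H τ + 1 / 10) * τ⁻¹ ≤
      ∫ τ in t..1, (((20 * δ)⁻¹ + 1 / 5) + 20 * δ * H τ ^ 2) := by
    apply intervalIntegral.integral_mono_on ht.2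
    · exact ((hHt.add continuousOn_const).mul hinv).intervalIntegrable_of_Icc ht.2
    · exact (continuousOn_const.add (continuousOn_const.mul (hHt.pow 2))).intervalIntegrable_of_Icc
        ht.2
    · intro τ hτ
      have hτ0 : 1 / 2 ≤ τ := by linarith [ht.1, hτ.1]
      have ha : 0 ≤ (20 * δ)⁻¹ := by positivity
      have hb : 0 ≤ 20 * δ * H τ ^ 2 := by positivity
      rcases le_or_gt (H τ + 1 / 10) 0 with h | h
      · have : (H τ + 1 / 10) * τ⁻¹ ≤ 0 := mul_nonpos_of_nonpos_of_nonneg h (by positivity)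
        linarith
      · have h1 : τ⁻¹ ≤ 2 := by
          rw [inv_le_comm₀ (by linarith) (by norm_num)]
          linarith
        have h2 : (H τ + 1 / 10) * τ⁻¹ ≤ (H τ + 1 / 10) * 2 := by gcongr
        have h3 : 2 * H τ ≤ (20 * δ)⁻¹ + 20 * δ * H τ ^ 2 := by
          have h4 : (20 * δ)⁻¹ + 20 * δ * H τ ^ 2 - 2 * H τ =
              (20 * δ)⁻¹ * (1 - 20 * δ * H τ) ^ 2 := by
            field_simp
            ring
          have h5 : 0 ≤ (20 * δ)⁻¹ * (1 - 20 * δ * H τ) ^ 2 := by positivity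
          linarith
        linarith
  have e3 : ∫ τ in t..1, (((20 * δ)⁻¹ + 1 / 5) + 20 * δ * H τ ^ 2) ≤ 1 / 5 := by
    rw [intervalIntegral.integral_add, intervalIntegral.integral_const,
      intervalIntegral.integral_const_mul, smul_eq_mul]
    · have h1 := hI t ht
      have h2 : (1 - t) * ((20 * δ)⁻¹ + 1 / 5) ≤ δ * ((20 * δ)⁻¹ + 1 / 5) := by
        gcongr
        linarith [ht.1]
      have h3 : δ * ((20 * δ)⁻¹ + 1 / 5) = 1 / 20 + δ / 5 := by field_simp
      have h4 : 20 * δ * ∫ τ in t..1, H τ ^ 2 ≤ 20 * δ * B := by gcongr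
      linarith
    · exact continuousOn_const.intervalIntegrable_of_Icc ht.2
    · exact (continuousOn_const.mul (hHt.pow 2)).intervalIntegrable_of_Icc ht.2
  have e4 : Real.exp (-Psi H (1 / 10) t) ≤ t * (5 / 4) := by
    rw [e1, Real.exp_add, Real.exp_log ht0]
    gcongr
    exact (Real.exp_le_exp.2 (e2.trans e3)).trans exp_fifth
  linarith

section
variable {n : ℕ} {M : Type*} [MetricSpace M] [ChartedSpace (EuclideanSpace ℝ (Fin n)) M]
  [IsManifold (𝓡 n) ∞ M]
  [RiemannianBundle (fun p : M => TangentSpace (𝓡 n) p)]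
  [IsContMDiffRiemannianBundle (𝓡 n) ∞ (EuclideanSpace ℝ (Fin n)) (fun p : M => TangentSpace (𝓡 n) p)]
  [IsRiemannianManifold (𝓡 n) M] [ProperSpace M]

local notation "𝔼" => EuclideanSpace ℝ (Fin n)

/-- the integral of `|Hess h - g|²` along the last part of an extendable minimiser -/
theorem integral_devA_le (hm : ExM M) {κ : ℝ} (hK : HasRicciLowerBound n M (-κ))
    {x g v : M} (hxg : x ≠ g) (hgv : g ≠ v) (hb : dist x g + dist g v = dist x v)
    {T : ℝ → M} (hT0 : T 0 = x) (hT1 : T 1 = g)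
    (hTd : ∀ s ∈ Icc (0 : ℝ) 1, ∀ t ∈ Icc (0 : ℝ) 1, dist (T s) (T t) = |s - t| * dist x g)
    (hOm : ∀ t ∈ Icc (0 : ℝ) 1, (x, T t) ∈ Om M) {t : ℝ} (ht0 : 0 < t) (ht1 : t ≤ 1) :
    ∫ τ in t..1, devA n x (T τ) ≤
      n + dist x g / dist g v * (n + κ * dist g v ^ 2 / 3) + κ * dist x g ^ 2 / 3 := by
  set r := dist x g with hr
  have hr0 : 0 < r := dist_pos.2 hxg
  set γ : ℝ → M := fun s => T (s / r) with hγdef
  have hmem : ∀ s ∈ Icc 0 r, s / r ∈ Icc (0 : ℝ) 1 := fun s hs =>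
    ⟨div_nonneg hs.1 hr0.le, (div_le_one hr0).2 hs.2⟩
  have hγ : ∀ s ∈ Icc 0 r, ∀ t ∈ Icc 0 r, dist (γ s) (γ t) = |s - t| := by
    intro s hs t ht
    rw [hγdef]
    dsimp only
    rw [hTd _ (hmem s hs) _ (hmem t ht), ← sub_div, abs_div, abs_of_pos hr0]
    field_simp
  have hγ0 : γ 0 = x := by simp [hγdef, hT0]
  have hγr : γ r = g := by simp [hγdef, hr0.ne', hT1]
  have hsc : ∀ s ∈ Icc 0 r, SC n x (γ s) := fun s hs => sc_of_Om hm (hOm _ (hmem s hs))
  have hdz : ∀ s ∈ Icc 0 r, dist x (γ s) = s := by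
    intro s hs
    rw [← hγ0, hγ 0 ⟨le_rfl, hr0.le⟩ s hs, zero_sub, abs_neg, abs_of_nonneg hs.1]
  obtain ⟨i1, i2⟩ := mLap_integral hm hK hr0 hγ hγ0 (hsc r ⟨hr0.le, le_rfl⟩)
  rw [hγr] at i2
  -- continuity of `devA` along `γ`
  have hγc : ContinuousOn γ (Icc 0 r) := by
    have : LipschitzOnWith 1 γ (Icc 0 r) := by
      refine LipschitzOnWith.of_dist_le_mul fun s hs t ht => ?_
      rw [hγ s hs t ht, Real.dist_eq]; simp
    exact this.continuousOn
  have hdc : ContinuousOn (fun s => devA n x (γ s)) (Icc 0 r) := fun s hs =>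
    (continuousAt_devA (hsc s hs)).comp_continuousWithinAt (hγc s hs)
  have hpt : ∀ s ∈ Icc 0 r, devA n x (γ s) ≤ mDev n (halfDistSq x) (γ s) + κ * s ^ 2 := by
    intro s hs
    have := devA_le hm hK (hsc s hs)
    rwa [hdz s hs] at this
  have htr0 : 0 < t * r := by positivity
  have htr1 : t * r ≤ r := by nlinarith
  have hsub : Icc (t * r) r ⊆ Icc 0 r := Icc_subset_Icc htr0.le le_rfl
  have i3 : IntervalIntegrable (fun s => mDev n (halfDistSq x) (γ s) + κ * s ^ 2) volume 0 r :=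
    i1.add ((continuous_const.mul (continuous_id.pow 2)).intervalIntegrable _ _)
  have i4 : IntervalIntegrable (fun s => mDev n (halfDistSq x) (γ s) + κ * s ^ 2) volume (t * r) r :=
    i3.mono_set (by
      rw [uIcc_of_le htr1, uIcc_of_le hr0.le]
      exact hsub)
  have e1 : ∫ s in (t * r)..r, devA n x (γ s) ≤
      ∫ s in (t * r)..r, (mDev n (halfDistSq x) (γ s) + κ * s ^ 2) :=
    intervalIntegral.integral_mono_on htr1
      ((hdc.mono hsub).intervalIntegrable_of_Icc htr1) i4 fun s hs => hpt s (hsub hs)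
  have e2 : ∫ s in (t * r)..r, (mDev n (halfDistSq x) (γ s) + κ * s ^ 2) ≤
      ∫ s in (0 : ℝ)..r, (mDev n (halfDistSq x) (γ s) + κ * s ^ 2) := by
    refine intervalIntegral.integral_mono_interval htr0.le htr1 le_rfl ?_ i3
    rw [Filter.EventuallyLE, ae_restrict_iff' measurableSet_Ioc]
    refine Eventually.of_forall fun s hs => ?_
    have hs' : s ∈ Icc 0 r := ⟨hs.1.le, hs.2⟩
    exact (devA_nonneg (hsc s hs')).trans (hpt s hs')
  have e3 : ∫ s in (0 : ℝ)..r, (mDev n (halfDistSq x) (γ s) + κ * s ^ 2) =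
      r * (n - mLap n (halfDistSq x) g) + κ * r ^ 3 / 3 := by
    have i5 : IntervalIntegrable (fun s : ℝ => κ * s ^ 2) volume 0 r :=
      (continuous_const.mul (continuous_id.pow 2)).intervalIntegrable _ _
    rw [intervalIntegral.integral_add i1 i5, i2, intervalIntegral.integral_const_mul, integral_pow]
    norm_num
    ring
  have e4 : ∫ s in (t * r)..r, devA n x (γ s) = r * ∫ τ in t..1, devA n x (T τ) := by
    have := intervalIntegral.integral_comp_div (a := t * r) (b := r)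
      (fun τ => devA n x (T τ)) hr0.ne'
    rw [mul_div_assoc, div_self hr0.ne', mul_one, smul_eq_mul] at this
    exact this
  have e5 := defect_le hm hK hxg hgv hb
  have e6 : r * ∫ τ in t..1, devA n x (T τ) ≤
      r * (n + r / dist g v * (n + κ * dist g v ^ 2 / 3) + κ * r ^ 2 / 3) := by
    rw [← e4]
    refine (e1.trans e2).trans ?_
    rw [e3]
    have e7 : r * (n - mLap n (halfDistSq x) g) ≤
        r * (n + r / dist g v * (n + κ * dist g v ^ 2 / 3)) := by gcongr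
    linarith
  exact le_of_mul_le_mul_left e6 hr0

variable [MeasurableSpace M] [BorelSpace M] {μ : Measure M}

/-- **(BASE)** for one ray -/
theorem base_ray (hm : ExM M) {κ κ' : ℝ} (hκ1 : κ ≤ 1)
    (hK : HasRicciLowerBound n M (-κ)) (C : Rad n κ' M μ) {N0 : ℝ} (hN : 3200 * (n + 12) ≤ N0)
    {x v : M} (hv : (x, v) ∈ C.U) (hvd : dist x v < 12) {r L : ℝ} (hL : 0 < L) (h1 : N0 * L ≤ r)
    (h2 : N0 * L ≤ dist x v - r) :
    ∃ ρ₀ > 0, ∀ y, dist y (ray C x v r) < ρ₀ → (x, y) ∈ C.U →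
      ∀ t ∈ Icc (1 - 4 * L / r) 1,
        dist (C.T x t y) (C.T x t (ray C x v r)) ≤ 2 * t * dist y (ray C x v r) := by
  have hn0 : (0 : ℝ) ≤ n := Nat.cast_nonneg n
  have hN8 : 38400 ≤ N0 := by nlinarith
  have hNL : 0 < N0 * L := by positivity
  have hr0 : 0 < r := hNL.trans_le h1
  set ℓ := dist x v with hℓ
  have hℓ0 : 0 < ℓ := by linarith
  have hrℓ : r < ℓ := by linarith
  set g := ray C x v r with hg
  have hq : r / ℓ ∈ Ioc (0 : ℝ) 1 := ⟨by positivity, (div_le_one hℓ0).2 hrℓ.le⟩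
  have hgU : (x, g) ∈ C.U := C.sub x v hv _ hq
  have hxg : dist x g = r := by
    have := C.dist_left hv (Ioc_subset_Icc_self hq)
    rw [hg, ray, ← hℓ, this, ← hℓ]
    field_simp
  have hgv : dist g v = ℓ - r := by
    have := C.dist_right hv (Ioc_subset_Icc_self hq)
    rw [hg, ray, ← hℓ, this, ← hℓ]
    field_simp
  have hxg' : x ≠ g := dist_pos.1 (by rw [hxg]; exact hr0)
  have hgv' : g ≠ v := dist_pos.1 (by rw [hgv]; linarith)
  have hb : dist x g + dist g v = dist x v := by rw [hxg, hgv, ← hℓ]; ring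
  set δ := 4 * L / r with hδ
  have hδ0 : 0 < δ := by positivity
  have hδN : δ ≤ 4 / N0 := by
    rw [hδ, div_le_div_iff₀ hr0 (by linarith)]
    nlinarith
  have hδ2 : δ ≤ 1 / 2 := by
    refine hδN.trans ?_
    rw [div_le_iff₀ (by linarith)]
    linarith
  have hsub : Icc (1 - δ) 1 ⊆ Icc (0 : ℝ) 1 := Icc_subset_Icc (by linarith) le_rfl
  have hOm : ∀ t ∈ Icc (0 : ℝ) 1, (x, C.T x t g) ∈ Om M := by
    intro t ht
    have e1 := C.dist_left hgU ht
    have e2 := C.dist_right hgU ht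
    rw [hxg] at e1 e2
    have e3 := dist_triangle (C.T x t g) g v
    have e4 := dist_triangle x (C.T x t g) v
    rw [hgv, e2] at e3
    rw [e1, ← hℓ] at e4
    have e5 : dist (C.T x t g) v = ℓ - t * r := by
      apply le_antisymm <;> linarith
    refine mem_Om_of_btw (y' := v) ?_ ?_
    · apply dist_pos.1
      rw [e5]
      nlinarith [ht.2]
    · rw [e1, e5, ← hℓ]
      ring
  have hsc : ∀ t ∈ Icc (0 : ℝ) 1, SC n x (C.T x t g) := fun t ht => sc_of_Om hm (hOm t ht)
  have hTc : ContinuousOn (fun t => C.T x t g) (Icc 0 1) := by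
    have : LipschitzOnWith ⟨r, hr0.le⟩ (fun t => C.T x t g) (Icc 0 1) := by
      refine LipschitzOnWith.of_dist_le_mul fun s hs t ht => ?_
      rw [C.dist_T x g hgU s hs t ht, hxg, Real.dist_eq, mul_comm]
      rfl
    exact this.continuousOn
  have hdc : ContinuousOn (fun t => devA n x (C.T x t g)) (Icc 0 1) := fun t ht =>
    ContinuousAt.comp_continuousWithinAt (f := fun t => C.T x t g) (continuousAt_devA (hsc t ht))
      (hTc t ht)
  have hH : ContinuousOn (fun t => √(devA n x (C.T x t g))) (Icc (1 - δ) 1) :=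
    (Real.continuous_sqrt.comp_continuousOn hdc).mono hsub
  obtain ⟨ρ₀, hρ₀, hspread⟩ := spread n hm (x := x) (g := g) (S := {y | (x, y) ∈ C.U})
    (T := fun y t => C.T x t y) hgU (tmin := 1 - δ) (by linarith) (by linarith)
    (fun y hy => C.T_one x y hy) (fun y hy t ht => C.dist_left hy (hsub ht))
    (fun y hy s hs t ht => C.dist_T x y hy s (hsub hs) t (hsub ht))
    (fun t ht => hOm t (hsub ht)) hH (ε := 1 / 10) (by norm_num)
  set B : ℝ := n + r / (ℓ - r) * (n + κ * (ℓ - r) ^ 2 / 3) + κ * r ^ 2 / 3 with hB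
  have hI : ∀ t ∈ Icc (1 - δ) 1, ∫ τ in t..1, √(devA n x (C.T x τ g)) ^ 2 ≤ B := by
    intro t ht
    have e1 := integral_devA_le hm hK hxg' hgv' hb (T := fun t => C.T x t g)
      (C.T_zero x g hgU) (C.T_one x g hgU) (fun s hs t ht => C.dist_T x g hgU s hs t ht) hOm
      (t := t) (by linarith [ht.1]) ht.2
    rw [hxg, hgv, ← hB] at e1
    refine le_trans (le_of_eq ?_) e1
    apply intervalIntegral.integral_congr
    intro τ hτ
    rw [uIcc_of_le ht.2] at hτ
    exact Real.sq_sqrt (devA_nonneg (hsc τ ⟨by linarith [ht.1, hτ.1], hτ.2⟩))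
  have hδB : δ * B ≤ 1 / 400 := by
    have hs0 : 0 < ℓ - r := by linarith
    have e1 : δ * B = 4 * (n * (L / r + L / (ℓ - r)) + κ * L * ℓ / 3) := by
      rw [hδ, hB]
      field_simp
      ring
    have e2 : L / r ≤ 1 / N0 := by
      rw [div_le_div_iff₀ hr0 (by linarith)]
      linarith
    have e3 : L / (ℓ - r) ≤ 1 / N0 := by
      rw [div_le_div_iff₀ hs0 (by linarith)]
      linarith
    have e4 : L ≤ 6 / N0 := by
      rw [le_div_iff₀ (by linarith)]
      linarith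
    have e5 : κ * L * ℓ ≤ 1 * (6 / N0) * 12 := by gcongr
    have e6 : n * (L / r + L / (ℓ - r)) ≤ n * (1 / N0 + 1 / N0) := by gcongr
    have e7 : 4 * (n * (1 / N0 + 1 / N0) + 1 * (6 / N0) * 12 / 3) ≤ 1 / 400 := by
      have : 4 * (n * (1 / N0 + 1 / N0) + 1 * (6 / N0) * 12 / 3) = 8 * (n + 12) / N0 := by
        field_simp
        ring
      rw [this, div_le_div_iff₀ (by linarith) (by norm_num)]
      linarith
    rw [e1]
    linarith
  refine ⟨ρ₀, hρ₀, fun y hy hyU t ht => ?_⟩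
  refine (hspread y hyU hy t ht).trans ?_
  have := exp_bound hδ0 hδ2 hH hI hδB ht
  gcongr

/-- **(BASE)**: the literal field `base` of `FarD` -/
theorem base (hm : ExM M) {κ κ' : ℝ} (hκ1 : κ ≤ 1)
    (hK : HasRicciLowerBound n M (-κ)) (C : Rad n κ' M μ) {N0 : ℝ} (hN : 3200 * (n + 12) ≤ N0)
    (x : M) :
    ∀ᵐ v ∂μ, dist x v < 12 → ∀ r L : ℝ, 0 < L → N0 * L ≤ r → N0 * L ≤ dist x v - r →
      ∃ ρ₀ > 0, ∀ y, dist y (ray C x v r) < ρ₀ → (x, y) ∈ C.U →
        ∀ t ∈ Icc (1 - 4 * L / r) 1,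
          dist (C.T x t y) (C.T x t (ray C x v r)) ≤ 2 * t * dist y (ray C x v r) := by
  filter_upwards [C.ae_U x] with v hv hvd r L hL h1 h2
  exact base_ray hm hκ1 hK C hN hv hvd hL h1 h2

end

end Crest.Agent.R247.Bs342
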