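import Mathlib.Analysis.SpecialFunctions.Pow.Real
import Mathlib.Analysis.SpecificLimits.Basic
import Mathlib.Tactic

-- ▼ part R247/Clo1_858
section

/-!
# Closing numerics of block (1) (doc 1392, section 5), part 1

One-sided rising sun for finite windows, product bounds, iteration of the backward recursion.
-/

set_option autoImplicit false

namespace Crest.Agent.R247.Clo858

open Finset

noncomputable section

/-- number of bad indices in `[i, j)` -/
def nb (bad : ℕ → Prop) [DecidablePred bad] (i j : ℕ) : ℕ := ((Finset.Ico i j).filter bad).card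

section basics

variable {bad : ℕ → Prop} [DecidablePred bad]

lemma nb_mono_left {i i' j : ℕ} (h : i ≤ i') : nb bad i' j ≤ nb bad i j := by
  unfold nb
  exact Finset.card_le_card (Finset.filter_subset_filter _ (Finset.Ico_subset_Ico_left h))


lemma nb_add {i j k : ℕ} (h1 : i ≤ j) (h2 : j ≤ k) : nb bad i j + nb bad j k = nb bad i k := by
  unfold nb
  rw [← Finset.Ico_union_Ico_eq_Ico h1 h2, Finset.filter_union, Finset.card_union_of_disjoint]
  exact Finset.disjoint_filter_filter (Finset.Ico_disjoint_Ico_consecutive i j k)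

lemma nb_succ {i j : ℕ} (h : i ≤ j) : nb bad i (j + 1) = nb bad i j + (if bad j then 1 else 0) := by
  rw [← nb_add h (Nat.le_succ j)]
  congr 1
  unfold nb
  rw [Nat.Ico_succ_singleton, Finset.filter_singleton]
  split <;> simp

lemma nb_self {i : ℕ} : nb bad i i = 0 := by simp [nb]

open Classical in
/-- indices in `[a, n)` starting a window in `[a, n)` with bad density `> c` -/
def wit (bad : ℕ → Prop) [DecidablePred bad] (c : ℝ) (n a : ℕ) : Finset ℕ :=
  (Finset.Ico a n).filter (fun i => ∃ j, i < j ∧ j ≤ n ∧ c * ((j - i : ℕ) : ℝ) < (nb bad i j : ℝ))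

lemma mem_wit {c : ℝ} {n a i : ℕ} : i ∈ wit bad c n a ↔ (a ≤ i ∧ i < n) ∧
    ∃ j, i < j ∧ j ≤ n ∧ c * ((j - i : ℕ) : ℝ) < (nb bad i j : ℝ) := by
  classical
  simp only [wit, Finset.mem_filter, Finset.mem_Ico]

/-- **one-sided rising sun** on a finite window. -/
lemma rising {c : ℝ} (hc : 0 ≤ c) (n : ℕ) : ∀ d a : ℕ, n - a = d →
    c * ((wit bad c n a).card : ℝ) ≤ (nb bad a n : ℝ) := by
  classical
  intro d
  induction d using Nat.strong_induction_on with
  | _ d ih =>
    intro a ha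
    rcases Nat.lt_or_ge a n with han | han
    · by_cases hw : ∃ j, a < j ∧ j ≤ n ∧ c * ((j - a : ℕ) : ℝ) < (nb bad a j : ℝ)
      · obtain ⟨j, haj, hjn, hj⟩ := hw
        have h1 := ih (n - j) (by omega) j rfl
        have h2 : (wit bad c n a).card ≤ (j - a) + (wit bad c n j).card := by
          have hsub : wit bad c n a ⊆ Finset.Ico a j ∪ wit bad c n j := by
            intro i hi
            rw [mem_wit] at hi
            rw [Finset.mem_union, Finset.mem_Ico, mem_wit]
            rcases Nat.lt_or_ge i j with h | h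
            · exact Or.inl ⟨hi.1.1, h⟩
            · exact Or.inr ⟨⟨h, hi.1.2⟩, hi.2⟩
          refine (Finset.card_le_card hsub).trans ((Finset.card_union_le _ _).trans ?_)
          simp
        have h3 : (nb bad a n : ℝ) = (nb bad a j : ℝ) + (nb bad j n : ℝ) := by
          rw [← nb_add haj.le hjn]; push_cast; ring
        have h4 : ((wit bad c n a).card : ℝ) ≤ ((j - a : ℕ) : ℝ) + ((wit bad c n j).card : ℝ) := by
          exact_mod_cast h2
        calc c * ((wit bad c n a).card : ℝ)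
            ≤ c * (((j - a : ℕ) : ℝ) + ((wit bad c n j).card : ℝ)) := by gcongr
          _ ≤ _ := by rw [h3]; nlinarith
      · have h1 := ih (n - (a + 1)) (by omega) (a + 1) rfl
        have h2 : wit bad c n a ⊆ wit bad c n (a + 1) := by
          intro i hi
          rw [mem_wit] at hi ⊢
          refine ⟨⟨?_, hi.1.2⟩, hi.2⟩
          rcases Nat.lt_or_ge a i with h | h
          · exact h
          · have : i = a := le_antisymm h hi.1.1
            subst this
            exact absurd hi.2 hw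
        have h3 : (nb bad (a + 1) n : ℝ) ≤ (nb bad a n : ℝ) := by
          exact_mod_cast nb_mono_left (Nat.le_succ a)
        have h4 : ((wit bad c n a).card : ℝ) ≤ ((wit bad c n (a + 1)).card : ℝ) := by
          exact_mod_cast Finset.card_le_card h2
        refine le_trans ?_ (h1.trans h3)
        gcongr
    · have : wit bad c n a = ∅ := by
        ext i
        rw [mem_wit]
        constructor
        · rintro ⟨h, -⟩; omega
        · intro h; simp at h
      rw [this]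
      simp

end basics

/-- natural powers against a small density of bad indices -/
lemma exists_dens {G γ : ℝ} (hG : 1 ≤ G) (hγ : 1 < γ) :
    ∃ c : ℝ, 0 < c ∧ ∀ m n : ℕ, (m : ℝ) ≤ c * n → G ^ m ≤ γ ^ n := by
  have hG0 : 0 < G := by linarith
  have hγ0 : 0 < γ := by linarith
  have hL : 0 ≤ Real.log G := Real.log_nonneg hG
  have hl : 0 < Real.log γ := Real.log_pos hγ
  refine ⟨Real.log γ / (Real.log G + 1), by positivity, fun m n h => ?_⟩
  rw [← Real.log_le_log_iff (by positivity) (by positivity), Real.log_pow, Real.log_pow]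
  have h1 : (m : ℝ) * (Real.log G + 1) ≤ n * Real.log γ := by
    have := mul_le_mul_of_nonneg_right h (show 0 ≤ Real.log G + 1 by linarith)
    calc (m : ℝ) * (Real.log G + 1) ≤ Real.log γ / (Real.log G + 1) * n * (Real.log G + 1) := this
      _ = n * Real.log γ := by field_simp
  nlinarith [(Nat.cast_nonneg m : (0 : ℝ) ≤ m)]

section products

variable (bad : ℕ → Prop) [DecidablePred bad] (gg Gb : ℝ)

/-- growth factor of scale `l` -/
def GG (l : ℕ) : ℝ := if bad l then Gb else gg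

/-- `∏_{l ∈ [i,j)} G_l / √2` -/
def PP (i j : ℕ) : ℝ := ∏ l ∈ Finset.Ico i j, GG bad gg Gb l * (Real.sqrt 2)⁻¹

variable {bad gg Gb}

lemma GG_pos (hg : 1 ≤ gg) (hG : 1 ≤ Gb) (l : ℕ) : 0 < GG bad gg Gb l := by
  unfold GG; split <;> linarith

lemma PP_nonneg (hg : 1 ≤ gg) (hG : 1 ≤ Gb) (i j : ℕ) : 0 ≤ PP bad gg Gb i j :=
  Finset.prod_nonneg fun l _ => mul_nonneg (GG_pos hg hG l).le (by positivity)

lemma PP_self (i : ℕ) : PP bad gg Gb i i = 1 := by simp [PP]

lemma PP_succ {i j : ℕ} (h : i ≤ j) :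
    PP bad gg Gb i (j + 1) = PP bad gg Gb i j * (GG bad gg Gb j * (Real.sqrt 2)⁻¹) := by
  unfold PP
  rw [Finset.prod_Ico_succ_top h]

lemma PP_le (hg : 1 ≤ gg) (hG : 1 ≤ Gb) {i j : ℕ} (h : i ≤ j) :
    PP bad gg Gb i j ≤ (gg / Real.sqrt 2) ^ (j - i) * Gb ^ (nb bad i j) := by
  induction j, h using Nat.le_induction with
  | base => simp [PP_self, nb_self]
  | succ j hij ih =>
    rw [PP_succ hij, nb_succ hij, Nat.succ_sub hij, pow_succ]
    have h2 : (0 : ℝ) < Real.sqrt 2 := by positivity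
    have hq : 0 ≤ gg / Real.sqrt 2 := by positivity
    have hstep : GG bad gg Gb j * (Real.sqrt 2)⁻¹ ≤
        gg / Real.sqrt 2 * Gb ^ (if bad j then 1 else 0) := by
      unfold GG
      split
      · rw [pow_one, div_eq_mul_inv]
        have : Gb * (Real.sqrt 2)⁻¹ ≤ gg * (Gb * (Real.sqrt 2)⁻¹) :=
          le_mul_of_one_le_left (by positivity) hg
        linarith
      · rw [pow_zero, mul_one, div_eq_mul_inv]
    calc PP bad gg Gb i j * (GG bad gg Gb j * (Real.sqrt 2)⁻¹)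
        ≤ ((gg / Real.sqrt 2) ^ (j - i) * Gb ^ (nb bad i j)) *
          (gg / Real.sqrt 2 * Gb ^ (if bad j then 1 else 0)) := by
          apply mul_le_mul ih hstep
          · exact mul_nonneg (GG_pos hg hG j).le (by positivity)
          · positivity
      _ = _ := by rw [pow_add]; ring

/-- iteration of the backward recursion -/
lemma iterate {CB : ℝ} {r x : ℕ → ℝ} {i m : ℕ} (him : i ≤ m) (hg : 1 ≤ gg) (hG : 1 ≤ Gb)
    (h : ∀ j, i ≤ j → j < m → r j ≤ GG bad gg Gb j * ((Real.sqrt 2)⁻¹ * r (j + 1) + CB * x j)) :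
    r i ≤ Real.sqrt 2 * CB * ∑ j ∈ Finset.Ico i m, PP bad gg Gb i (j + 1) * x j +
      PP bad gg Gb i m * r m := by
  induction m, him using Nat.le_induction with
  | base => simp [PP_self]
  | succ m him ih =>
    have h1 := ih (fun j h1 h2 => h j h1 (by omega))
    have h2 := h m him (Nat.lt_succ_self m)
    have hP := PP_nonneg (bad := bad) hg hG i m
    have h3 := mul_le_mul_of_nonneg_left h2 hP
    rw [Finset.sum_Ico_succ_top him, PP_succ him]
    have hs : Real.sqrt 2 * (Real.sqrt 2)⁻¹ = 1 := mul_inv_cancel₀ (by positivity)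
    calc r i ≤ _ := h1
      _ ≤ Real.sqrt 2 * CB * ∑ j ∈ Finset.Ico i m, PP bad gg Gb i (j + 1) * x j +
          PP bad gg Gb i m * (GG bad gg Gb m * ((Real.sqrt 2)⁻¹ * r (m + 1) + CB * x m)) := by
          linarith
      _ = Real.sqrt 2 * CB * ∑ j ∈ Finset.Ico i m, PP bad gg Gb i (j + 1) * x j +
          PP bad gg Gb i m * GG bad gg Gb m * (Real.sqrt 2)⁻¹ * r (m + 1) +
          (1 : ℝ) * (PP bad gg Gb i m * GG bad gg Gb m * CB * x m) := by ring
      _ = _ := by rw [← hs]; ring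

/-- one geometric bound used twice -/
lemma geo_bound {CB X R y z v lam γ : ℝ} {r x : ℕ → ℝ} {j J : ℕ} (hjJ : j ≤ J)
    (hCB : 0 ≤ CB) (hX : 0 ≤ X) (hR : 0 ≤ R) (hy : 0 ≤ y) (hz : 0 ≤ z)
    (hv : 0 ≤ v) (hlam : 0 ≤ lam) (hγ : 1 ≤ γ) (hyv : γ * y ≤ v) (hzv : γ * z ≤ v) (hlv : lam * v < 1)
    (hlam1 : lam ≤ 1)
    (hPP : ∀ i, j ≤ i → i ≤ J → PP bad gg Gb j i ≤ lam ^ (i - j) * γ ^ (1 + i))
    (hx0 : ∀ i, j ≤ i → i < J → 0 ≤ x i)
    (hx : ∀ i, j ≤ i → i < J → x i ≤ X * y ^ i)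
    (hrJ : r J ≤ R * z ^ J) (hrJ0 : 0 ≤ r J)
    (h : r j ≤ Real.sqrt 2 * CB * ∑ i ∈ Finset.Ico j J, PP bad gg Gb j (i + 1) * x i +
      PP bad gg Gb j J * r J) :
    r j ≤ (Real.sqrt 2 * CB * (γ ^ 2 * X / (1 - lam * v)) + γ * R) * v ^ j := by
  have hγ0 : 0 ≤ γ := by linarith
  have h1v : 0 < 1 - lam * v := by linarith
  have hsum : ∑ i ∈ Finset.Ico j J, PP bad gg Gb j (i + 1) * x i ≤
      γ ^ 2 * X / (1 - lam * v) * v ^ j := by
    have hterm : ∀ i ∈ Finset.Ico j J, PP bad gg Gb j (i + 1) * x i ≤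
        γ ^ 2 * X * v ^ j * (lam * v) ^ (i - j) := by
      intro i hi
      rw [Finset.mem_Ico] at hi
      have h1 := hPP (i + 1) (by omega) (by omega)
      have h2 := hx i hi.1 hi.2
      have h3 : (i + 1 - j) = (i - j) + 1 := by omega
      have h4 : v ^ i = v ^ j * v ^ (i - j) := by rw [← pow_add]; congr 1; omega
      calc PP bad gg Gb j (i + 1) * x i
          ≤ (lam ^ (i + 1 - j) * γ ^ (1 + (i + 1))) * (X * y ^ i) :=
            mul_le_mul h1 h2 (hx0 i hi.1 hi.2) (by positivity)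
        _ = lam * (γ ^ 2 * X * lam ^ (i - j) * (γ * y) ^ i) := by
            rw [h3, mul_pow]; ring
        _ ≤ 1 * (γ ^ 2 * X * lam ^ (i - j) * (γ * y) ^ i) := by
            gcongr
        _ ≤ 1 * (γ ^ 2 * X * lam ^ (i - j) * v ^ i) := by gcongr
        _ = γ ^ 2 * X * v ^ j * (lam * v) ^ (i - j) := by rw [h4, mul_pow]; ring
    calc ∑ i ∈ Finset.Ico j J, PP bad gg Gb j (i + 1) * x i
        ≤ ∑ i ∈ Finset.Ico j J, γ ^ 2 * X * v ^ j * (lam * v) ^ (i - j) := Finset.sum_le_sum hterm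
      _ = γ ^ 2 * X * v ^ j * ∑ i ∈ Finset.Ico j J, (lam * v) ^ (i - j) := by
          rw [Finset.mul_sum]
      _ = γ ^ 2 * X * v ^ j * ∑ k ∈ Finset.range (J - j), (lam * v) ^ k := by
          rw [Finset.sum_Ico_eq_sum_range]
          congr 1
          apply Finset.sum_congr rfl
          intro k _
          congr 1
          omega
      _ ≤ γ ^ 2 * X * v ^ j * (1 - lam * v)⁻¹ := by
          have : ∑ k ∈ Finset.range (J - j), (lam * v) ^ k ≤ (1 - lam * v)⁻¹ := by
            rw [← tsum_geometric_of_lt_one (by positivity) hlv]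
            exact (summable_geometric_of_lt_one (by positivity) hlv).sum_le_tsum _
              (fun k _ => by positivity)
          gcongr
      _ = γ ^ 2 * X / (1 - lam * v) * v ^ j := by rw [div_eq_mul_inv]; ring
  have htop : PP bad gg Gb j J * r J ≤ γ * R * v ^ j := by
    have h1 := hPP J hjJ le_rfl
    have h4 : v ^ J = v ^ j * v ^ (J - j) := by rw [← pow_add]; congr 1; omega
    calc PP bad gg Gb j J * r J ≤ (lam ^ (J - j) * γ ^ (1 + J)) * (R * z ^ J) :=
          mul_le_mul h1 hrJ hrJ0 (by positivity)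
      _ = γ * R * lam ^ (J - j) * (γ * z) ^ J := by rw [mul_pow]; ring
      _ ≤ γ * R * lam ^ (J - j) * v ^ J := by gcongr
      _ = γ * R * v ^ j * (lam * v) ^ (J - j) := by rw [h4, mul_pow]; ring
      _ ≤ γ * R * v ^ j * 1 := by
          gcongr
          exact pow_le_one₀ (by positivity) hlv.le
      _ = _ := by ring
  calc r j ≤ _ := h
    _ ≤ Real.sqrt 2 * CB * (γ ^ 2 * X / (1 - lam * v) * v ^ j) + γ * R * v ^ j := by gcongr
    _ = _ := by ring

end products

end

end Crest.Agent.R247.Clo858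
end

-- ▼ part R247/Clo2_858

/-!
# Closing numerics of block (1) (doc 1392, section 5), part 2: decay of the excess
-/

set_option autoImplicit false

namespace Crest.Agent.R247.Clo858

open Finset

noncomputable section

/-- existence of roots -/
lemma exists_root {a : ℝ} (h0 : 0 < a) (h1 : a < 1) {n : ℕ} (hn : n ≠ 0) :
    ∃ θ : ℝ, 0 < θ ∧ θ < 1 ∧ θ ^ n = a := by
  refine ⟨a ^ ((n : ℝ)⁻¹), Real.rpow_pos_of_pos h0 _, ?_, Real.rpow_inv_natCast_pow h0.le hn⟩
  apply Real.rpow_lt_one h0.le h1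
  positivity

/-- no window `[i, j)`, `j ≤ J`, has bad density above `c` -/
def Gd (bad : ℕ → Prop) [DecidablePred bad] (c : ℝ) (J i : ℕ) : Prop :=
  ∀ j, i < j → j ≤ J → (nb bad i j : ℝ) ≤ c * ((j - i : ℕ) : ℝ)

section good

variable {bad : ℕ → Prop} [DecidablePred bad]

open Classical in
/-- number of good starting points in `[j0, j)` -/
lemma card_good {c3 c4 : ℝ} (hc4 : 0 < c4) (hc3 : 16 * c3 ≤ c4) {J j j0 : ℕ}
    (hbad : ∀ j, j ≤ J → (nb bad 0 j : ℝ) ≤ c3 * (1 + j)) (hj : 2 * j ≤ J) (hj1 : 1 ≤ j) :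
    j ≤ 2 * ((Finset.Ico j0 j).filter (fun i => Gd bad c4 J i)).card + 2 * j0 := by
  have hsub : (Finset.Ico j0 j).filter (fun i => ¬ Gd bad c4 J i) ⊆ wit bad c4 (2 * j) 0 := by
    intro i hi
    rw [Finset.mem_filter, Finset.mem_Ico] at hi
    obtain ⟨⟨_, hij⟩, hng⟩ := hi
    rw [mem_wit]
    refine ⟨⟨Nat.zero_le _, by omega⟩, ?_⟩
    unfold Gd at hng
    push Not at hng
    obtain ⟨j', hij', hj'J, hlt⟩ := hng
    refine ⟨j', hij', ?_, hlt⟩
    by_contra hcon
    push Not at hcon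
    have h1 : (nb bad i j' : ℝ) ≤ c3 * (1 + j') :=
      le_trans (by exact_mod_cast nb_mono_left (Nat.zero_le i)) (hbad j' hj'J)
    have h2 : c4 * ((j' - i : ℕ) : ℝ) < c4 / 16 * (1 + j') := by
      refine hlt.trans_le (h1.trans ?_)
      have : c3 ≤ c4 / 16 := by linarith
      gcongr
    rw [Nat.cast_sub hij'.le] at h2
    have h3 : (16 : ℝ) * ((j' : ℝ) - i) < 1 + j' := by
      by_contra h
      push Not at h
      nlinarith
    have h4 : (2 * (i : ℝ) + 2) < j' := by
      have : 2 * i + 2 < j' := by omega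
      exact_mod_cast this
    linarith
  have hw := rising (bad := bad) hc4.le (2 * j) (2 * j - 0) 0 rfl
  have h5 := hbad (2 * j) hj
  have h6 : ((wit bad c4 (2 * j) 0).card : ℝ) ≤ (1 + 2 * (j : ℝ)) / 16 := by
    have h7 : c4 * ((wit bad c4 (2 * j) 0).card : ℝ) ≤ c3 * (1 + ((2 * j : ℕ) : ℝ)) := hw.trans h5
    push_cast at h7
    have h8 : c3 * (1 + 2 * (j : ℝ)) ≤ c4 / 16 * (1 + 2 * (j : ℝ)) := by
      have : c3 ≤ c4 / 16 := by linarith
      gcongr
    have h9 : c4 * ((wit bad c4 (2 * j) 0).card : ℝ) ≤ c4 * ((1 + 2 * (j : ℝ)) / 16) := by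
      calc _ ≤ _ := h7.trans h8
        _ = _ := by ring
    exact le_of_mul_le_mul_left h9 hc4
  have h10 : (((Finset.Ico j0 j).filter (fun i => ¬ Gd bad c4 J i)).card : ℝ) ≤
      (1 + 2 * (j : ℝ)) / 16 :=
    le_trans (by exact_mod_cast Finset.card_le_card hsub) h6
  have h11 := Finset.card_filter_add_card_filter_not (s := Finset.Ico j0 j) (fun i => Gd bad c4 J i)
  rw [Nat.card_Ico] at h11
  have h12 : ((j : ℝ)) ≤ (((Finset.Ico j0 j).filter (fun i => Gd bad c4 J i)).card : ℝ) +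
      (((Finset.Ico j0 j).filter (fun i => ¬ Gd bad c4 J i)).card : ℝ) + j0 := by
    have : j ≤ ((Finset.Ico j0 j).filter (fun i => Gd bad c4 J i)).card +
      ((Finset.Ico j0 j).filter (fun i => ¬ Gd bad c4 J i)).card + j0 := by omega
    exact_mod_cast this
  have hj1' : (1 : ℝ) ≤ j := by exact_mod_cast hj1
  have h13 : (j : ℝ) ≤ 2 * (((Finset.Ico j0 j).filter (fun i => Gd bad c4 J i)).card : ℝ) + 2 * j0 := by
    linarith
  exact_mod_cast h13

/-- constants of the contraction step -/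
lemma exists_small {CU CB Ct m : ℝ} (hCU : 0 ≤ CU) (hCB : 0 ≤ CB) (hCt : 0 ≤ Ct) (hm0 : 0 < m)
    (hm1 : m < 1) : ∃ κ : ℝ, ∃ K : ℕ, 0 < κ ∧ κ ≤ 1 / 2 ∧ 1 ≤ K ∧
      CU * (Real.sqrt 2 * CB * ((Real.sqrt (2 * κ) + Real.sqrt 2 * m ^ K) / (1 - m)) +
        Real.sqrt Ct * m ^ K) ^ 2 ≤ 1 / 2 := by
  set a0 : ℝ := 1 / (2 * (CU + 1)) with ha0
  have ha0p : 0 < a0 := by positivity
  have h1m : 0 < 1 - m := by linarith
  have hs2 : 0 < Real.sqrt 2 := by positivity
  set d : ℝ := a0 * (1 - m) / (4 * Real.sqrt 2 * (CB + 1)) with hd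
  have hdp : 0 < d := by positivity
  obtain ⟨K, hK⟩ := exists_pow_lt_of_lt_one
    (show 0 < a0 / (2 * (Real.sqrt 2 * CB * Real.sqrt 2 / (1 - m) + Real.sqrt Ct + 1)) by positivity) hm1
  refine ⟨min (1 / 2) (d ^ 2 / 2), K + 1, by positivity, min_le_left _ _, by omega, ?_⟩
  set κ := min (1 / 2) (d ^ 2 / 2)
  have hκ : Real.sqrt (2 * κ) ≤ d := by
    apply Real.sqrt_le_iff.2
    refine ⟨hdp.le, ?_⟩
    have : κ ≤ d ^ 2 / 2 := min_le_right _ _
    linarith
  have hmK : m ^ (K + 1) ≤ a0 / (2 * (Real.sqrt 2 * CB * Real.sqrt 2 / (1 - m) + Real.sqrt Ct + 1)) := by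
    refine le_trans ?_ hK.le
    exact pow_le_pow_of_le_one hm0.le hm1.le (Nat.le_succ K)
  have hA : Real.sqrt 2 * CB * ((Real.sqrt (2 * κ) + Real.sqrt 2 * m ^ (K + 1)) / (1 - m)) +
        Real.sqrt Ct * m ^ (K + 1) ≤ a0 := by
    have e1 : Real.sqrt 2 * CB * (d / (1 - m)) ≤ a0 / 2 := by
      have : Real.sqrt 2 * CB * (d / (1 - m)) = a0 * (CB / (CB + 1)) / 4 := by
        rw [hd]; field_simp
      rw [this]
      have h : CB / (CB + 1) ≤ 1 := by
        rw [div_le_one (by linarith)]; linarith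
      nlinarith
    have e2 : (Real.sqrt 2 * CB * Real.sqrt 2 / (1 - m) + Real.sqrt Ct) * m ^ (K + 1) ≤ a0 / 2 := by
      set q := Real.sqrt 2 * CB * Real.sqrt 2 / (1 - m) + Real.sqrt Ct with hq
      have hq0 : 0 ≤ q := by positivity
      calc q * m ^ (K + 1) ≤ q * (a0 / (2 * (q + 1))) := by gcongr
        _ ≤ (q + 1) * (a0 / (2 * (q + 1))) := by gcongr; linarith
        _ = a0 / 2 := by field_simp
    calc _ = Real.sqrt 2 * CB * (Real.sqrt (2 * κ) / (1 - m)) +
          (Real.sqrt 2 * CB * Real.sqrt 2 / (1 - m) + Real.sqrt Ct) * m ^ (K + 1) := by ring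
      _ ≤ Real.sqrt 2 * CB * (d / (1 - m)) + a0 / 2 := by gcongr
      _ ≤ a0 := by linarith
  have hA0 : 0 ≤ Real.sqrt 2 * CB * ((Real.sqrt (2 * κ) + Real.sqrt 2 * m ^ (K + 1)) / (1 - m)) +
        Real.sqrt Ct * m ^ (K + 1) := by positivity
  calc _ ≤ CU * a0 ^ 2 := by gcongr
    _ ≤ 1 / 2 := by
      rw [ha0]
      rw [div_pow, one_pow, mul_one_div, div_le_iff₀ (by positivity)]
      nlinarith

/-- contraction at a good index -/
lemma contr {gg Gb lam m e κ CU CB Ct c4 : ℝ} {K J i : ℕ} {T r : ℕ → ℝ}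
    (hg : 1 ≤ gg) (hG : 1 ≤ Gb) (hlam : lam = gg / Real.sqrt 2) (hm0 : 0 < m) (hm1 : m < 1)
    (hlm : lam = m ^ 4) (he1 : 1 ≤ e) (hem : e * m ≤ 1)
    (hCU : 0 ≤ CU) (hCB : 0 ≤ CB) (hCt : 0 ≤ Ct) (hκ0 : 0 < κ) (hκ1 : κ ≤ 1 / 2) (hK1 : 1 ≤ K)
    (hsmall : CU * (Real.sqrt 2 * CB * ((Real.sqrt (2 * κ) + Real.sqrt 2 * m ^ K) / (1 - m)) +
        Real.sqrt Ct * m ^ K) ^ 2 ≤ 1 / 2)
    (hc4 : ∀ a b : ℕ, (a : ℝ) ≤ c4 * b → Gb ^ a ≤ (m⁻¹ ^ 2) ^ b)
    (hT0 : ∀ j, 0 ≤ T j) (hTm : Antitone T) (hr : ∀ j, 0 ≤ r j)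
    (hU : T (i + 1) ≤ CU * r i ^ 2)
    (hB : ∀ j, i ≤ j → j < J → r j ≤ GG bad gg Gb j * ((Real.sqrt 2)⁻¹ * r (j + 1) +
      CB * Real.sqrt ((1 + κ) * T j - T (j + 2))))
    (hTop : r J ^ 2 ≤ Ct * e ^ J * T J)
    (hgd : Gd bad c4 J i) (hiK : i + K ≤ J) (h2 : J ≤ 2 * (J - i)) :
    T (i + K) ≤ (1 - κ) * T i := by
  by_contra hcon
  push Not at hcon
  have hiJ : i ≤ J := by omega
  have h1m : 0 < 1 - m := by linarith
  have he0 : 0 ≤ e := by linarith
  have hPP : ∀ j, i ≤ j → j ≤ J → PP bad gg Gb i j ≤ (m ^ 2) ^ (j - i) := by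
    intro j hij hjJ
    rcases Nat.eq_or_lt_of_le hij with h | h
    · subst h; simp [PP_self]
    · have h3 := hc4 _ _ (hgd j h hjJ)
      calc PP bad gg Gb i j ≤ (gg / Real.sqrt 2) ^ (j - i) * Gb ^ (nb bad i j) := PP_le hg hG hij
        _ ≤ (m ^ 4) ^ (j - i) * (m⁻¹ ^ 2) ^ (j - i) := by
            rw [← hlam, hlm]; gcongr
        _ = (m ^ 2) ^ (j - i) := by
            rw [← mul_pow]; congr 1; field_simp
  have hit := iterate (bad := bad) (CB := CB) (x := fun j => Real.sqrt ((1 + κ) * T j - T (j + 2)))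
    hiJ hg hG hB
  -- the sum
  have hterm : ∀ j ∈ Finset.Ico i J, PP bad gg Gb i (j + 1) * Real.sqrt ((1 + κ) * T j - T (j + 2)) ≤
      Real.sqrt (T i) * (Real.sqrt (2 * κ) + Real.sqrt 2 * m ^ K) * m ^ (j - i) := by
    intro j hj
    rw [Finset.mem_Ico] at hj
    have hp := hPP (j + 1) (by omega) (by omega)
    have hTj : T j ≤ T i := hTm hj.1
    rcases Nat.lt_or_ge (i + K) (j + 2) with hlt | hge
    · have hx : Real.sqrt ((1 + κ) * T j - T (j + 2)) ≤ Real.sqrt 2 * Real.sqrt (T i) := by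
        rw [← Real.sqrt_mul (by norm_num)]
        apply Real.sqrt_le_sqrt
        have := hT0 (j + 2)
        nlinarith [hT0 j]
      calc PP bad gg Gb i (j + 1) * Real.sqrt ((1 + κ) * T j - T (j + 2))
          ≤ (m ^ 2) ^ (j + 1 - i) * (Real.sqrt 2 * Real.sqrt (T i)) :=
            mul_le_mul hp hx (Real.sqrt_nonneg _) (by positivity)
        _ = Real.sqrt (T i) * (Real.sqrt 2 * m ^ (j + 1 - i)) * m ^ (j + 1 - i) := by
            rw [← pow_mul, mul_comm 2, pow_mul]; ring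
        _ ≤ Real.sqrt (T i) * (Real.sqrt 2 * m ^ K) * m ^ (j - i) := by
            have hA := pow_le_pow_of_le_one hm0.le hm1.le (show K ≤ j + 1 - i by omega)
            have hB' := pow_le_pow_of_le_one hm0.le hm1.le (show j - i ≤ j + 1 - i by omega)
            exact mul_le_mul (mul_le_mul_of_nonneg_left
              (mul_le_mul_of_nonneg_left hA (Real.sqrt_nonneg _)) (Real.sqrt_nonneg _)) hB'
              (by positivity) (by positivity)
        _ ≤ _ := by
            gcongr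
            linarith [Real.sqrt_nonneg (2 * κ)]
    · have hx : Real.sqrt ((1 + κ) * T j - T (j + 2)) ≤ Real.sqrt (2 * κ) * Real.sqrt (T i) := by
        rw [← Real.sqrt_mul (by positivity)]
        apply Real.sqrt_le_sqrt
        have h5 : T (i + K) ≤ T (j + 2) := hTm (by omega)
        nlinarith [hT0 j]
      calc PP bad gg Gb i (j + 1) * Real.sqrt ((1 + κ) * T j - T (j + 2))
          ≤ (m ^ 2) ^ (j + 1 - i) * (Real.sqrt (2 * κ) * Real.sqrt (T i)) :=
            mul_le_mul hp hx (Real.sqrt_nonneg _) (by positivity)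
        _ = Real.sqrt (T i) * Real.sqrt (2 * κ) * m ^ (2 * (j + 1 - i)) := by
            rw [← pow_mul]; ring
        _ ≤ Real.sqrt (T i) * Real.sqrt (2 * κ) * m ^ (j - i) := by
            gcongr _ * ?_
            exact pow_le_pow_of_le_one hm0.le hm1.le (by omega)
        _ ≤ _ := by
            gcongr
            have : 0 ≤ Real.sqrt 2 * m ^ K := by positivity
            linarith
  have hsum : ∑ j ∈ Finset.Ico i J, PP bad gg Gb i (j + 1) *
      Real.sqrt ((1 + κ) * T j - T (j + 2)) ≤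
      Real.sqrt (T i) * ((Real.sqrt (2 * κ) + Real.sqrt 2 * m ^ K) / (1 - m)) := by
    calc _ ≤ ∑ j ∈ Finset.Ico i J,
          Real.sqrt (T i) * (Real.sqrt (2 * κ) + Real.sqrt 2 * m ^ K) * m ^ (j - i) :=
          Finset.sum_le_sum hterm
      _ = Real.sqrt (T i) * (Real.sqrt (2 * κ) + Real.sqrt 2 * m ^ K) *
          ∑ k ∈ Finset.range (J - i), m ^ k := by
          rw [← Finset.mul_sum, Finset.sum_Ico_eq_sum_range]
          congr 1
          apply Finset.sum_congr rfl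
          intro k _
          congr 1
          omega
      _ ≤ Real.sqrt (T i) * (Real.sqrt (2 * κ) + Real.sqrt 2 * m ^ K) * (1 - m)⁻¹ := by
          have : ∑ k ∈ Finset.range (J - i), m ^ k ≤ (1 - m)⁻¹ := by
            rw [← tsum_geometric_of_lt_one hm0.le hm1]
            exact (summable_geometric_of_lt_one hm0.le hm1).sum_le_tsum _
              (fun k _ => by positivity)
          gcongr
      _ = _ := by rw [div_eq_mul_inv]; ring
  -- the top term
  have hrJ : r J ≤ Real.sqrt Ct * e ^ (J - i) * Real.sqrt (T i) := by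
    have h3 : r J ^ 2 ≤ (Real.sqrt Ct * e ^ (J - i) * Real.sqrt (T i)) ^ 2 := by
      calc r J ^ 2 ≤ Ct * e ^ J * T J := hTop
        _ ≤ Ct * e ^ (2 * (J - i)) * T i := by
            have := hT0 J
            gcongr
            · exact hTm hiJ
        _ = _ := by
            rw [mul_pow, mul_pow, Real.sq_sqrt hCt, Real.sq_sqrt (hT0 i), ← pow_mul]
            ring_nf
    exact (sq_le_sq₀ (hr J) (by positivity)).1 h3
  have htop : PP bad gg Gb i J * r J ≤ Real.sqrt (T i) * (Real.sqrt Ct * m ^ K) := by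
    calc PP bad gg Gb i J * r J ≤ (m ^ 2) ^ (J - i) *
          (Real.sqrt Ct * e ^ (J - i) * Real.sqrt (T i)) :=
          mul_le_mul (hPP J hiJ le_rfl) hrJ (hr J) (by positivity)
      _ = Real.sqrt (T i) * (Real.sqrt Ct * ((e * m) ^ (J - i) * m ^ (J - i))) := by
          rw [mul_pow, ← pow_mul, mul_comm 2, pow_mul]; ring
      _ ≤ Real.sqrt (T i) * (Real.sqrt Ct * (1 * m ^ K)) := by
          have hA := pow_le_pow_of_le_one hm0.le hm1.le (show K ≤ J - i by omega)
          have hB' : (e * m) ^ (J - i) ≤ 1 := pow_le_one₀ (by positivity) hem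
          exact mul_le_mul_of_nonneg_left (mul_le_mul_of_nonneg_left
            (mul_le_mul hB' hA (by positivity) zero_le_one) (Real.sqrt_nonneg _))
            (Real.sqrt_nonneg _)
      _ = _ := by ring
  have hri : r i ≤ Real.sqrt (T i) *
      (Real.sqrt 2 * CB * ((Real.sqrt (2 * κ) + Real.sqrt 2 * m ^ K) / (1 - m)) +
        Real.sqrt Ct * m ^ K) := by
    calc r i ≤ _ := hit
      _ ≤ Real.sqrt 2 * CB * (Real.sqrt (T i) *
          ((Real.sqrt (2 * κ) + Real.sqrt 2 * m ^ K) / (1 - m))) +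
          Real.sqrt (T i) * (Real.sqrt Ct * m ^ K) := by gcongr
      _ = _ := by ring
  have h6 : T (i + 1) ≤ T i / 2 := by
    calc T (i + 1) ≤ CU * r i ^ 2 := hU
      _ ≤ CU * (Real.sqrt (T i) *
          (Real.sqrt 2 * CB * ((Real.sqrt (2 * κ) + Real.sqrt 2 * m ^ K) / (1 - m)) +
            Real.sqrt Ct * m ^ K)) ^ 2 := by
          have := hr i
          gcongr
      _ = T i * (CU * (Real.sqrt 2 * CB * ((Real.sqrt (2 * κ) + Real.sqrt 2 * m ^ K) / (1 - m)) +
            Real.sqrt Ct * m ^ K) ^ 2) := by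
          rw [mul_pow, Real.sq_sqrt (hT0 i)]; ring
      _ ≤ T i * (1 / 2) := by
          have := hT0 i
          gcongr
      _ = T i / 2 := by ring
  have h7 : T (i + K) ≤ T (i + 1) := hTm (by omega)
  have := hT0 i
  nlinarith

/-- decay from contraction at good indices -/
lemma decay {c3 c4 κ b3 : ℝ} {K J j0 : ℕ} {T : ℕ → ℝ} (hc4 : 0 < c4) (hc3 : 16 * c3 ≤ c4)
    (hbad : ∀ j, j ≤ J → (nb bad 0 j : ℝ) ≤ c3 * (1 + j))
    (hT0 : ∀ j, 0 ≤ T j) (hT2 : ∀ j, T j ≤ 2) (hTm : Antitone T) (hK1 : 1 ≤ K)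
    (hκ1 : κ ≤ 1 / 2) (hκ0 : 0 < κ) (hb0 : 0 < b3) (hb1 : b3 < 1) (hbK : b3 ^ (16 * K) = 1 - κ)
    (hctr : ∀ i, j0 ≤ i → Gd bad c4 J i → i + K ≤ J → J ≤ 2 * (J - i) → T (i + K) ≤ (1 - κ) * T i) :
    ∀ m, m ≤ J → T m ≤ 2 * (b3⁻¹ ^ (4 * (4 * K + 4 * j0 + 2))) * (b3 ^ 4) ^ m := by
  classical
  obtain ⟨K', rfl⟩ : ∃ K', K = K' + 1 := ⟨K - 1, by omega⟩
  set Pi : ℕ → ℝ := fun i => ∏ l ∈ Finset.range (K' + 1), T (i + l) with hPi
  have hPi0 : ∀ i, 0 ≤ Pi i := fun i => Finset.prod_nonneg fun l _ => hT0 _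
  have hstep : ∀ i (ρ : ℝ), 0 ≤ ρ → T (i + (K' + 1)) ≤ ρ * T i → Pi (i + 1) ≤ ρ * Pi i := by
    intro i ρ hρ h
    simp only [hPi]
    rw [Finset.prod_range_succ, Finset.prod_range_succ' (fun l => T (i + l))]
    have h1 : ∏ l ∈ Finset.range K', T (i + 1 + l) = ∏ l ∈ Finset.range K', T (i + (l + 1)) :=
      Finset.prod_congr rfl fun l _ => by congr 1; omega
    have h2 : T (i + 1 + K') = T (i + (K' + 1)) := by congr 1; omega
    rw [h1, h2, add_zero]
    have h3 : 0 ≤ ∏ l ∈ Finset.range K', T (i + (l + 1)) := Finset.prod_nonneg fun l _ => hT0 _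
    nlinarith
  -- bound of Pi
  have hPiB : ∀ j, j0 ≤ j → 2 * j ≤ J → K' + 1 ≤ j →
      Pi j ≤ 2 ^ (K' + 1) * (1 - κ) ^ ((Finset.Ico j0 j).filter (fun i => Gd bad c4 J i)).card := by
    intro j hj0 hjJ hKj
    have key : ∀ j', j0 ≤ j' → j' ≤ j → Pi j' ≤ 2 ^ (K' + 1) *
        (1 - κ) ^ ((Finset.Ico j0 j').filter (fun i => Gd bad c4 J i)).card := by
      intro j' hj'
      induction j', hj' using Nat.le_induction with
      | base =>
        intro _
        simp only [Finset.Ico_self, Finset.filter_empty, Finset.card_empty, pow_zero, mul_one]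
        calc Pi j0 ≤ ∏ l ∈ Finset.range (K' + 1), (2 : ℝ) :=
              Finset.prod_le_prod (fun l _ => hT0 _) (fun l _ => hT2 _)
          _ = 2 ^ (K' + 1) := by simp
      | succ i hi ih =>
        intro hij
        have h1 := ih (by omega)
        have h1κ : 0 ≤ 1 - κ := by linarith
        by_cases hgd : Gd bad c4 J i
        · have h2 := hstep i (1 - κ) h1κ (hctr i hi hgd (by omega) (by omega))
          have h3 : ((Finset.Ico j0 (i + 1)).filter (fun i => Gd bad c4 J i)).card =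
              ((Finset.Ico j0 i).filter (fun i => Gd bad c4 J i)).card + 1 := by
            rw [← Finset.insert_Ico_right_eq_Ico_add_one hi, Finset.filter_insert, if_pos hgd,
              Finset.card_insert_of_notMem]
            simp
          rw [h3, pow_succ]
          calc Pi (i + 1) ≤ (1 - κ) * Pi i := h2
            _ ≤ (1 - κ) * (2 ^ (K' + 1) *
              (1 - κ) ^ ((Finset.Ico j0 i).filter (fun i => Gd bad c4 J i)).card) := by gcongr
            _ = _ := by ring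
        · have h2 := hstep i 1 zero_le_one (by rw [one_mul]; exact hTm (by omega))
          have h3 : ((Finset.Ico j0 (i + 1)).filter (fun i => Gd bad c4 J i)).card =
              ((Finset.Ico j0 i).filter (fun i => Gd bad c4 J i)).card := by
            rw [← Finset.insert_Ico_right_eq_Ico_add_one hi, Finset.filter_insert, if_neg hgd]
          rw [h3]
          linarith
    exact key j hj0 le_rfl
  have hTj : ∀ j, j0 ≤ j → 2 * j ≤ J → K' + 1 ≤ j →
      T (j + (K' + 1)) ≤ 2 * (b3 ^ 8) ^ (j - 2 * j0) := by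
    intro j hj0 hjJ hKj
    have h1 := hPiB j hj0 hjJ hKj
    have h2 : T (j + (K' + 1)) ^ (K' + 1) ≤ Pi j := by
      calc T (j + (K' + 1)) ^ (K' + 1) = ∏ _l ∈ Finset.range (K' + 1), T (j + (K' + 1)) := by simp
        _ ≤ Pi j := by
          apply Finset.prod_le_prod (fun l _ => hT0 _)
          intro l hl
          rw [Finset.mem_range] at hl
          exact hTm (by omega)
    have h3 := card_good (j0 := j0) hc4 hc3 hbad hjJ (by omega)
    set mm := ((Finset.Ico j0 j).filter (fun i => Gd bad c4 J i)).card with hmm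
    have h4 : (1 - κ) ^ mm ≤ ((b3 ^ 8) ^ (j - 2 * j0)) ^ (K' + 1) := by
      rw [← hbK, ← pow_mul, ← pow_mul, ← pow_mul]
      apply pow_le_pow_of_le_one hb0.le hb1.le
      have : j - 2 * j0 ≤ 2 * mm := by omega
      calc 8 * ((j - 2 * j0) * (K' + 1)) ≤ 8 * ((2 * mm) * (K' + 1)) := by gcongr
        _ = 16 * (K' + 1) * mm := by ring
    have h5 : T (j + (K' + 1)) ^ (K' + 1) ≤ (2 * (b3 ^ 8) ^ (j - 2 * j0)) ^ (K' + 1) := by
      rw [mul_pow]
      calc _ ≤ _ := h2.trans h1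
        _ ≤ _ := by gcongr
    exact (pow_le_pow_iff_left₀ (hT0 _) (by positivity) (by omega)).1 h5
  intro m hm
  set N0 := 4 * (K' + 1) + 4 * j0 + 2 with hN0
  have hrew : 2 * (b3⁻¹ ^ (4 * N0)) * (b3 ^ 4) ^ m = 2 * ((b3 ^ 4) ^ m / (b3 ^ 4) ^ N0) := by
    rw [inv_pow, ← pow_mul b3 4 N0]; field_simp
  rw [hrew]
  have hb4 : 0 < b3 ^ 4 := by positivity
  have hb41 : b3 ^ 4 ≤ 1 := pow_le_one₀ hb0.le hb1.le
  rcases Nat.lt_or_ge N0 m with hlt | hge
  · have h1 := hTj (m / 2 - (K' + 1)) (by omega) (by omega) (by omega)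
    have h2 : T m ≤ T (m / 2 - (K' + 1) + (K' + 1)) := hTm (by omega)
    refine h2.trans (h1.trans ?_)
    have h3 : (b3 ^ 4) ^ m / (b3 ^ 4) ^ N0 = (b3 ^ 4) ^ (m - N0) := by
      rw [div_eq_iff (by positivity), ← pow_add]; congr 1; omega
    rw [h3]
    gcongr 2 * ?_
    rw [← pow_mul, ← pow_mul]
    apply pow_le_pow_of_le_one hb0.le hb1.le
    omega
  · have h3 : 1 ≤ (b3 ^ 4) ^ m / (b3 ^ 4) ^ N0 := by
      rw [one_le_div (by positivity)]
      exact pow_le_pow_of_le_one hb4.le hb41 hge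
    linarith [hT2 m]

end good

end

end Crest.Agent.R247.Clo858
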