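import Mathlib.MeasureTheory.Integral.IntervalIntegral.AbsolutelyContinuousFun
import Mathlib.MeasureTheory.Integral.IntervalIntegral.FundThmCalculus
import Mathlib.Analysis.SpecialFunctions.SmoothTransition
import Mathlib.Analysis.Calculus.ContDiff.Deriv

-- ▼ part R247/Cur1_301
section

/-!
# R247, block (1), doc 1392 section 6, deterministic part (1): calculus of antiderivatives

`AD F f a b` : `F` is an indefinite integral of the integrable function `f` on `[a, b]`.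
-/

set_option autoImplicit false
noncomputable section
open Set Filter Topology MeasureTheory
open scoped Interval

namespace Crest.Agent.R247.Cur301

/-- `F` is an indefinite integral of `f` on `[a, b]`. -/
structure AD (F f : ℝ → ℝ) (a b : ℝ) : Prop where
  le : a ≤ b
  int : IntervalIntegrable f volume a b
  eq : ∀ x ∈ Icc a b, F x = F a + ∫ y in a..x, f y

namespace AD
variable {F f G g : ℝ → ℝ} {a b : ℝ}

lemma int_sub (h : AD F f a b) {x y : ℝ} (hx : x ∈ Icc a b) (hy : y ∈ Icc a b) :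
    IntervalIntegrable f volume x y :=
  h.int.mono_set (by
    rw [uIcc_of_le h.le]
    exact uIcc_subset_Icc hx hy)

lemma sub_eq (h : AD F f a b) {x y : ℝ} (hx : x ∈ Icc a b) (hy : y ∈ Icc a b) :
    F y - F x = ∫ z in x..y, f z := by
  have ha : a ∈ Icc a b := left_mem_Icc.2 h.le
  rw [h.eq x hx, h.eq y hy, ← intervalIntegral.integral_add_adjacent_intervals
    (h.int_sub ha hx) (h.int_sub hx hy)]
  ring

lemma mono (h : AD F f a b) {x y : ℝ} (hx : x ∈ Icc a b) (hy : y ∈ Icc a b) (hxy : x ≤ y) :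
    AD F f x y where
  le := hxy
  int := h.int_sub hx hy
  eq := fun z hz => by
    have hz' : z ∈ Icc a b := ⟨hx.1.trans hz.1, hz.2.trans hy.2⟩
    have := h.sub_eq hx hz'
    linarith

lemma congr {F' f' : ℝ → ℝ} (h : AD F f a b) (hF : ∀ x ∈ Icc a b, F' x = F x)
    (hf : ∀ᵐ x, x ∈ Icc a b → f' x = f x) : AD F' f' a b where
  le := h.le
  int := by
    refine h.int.congr_ae ?_
    rw [uIoc_of_le h.le]
    refine (ae_restrict_iff' measurableSet_Ioc).2 ?_
    filter_upwards [hf] with x hx hx'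
    exact (hx (Ioc_subset_Icc_self hx')).symm
  eq := fun x hx => by
    rw [hF x hx, hF a (left_mem_Icc.2 h.le), h.eq x hx]
    congr 1
    apply intervalIntegral.integral_congr_ae
    filter_upwards [hf] with z hz hz'
    rw [uIoc_of_le hx.1] at hz'
    exact (hz ⟨hz'.1.le, hz'.2.trans hx.2⟩).symm

/-- the global representative -/
def ext (F f : ℝ → ℝ) (a : ℝ) (x : ℝ) : ℝ := F a + ∫ y in a..x, f y

lemma ac_ext (h : AD F f a b) : AbsolutelyContinuousOnInterval (ext F f a) a b := by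
  have h1 := h.int.absolutelyContinuousOnInterval_intervalIntegral (c := a) (by simp)
  have h2 : AbsolutelyContinuousOnInterval (fun _ : ℝ => F a) a b := by
    have h3 : LipschitzOnWith 0 (fun _ : ℝ => F a) (uIcc a b) := by
      intro x _ y _
      simp
    exact h3.absolutelyContinuousOnInterval
  exact h2.add h1

lemma deriv_ext (h : AD F f a b) : ∀ᵐ x, x ∈ uIcc a b → HasDerivAt (ext F f a) (f x) x := by
  filter_upwards [h.int.ae_hasDerivAt_integral] with x hx hx'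
  exact (hx hx' a (by simp)).const_add _

lemma ext_eq (h : AD F f a b) {x : ℝ} (hx : x ∈ Icc a b) : ext F f a x = F x := (h.eq x hx).symm

lemma continuousOn (h : AD F f a b) : ContinuousOn F (Icc a b) := by
  have h1 := h.ac_ext.continuousOn
  rw [uIcc_of_le h.le] at h1
  exact h1.congr fun x hx => (h.ext_eq hx).symm

lemma intervalIntegrable (h : AD F f a b) : IntervalIntegrable F volume a b := by
  apply ContinuousOn.intervalIntegrable
  rw [uIcc_of_le h.le]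
  exact h.continuousOn

lemma add (h : AD F f a b) (h' : AD G g a b) :
    AD (fun x => F x + G x) (fun x => f x + g x) a b where
  le := h.le
  int := h.int.add h'.int
  eq := fun x hx => by
    have ha : a ∈ Icc a b := left_mem_Icc.2 h.le
    rw [intervalIntegral.integral_add (h.int_sub ha hx) (h'.int_sub ha hx), h.eq x hx, h'.eq x hx]
    ring

lemma const_mul (h : AD F f a b) (c : ℝ) : AD (fun x => c * F x) (fun x => c * f x) a b where
  le := h.le
  int := h.int.const_mul c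
  eq := fun x hx => by
    rw [intervalIntegral.integral_const_mul, h.eq x hx]
    ring

lemma sub (h : AD F f a b) (h' : AD G g a b) :
    AD (fun x => F x - G x) (fun x => f x - g x) a b := by
  have := h.add (h'.const_mul (-1))
  refine this.congr (fun x _ => by ring) (Eventually.of_forall fun x _ => by ring)

lemma const (hab : a ≤ b) (c : ℝ) : AD (fun _ => c) (fun _ => 0) a b where
  le := hab
  int := by simp
  eq := fun x _ => by simp

lemma mul (h : AD F f a b) (h' : AD G g a b) :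
    AD (fun x => F x * G x) (fun x => f x * G x + F x * g x) a b := by
  have hi : IntervalIntegrable (fun x => f x * G x + F x * g x) volume a b := by
    have hc1 := h.continuousOn
    have hc2 := h'.continuousOn
    rw [← uIcc_of_le h.le] at hc1 hc2
    exact (h.int.mul_continuousOn hc2).add (h'.int.continuousOn_mul hc1)
  refine ⟨h.le, hi, fun x hx => ?_⟩
  have ha : a ∈ Icc a b := left_mem_Icc.2 h.le
  have hsub : uIcc a x ⊆ uIcc a b := by
    rw [uIcc_of_le h.le]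
    exact uIcc_subset_Icc ha hx
  have h1 := AbsolutelyContinuousOnInterval.integral_deriv_mul_eq_sub
    (h.ac_ext.mono hsub) (h'.ac_ext.mono hsub)
  have h2 : ∫ y in a..x, (deriv (ext F f a) y * ext G g a y + ext F f a y * deriv (ext G g a) y) =
      ∫ y in a..x, (f y * G y + F y * g y) := by
    apply intervalIntegral.integral_congr_ae
    filter_upwards [h.deriv_ext, h'.deriv_ext] with y hy hy' hyx
    have hy1 : y ∈ uIcc a b := hsub (uIoc_subset_uIcc hyx)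
    have hy2 : y ∈ Icc a b := by rwa [uIcc_of_le h.le] at hy1
    rw [(hy hy1).deriv, (hy' hy1).deriv, h.ext_eq hy2, h'.ext_eq hy2]
  rw [h2, h.ext_eq hx, h'.ext_eq hx, h.ext_eq ha, h'.ext_eq ha] at h1
  linarith

/-- `C¹` functions. -/
lemma of_hasDerivAt (hab : a ≤ b) (h : ∀ x ∈ Icc a b, HasDerivAt F (f x) x)
    (hf : ContinuousOn f (Icc a b)) : AD F f a b where
  le := hab
  int := by
    apply ContinuousOn.intervalIntegrable
    rwa [uIcc_of_le hab]
  eq := fun x hx => by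
    have ha : a ∈ Icc a b := left_mem_Icc.2 hab
    rw [intervalIntegral.integral_eq_sub_of_hasDerivAt]
    · ring
    · intro y hy
      exact h y (uIcc_subset_Icc ha hx hy)
    · apply ContinuousOn.intervalIntegrable
      exact hf.mono (uIcc_subset_Icc ha hx)

lemma integral_eq (h : AD F f a b) : ∫ y in a..b, f y = F b - F a :=
  (h.sub_eq (left_mem_Icc.2 h.le) (right_mem_Icc.2 h.le)).symm

/-- Integration by parts with vanishing boundary values. -/
lemma parts (h : AD F f a b) (h' : AD G g a b) (h0 : F a * G a = 0) (h1 : F b * G b = 0) :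
    ∫ x in a..b, F x * g x = - ∫ x in a..b, f x * G x := by
  have h2 := (h.mul h').integral_eq
  have hc1 := h.continuousOn
  have hc2 := h'.continuousOn
  rw [← uIcc_of_le h.le] at hc1 hc2
  rw [intervalIntegral.integral_add (h.int.mul_continuousOn hc2) (h'.int.continuousOn_mul hc1),
    h0, h1] at h2
  linarith

/-- oscillation bound -/
lemma abs_sub_le (h : AD F f a b) {x y : ℝ} (hx : x ∈ Icc a b) (hy : y ∈ Icc a b) :
    |F y - F x| ≤ ∫ z in a..b, |f z| := by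
  have key : ∀ x y, x ∈ Icc a b → y ∈ Icc a b → x ≤ y → |F y - F x| ≤ ∫ z in a..b, |f z| := by
    intro x y hx hy hxy
    rw [h.sub_eq hx hy]
    refine (intervalIntegral.abs_integral_le_integral_abs hxy).trans ?_
    exact intervalIntegral.integral_mono_interval hx.1 hxy hy.2
      (Eventually.of_forall fun z => abs_nonneg _) h.int.abs
  rcases le_total x y with h1 | h1
  · exact key x y hx hy h1
  · rw [abs_sub_comm]
    exact key y x hy hx h1

end AD

end Crest.Agent.R247.Cur301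
end
end

-- ▼ part R247/Cur2_301
section

/-!
# R247, block (1), doc 1392 section 6, deterministic part (2): the cutoff functions

`chi` : smooth, `1` on `(-∞, 1/2]`, `0` on `[1, ∞)`; `ch s τ = chi (τ / s)`, derivatives `ch1`, `ch2`;
`ph s = ch (2 s) - ch s` supported in `[s / 2, 2 s]`, derivatives `ph1`, `ph2`.
-/

set_option autoImplicit false
noncomputable section
open Set Filter Topology MeasureTheory
open scoped Interval ContDiff

namespace Crest.Agent.R247.Cur301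

def chi (x : ℝ) : ℝ := Real.smoothTransition (2 - 2 * x)
def chi1 (x : ℝ) : ℝ := deriv chi x
def chi2 (x : ℝ) : ℝ := deriv chi1 x

lemma chi_contDiff : ContDiff ℝ ∞ chi :=
  Real.smoothTransition.contDiff.comp (by fun_prop)

lemma chi_eq_one {x : ℝ} (hx : x ≤ 1 / 2) : chi x = 1 :=
  Real.smoothTransition.one_of_one_le (by linarith)

lemma chi_eq_zero {x : ℝ} (hx : 1 ≤ x) : chi x = 0 :=
  Real.smoothTransition.zero_of_nonpos (by linarith)

lemma chi_nonneg (x : ℝ) : 0 ≤ chi x := Real.smoothTransition.nonneg _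
lemma chi_le_one (x : ℝ) : chi x ≤ 1 := Real.smoothTransition.le_one _

lemma chi1_contDiff : ContDiff ℝ ∞ chi1 := by
  have h := chi_contDiff
  rw [contDiff_infty_iff_deriv] at h
  exact h.2

lemma chi2_contDiff : ContDiff ℝ ∞ chi2 := by
  have h := chi1_contDiff
  rw [contDiff_infty_iff_deriv] at h
  exact h.2

lemma hasDerivAt_chi (x : ℝ) : HasDerivAt chi (chi1 x) x :=
  (chi_contDiff.differentiable (by simp) x).hasDerivAt

lemma hasDerivAt_chi1 (x : ℝ) : HasDerivAt chi1 (chi2 x) x :=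
  (chi1_contDiff.differentiable (by simp) x).hasDerivAt

lemma continuous_chi1 : Continuous chi1 := chi1_contDiff.continuous
lemma continuous_chi2 : Continuous chi2 := chi2_contDiff.continuous

/-- a function whose value is constant on an open set has zero derivative on its closure -/
lemma deriv_zero_closure {f f' : ℝ → ℝ} {c : ℝ} {U : Set ℝ} (hU : IsOpen U)
    (hf : ∀ x, HasDerivAt f (f' x) x) (hc : ∀ x ∈ U, f x = c) (h' : Continuous f') :
    ∀ x ∈ closure U, f' x = 0 := by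
  have h1 : ∀ x ∈ U, f' x = 0 := by
    intro x hx
    have h2 : f =ᶠ[𝓝 x] fun _ => c := by
      filter_upwards [hU.mem_nhds hx] with y hy
      exact hc y hy
    exact (hf x).unique ((hasDerivAt_const x c).congr_of_eventuallyEq h2)
  have h3 : IsClosed {x | f' x = 0} := isClosed_eq h' continuous_const
  exact fun x hx => closure_minimal (fun y hy => h1 y hy) h3 hx

lemma chi1_eq_zero {x : ℝ} (hx : x ≤ 1 / 2 ∨ 1 ≤ x) : chi1 x = 0 := by
  rcases hx with hx | hx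
  · refine deriv_zero_closure isOpen_Iio hasDerivAt_chi
      (fun y (hy : y < 1 / 2) => chi_eq_one hy.le) continuous_chi1 x ?_
    rw [closure_Iio]
    exact hx
  · refine deriv_zero_closure isOpen_Ioi hasDerivAt_chi
      (fun y (hy : 1 < y) => chi_eq_zero hy.le) continuous_chi1 x ?_
    rw [closure_Ioi]
    exact hx

lemma chi2_eq_zero {x : ℝ} (hx : x ≤ 1 / 2 ∨ 1 ≤ x) : chi2 x = 0 := by
  rcases hx with hx | hx
  · refine deriv_zero_closure isOpen_Iio hasDerivAt_chi1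
      (fun y (hy : y < 1 / 2) => chi1_eq_zero (Or.inl hy.le)) continuous_chi2 x ?_
    rw [closure_Iio]
    exact hx
  · refine deriv_zero_closure isOpen_Ioi hasDerivAt_chi1
      (fun y (hy : 1 < y) => chi1_eq_zero (Or.inr hy.le)) continuous_chi2 x ?_
    rw [closure_Ioi]
    exact hx

lemma exists_chiBound : ∃ C : ℝ, 1 ≤ C ∧ (∀ x, |chi1 x| ≤ C) ∧ ∀ x, |chi2 x| ≤ C := by
  obtain ⟨C1, h1⟩ := (isCompact_Icc (a := (0 : ℝ)) (b := 1)).exists_bound_of_continuousOn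
    continuous_chi1.continuousOn
  obtain ⟨C2, h2⟩ := (isCompact_Icc (a := (0 : ℝ)) (b := 1)).exists_bound_of_continuousOn
    continuous_chi2.continuousOn
  refine ⟨max 1 (max C1 C2), le_max_left _ _, fun x => ?_, fun x => ?_⟩
  · by_cases hx : x ∈ Icc (0 : ℝ) 1
    · exact (h1 x hx).trans ((le_max_left _ _).trans (le_max_right _ _))
    · rw [chi1_eq_zero, abs_zero]
      · exact zero_le_one.trans (le_max_left _ _)
      · by_contra h
        push Not at h
        exact hx ⟨by linarith [h.1], h.2.le⟩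
  · by_cases hx : x ∈ Icc (0 : ℝ) 1
    · exact (h2 x hx).trans ((le_max_right _ _).trans (le_max_right _ _))
    · rw [chi2_eq_zero, abs_zero]
      · exact zero_le_one.trans (le_max_left _ _)
      · by_contra h
        push Not at h
        exact hx ⟨by linarith [h.1], h.2.le⟩

/-- a bound for the derivatives of the cutoff -/
def cX : ℝ := exists_chiBound.choose

lemma one_le_cX : 1 ≤ cX := exists_chiBound.choose_spec.1
lemma abs_chi1 (x : ℝ) : |chi1 x| ≤ cX := exists_chiBound.choose_spec.2.1 x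
lemma abs_chi2 (x : ℝ) : |chi2 x| ≤ cX := exists_chiBound.choose_spec.2.2 x

/-! ### scaled cutoffs -/

def ch (s τ : ℝ) : ℝ := chi (τ / s)
def ch1 (s τ : ℝ) : ℝ := chi1 (τ / s) / s
def ch2 (s τ : ℝ) : ℝ := chi2 (τ / s) / s ^ 2

lemma hasDerivAt_ch (s τ : ℝ) : HasDerivAt (ch s) (ch1 s τ) τ := by
  have h1 : HasDerivAt (fun x : ℝ => x / s) (1 / s) τ := (hasDerivAt_id τ).div_const s
  have h2 : HasDerivAt (ch s) (chi1 (τ / s) * (1 / s)) τ := (hasDerivAt_chi (τ / s)).comp τ h1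
  refine h2.congr_deriv ?_
  unfold ch1
  ring

lemma hasDerivAt_ch1 (s τ : ℝ) : HasDerivAt (ch1 s) (ch2 s τ) τ := by
  have h1 : HasDerivAt (fun x : ℝ => x / s) (1 / s) τ := (hasDerivAt_id τ).div_const s
  have h2 : HasDerivAt (ch1 s) (chi2 (τ / s) * (1 / s) / s) τ :=
    ((hasDerivAt_chi1 (τ / s)).comp τ h1).div_const s
  refine h2.congr_deriv ?_
  unfold ch2
  ring

lemma continuous_ch (s : ℝ) : Continuous (ch s) :=
  chi_contDiff.continuous.comp (by fun_prop)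
lemma continuous_ch1 (s : ℝ) : Continuous (ch1 s) :=
  (continuous_chi1.comp (by fun_prop)).div_const _
lemma continuous_ch2 (s : ℝ) : Continuous (ch2 s) :=
  (continuous_chi2.comp (by fun_prop)).div_const _

lemma ch1_eq_zero {s τ : ℝ} (hs : 0 < s) (h : τ ≤ s / 2 ∨ s ≤ τ) : ch1 s τ = 0 := by
  rw [ch1, chi1_eq_zero, zero_div]
  rcases h with h | h
  · left
    rw [div_le_iff₀ hs]
    linarith
  · right
    rwa [le_div_iff₀ hs, one_mul]

lemma ch2_eq_zero {s τ : ℝ} (hs : 0 < s) (h : τ ≤ s / 2 ∨ s ≤ τ) : ch2 s τ = 0 := by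
  rw [ch2, chi2_eq_zero, zero_div]
  rcases h with h | h
  · left
    rw [div_le_iff₀ hs]
    linarith
  · right
    rwa [le_div_iff₀ hs, one_mul]

lemma ch_eq_one {s τ : ℝ} (hs : 0 < s) (h : τ ≤ s / 2) : ch s τ = 1 := by
  rw [ch, chi_eq_one]
  rw [div_le_iff₀ hs]
  linarith

lemma ch_eq_zero {s τ : ℝ} (hs : 0 < s) (h : s ≤ τ) : ch s τ = 0 := by
  rw [ch, chi_eq_zero]
  rwa [le_div_iff₀ hs, one_mul]

lemma ch_nonneg (s τ : ℝ) : 0 ≤ ch s τ := chi_nonneg _
lemma ch_le_one (s τ : ℝ) : ch s τ ≤ 1 := chi_le_one _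

lemma abs_ch1 {s : ℝ} (hs : 0 < s) (τ : ℝ) : |ch1 s τ| ≤ cX / s := by
  rw [ch1, abs_div, abs_of_pos hs]
  exact div_le_div_of_nonneg_right (abs_chi1 _) hs.le

lemma abs_ch2 {s : ℝ} (hs : 0 < s) (τ : ℝ) : |ch2 s τ| ≤ cX / s ^ 2 := by
  rw [ch2, abs_div, abs_of_pos (by positivity : (0 : ℝ) < s ^ 2)]
  exact div_le_div_of_nonneg_right (abs_chi2 _) (by positivity)

/-! ### the partition -/

def ph (s τ : ℝ) : ℝ := ch (2 * s) τ - ch s τ
def ph1 (s τ : ℝ) : ℝ := ch1 (2 * s) τ - ch1 s τ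
def ph2 (s τ : ℝ) : ℝ := ch2 (2 * s) τ - ch2 s τ

lemma hasDerivAt_ph (s τ : ℝ) : HasDerivAt (ph s) (ph1 s τ) τ :=
  (hasDerivAt_ch _ _).sub (hasDerivAt_ch _ _)
lemma hasDerivAt_ph1 (s τ : ℝ) : HasDerivAt (ph1 s) (ph2 s τ) τ :=
  (hasDerivAt_ch1 _ _).sub (hasDerivAt_ch1 _ _)

lemma continuous_ph (s : ℝ) : Continuous (ph s) := (continuous_ch _).sub (continuous_ch _)
lemma continuous_ph1 (s : ℝ) : Continuous (ph1 s) := (continuous_ch1 _).sub (continuous_ch1 _)
lemma continuous_ph2 (s : ℝ) : Continuous (ph2 s) := (continuous_ch2 _).sub (continuous_ch2 _)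

lemma ph_eq_zero {s τ : ℝ} (hs : 0 < s) (h : τ ≤ s / 2 ∨ 2 * s ≤ τ) : ph s τ = 0 := by
  rw [ph]
  rcases h with h | h
  · rw [ch_eq_one (by linarith) (by linarith), ch_eq_one hs h, sub_self]
  · rw [ch_eq_zero (by linarith) h, ch_eq_zero hs (by linarith), sub_self]

lemma ph1_eq_zero {s τ : ℝ} (hs : 0 < s) (h : τ ≤ s / 2 ∨ 2 * s ≤ τ) : ph1 s τ = 0 := by
  rw [ph1]
  rcases h with h | h
  · rw [ch1_eq_zero (by linarith) (Or.inl (by linarith)), ch1_eq_zero hs (Or.inl h), sub_self]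
  · rw [ch1_eq_zero (by linarith) (Or.inr h), ch1_eq_zero hs (Or.inr (by linarith)), sub_self]


lemma abs_ph (s τ : ℝ) : |ph s τ| ≤ 1 := by
  rw [ph, abs_le]
  have h1 := ch_nonneg (2 * s) τ
  have h2 := ch_nonneg s τ
  have h3 := ch_le_one (2 * s) τ
  have h4 := ch_le_one s τ
  constructor <;> linarith

lemma abs_ph1 {s : ℝ} (hs : 0 < s) (τ : ℝ) : |ph1 s τ| ≤ 2 * cX / s := by
  have hc := one_le_cX
  have h1 := abs_ch1 (by linarith : 0 < 2 * s) τ
  have h2 := abs_ch1 hs τ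
  rw [ph1]
  refine (abs_sub _ _).trans ?_
  have h3 : cX / (2 * s) ≤ cX / s := by
    apply div_le_div_of_nonneg_left (by linarith) hs (by linarith)
  have h4 : 2 * cX / s = cX / s + cX / s := by ring
  rw [h4]
  linarith

lemma abs_ph2 {s : ℝ} (hs : 0 < s) (τ : ℝ) : |ph2 s τ| ≤ 2 * cX / s ^ 2 := by
  have hc := one_le_cX
  have h1 := abs_ch2 (by linarith : 0 < 2 * s) τ
  have h2 := abs_ch2 hs τ
  rw [ph2]
  refine (abs_sub _ _).trans ?_
  have h3 : cX / (2 * s) ^ 2 ≤ cX / s ^ 2 := by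
    apply div_le_div_of_nonneg_left (by linarith) (by positivity)
    have : 0 < s ^ 2 := by positivity
    nlinarith
  have h4 : 2 * cX / s ^ 2 = cX / s ^ 2 + cX / s ^ 2 := by ring
  rw [h4]
  linarith

lemma AD_ph {s : ℝ} (a b : ℝ) (hab : a ≤ b) : AD (ph s) (ph1 s) a b :=
  AD.of_hasDerivAt hab (fun x _ => hasDerivAt_ph s x) (continuous_ph1 s).continuousOn
lemma AD_ph1 {s : ℝ} (a b : ℝ) (hab : a ≤ b) : AD (ph1 s) (ph2 s) a b :=
  AD.of_hasDerivAt hab (fun x _ => hasDerivAt_ph1 s x) (continuous_ph2 s).continuousOn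
lemma AD_ch {s : ℝ} (a b : ℝ) (hab : a ≤ b) : AD (ch s) (ch1 s) a b :=
  AD.of_hasDerivAt hab (fun x _ => hasDerivAt_ch s x) (continuous_ch1 s).continuousOn
lemma AD_ch1 {s : ℝ} (a b : ℝ) (hab : a ≤ b) : AD (ch1 s) (ch2 s) a b :=
  AD.of_hasDerivAt hab (fun x _ => hasDerivAt_ch1 s x) (continuous_ch2 s).continuousOn

end Crest.Agent.R247.Cur301
end
end

-- ▼ part R247/Cur3_301
section

/-!
# R247, block (1), doc 1392 section 6, deterministic part (3): the sharp estimate at one scale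

Everything is scalar.  Along the minimiser `σ` put `U = u ∘ σ`, `U1 = U'`, `U1' = 1 + e`
(`e = (Hess u - g)(σ', σ')`), `K = k ∘ σ` (`k = |∇u|² - 2u`), `K1 = K'` and
`N = τ² - 2 τ U' + K + 2 U = |τ σ' - ∇u|² ≥ 0`.  Then `N' = K' - 2 τ e`.
-/

set_option autoImplicit false
noncomputable section
open Set Filter Topology MeasureTheory
open scoped Interval

namespace Crest.Agent.R247.Cur301

/-- `|τ σ' - ∇u|²` -/
def Nf (U U1 K : ℝ → ℝ) (τ : ℝ) : ℝ := τ ^ 2 - 2 * τ * U1 τ + K τ + 2 * U τ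

lemma AD_Nf {U U1 e K K1 : ℝ → ℝ} {a b : ℝ} (hU : AD U U1 a b)
    (hU1 : AD U1 (fun τ => 1 + e τ) a b) (hK : AD K K1 a b) :
    AD (Nf U U1 K) (fun τ => K1 τ - 2 * τ * e τ) a b := by
  have hid : AD (fun τ : ℝ => τ) (fun _ => (1 : ℝ)) a b :=
    AD.of_hasDerivAt hU.le (fun x _ => hasDerivAt_id x) continuousOn_const
  have h := (((hid.mul hid).sub ((hid.mul hU1).const_mul 2)).add hK).add (hU.const_mul 2)
  refine h.congr (fun x _ => ?_) (Eventually.of_forall fun x _ => ?_)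
  · unfold Nf
    ring
  · ring

/-- the sup bound of `N` and the bound of its variation -/
theorem N_bound {N N1 G H : ℝ → ℝ} {a b A X Nb : ℝ} (hab : a < b) (ha : 0 < a)
    (hN : AD N N1 a b) (hN0 : ∀ τ ∈ Icc a b, 0 ≤ N τ)
    (hN1 : ∀ᵐ τ, τ ∈ Icc a b → |N1 τ| ≤ G τ * √(N τ) / τ + 2 * H τ * N τ / τ)
    (hG : IntervalIntegrable G volume a b) (hH : IntervalIntegrable H volume a b)
    (hG0 : ∀ᵐ τ, τ ∈ Icc a b → 0 ≤ G τ) (hH0 : ∀ᵐ τ, τ ∈ Icc a b → 0 ≤ H τ)
    (hA : ∫ τ in a..b, G τ / τ ≤ A) (hX : ∫ τ in a..b, H τ / τ ≤ X) (hX8 : X ≤ 1 / 8)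
    (hNb : ∫ τ in a..b, N τ ≤ (b - a) * Nb) :
    ∃ S : ℝ, 0 ≤ S ∧ S ≤ 2 * (Nb + A ^ 2) ∧ ∫ τ in a..b, |N1 τ| ≤ √S * A + 2 * S * X := by
  -- the maximum
  obtain ⟨τ₁, hτ₁, hmax⟩ := isCompact_Icc.exists_isMaxOn (nonempty_Icc.2 hab.le) hN.continuousOn
  set S := N τ₁ with hS
  have hS0 : 0 ≤ S := hN0 _ hτ₁
  have hmax' : ∀ τ ∈ Icc a b, N τ ≤ S := fun τ hτ => hmax hτ
  -- a point below the mean
  obtain ⟨τ₀, hτ₀, hmin⟩ := isCompact_Icc.exists_isMinOn (nonempty_Icc.2 hab.le) hN.continuousOn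
  have hmin' : ∀ τ ∈ Icc a b, N τ₀ ≤ N τ := fun τ hτ => hmin hτ
  have h0 : N τ₀ ≤ Nb := by
    have h1 : (b - a) * N τ₀ ≤ ∫ τ in a..b, N τ := by
      have h2 := intervalIntegral.integral_mono_on hab.le
        (intervalIntegrable_const (c := N τ₀)) hN.intervalIntegrable hmin'
      simpa using h2
    have h2 : (b - a) * N τ₀ ≤ (b - a) * Nb := h1.trans hNb
    exact le_of_mul_le_mul_left h2 (sub_pos.2 hab)
  -- integrability of `G/τ`, `H/τ`
  have hinv : ContinuousOn (fun τ : ℝ => τ⁻¹) (uIcc a b) := by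
    rw [uIcc_of_le hab.le]
    exact continuousOn_inv₀.mono fun τ hτ => (ha.trans_le hτ.1).ne'
  have hGi : IntervalIntegrable (fun τ => G τ / τ) volume a b := by
    simp only [div_eq_mul_inv]
    exact hG.mul_continuousOn hinv
  have hHi : IntervalIntegrable (fun τ => H τ / τ) volume a b := by
    simp only [div_eq_mul_inv]
    exact hH.mul_continuousOn hinv
  -- the variation
  have hvar : ∫ τ in a..b, |N1 τ| ≤ √S * A + 2 * S * X := by
    have h1 : ∫ τ in a..b, |N1 τ| ≤ ∫ τ in a..b, (√S * (G τ / τ) + 2 * S * (H τ / τ)) := by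
      apply intervalIntegral.integral_mono_ae_restrict hab.le hN.int.abs
        ((hGi.const_mul _).add (hHi.const_mul _))
      refine (ae_restrict_iff' (measurableSet_Icc (a := a) (b := b))).2 ?_
      filter_upwards [hN1, hG0, hH0] with τ h1 h2 h3 hτ
      have hτ0 : 0 < τ := ha.trans_le hτ.1
      refine (h1 hτ).trans ?_
      have h4 : √(N τ) ≤ √S := Real.sqrt_le_sqrt (hmax' τ hτ)
      have h5 : G τ * √(N τ) / τ ≤ √S * (G τ / τ) := by
        rw [mul_div_right_comm, mul_comm (√S)]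
        exact mul_le_mul_of_nonneg_left h4 (div_nonneg (h2 hτ) hτ0.le)
      have h6 : 2 * H τ * N τ / τ ≤ 2 * S * (H τ / τ) := by
        have h7 : 2 * H τ * N τ / τ = 2 * (H τ / τ) * N τ := by ring
        have h8 : 2 * S * (H τ / τ) = 2 * (H τ / τ) * S := by ring
        rw [h7, h8]
        exact mul_le_mul_of_nonneg_left (hmax' τ hτ)
          (by have := div_nonneg (h3 hτ) hτ0.le; linarith)
      linarith
    rw [intervalIntegral.integral_add (hGi.const_mul _) (hHi.const_mul _),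
      intervalIntegral.integral_const_mul, intervalIntegral.integral_const_mul] at h1
    refine h1.trans ?_
    have h2 := mul_le_mul_of_nonneg_left hA (Real.sqrt_nonneg S)
    have h3 := mul_le_mul_of_nonneg_left hX (by linarith : (0 : ℝ) ≤ 2 * S)
    linarith
  refine ⟨S, hS0, ?_, hvar⟩
  have h1 := hN.abs_sub_le hτ₀ hτ₁
  have h2 : N τ₁ - N τ₀ ≤ √S * A + 2 * S * X := (le_abs_self _).trans (h1.trans hvar)
  have h3 : √S * A ≤ S / 4 + A ^ 2 := by
    have h4 : √S ^ 2 = S := Real.sq_sqrt hS0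
    nlinarith [sq_nonneg (√S / 2 - A)]
  have h5 : 2 * S * X ≤ S / 4 := by nlinarith
  linarith

/-- `∫ ph s * e` -/
theorem ph_e_bound {s : ℝ} {K K1 N e : ℝ → ℝ} (hs : 0 < s)
    (hK : AD K K1 (s / 2) (2 * s))
    (hN : AD N (fun τ => K1 τ - 2 * τ * e τ) (s / 2) (2 * s)) {Va Kb : ℝ}
    (hVa : ∫ τ in (s / 2)..(2 * s), |K1 τ - 2 * τ * e τ| ≤ Va)
    (hKb : ∫ τ in (s / 2)..(2 * s), |K τ| ≤ (3 / 2 * s) * Kb) :
    |∫ τ in (s / 2)..(2 * s), ph s τ * e τ| ≤ 6 * cX * Kb / s + Va / s := by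
  have hab : s / 2 ≤ 2 * s := by linarith
  have hc := one_le_cX
  have hpos : ∀ τ ∈ Icc (s / 2) (2 * s), 0 < τ := fun τ hτ => by linarith [hτ.1]
  -- the function `ψ = ph s / (2 τ)`
  set ψ : ℝ → ℝ := fun τ => ph s τ * (2 * τ)⁻¹ with hψ
  set ψ1 : ℝ → ℝ := fun τ => ph1 s τ * (2 * τ)⁻¹ + ph s τ * (-(2 * τ ^ 2)⁻¹) with hψ1
  have hinvD : AD (fun τ : ℝ => (2 * τ)⁻¹) (fun τ => -(2 * τ ^ 2)⁻¹) (s / 2) (2 * s) := by
    refine AD.of_hasDerivAt hab (fun x hx => ?_) ?_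
    · have hx0 := hpos x hx
      have h1 : HasDerivAt (fun τ : ℝ => 2 * τ) 2 x := by
        simpa using (hasDerivAt_id x).const_mul 2
      have h2 := h1.inv (by positivity)
      refine h2.congr_deriv ?_
      field_simp
    · apply ContinuousOn.neg
      apply ContinuousOn.inv₀ (by fun_prop)
      intro x hx
      have := hpos x hx
      positivity
  have hψD : AD ψ ψ1 (s / 2) (2 * s) := (AD_ph _ _ hab).mul hinvD
  have hψa : ψ (s / 2) = 0 := by simp [hψ, ph_eq_zero hs (Or.inl le_rfl)]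
  have hψb : ψ (2 * s) = 0 := by simp [hψ, ph_eq_zero hs (Or.inr le_rfl)]
  have hψc : ContinuousOn ψ (uIcc (s / 2) (2 * s)) := by
    rw [uIcc_of_le hab]
    exact hψD.continuousOn
  have hψ1c : ContinuousOn ψ1 (Icc (s / 2) (2 * s)) := by
    apply ContinuousOn.add
    · apply ContinuousOn.mul (continuous_ph1 s).continuousOn
      apply ContinuousOn.inv₀ (by fun_prop)
      intro x hx
      have := hpos x hx
      positivity
    · apply ContinuousOn.mul (continuous_ph s).continuousOn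
      apply ContinuousOn.neg
      apply ContinuousOn.inv₀ (by fun_prop)
      intro x hx
      have := hpos x hx
      positivity
  have hψ1c' : ContinuousOn ψ1 (uIcc (s / 2) (2 * s)) := by rwa [uIcc_of_le hab]
  -- splitting
  have h1 : ∫ τ in (s / 2)..(2 * s), ph s τ * e τ =
      (∫ τ in (s / 2)..(2 * s), ψ τ * K1 τ) -
        ∫ τ in (s / 2)..(2 * s), ψ τ * (K1 τ - 2 * τ * e τ) := by
    rw [← intervalIntegral.integral_sub (hK.int.continuousOn_mul hψc)
      (hN.int.continuousOn_mul hψc)]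
    apply intervalIntegral.integral_congr
    intro τ hτ
    rw [uIcc_of_le hab] at hτ
    have := hpos τ hτ
    simp only [hψ]
    field_simp
    ring
  have h2 : ∫ τ in (s / 2)..(2 * s), ψ τ * K1 τ = - ∫ τ in (s / 2)..(2 * s), ψ1 τ * K τ :=
    hψD.parts hK (by rw [hψa, zero_mul]) (by rw [hψb, zero_mul])
  -- bounds
  have hψ1b : ∀ τ ∈ Icc (s / 2) (2 * s), |ψ1 τ| ≤ 4 * cX / s ^ 2 := by
    intro τ hτ
    have hτ0 := hpos τ hτ
    have hi1 : |(2 * τ)⁻¹| ≤ 1 / s := by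
      rw [abs_of_pos (by positivity), inv_eq_one_div]
      exact one_div_le_one_div_of_le hs (by linarith [hτ.1])
    have hi2 : |-(2 * τ ^ 2)⁻¹| ≤ 2 / s ^ 2 := by
      rw [abs_neg, abs_of_pos (by positivity), inv_eq_one_div, div_le_div_iff₀ (by positivity)
        (by positivity)]
      have : s ^ 2 ≤ (2 * τ) ^ 2 := by
        apply pow_le_pow_left₀ hs.le
        linarith [hτ.1]
      nlinarith
    calc |ψ1 τ| ≤ |ph1 s τ * (2 * τ)⁻¹| + |ph s τ * (-(2 * τ ^ 2)⁻¹)| := abs_add_le _ _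
      _ = |ph1 s τ| * |(2 * τ)⁻¹| + |ph s τ| * |-(2 * τ ^ 2)⁻¹| := by rw [abs_mul, abs_mul]
      _ ≤ (2 * cX / s) * (1 / s) + 1 * (2 / s ^ 2) := by
          have e1 := abs_ph1 hs τ
          have e2 := abs_ph s τ
          gcongr
      _ = (2 * cX + 2) / s ^ 2 := by field_simp
      _ ≤ 4 * cX / s ^ 2 := by
          apply div_le_div_of_nonneg_right _ (by positivity)
          linarith
  have hψb' : ∀ τ ∈ Icc (s / 2) (2 * s), |ψ τ| ≤ 1 / s := by
    intro τ hτ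
    have hτ0 := hpos τ hτ
    have hi1 : |(2 * τ)⁻¹| ≤ 1 / s := by
      rw [abs_of_pos (by positivity), inv_eq_one_div]
      exact one_div_le_one_div_of_le hs (by linarith [hτ.1])
    rw [hψ, abs_mul]
    calc |ph s τ| * |(2 * τ)⁻¹| ≤ 1 * (1 / s) := by
          have e2 := abs_ph s τ
          gcongr
      _ = 1 / s := one_mul _
  have h3 : |∫ τ in (s / 2)..(2 * s), ψ1 τ * K τ| ≤ 6 * cX * Kb / s := by
    refine (intervalIntegral.abs_integral_le_integral_abs hab).trans ?_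
    have h4 : ∫ τ in (s / 2)..(2 * s), |ψ1 τ * K τ| ≤
        ∫ τ in (s / 2)..(2 * s), (4 * cX / s ^ 2) * |K τ| := by
      apply intervalIntegral.integral_mono_on hab
        ((hK.intervalIntegrable.continuousOn_mul hψ1c').abs) (hK.intervalIntegrable.abs.const_mul _)
      intro τ hτ
      rw [abs_mul]
      exact mul_le_mul_of_nonneg_right (hψ1b τ hτ) (abs_nonneg _)
    rw [intervalIntegral.integral_const_mul] at h4
    refine h4.trans ?_
    calc 4 * cX / s ^ 2 * ∫ τ in (s / 2)..(2 * s), |K τ|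
        ≤ 4 * cX / s ^ 2 * ((3 / 2 * s) * Kb) := by gcongr
      _ = 6 * cX * Kb / s := by
          field_simp
          ring
  have h5 : |∫ τ in (s / 2)..(2 * s), ψ τ * (K1 τ - 2 * τ * e τ)| ≤ Va / s := by
    refine (intervalIntegral.abs_integral_le_integral_abs hab).trans ?_
    have h4 : ∫ τ in (s / 2)..(2 * s), |ψ τ * (K1 τ - 2 * τ * e τ)| ≤
        ∫ τ in (s / 2)..(2 * s), (1 / s) * |K1 τ - 2 * τ * e τ| := by
      apply intervalIntegral.integral_mono_on hab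
        ((hN.int.continuousOn_mul hψc).abs) (hN.int.abs.const_mul _)
      intro τ hτ
      rw [abs_mul]
      exact mul_le_mul_of_nonneg_right (hψb' τ hτ) (abs_nonneg _)
    rw [intervalIntegral.integral_const_mul] at h4
    refine h4.trans ?_
    calc 1 / s * ∫ τ in (s / 2)..(2 * s), |K1 τ - 2 * τ * e τ| ≤ 1 / s * Va := by gcongr
      _ = Va / s := by ring
  rw [h1, h2]
  calc |(-∫ τ in (s / 2)..(2 * s), ψ1 τ * K τ) -
        ∫ τ in (s / 2)..(2 * s), ψ τ * (K1 τ - 2 * τ * e τ)|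
      ≤ |(-∫ τ in (s / 2)..(2 * s), ψ1 τ * K τ)| +
        |∫ τ in (s / 2)..(2 * s), ψ τ * (K1 τ - 2 * τ * e τ)| := abs_sub _ _
    _ ≤ _ := by
        rw [abs_neg]
        linarith

/-- two integrations by parts: `∫ ph2 s * U = ∫ ph s * (1 + e)` -/
theorem ph2_U {s : ℝ} {U U1 e : ℝ → ℝ} (hs : 0 < s) (hU : AD U U1 (s / 2) (2 * s))
    (hU1 : AD U1 (fun τ => 1 + e τ) (s / 2) (2 * s)) :
    ∫ τ in (s / 2)..(2 * s), ph2 s τ * U τ = ∫ τ in (s / 2)..(2 * s), ph s τ * (1 + e τ) := by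
  have hab : s / 2 ≤ 2 * s := by linarith
  have h1 := (AD_ph1 (s := s) _ _ hab).parts hU
    (by rw [ph1_eq_zero hs (Or.inl le_rfl), zero_mul])
    (by rw [ph1_eq_zero hs (Or.inr le_rfl), zero_mul])
  have h2 := (AD_ph (s := s) _ _ hab).parts hU1
    (by rw [ph_eq_zero hs (Or.inl le_rfl), zero_mul])
    (by rw [ph_eq_zero hs (Or.inr le_rfl), zero_mul])
  linarith

/-- the quadratic part: `∫ ph2 s * (τ - v)² / 2 = ∫ ph s` -/
theorem ph2_quad {s : ℝ} (hs : 0 < s) (v : ℝ) :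
    ∫ τ in (s / 2)..(2 * s), ph2 s τ * ((τ - v) ^ 2 / 2) = ∫ τ in (s / 2)..(2 * s), ph s τ := by
  have hab : s / 2 ≤ 2 * s := by linarith
  have h1 : AD (fun τ : ℝ => (τ - v) ^ 2 / 2) (fun τ => τ - v) (s / 2) (2 * s) := by
    refine AD.of_hasDerivAt hab (fun x _ => ?_) (by fun_prop)
    have h2 : HasDerivAt (fun τ : ℝ => τ - v) 1 x := (hasDerivAt_id x).sub_const v
    refine ((h2.pow 2).div_const 2).congr_deriv ?_
    simp
  have h2 : AD (fun τ : ℝ => τ - v) (fun τ => 1 + 0) (s / 2) (2 * s) := by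
    refine AD.of_hasDerivAt hab (fun x _ => ?_) (by fun_prop)
    simpa using (hasDerivAt_id x).sub_const v
  have h3 := ph2_U (e := fun _ => 0) hs h1 h2
  simpa using h3

/-- the decomposition of `∫ ph2 s * w`, `w = U + ρ² Q - (τ - v)² / 2` -/
theorem ph2_w {s ρ v : ℝ} {U U1 e Q w : ℝ → ℝ} (hs : 0 < s) (hU : AD U U1 (s / 2) (2 * s))
    (hU1 : AD U1 (fun τ => 1 + e τ) (s / 2) (2 * s))
    (hQ : IntervalIntegrable Q volume (s / 2) (2 * s))
    (hw : ∀ τ ∈ Icc (s / 2) (2 * s), w τ = U τ + ρ ^ 2 * Q τ - (τ - v) ^ 2 / 2) :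
    ∫ τ in (s / 2)..(2 * s), ph2 s τ * w τ =
      (∫ τ in (s / 2)..(2 * s), ph s τ * e τ) +
        ρ ^ 2 * ∫ τ in (s / 2)..(2 * s), ph2 s τ * Q τ := by
  have hab : s / 2 ≤ 2 * s := by linarith
  have hc2 : ContinuousOn (ph2 s) (uIcc (s / 2) (2 * s)) := (continuous_ph2 s).continuousOn
  have hc0 : ContinuousOn (ph s) (uIcc (s / 2) (2 * s)) := (continuous_ph s).continuousOn
  have he : IntervalIntegrable e volume (s / 2) (2 * s) := by
    have := hU1.int.sub (intervalIntegrable_const (c := (1 : ℝ)))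
    refine this.congr_ae (Eventually.of_forall fun x => ?_)
    simp
  have hq : IntervalIntegrable (fun τ : ℝ => (τ - v) ^ 2 / 2) volume (s / 2) (2 * s) := by
    apply Continuous.intervalIntegrable
    fun_prop
  have h1 : ∫ τ in (s / 2)..(2 * s), ph2 s τ * w τ =
      ∫ τ in (s / 2)..(2 * s), (ph2 s τ * U τ + ρ ^ 2 * (ph2 s τ * Q τ) -
        ph2 s τ * ((τ - v) ^ 2 / 2)) := by
    apply intervalIntegral.integral_congr
    intro τ hτ
    rw [uIcc_of_le hab] at hτ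
    simp only
    rw [hw τ hτ]
    ring
  have h2 : ∫ τ in (s / 2)..(2 * s), ph s τ * (1 + e τ) =
      (∫ τ in (s / 2)..(2 * s), ph s τ) + ∫ τ in (s / 2)..(2 * s), ph s τ * e τ := by
    rw [← intervalIntegral.integral_add ((continuous_ph s).intervalIntegrable _ _)
      (he.continuousOn_mul hc0)]
    apply intervalIntegral.integral_congr
    intro τ _
    simp only
    ring
  have i1 := hU.intervalIntegrable.continuousOn_mul hc2
  have i2 := (hQ.continuousOn_mul hc2).const_mul (ρ ^ 2)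
  have i3 := hq.continuousOn_mul hc2
  rw [h1, intervalIntegral.integral_sub (i1.add i2) i3, intervalIntegral.integral_add i1 i2,
    intervalIntegral.integral_const_mul, ph2_U hs hU hU1, ph2_quad hs v, h2]
  ring

end Crest.Agent.R247.Cur301
end
end

-- ▼ part R247/Cur4_301
section

/-!
# R247, block (1), doc 1392 section 6, deterministic part (4): one scale, final form

`r τ = dist x (σ τ)`, `v = dist z w - dist x w`, `T τ = r τ - τ + v` (excess),
`w τ = r τ ^ 2 / 2 - (τ - v) ^ 2 / 2`.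
-/

set_option autoImplicit false
noncomputable section
open Set Filter Topology MeasureTheory
open scoped Interval NNReal

namespace Crest.Agent.R247.Cur301

lemma AD.of_lipschitz {F : ℝ → ℝ} {a b L : ℝ} (hab : a ≤ b)
    (h : ∀ x ∈ Icc a b, ∀ y ∈ Icc a b, |F x - F y| ≤ L * |x - y|) : AD F (deriv F) a b := by
  have hL : LipschitzOnWith (Real.toNNReal L) F (uIcc a b) := by
    rw [uIcc_of_le hab]
    refine LipschitzOnWith.of_dist_le_mul fun x hx y hy => ?_
    rw [Real.dist_eq, Real.dist_eq]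
    refine (h x hx y hy).trans ?_
    gcongr
    exact Real.le_coe_toNNReal L
  have hac := hL.absolutelyContinuousOnInterval
  refine ⟨hab, hac.intervalIntegrable_deriv, fun x hx => ?_⟩
  have hsub : uIcc a x ⊆ uIcc a b := by
    rw [uIcc_of_le hab]
    exact uIcc_subset_Icc (left_mem_Icc.2 hab) hx
  have := (hac.mono hsub).integral_deriv_eq_sub
  linarith

/-- the excess along the curve -/
def Tf (r : ℝ → ℝ) (v τ : ℝ) : ℝ := r τ - τ + v

/-- the defect function -/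
def wf (r : ℝ → ℝ) (v τ : ℝ) : ℝ := r τ ^ 2 / 2 - (τ - v) ^ 2 / 2

/-- `h ∘ σ` -/
def gf (r : ℝ → ℝ) (τ : ℝ) : ℝ := r τ ^ 2 / 2

lemma wf_eq (r : ℝ → ℝ) (v τ : ℝ) : wf r v τ = (τ - v) * Tf r v τ + Tf r v τ ^ 2 / 2 := by
  unfold wf Tf
  ring

/-- the geometric hypotheses on the interval `[a, b]` -/
structure Crv (r : ℝ → ℝ) (v t a b : ℝ) : Prop where
  lip : ∀ x ∈ Icc a b, ∀ y ∈ Icc a b, |r x - r y| ≤ |x - y|
  hv : |v| ≤ t
  hT0 : ∀ x ∈ Icc a b, 0 ≤ Tf r v x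
  hT2 : ∀ x ∈ Icc a b, Tf r v x ≤ 2 * t

namespace Crv
variable {r : ℝ → ℝ} {v t a b : ℝ}

lemma mono (h : Crv r v t a b) {a' b' : ℝ} (ha : a ≤ a') (hb : b' ≤ b) : Crv r v t a' b' where
  lip := fun x hx y hy => h.lip x ⟨ha.trans hx.1, hx.2.trans hb⟩ y ⟨ha.trans hy.1, hy.2.trans hb⟩
  hv := h.hv
  hT0 := fun x hx => h.hT0 x ⟨ha.trans hx.1, hx.2.trans hb⟩
  hT2 := fun x hx => h.hT2 x ⟨ha.trans hx.1, hx.2.trans hb⟩

lemma t_nonneg (h : Crv r v t a b) : 0 ≤ t := (abs_nonneg _).trans h.hv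

lemma antitone (h : Crv r v t a b) {x y : ℝ} (hx : x ∈ Icc a b) (hy : y ∈ Icc a b) (hxy : x ≤ y) :
    Tf r v y ≤ Tf r v x := by
  have h1 := h.lip y hy x hx
  rw [abs_of_nonneg (by linarith : (0 : ℝ) ≤ y - x)] at h1
  have := (le_abs_self _).trans h1
  unfold Tf
  linarith

lemma abs_w_le (h : Crv r v t a b) {s : ℝ} (hab : a ≤ b) (hbs : b ≤ 2 * s) (hts : 8 * t ≤ s)
    (ha : t ≤ a) {x : ℝ} (hx : x ∈ Icc a b) :
    0 ≤ wf r v x ∧ wf r v x ≤ 9 / 4 * s * Tf r v a := by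
  have h0 := h.hT0 x hx
  have h2 := h.hT2 x hx
  have hv := abs_le.1 h.hv
  have ht := h.t_nonneg
  have hx1 : 0 ≤ x - v := by linarith [hx.1]
  have hx2 : x - v ≤ 17 / 8 * s := by linarith [hx.2]
  have h3 : Tf r v x ≤ Tf r v a := h.antitone ⟨le_rfl, hab⟩ hx hx.1
  rw [wf_eq]
  constructor
  · positivity
  · have h4 : Tf r v x ^ 2 / 2 ≤ (1 / 8 * s) * Tf r v x := by
      have : Tf r v x / 2 ≤ 1 / 8 * s := by linarith
      nlinarith
    have hs : 0 ≤ s := by linarith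
    calc (x - v) * Tf r v x + Tf r v x ^ 2 / 2
        ≤ (17 / 8 * s) * Tf r v x + (1 / 8 * s) * Tf r v x := by
          have := mul_le_mul_of_nonneg_right hx2 h0
          linarith
      _ = 9 / 4 * s * Tf r v x := by ring
      _ ≤ 9 / 4 * s * Tf r v a := by
          apply mul_le_mul_of_nonneg_left h3
          positivity

lemma r_bound (h : Crv r v t a b) {x : ℝ} (hx : x ∈ Icc a b) : |r x| ≤ |x| + 3 * t := by
  have h0 := h.hT0 x hx
  have h2 := h.hT2 x hx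
  have h1 : r x = Tf r v x + x - v := by unfold Tf; ring
  rw [h1]
  calc |Tf r v x + x - v| ≤ |Tf r v x| + |x| + |v| := by
        refine (abs_sub _ _).trans ?_
        gcongr
        exact abs_add_le _ _
    _ ≤ 2 * t + |x| + t := by
        rw [abs_of_nonneg h0]
        have := h.hv
        gcongr
    _ = |x| + 3 * t := by ring

lemma AD_g (h : Crv r v t a b) (hab : a ≤ b) : AD (gf r) (deriv (gf r)) a b := by
  refine AD.of_lipschitz (L := |a| + |b| + 3 * t) hab fun x hx y hy => ?_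
  have hx' : |x| ≤ |a| + |b| := by
    rw [abs_le]
    have h1 := neg_abs_le a
    have h2 := le_abs_self b
    have h3 := abs_nonneg a
    have h4 := abs_nonneg b
    constructor <;> linarith [hx.1, hx.2]
  have hy' : |y| ≤ |a| + |b| := by
    rw [abs_le]
    have h1 := neg_abs_le a
    have h2 := le_abs_self b
    have h3 := abs_nonneg a
    have h4 := abs_nonneg b
    constructor <;> linarith [hy.1, hy.2]
  have h1 := h.r_bound hx
  have h2 := h.r_bound hy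
  have h3 := h.lip x hx y hy
  have h4 : gf r x - gf r y = (r x + r y) / 2 * (r x - r y) := by unfold gf; ring
  rw [h4, abs_mul]
  have h5 : |(r x + r y) / 2| ≤ |a| + |b| + 3 * t := by
    rw [abs_div, abs_two]
    have := abs_add_le (r x) (r y)
    linarith
  exact mul_le_mul h5 h3 (abs_nonneg _) ((abs_nonneg _).trans h5)

lemma AD_w (h : Crv r v t a b) (hab : a ≤ b) :
    AD (wf r v) (fun τ => deriv (gf r) τ - (τ - v)) a b := by
  have h1 : AD (fun τ : ℝ => (τ - v) ^ 2 / 2) (fun τ => τ - v) a b := by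
    refine AD.of_hasDerivAt hab (fun x _ => ?_) (by fun_prop)
    have h2 : HasDerivAt (fun τ : ℝ => τ - v) 1 x := (hasDerivAt_id x).sub_const v
    refine ((h2.pow 2).div_const 2).congr_deriv ?_
    simp
  exact (h.AD_g hab).sub h1

/-- the integral of `|τ σ' - ∇h|² = τ² - 2 τ (h ∘ σ)' + 2 h` -/
lemma integral_Nh (h : Crv r v t a b) {s : ℝ} (ha : a = s / 2) (hb : b = 2 * s) (hs : 0 < s)
    (hts : 8 * t ≤ s) :
    ∫ τ in a..b, (τ ^ 2 - 2 * τ * deriv (gf r) τ + r τ ^ 2) ≤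
      3 / 2 * s * (t ^ 2 + 21 / 2 * (s * Tf r v a)) := by
  have hab : a ≤ b := by linarith
  have hAw := h.AD_w hab
  have hid : AD (fun τ : ℝ => τ) (fun _ => (1 : ℝ)) a b :=
    AD.of_hasDerivAt hab (fun x _ => hasDerivAt_id x) continuousOn_const
  have hprod := (hid.mul hAw).integral_eq
  have hwi := hAw.intervalIntegrable
  have i1 : IntervalIntegrable (fun τ => τ * (deriv (gf r) τ - (τ - v))) volume a b :=
    hAw.int.continuousOn_mul continuousOn_id
  have h1 : ∫ τ in a..b, (τ ^ 2 - 2 * τ * deriv (gf r) τ + r τ ^ 2) =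
      ∫ τ in a..b, (v ^ 2 + 4 * wf r v τ -
        2 * (1 * wf r v τ + τ * (deriv (gf r) τ - (τ - v)))) := by
    apply intervalIntegral.integral_congr
    intro τ _
    simp only [wf]
    ring
  have i2 : IntervalIntegrable (fun τ => v ^ 2 + 4 * wf r v τ) volume a b :=
    intervalIntegrable_const.add (hwi.const_mul 4)
  have i3 : IntervalIntegrable (fun τ => 2 * (1 * wf r v τ + τ * (deriv (gf r) τ - (τ - v))))
      volume a b := ((hwi.const_mul 1).add i1).const_mul 2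
  rw [h1, intervalIntegral.integral_sub i2 i3, intervalIntegral.integral_const_mul, hprod,
    intervalIntegral.integral_add intervalIntegrable_const (hwi.const_mul 4),
    intervalIntegral.integral_const_mul, intervalIntegral.integral_const, smul_eq_mul]
  have ht := h.t_nonneg
  have hta : t ≤ a := by linarith
  have hbs : b ≤ 2 * s := hb.le
  have h4 : ∫ τ in a..b, wf r v τ ≤ (b - a) * (9 / 4 * s * Tf r v a) := by
    have := intervalIntegral.integral_mono_on hab hwi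
      (intervalIntegrable_const (c := 9 / 4 * s * Tf r v a))
      (fun τ hτ => (h.abs_w_le hab hbs hts hta hτ).2)
    rw [intervalIntegral.integral_const, smul_eq_mul] at this
    exact this
  have h5 := h.abs_w_le hab hbs hts hta (left_mem_Icc.2 hab)
  have h6 := h.abs_w_le hab hbs hts hta (right_mem_Icc.2 hab)
  have h7 : v ^ 2 ≤ t ^ 2 := sq_le_sq' (by linarith [(abs_le.1 h.hv).1]) (abs_le.1 h.hv).2
  have hba : b - a = 3 / 2 * s := by linarith
  rw [hba] at h4 ⊢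
  have h8 : (3 / 2 * s) * v ^ 2 ≤ (3 / 2 * s) * t ^ 2 :=
    mul_le_mul_of_nonneg_left h7 (by positivity)
  have h9 : 0 ≤ b * wf r v b := mul_nonneg (by linarith) h6.1
  have h10 : a * wf r v a ≤ a * (9 / 4 * s * Tf r v a) :=
    mul_le_mul_of_nonneg_left h5.2 (by linarith)
  have h11 : a * (9 / 4 * s * Tf r v a) = 9 / 8 * (s * (s * Tf r v a)) := by
    rw [ha]
    ring
  have h12 : 0 ≤ s * (s * Tf r v a) :=
    mul_nonneg hs.le (mul_nonneg hs.le (h.hT0 a (left_mem_Icc.2 hab)))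
  nlinarith

/-- **the cap**: `|I_s| ≤ 7 cX T(s / 2)` -/
theorem cap {s : ℝ} (h : Crv r v t (s / 2) (2 * s)) (hs : 0 < s) (hts : 8 * t ≤ s) :
    |∫ τ in (s / 2)..(2 * s), ph2 s τ * wf r v τ| ≤ 7 * cX * Tf r v (s / 2) := by
  have hab : s / 2 ≤ 2 * s := by linarith
  have hc := one_le_cX
  have hT := h.hT0 (s / 2) (left_mem_Icc.2 hab)
  have h1 := intervalIntegral.norm_integral_le_of_norm_le_const
    (a := s / 2) (b := 2 * s) (f := fun τ => ph2 s τ * wf r v τ)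
    (C := 2 * cX / s ^ 2 * (9 / 4 * s * Tf r v (s / 2))) (fun τ hτ => by
      rw [uIoc_of_le hab] at hτ
      have h2 := h.abs_w_le hab le_rfl hts (by linarith [h.t_nonneg])
        (Ioc_subset_Icc_self hτ)
      rw [Real.norm_eq_abs, abs_mul, abs_of_nonneg h2.1]
      exact mul_le_mul (abs_ph2 hs τ) h2.2 h2.1 (by positivity))
  rw [Real.norm_eq_abs] at h1
  refine h1.trans ?_
  rw [abs_of_nonneg (by linarith : (0 : ℝ) ≤ 2 * s - s / 2)]
  have h3 : 2 * cX / s ^ 2 * (9 / 4 * s * Tf r v (s / 2)) * (2 * s - s / 2) =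
      27 / 4 * (cX * Tf r v (s / 2)) := by
    field_simp
    ring
  rw [h3]
  have : 0 ≤ cX * Tf r v (s / 2) := by positivity
  linarith

end Crv

/-- Cauchy–Schwarz through the optimisation of a parameter -/
lemma sq_le_of_param {X L Y : ℝ} (hL : 0 < L) (hX : 0 ≤ X)
    (h : ∀ c : ℝ, 0 < c → 2 * X ≤ c * L + Y / c) : X ^ 2 ≤ L * Y := by
  rcases hX.eq_or_lt with h0 | h0
  · have h1 := h
    rw [← h0] at h1 ⊢
    -- `Y ≥ 0`
    have hY : 0 ≤ Y := by
      by_contra hY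
      push Not at hY
      have h2 := h1 (√(-Y / (2 * L))) (Real.sqrt_pos.2 (div_pos (by linarith) (by positivity)))
      set c := √(-Y / (2 * L)) with hc
      have hc0 : 0 < c := Real.sqrt_pos.2 (div_pos (by linarith) (by positivity))
      have hc2 : c ^ 2 = -Y / (2 * L) := Real.sq_sqrt (div_nonneg (by linarith) (by positivity))
      have h3 : (0 : ℝ) ≤ c ^ 2 * L + Y := by
        have := mul_le_mul_of_nonneg_right h2 hc0.le
        have h4 : (c * L + Y / c) * c = c ^ 2 * L + Y := by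
          field_simp
        rw [h4] at this
        linarith
      rw [hc2] at h3
      have h5 : -Y / (2 * L) * L = -Y / 2 := by field_simp
      rw [h5] at h3
      linarith
    nlinarith
  · have h1 := h (X / L) (by positivity)
    have h2 : X / L * L = X := div_mul_cancel₀ _ hL.ne'
    rw [h2] at h1
    have h3 : Y / (X / L) = L * Y / X := by field_simp
    rw [h3] at h1
    have h4 : X ≤ L * Y / X := by linarith
    rw [le_div_iff₀ h0] at h4
    nlinarith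

end Crest.Agent.R247.Cur301
end
end

-- ▼ part R247/Cur5_301

/-!
# R247, block (1), doc 1392 section 6, deterministic part (5): the theorem at one scale

`scale_main` : `I_s² ≤ C C₁² (ρ²/s)² Y`, `Y = X² + k₁² + k₂ + Kb + Qb + Db`.
-/

set_option autoImplicit false
noncomputable section
open Set Filter Topology MeasureTheory
open scoped Interval NNReal

namespace Crest.Agent.R247.Cur301

/-- all quantities along the curve at one scale; `U = u ∘ σ`, `e = (Hess u - g)(σ', σ')`,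
`K = k ∘ σ`, `H = |Hess u - g| ∘ σ`, `Gn = |∇k| ∘ σ`, `Q = q ∘ σ`, `D = ρ² |∇q|² ∘ σ`. -/
structure Sc (r : ℝ → ℝ) (ρ a b : ℝ) (U U1 e Q K K1 Gn H D : ℝ → ℝ) : Prop where
  hU : AD U U1 a b
  hU1 : AD U1 (fun τ => 1 + e τ) a b
  hK : AD K K1 a b
  hQ : ∀ᵐ τ, τ ∈ Icc a b → gf r τ = U τ + ρ ^ 2 * Q τ
  hN0 : ∀ τ ∈ Icc a b, 0 ≤ Nf U U1 K τ
  hN1 : ∀ᵐ τ, τ ∈ Icc a b → |K1 τ - 2 * τ * e τ| ≤
    Gn τ * √(Nf U U1 K τ) / τ + 2 * H τ * Nf U U1 K τ / τ
  hND : ∀ᵐ τ, τ ∈ Icc a b → Nf U U1 K τ ≤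
    2 * (τ ^ 2 - 2 * τ * deriv (gf r) τ + r τ ^ 2) + 2 * ρ ^ 2 * D τ
  hGn : ∀ᵐ τ, τ ∈ Icc a b → 0 ≤ Gn τ
  hH : ∀ᵐ τ, τ ∈ Icc a b → 0 ≤ H τ
  hD : ∀ᵐ τ, τ ∈ Icc a b → 0 ≤ D τ
  iGn : IntervalIntegrable Gn volume a b
  iH : IntervalIntegrable H volume a b
  iD : IntervalIntegrable D volume a b

lemma div_int {a b : ℝ} (ha : 0 < a) (hab : a ≤ b) {f : ℝ → ℝ}
    (hf : IntervalIntegrable f volume a b) :
    IntervalIntegrable (fun τ => f τ / τ) volume a b := by
  have hinv : ContinuousOn (fun τ : ℝ => τ⁻¹) (uIcc a b) := by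
    rw [uIcc_of_le hab]
    exact continuousOn_inv₀.mono fun τ hτ => (ha.trans_le hτ.1).ne'
  simp only [div_eq_mul_inv]
  exact hf.mul_continuousOn hinv

/-- from `dτ / τ` to `dτ` -/
lemma int_le_div {a b : ℝ} (ha : 0 < a) (hab : a ≤ b) {f : ℝ → ℝ}
    (hf0 : ∀ᵐ τ, τ ∈ Icc a b → 0 ≤ f τ)
    (hf : IntervalIntegrable f volume a b) :
    ∫ τ in a..b, f τ ≤ b * ∫ τ in a..b, f τ / τ := by
  rw [← intervalIntegral.integral_const_mul]
  apply intervalIntegral.integral_mono_ae_restrict hab hf ((div_int ha hab hf).const_mul _)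
  refine (ae_restrict_iff' (measurableSet_Icc (a := a) (b := b))).2 ?_
  filter_upwards [hf0] with τ h0 hτ
  have hτ0 : 0 < τ := ha.trans_le hτ.1
  have h1 : f τ = τ * (f τ / τ) := by field_simp
  calc f τ = τ * (f τ / τ) := h1
    _ ≤ b * (f τ / τ) := mul_le_mul_of_nonneg_right hτ.2 (div_nonneg (h0 hτ) hτ0.le)

/-- the mean of `N` -/
lemma N_mean {r : ℝ → ℝ} {v t s ρ C1 Db : ℝ} {U U1 e Q K K1 Gn H D : ℝ → ℝ}
    (hc : Crv r v t (s / 2) (2 * s)) (hs : 0 < s) (hts : 8 * t ≤ s) (hC1 : 1 ≤ C1)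
    (hT : s * Tf r v (s / 2) ≤ C1 * ρ ^ 2) (ht : t ^ 2 ≤ C1 * ρ ^ 2)
    (hS : Sc r ρ (s / 2) (2 * s) U U1 e Q K K1 Gn H D)
    (hDb : ∫ τ in (s / 2)..(2 * s), D τ / τ ≤ Db) (hDb1 : Db ≤ 1) :
    ∫ τ in (s / 2)..(2 * s), Nf U U1 K τ ≤ (2 * s - s / 2) * (26 * C1 * ρ ^ 2) := by
  have hab : s / 2 ≤ 2 * s := by linarith
  have hN := AD_Nf hS.hU hS.hU1 hS.hK
  have hDint : ∫ τ in (s / 2)..(2 * s), D τ ≤ 2 * s * Db :=
    (int_le_div (by linarith) hab hS.hD hS.iD).trans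
      (mul_le_mul_of_nonneg_left hDb (by positivity))
  have hgi := (hc.AD_g hab).int
  have i1 : IntervalIntegrable (fun τ => τ ^ 2 - 2 * τ * deriv (gf r) τ + r τ ^ 2) volume
      (s / 2) (2 * s) := by
    have e1 : IntervalIntegrable (fun τ : ℝ => τ ^ 2) volume (s / 2) (2 * s) := by
      apply Continuous.intervalIntegrable
      fun_prop
    have e2 : IntervalIntegrable (fun τ => 2 * τ * deriv (gf r) τ) volume (s / 2) (2 * s) :=
      hgi.continuousOn_mul (by fun_prop)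
    have e3 : IntervalIntegrable (fun τ => r τ ^ 2) volume (s / 2) (2 * s) := by
      have := ((hc.AD_g hab).intervalIntegrable).const_mul 2
      refine this.congr_ae (Eventually.of_forall fun τ => ?_)
      simp only [gf]
      ring
    exact (e1.sub e2).add e3
  have h1 : ∫ τ in (s / 2)..(2 * s), Nf U U1 K τ ≤ ∫ τ in (s / 2)..(2 * s),
      (2 * (τ ^ 2 - 2 * τ * deriv (gf r) τ + r τ ^ 2) + 2 * ρ ^ 2 * D τ) := by
    apply intervalIntegral.integral_mono_ae_restrict hab hN.intervalIntegrable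
      ((i1.const_mul 2).add (hS.iD.const_mul _))
    exact (ae_restrict_iff' (measurableSet_Icc (a := s / 2) (b := 2 * s))).2 hS.hND
  rw [intervalIntegral.integral_add (i1.const_mul 2) (hS.iD.const_mul _),
    intervalIntegral.integral_const_mul, intervalIntegral.integral_const_mul] at h1
  have h2 := hc.integral_Nh rfl rfl hs hts
  have hρ0 : 0 ≤ ρ ^ 2 := sq_nonneg ρ
  have h6 : 2 * ρ ^ 2 * ∫ τ in (s / 2)..(2 * s), D τ ≤ 2 * ρ ^ 2 * (2 * s * 1) := by
    apply mul_le_mul_of_nonneg_left _ (by positivity)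
    refine hDint.trans ?_
    apply mul_le_mul_of_nonneg_left hDb1 (by positivity)
  have h7 : 3 / 2 * s * (t ^ 2 + 21 / 2 * (s * Tf r v (s / 2))) ≤
      3 / 2 * s * (C1 * ρ ^ 2 + 21 / 2 * (C1 * ρ ^ 2)) := by
    apply mul_le_mul_of_nonneg_left _ (by positivity)
    linarith
  have h8 : 0 ≤ s * ρ ^ 2 := by positivity
  have h9 : s * ρ ^ 2 ≤ C1 * (s * ρ ^ 2) := le_mul_of_one_le_left h8 hC1
  have h10 : 3 / 2 * s * (C1 * ρ ^ 2 + 21 / 2 * (C1 * ρ ^ 2)) = 69 / 4 * (C1 * (s * ρ ^ 2)) := by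
    ring
  have h11 : (2 * s - s / 2) * (26 * C1 * ρ ^ 2) = 39 * (C1 * (s * ρ ^ 2)) := by ring
  have h12 : 2 * ρ ^ 2 * (2 * s * 1) = 4 * (s * ρ ^ 2) := by ring
  rw [h11]
  rw [h10] at h7
  rw [h12] at h6
  linarith

/-- the variation of `N` -/
lemma N_var {r : ℝ → ℝ} {v t s ρ C1 Db X A : ℝ} {U U1 e Q K K1 Gn H D : ℝ → ℝ}
    (hc : Crv r v t (s / 2) (2 * s)) (hs : 0 < s) (hts : 8 * t ≤ s) (hρ : 0 < ρ) (hC1 : 1 ≤ C1)
    (hT : s * Tf r v (s / 2) ≤ C1 * ρ ^ 2) (ht : t ^ 2 ≤ C1 * ρ ^ 2)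
    (hS : Sc r ρ (s / 2) (2 * s) U U1 e Q K K1 Gn H D)
    (hDb : ∫ τ in (s / 2)..(2 * s), D τ / τ ≤ Db) (hDb1 : Db ≤ 1)
    (hX : ∫ τ in (s / 2)..(2 * s), H τ / τ ≤ X) (hX8 : X ≤ 1 / 8)
    (hA : ∫ τ in (s / 2)..(2 * s), Gn τ / τ ≤ ρ * A) (hA1 : A ≤ 1) :
    ∫ τ in (s / 2)..(2 * s), |K1 τ - 2 * τ * e τ| ≤ C1 * ρ ^ 2 * (8 * A + 108 * X) := by
  have hab : s / 2 ≤ 2 * s := by linarith
  have hab' : s / 2 < 2 * s := by linarith
  have hN := AD_Nf hS.hU hS.hU1 hS.hK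
  have hmean := N_mean hc hs hts hC1 hT ht hS hDb hDb1
  have hpos : ∀ τ ∈ Icc (s / 2) (2 * s), 0 < τ := fun τ hτ => by linarith [hτ.1]
  have hX0 : 0 ≤ X := by
    refine le_trans ?_ hX
    apply intervalIntegral.integral_nonneg_of_ae_restrict hab
    refine (ae_restrict_iff' (measurableSet_Icc (a := s / 2) (b := 2 * s))).2 ?_
    filter_upwards [hS.hH] with τ h0 hτ
    exact div_nonneg (h0 hτ) (hpos τ hτ).le
  have hA0' : 0 ≤ ρ * A := by
    refine le_trans ?_ hA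
    apply intervalIntegral.integral_nonneg_of_ae_restrict hab
    refine (ae_restrict_iff' (measurableSet_Icc (a := s / 2) (b := 2 * s))).2 ?_
    filter_upwards [hS.hGn] with τ h0 hτ
    exact div_nonneg (h0 hτ) (hpos τ hτ).le
  have hA0 : 0 ≤ A := nonneg_of_mul_nonneg_right hA0' hρ
  obtain ⟨S, hS0, hSle, hSvar⟩ := N_bound (N1 := fun τ => K1 τ - 2 * τ * e τ)
    (G := Gn) (H := H) (A := ρ * A) (X := X)
    hab' (by linarith) hN hS.hN0 hS.hN1 hS.iGn hS.iH hS.hGn hS.hH hA hX hX8 hmean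
  refine hSvar.trans ?_
  have hρ2 : 0 < ρ ^ 2 := by positivity
  have hS54 : S ≤ 54 * C1 * ρ ^ 2 := by
    have h1 : (ρ * A) ^ 2 ≤ ρ ^ 2 * 1 := by
      rw [mul_pow]
      apply mul_le_mul_of_nonneg_left _ hρ2.le
      exact pow_le_one₀ hA0 hA1
    have h2 : ρ ^ 2 ≤ C1 * ρ ^ 2 := le_mul_of_one_le_left hρ2.le hC1
    linarith
  have hsS : √S ≤ 8 * C1 * ρ := by
    rw [Real.sqrt_le_left (by positivity)]
    have h1 : (8 * C1 * ρ) ^ 2 = 64 * C1 * (C1 * ρ ^ 2) := by ring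
    have h2 : C1 * ρ ^ 2 ≤ C1 * (C1 * ρ ^ 2) := le_mul_of_one_le_left (by positivity) hC1
    have h3 : 0 < C1 * ρ ^ 2 := by positivity
    linarith
  have h1 : √S * (ρ * A) ≤ 8 * C1 * ρ * (ρ * A) := mul_le_mul_of_nonneg_right hsS hA0'
  have h2 : 2 * S * X ≤ 2 * (54 * C1 * ρ ^ 2) * X := by
    apply mul_le_mul_of_nonneg_right _ hX0
    linarith
  calc √S * (ρ * A) + 2 * S * X ≤ 8 * C1 * ρ * (ρ * A) + 2 * (54 * C1 * ρ ^ 2) * X := by linarith
    _ = C1 * ρ ^ 2 * (8 * A + 108 * X) := by ring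

/-- `∫ ph2 s * Q` -/
lemma ph2_Q {s Qb : ℝ} {Q : ℝ → ℝ} (hs : 0 < s)
    (iQ : IntervalIntegrable Q volume (s / 2) (2 * s))
    (hQb : ∫ τ in (s / 2)..(2 * s), |Q τ| / τ ≤ Qb) :
    |∫ τ in (s / 2)..(2 * s), ph2 s τ * Q τ| ≤ 4 * cX * Qb / s := by
  have hab : s / 2 ≤ 2 * s := by linarith
  have hcX := one_le_cX
  have h0 : ∫ τ in (s / 2)..(2 * s), |Q τ| ≤ 2 * s * Qb :=
    (int_le_div (by linarith) hab (Eventually.of_forall fun τ _ => abs_nonneg _) iQ.abs).trans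
      (mul_le_mul_of_nonneg_left hQb (by positivity))
  refine (intervalIntegral.abs_integral_le_integral_abs hab).trans ?_
  have h1 : ∫ τ in (s / 2)..(2 * s), |ph2 s τ * Q τ| ≤
      ∫ τ in (s / 2)..(2 * s), (2 * cX / s ^ 2) * |Q τ| := by
    apply intervalIntegral.integral_mono_on hab
      ((iQ.continuousOn_mul (continuous_ph2 s).continuousOn).abs) (iQ.abs.const_mul _)
    intro τ hτ
    rw [abs_mul]
    exact mul_le_mul_of_nonneg_right (abs_ph2 hs τ) (abs_nonneg _)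
  rw [intervalIntegral.integral_const_mul] at h1
  refine h1.trans ?_
  calc 2 * cX / s ^ 2 * ∫ τ in (s / 2)..(2 * s), |Q τ|
      ≤ 2 * cX / s ^ 2 * (2 * s * Qb) := mul_le_mul_of_nonneg_left h0 (by positivity)
    _ = 4 * cX * Qb / s := by
        field_simp
        ring

/-- algebra -/
lemma alg_small {X k1 k2 Kb Qb Db Y : ℝ} (hX : 0 ≤ X) (hk1 : 0 ≤ k1) (hk2 : 0 ≤ k2) (hKb : 0 ≤ Kb)
    (hQb : 0 ≤ Qb) (hDb : 0 ≤ Db) (hY : X ^ 2 + k1 ^ 2 + k2 + Kb + Qb + Db = Y)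
    (hY1 : Y ≤ 1 / 200) :
    X ≤ √Y ∧ k1 ≤ √Y ∧ k2 ≤ √Y ∧ Kb ≤ √Y ∧ Qb ≤ √Y ∧ Db ≤ 1 ∧ √Y ≤ 1 / 14 := by
  have hX2 := sq_nonneg X
  have hk2' := sq_nonneg k1
  have hY0 : 0 ≤ Y := by linarith
  have h14 : √Y ≤ 1 / 14 := by
    rw [Real.sqrt_le_left (by norm_num)]
    linarith
  have hYs : Y ≤ √Y := by
    have h1 := Real.sq_sqrt hY0
    have h2 := Real.sqrt_nonneg Y
    nlinarith
  refine ⟨Real.le_sqrt_of_sq_le (by linarith), Real.le_sqrt_of_sq_le (by linarith),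
    by linarith, by linarith, by linarith, by linarith, h14⟩

/-- **The sharp bound at one scale.** -/
theorem scale_sharp {r : ℝ → ℝ} {v t s ρ C1 X k1 k2 Kb Qb Db Y : ℝ}
    {U U1 e Q K K1 Gn H D : ℝ → ℝ}
    (hc : Crv r v t (s / 2) (2 * s)) (hs : 0 < s) (hts : 8 * t ≤ s) (hρ : 0 < ρ) (hC1 : 1 ≤ C1)
    (hT : s * Tf r v (s / 2) ≤ C1 * ρ ^ 2) (ht : t ^ 2 ≤ C1 * ρ ^ 2)
    (hS : Sc r ρ (s / 2) (2 * s) U U1 e Q K K1 Gn H D)
    (hX : 0 ≤ X) (hk1 : 0 ≤ k1) (hk2 : 0 ≤ k2) (hKb : 0 ≤ Kb) (hQb : 0 ≤ Qb) (hDb : 0 ≤ Db)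
    (iX : ∫ τ in (s / 2)..(2 * s), H τ / τ ≤ X)
    (ik : ∫ τ in (s / 2)..(2 * s), Gn τ / τ ≤ ρ * (k1 + k2))
    (iKb : ∫ τ in (s / 2)..(2 * s), |K τ| / τ ≤ ρ ^ 2 * Kb)
    (iQb : ∫ τ in (s / 2)..(2 * s), |Q τ| / τ ≤ Qb)
    (iDb : ∫ τ in (s / 2)..(2 * s), D τ / τ ≤ Db)
    (hY : X ^ 2 + k1 ^ 2 + k2 + Kb + Qb + Db = Y) (hY1 : Y ≤ 1 / 200) :
    |∫ τ in (s / 2)..(2 * s), ph2 s τ * wf r v τ| ≤ ρ ^ 2 / s * C1 * (136 * cX * √Y) := by
  have hab : s / 2 ≤ 2 * s := by linarith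
  have hcX := one_le_cX
  obtain ⟨a1, a2, a3, a4, a5, a6, a7⟩ := alg_small hX hk1 hk2 hKb hQb hDb hY hY1
  have hsY0 := Real.sqrt_nonneg Y
  have iQ : IntervalIntegrable Q volume (s / 2) (2 * s) := by
    have h1 : IntervalIntegrable (fun τ => (gf r τ - U τ) / ρ ^ 2) volume (s / 2) (2 * s) :=
      (((hc.AD_g hab).intervalIntegrable).sub hS.hU.intervalIntegrable).div_const _
    refine h1.congr_ae ?_
    rw [uIoc_of_le hab]
    refine (ae_restrict_iff' measurableSet_Ioc).2 ?_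
    filter_upwards [hS.hQ] with τ h2 hτ
    have h3 := h2 (Ioc_subset_Icc_self hτ)
    simp only [h3]
    field_simp
    ring
  have hVa := N_var (A := k1 + k2) hc hs hts hρ hC1 hT ht hS iDb a6 iX (by linarith) ik
    (by linarith)
  have hKb' : ∫ τ in (s / 2)..(2 * s), |K τ| ≤ (3 / 2 * s) * (4 / 3 * (ρ ^ 2 * Kb)) := by
    refine (int_le_div (by linarith) hab (Eventually.of_forall fun τ _ => abs_nonneg _)
      hS.hK.intervalIntegrable.abs).trans ?_
    calc 2 * s * ∫ τ in (s / 2)..(2 * s), |K τ| / τ ≤ 2 * s * (ρ ^ 2 * Kb) :=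
          mul_le_mul_of_nonneg_left iKb (by positivity)
      _ = (3 / 2 * s) * (4 / 3 * (ρ ^ 2 * Kb)) := by ring
  have hN := AD_Nf hS.hU hS.hU1 hS.hK
  have hI1 := ph_e_bound hs hS.hK hN hVa hKb'
  have hI2 := ph2_Q hs iQ iQb
  have hdec : ∫ τ in (s / 2)..(2 * s), ph2 s τ * wf r v τ =
      (∫ τ in (s / 2)..(2 * s), ph s τ * e τ) +
        ρ ^ 2 * ∫ τ in (s / 2)..(2 * s), ph2 s τ * Q τ := by
    rw [← ph2_w (ρ := ρ) (v := v) (Q := Q)
      (w := fun τ => U τ + ρ ^ 2 * Q τ - (τ - v) ^ 2 / 2) hs hS.hU hS.hU1 iQ (fun τ _ => rfl)]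
    apply intervalIntegral.integral_congr_ae
    filter_upwards [hS.hQ] with τ h2 hτ
    rw [uIoc_of_le hab] at hτ
    have h3 := h2 (Ioc_subset_Icc_self hτ)
    unfold gf at h3
    unfold wf
    rw [h3]
  rw [hdec]
  refine (abs_add_le _ _).trans ?_
  have hρ2 : 0 < ρ ^ 2 := by positivity
  rw [abs_mul, abs_of_nonneg hρ2.le]
  have h1 : ρ ^ 2 * |∫ τ in (s / 2)..(2 * s), ph2 s τ * Q τ| ≤ ρ ^ 2 * (4 * cX * Qb / s) :=
    mul_le_mul_of_nonneg_left hI2 hρ2.le
  have h2 : 6 * cX * (4 / 3 * (ρ ^ 2 * Kb)) / s + C1 * ρ ^ 2 * (8 * (k1 + k2) + 108 * X) / s +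
      ρ ^ 2 * (4 * cX * Qb / s) =
      ρ ^ 2 / s * (8 * cX * Kb + C1 * (8 * (k1 + k2) + 108 * X) + 4 * cX * Qb) := by
    field_simp
    ring
  have h3 : 8 * cX * Kb + C1 * (8 * (k1 + k2) + 108 * X) + 4 * cX * Qb ≤
      C1 * (136 * cX * √Y) := by
    have e3 : cX * Kb ≤ cX * √Y := mul_le_mul_of_nonneg_left a4 (by linarith)
    have e4 : cX * Qb ≤ cX * √Y := mul_le_mul_of_nonneg_left a5 (by linarith)
    have e5 : √Y ≤ cX * √Y := le_mul_of_one_le_left hsY0 hcX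
    have e6 : cX * √Y ≤ C1 * (cX * √Y) := le_mul_of_one_le_left (by positivity) hC1
    have e7 : 8 * (k1 + k2) + 108 * X ≤ 124 * (cX * √Y) := by linarith
    have e8 : C1 * (8 * (k1 + k2) + 108 * X) ≤ C1 * (124 * (cX * √Y)) :=
      mul_le_mul_of_nonneg_left e7 (by linarith)
    have e9 : C1 * (136 * cX * √Y) = C1 * (124 * (cX * √Y)) + 12 * (C1 * (cX * √Y)) := by ring
    rw [e9]
    linarith
  have h4 : ρ ^ 2 / s * (8 * cX * Kb + C1 * (8 * (k1 + k2) + 108 * X) + 4 * cX * Qb) ≤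
      ρ ^ 2 / s * C1 * (136 * cX * √Y) := by
    rw [mul_assoc (ρ ^ 2 / s)]
    exact mul_le_mul_of_nonneg_left h3 (by positivity)
  linarith

/-- **The theorem at one scale**: cap and sharp bound merged. -/
theorem scale_main {r : ℝ → ℝ} {v t s ρ C1 X k1 k2 Kb Qb Db : ℝ}
    {U U1 e Q K K1 Gn H D : ℝ → ℝ}
    (hc : Crv r v t (s / 2) (2 * s)) (hs : 0 < s) (hts : 8 * t ≤ s) (hρ : 0 < ρ) (hC1 : 1 ≤ C1)
    (hT : s * Tf r v (s / 2) ≤ C1 * ρ ^ 2) (ht : t ^ 2 ≤ C1 * ρ ^ 2)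
    (hS : Sc r ρ (s / 2) (2 * s) U U1 e Q K K1 Gn H D)
    (hX : 0 ≤ X) (hk1 : 0 ≤ k1) (hk2 : 0 ≤ k2) (hKb : 0 ≤ Kb) (hQb : 0 ≤ Qb) (hDb : 0 ≤ Db)
    (iX : ∫ τ in (s / 2)..(2 * s), H τ / τ ≤ X)
    (ik : ∫ τ in (s / 2)..(2 * s), Gn τ / τ ≤ ρ * (k1 + k2))
    (iKb : ∫ τ in (s / 2)..(2 * s), |K τ| / τ ≤ ρ ^ 2 * Kb)
    (iQb : ∫ τ in (s / 2)..(2 * s), |Q τ| / τ ≤ Qb)
    (iDb : ∫ τ in (s / 2)..(2 * s), D τ / τ ≤ Db) :
    (∫ τ in (s / 2)..(2 * s), ph2 s τ * wf r v τ) ^ 2 ≤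
      20000 * cX ^ 2 * C1 ^ 2 * (ρ ^ 2 / s) ^ 2 * (X ^ 2 + k1 ^ 2 + k2 + Kb + Qb + Db) := by
  have hcX := one_le_cX
  have hcap := hc.cap hs hts
  have hT' : Tf r v (s / 2) ≤ C1 * (ρ ^ 2 / s) := by
    rw [← mul_div_assoc, le_div_iff₀ hs]
    linarith
  have hY0 : 0 ≤ X ^ 2 + k1 ^ 2 + k2 + Kb + Qb + Db := by positivity
  rw [← sq_abs]
  by_cases hY200 : X ^ 2 + k1 ^ 2 + k2 + Kb + Qb + Db ≤ 1 / 200
  · have h1 := scale_sharp hc hs hts hρ hC1 hT ht hS hX hk1 hk2 hKb hQb hDb iX ik iKb iQb iDb rfl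
      hY200
    refine (pow_le_pow_left₀ (abs_nonneg _) h1 2).trans ?_
    have h2 := Real.sq_sqrt hY0
    calc (ρ ^ 2 / s * C1 * (136 * cX * √(X ^ 2 + k1 ^ 2 + k2 + Kb + Qb + Db))) ^ 2
        = 18496 * cX ^ 2 * C1 ^ 2 * (ρ ^ 2 / s) ^ 2 *
          (√(X ^ 2 + k1 ^ 2 + k2 + Kb + Qb + Db)) ^ 2 := by ring
      _ ≤ _ := by
          rw [h2]
          apply mul_le_mul_of_nonneg_right _ hY0
          have : 0 ≤ cX ^ 2 * C1 ^ 2 * (ρ ^ 2 / s) ^ 2 := by positivity
          linarith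
  · push Not at hY200
    have h1 : |∫ τ in (s / 2)..(2 * s), ph2 s τ * wf r v τ| ≤ 7 * cX * (C1 * (ρ ^ 2 / s)) :=
      hcap.trans (mul_le_mul_of_nonneg_left hT' (by linarith))
    refine (pow_le_pow_left₀ (abs_nonneg _) h1 2).trans ?_
    have h3 : 0 ≤ cX ^ 2 * C1 ^ 2 * (ρ ^ 2 / s) ^ 2 := by positivity
    calc (7 * cX * (C1 * (ρ ^ 2 / s))) ^ 2 = 49 * (cX ^ 2 * C1 ^ 2 * (ρ ^ 2 / s) ^ 2) := by ring
      _ ≤ 20000 * (cX ^ 2 * C1 ^ 2 * (ρ ^ 2 / s) ^ 2) * (1 / 200) := by linarith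
      _ ≤ 20000 * (cX ^ 2 * C1 ^ 2 * (ρ ^ 2 / s) ^ 2) *
          (X ^ 2 + k1 ^ 2 + k2 + Kb + Qb + Db) :=
          mul_le_mul_of_nonneg_left hY200.le (by positivity)
      _ = _ := by ring

end Crest.Agent.R247.Cur301
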