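import Crest.Agent.R247.FarAsm3_196
import Crest.Agent.R247.Cur5_301
import Crest.Agent.R247.Far0_553

-- ▼ part R247/FarAsm4_196
section

/-!
# Assembly of block (1), part 4: numerics of the scales (helper196)

`kf β i j` is the thickness used at scale `i` for the pair of scale `j`:
`dy (kf β i j)^2 ≈ dy i * dy j * (dy j / dy i)^(β/2)`.
-/

set_option autoImplicit false
set_option linter.unusedSectionVars false
open MeasureTheory Set Filter Topology Metric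
open scoped ENNReal NNReal

noncomputable section
namespace Crest.Agent.R247.FarAsm196

open Crest.Agent.R247.Mcp688 Crest.Agent.R247.Far553

lemma dy_rpow (j : ℕ) : dy j = (2 : ℝ) ^ (-(j : ℝ)) := by
  unfold dy
  rw [Real.rpow_neg (by norm_num), Real.rpow_natCast, one_div, inv_pow]

lemma two_rpow_pos (a : ℝ) : 0 < (2 : ℝ) ^ a := Real.rpow_pos_of_pos (by norm_num) _

lemma two_rpow_mono {a b : ℝ} (h : a ≤ b) : (2 : ℝ) ^ a ≤ (2 : ℝ) ^ b :=
  Real.rpow_le_rpow_of_exponent_le (by norm_num) h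

lemma two_rpow_add (a b : ℝ) : (2 : ℝ) ^ (a + b) = (2 : ℝ) ^ a * (2 : ℝ) ^ b :=
  Real.rpow_add (by norm_num) _ _

/-- thickness at scale `i` -/
def kf (β : ℝ) (i j : ℕ) : ℕ := i + ⌊(1 / 2 + β / 4) * ((j - i : ℕ) : ℝ)⌋₊

lemma le_kf (β : ℝ) (i j : ℕ) : i ≤ kf β i j := Nat.le_add_right _ _

lemma kf_le {β : ℝ} (h0 : 0 ≤ β) (h1 : β ≤ 1) {i j : ℕ} (hij : i ≤ j) : kf β i j ≤ j := by
  unfold kf
  have h2 : ⌊(1 / 2 + β / 4) * ((j - i : ℕ) : ℝ)⌋₊ ≤ j - i := by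
    apply Nat.floor_le_of_le
    have : (0 : ℝ) ≤ ((j - i : ℕ) : ℝ) := Nat.cast_nonneg _
    nlinarith
  omega

lemma kf_upper {β : ℝ} (h0 : 0 ≤ β) {i j : ℕ} (hij : i ≤ j) :
    (kf β i j : ℝ) ≤ i + (1 / 2 + β / 4) * ((j : ℝ) - i) := by
  unfold kf
  push_cast [Nat.cast_sub hij]
  have h3 : (0 : ℝ) ≤ (j : ℝ) - i := sub_nonneg.2 (by exact_mod_cast hij)
  have := Nat.floor_le (a := (1 / 2 + β / 4) * ((j : ℝ) - i)) (by positivity)
  linarith

lemma kf_lower {β : ℝ} {i j : ℕ} (hij : i ≤ j) :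
    i + (1 / 2 + β / 4) * ((j : ℝ) - i) - 1 ≤ (kf β i j : ℝ) := by
  unfold kf
  push_cast [Nat.cast_sub hij]
  have := Nat.lt_floor_add_one ((1 / 2 + β / 4) * ((j : ℝ) - i))
  linarith

/-- (A1) -/
lemma kf_sq_ge {β : ℝ} (h0 : 0 ≤ β) {i j : ℕ} (hij : i ≤ j) :
    dy i * dy j * (2 : ℝ) ^ (-(β / 2 * ((j : ℝ) - i))) ≤ dy (kf β i j) ^ 2 := by
  have h := kf_upper h0 hij
  rw [dy_rpow, dy_rpow, dy_rpow, ← two_rpow_add, ← two_rpow_add, sq, ← two_rpow_add]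
  apply two_rpow_mono
  nlinarith

/-- (A2) -/
lemma kf_sq_le {β : ℝ} {i j : ℕ} (hij : i ≤ j) :
    (dy (kf β i j) ^ 2 / dy i) ^ 2 ≤ 16 * (dy j ^ 2 * (2 : ℝ) ^ (-(β * ((j : ℝ) - i)))) := by
  have h := kf_lower (β := β) hij
  have h16 : (16 : ℝ) = (2 : ℝ) ^ (4 : ℝ) := by norm_num
  rw [h16, dy_rpow, dy_rpow, dy_rpow, div_eq_mul_inv, ← Real.rpow_neg (by norm_num), sq, sq, sq,
    ← two_rpow_add, ← two_rpow_add, ← two_rpow_add, ← two_rpow_add, ← two_rpow_add,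
    ← two_rpow_add]
  apply two_rpow_mono
  nlinarith

/-- (A3) -/
lemma kf_add {β : ℝ} (h0 : 0 ≤ β) {i j k0 : ℕ} (h : i + 2 * k0 ≤ j) : i + k0 ≤ kf β i j := by
  unfold kf
  have h2 : k0 ≤ ⌊(1 / 2 + β / 4) * ((j - i : ℕ) : ℝ)⌋₊ := by
    apply Nat.le_floor
    have h3 : 2 * (k0 : ℝ) ≤ ((j - i : ℕ) : ℝ) := by
      have : 2 * k0 ≤ j - i := by omega
      exact_mod_cast this
    nlinarith [Nat.cast_nonneg (α := ℝ) k0]
  omega

/-- (A4) -/
lemma sq_le_kf_sq {β : ℝ} (h0 : 0 ≤ β) (h1 : β ≤ 1) {i j : ℕ} (hij : i ≤ j) :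
    dy j ^ 2 ≤ dy (kf β i j) ^ 2 :=
  pow_le_pow_left₀ (dy_pos j).le (dy_anti (kf_le h0 h1 hij)) 2

/-- (B1) ratio at a time comparable to the scale -/
lemma ratio_pow {β : ℝ} (h0 : 0 ≤ β) (h1 : β ≤ 1) {i j : ℕ} {τ : ℝ}
    (hτ : dy i / 2 ≤ τ) : (dy j / τ) ^ β ≤ 2 * (2 : ℝ) ^ (-(β * ((j : ℝ) - i))) := by
  have hi := dy_pos i
  have hj := dy_pos j
  have hτ0 : 0 < τ := by linarith
  have h2 : dy j / τ ≤ 2 * (2 : ℝ) ^ (-((j : ℝ) - i)) := by
    rw [div_le_iff₀ hτ0]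
    have h3 : (2 : ℝ) ^ (-((j : ℝ) - i)) * dy i = dy j := by
      rw [dy_rpow, dy_rpow, ← two_rpow_add]
      congr 1
      ring
    have h4 := two_rpow_pos (-((j : ℝ) - i))
    calc dy j = 2 * (2 : ℝ) ^ (-((j : ℝ) - i)) * (dy i / 2) := by rw [← h3]; ring
      _ ≤ _ := by gcongr
  calc (dy j / τ) ^ β ≤ (2 * (2 : ℝ) ^ (-((j : ℝ) - i))) ^ β :=
        Real.rpow_le_rpow (by positivity) h2 h0
    _ = (2 : ℝ) ^ β * (2 : ℝ) ^ (-(β * ((j : ℝ) - i))) := by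
        rw [Real.mul_rpow (by norm_num) (two_rpow_pos _).le, ← Real.rpow_mul (by norm_num)]
        congr 2
        ring
    _ ≤ _ := by
        gcongr
        calc (2 : ℝ) ^ β ≤ (2 : ℝ) ^ (1 : ℝ) := two_rpow_mono h1
          _ = 2 := by norm_num

/-- (B2) the excess times the scale -/
lemma scale_excess {β : ℝ} (h0 : 0 ≤ β) (h1 : β ≤ 1) {i j : ℕ} (hij : i ≤ j) {C0 T : ℝ}
    (hC0 : 0 ≤ C0) (hT : T ≤ C0 * dy j * (dy j / (dy i / 2)) ^ β) :
    dy i * T ≤ 2 * C0 * dy (kf β i j) ^ 2 := by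
  have hi := dy_pos i
  have hj := dy_pos j
  have h2 := ratio_pow (j := j) h0 h1 (le_refl (dy i / 2))
  have h3 := kf_sq_ge h0 hij
  have h4 : (2 : ℝ) ^ (-(β * ((j : ℝ) - i))) ≤ (2 : ℝ) ^ (-(β / 2 * ((j : ℝ) - i))) := by
    apply two_rpow_mono
    have : (0 : ℝ) ≤ (j : ℝ) - i := sub_nonneg.2 (by exact_mod_cast hij)
    nlinarith
  calc dy i * T ≤ dy i * (C0 * dy j * (2 * (2 : ℝ) ^ (-(β / 2 * ((j : ℝ) - i))))) := by
        gcongr
        refine hT.trans ?_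
        gcongr
        exact h2.trans (by gcongr)
    _ = 2 * C0 * (dy i * dy j * (2 : ℝ) ^ (-(β / 2 * ((j : ℝ) - i)))) := by ring
    _ ≤ _ := by gcongr

/-- (B3) the distance to the ray -/
lemma scale_dist {β : ℝ} (h0 : 0 ≤ β) (h1 : β ≤ 1) {i j : ℕ} (hij : i ≤ j) {C0 D τ : ℝ}
    (hC0 : 0 ≤ C0) (hτ1 : dy i / 2 ≤ τ) (hτ2 : τ ≤ 2 * dy i)
    (hD : D ^ 2 ≤ C0 * dy j * τ * (dy j / τ) ^ (β / 2)) :
    D ≤ Real.sqrt (4 * C0) * dy (kf β i j) := by
  have hi := dy_pos i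
  have hj := dy_pos j
  have hk := dy_pos (kf β i j)
  have hτ0 : 0 < τ := by linarith
  have h2 := ratio_pow (β := β / 2) (j := j) (by linarith) (by linarith) hτ1
  have h3 := kf_sq_ge h0 hij
  have h4 : D ^ 2 ≤ 4 * C0 * dy (kf β i j) ^ 2 := by
    calc D ^ 2 ≤ C0 * dy j * τ * (dy j / τ) ^ (β / 2) := hD
      _ ≤ C0 * dy j * (2 * dy i) * (2 * (2 : ℝ) ^ (-(β / 2 * ((j : ℝ) - i)))) := by
          gcongr
      _ = 4 * C0 * (dy i * dy j * (2 : ℝ) ^ (-(β / 2 * ((j : ℝ) - i)))) := by ring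
      _ ≤ _ := by gcongr
  calc D ≤ |D| := le_abs_self _
    _ = Real.sqrt (D ^ 2) := (Real.sqrt_sq_eq_abs D).symm
    _ ≤ Real.sqrt (4 * C0 * dy (kf β i j) ^ 2) := Real.sqrt_le_sqrt h4
    _ = _ := by rw [Real.sqrt_mul (by positivity), Real.sqrt_sq hk.le]

/-- the top term -/
lemma top_pow {β : ℝ} (h0 : 0 ≤ β) {j : ℕ} {τ T C0 : ℝ} (hC0 : 0 ≤ C0)
    (hτ : 0 < τ) (hτ1 : τ ≤ 1) (hT0 : 0 ≤ T) (hT : T ≤ C0 * dy j * (dy j / τ) ^ β) (h1 : β ≤ 1) :
    T ^ 2 ≤ (C0 / τ) ^ 2 * (dy j ^ 2 * dy j ^ (β / 2)) := by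
  have hj := dy_pos j
  have hj1 := dy_le_one j
  have h2 : (dy j / τ) ^ β ≤ dy j ^ β / τ := by
    rw [Real.div_rpow hj.le hτ.le]
    apply div_le_div_of_nonneg_left (by positivity) hτ
    calc τ = τ ^ (1 : ℝ) := (Real.rpow_one τ).symm
      _ ≤ τ ^ β := Real.rpow_le_rpow_of_exponent_ge hτ hτ1 h1
  have h3 : T ≤ C0 / τ * (dy j * dy j ^ β) := by
    calc T ≤ C0 * dy j * (dy j ^ β / τ) := hT.trans (by gcongr)
      _ = _ := by ring
  have h4 : (dy j ^ β) ^ 2 ≤ dy j ^ (β / 2) := by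
    rw [← Real.rpow_natCast, ← Real.rpow_mul hj.le]
    apply Real.rpow_le_rpow_of_exponent_ge hj hj1
    push_cast
    linarith
  calc T ^ 2 ≤ (C0 / τ * (dy j * dy j ^ β)) ^ 2 := pow_le_pow_left₀ hT0 h3 2
    _ = (C0 / τ) ^ 2 * (dy j ^ 2 * (dy j ^ β) ^ 2) := by ring
    _ ≤ _ := by gcongr

end Crest.Agent.R247.FarAsm196
end
end

-- ▼ part R247/FarAsm5_196
section

/-!
# Assembly of block (1), part 5: summation over the blocks for one line (helper196)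
-/

set_option autoImplicit false
set_option linter.unusedSectionVars false
open MeasureTheory Set Filter Topology Metric
open scoped ENNReal NNReal

noncomputable section
namespace Crest.Agent.R247.FarAsm196

open Crest.Agent.R247.Mcp688 Crest.Agent.R247.Far553

lemma sum_Ioc_reflect (f : ℕ → ℝ) {i1 m : ℕ} (h : i1 ≤ m) :
    ∑ i ∈ Finset.Ioc i1 m, f i = ∑ l ∈ Finset.range (m - i1), f (m - l) := by
  refine Finset.sum_nbij' (fun i => m - i) (fun l => m - l) ?_ ?_ ?_ ?_ ?_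
  · intro i hi
    rw [Finset.mem_Ioc] at hi
    rw [Finset.mem_range]
    omega
  · intro l hl
    rw [Finset.mem_range] at hl
    rw [Finset.mem_Ioc]
    omega
  · intro i hi
    rw [Finset.mem_Ioc] at hi
    omega
  · intro l hl
    rw [Finset.mem_range] at hl
    omega
  · intro i hi
    rw [Finset.mem_Ioc] at hi
    congr 1
    omega

/-- Cauchy–Schwarz for the blocks -/
lemma blk_cs {b : ℝ} (hb : 0 < b) {i1 m j : ℕ} (h1 : i1 ≤ m) (h2 : m ≤ j) (blk : ℕ → ℝ) :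
    (∑ i ∈ Finset.Ioc i1 m, blk i) ^ 2 ≤
      Num824.geoC b * ∑ i ∈ Finset.Ioc i1 m, (2 : ℝ) ^ (b * ((j : ℝ) - i)) * blk i ^ 2 := by
  have hg := Num824.geoC_pos hb
  rw [sum_Ioc_reflect blk h1, sum_Ioc_reflect _ h1]
  refine (Num824.geo_cs hb (fun l => blk (m - l)) (m - i1)).trans ?_
  refine mul_le_mul_of_nonneg_left (Finset.sum_le_sum fun l hl => ?_) hg.le
  rw [Finset.mem_range] at hl
  refine mul_le_mul_of_nonneg_right ?_ (sq_nonneg _)
  apply two_rpow_mono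
  have h3 : l ≤ m := by omega
  push_cast [Nat.cast_sub h3]
  have h4 : (m : ℝ) ≤ j := by exact_mod_cast h2
  nlinarith

/-- combination of the first block, the dyadic blocks and the top term -/
lemma comb {b : ℝ} (hb : 0 < b) {i1 m j : ℕ} (h1 : i1 ≤ m) (h2 : m ≤ j) (blk : ℕ → ℝ)
    (E0 J1 : ℝ) {A t : ℝ} (hA : 0 ≤ A) (B : ℕ → ℝ≥0∞)
    (hB : ∀ i ∈ Finset.Ioc i1 m, ENNReal.ofReal (blk i ^ 2) ≤
      ENNReal.ofReal (A * (t ^ 2 * (2 : ℝ) ^ (-(2 * b * ((j : ℝ) - i))))) * B i) :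
    ENNReal.ofReal ((E0 + ∑ i ∈ Finset.Ioc i1 m, blk i - J1) ^ 2) ≤
      3 * (ENNReal.ofReal (E0 ^ 2) + ENNReal.ofReal (Num824.geoC b * A) *
        ∑ i ∈ Finset.Ioc i1 m, ENNReal.ofReal (t ^ 2 * (2 : ℝ) ^ (-(b * ((j : ℝ) - i)))) * B i +
        ENNReal.ofReal (J1 ^ 2)) := by
  have hg := Num824.geoC_pos hb
  set S := ∑ i ∈ Finset.Ioc i1 m, blk i with hS
  have h3 : (E0 + S - J1) ^ 2 ≤ 3 * (E0 ^ 2 + S ^ 2 + J1 ^ 2) := by
    nlinarith [sq_nonneg (E0 - S), sq_nonneg (E0 + J1), sq_nonneg (S + J1)]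
  have h4 : ENNReal.ofReal (S ^ 2) ≤ ENNReal.ofReal (Num824.geoC b * A) *
        ∑ i ∈ Finset.Ioc i1 m,
          ENNReal.ofReal (t ^ 2 * (2 : ℝ) ^ (-(b * ((j : ℝ) - i)))) * B i := by
    calc ENNReal.ofReal (S ^ 2) ≤ ENNReal.ofReal (Num824.geoC b *
            ∑ i ∈ Finset.Ioc i1 m, (2 : ℝ) ^ (b * ((j : ℝ) - i)) * blk i ^ 2) :=
          ENNReal.ofReal_le_ofReal (blk_cs hb h1 h2 blk)
      _ = ENNReal.ofReal (Num824.geoC b) * ∑ i ∈ Finset.Ioc i1 m,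
            ENNReal.ofReal ((2 : ℝ) ^ (b * ((j : ℝ) - i))) * ENNReal.ofReal (blk i ^ 2) := by
          rw [ENNReal.ofReal_mul hg.le, ENNReal.ofReal_sum_of_nonneg]
          · congr 1
            refine Finset.sum_congr rfl fun i _ => ?_
            rw [ENNReal.ofReal_mul (two_rpow_pos _).le]
          · intro i _
            exact mul_nonneg (two_rpow_pos _).le (sq_nonneg _)
      _ ≤ ENNReal.ofReal (Num824.geoC b) * ∑ i ∈ Finset.Ioc i1 m,
            ENNReal.ofReal A *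
              (ENNReal.ofReal (t ^ 2 * (2 : ℝ) ^ (-(b * ((j : ℝ) - i)))) * B i) := by
          refine mul_le_mul_right (Finset.sum_le_sum fun i hi => ?_) _
          refine (mul_le_mul_right (hB i hi) _).trans (le_of_eq ?_)
          rw [← mul_assoc, ← mul_assoc (ENNReal.ofReal A), ← ENNReal.ofReal_mul (two_rpow_pos _).le,
            ← ENNReal.ofReal_mul hA]
          congr 2
          have : (2 : ℝ) ^ (-(b * ((j : ℝ) - i))) =
              (2 : ℝ) ^ (b * ((j : ℝ) - i)) * (2 : ℝ) ^ (-(2 * b * ((j : ℝ) - i))) := by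
            rw [← two_rpow_add]
            congr 1
            ring
          rw [this]
          ring
      _ = _ := by
          rw [← Finset.mul_sum, ← mul_assoc, ← ENNReal.ofReal_mul hg.le]
  calc ENNReal.ofReal ((E0 + S - J1) ^ 2) ≤ ENNReal.ofReal (3 * (E0 ^ 2 + S ^ 2 + J1 ^ 2)) :=
        ENNReal.ofReal_le_ofReal h3
    _ = 3 * (ENNReal.ofReal (E0 ^ 2) + ENNReal.ofReal (S ^ 2) + ENNReal.ofReal (J1 ^ 2)) := by
        rw [ENNReal.ofReal_mul (by norm_num), ENNReal.ofReal_add (by positivity) (by positivity),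
          ENNReal.ofReal_add (by positivity) (by positivity)]
        norm_num
    _ ≤ _ := by gcongr

/-- shifting the windows of bad scales -/
lemma bad_shift {b t : ℝ} (hb0 : 0 ≤ b) (hb1 : b ≤ 1) {i1 m j : ℕ} (h1 : 6 ≤ i1 + 1)
    (h2 : m + 4 ≤ j) (g : ℕ → ℝ≥0∞) :
    ∑ i ∈ Finset.Ioc i1 m, ENNReal.ofReal (t ^ 2 * (2 : ℝ) ^ (-(b * ((j : ℝ) - i)))) *
        (∑ e ∈ Finset.range 7, g (i - 2 + e)) ≤
      28 * ∑ i ∈ Finset.Ico 4 (j + 1),
        ENNReal.ofReal (t ^ 2 * (2 : ℝ) ^ (-(b * ((j : ℝ) - i)))) * g i := by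
  set G : ℕ → ℝ≥0∞ := fun i =>
    ENNReal.ofReal (t ^ 2 * (2 : ℝ) ^ (-(b * ((j : ℝ) - i)))) * g i with hG
  calc ∑ i ∈ Finset.Ioc i1 m, ENNReal.ofReal (t ^ 2 * (2 : ℝ) ^ (-(b * ((j : ℝ) - i)))) *
        (∑ e ∈ Finset.range 7, g (i - 2 + e))
      ≤ ∑ i ∈ Finset.Ioc i1 m, ∑ e ∈ Finset.range 7, 4 * G (i - 2 + e) := by
        refine Finset.sum_le_sum fun i hi => ?_
        rw [Finset.mem_Ioc] at hi
        rw [Finset.mul_sum]
        refine Finset.sum_le_sum fun e he => ?_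
        rw [Finset.mem_range] at he
        rw [hG]
        dsimp only
        rw [← mul_assoc]
        refine mul_le_mul_left ?_ _
        have h4 : (4 : ℝ≥0∞) = ENNReal.ofReal 4 := by norm_num
        rw [h4, ← ENNReal.ofReal_mul (by norm_num)]
        apply ENNReal.ofReal_le_ofReal
        have h5 : (2 : ℝ) ^ (-(b * ((j : ℝ) - i))) ≤
            4 * (2 : ℝ) ^ (-(b * ((j : ℝ) - (i - 2 + e : ℕ)))) := by
          have h6 : (4 : ℝ) = (2 : ℝ) ^ (2 : ℝ) := by norm_num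
          rw [h6, ← two_rpow_add]
          apply two_rpow_mono
          have h7 : ((i - 2 + e : ℕ) : ℝ) = i - 2 + e := by
            push_cast [Nat.cast_sub (show 2 ≤ i by omega)]
            ring
          rw [h7]
          have h8 : (0 : ℝ) ≤ e := Nat.cast_nonneg e
          nlinarith
        calc t ^ 2 * (2 : ℝ) ^ (-(b * ((j : ℝ) - i)))
            ≤ t ^ 2 * (4 * (2 : ℝ) ^ (-(b * ((j : ℝ) - (i - 2 + e : ℕ))))) := by gcongr
          _ = _ := by ring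
    _ = 4 * ∑ e ∈ Finset.range 7, ∑ i ∈ Finset.Ioc i1 m, G (i - 2 + e) := by
        rw [Finset.sum_comm, Finset.mul_sum]
        refine Finset.sum_congr rfl fun e _ => ?_
        rw [Finset.mul_sum]
    _ ≤ 4 * ∑ e ∈ Finset.range 7, ∑ i ∈ Finset.Ico 4 (j + 1), G i := by
        gcongr with e he
        rw [Finset.mem_range] at he
        rw [← Finset.sum_image (s := Finset.Ioc i1 m) (g := fun i => i - 2 + e) (f := G)]
        · apply Finset.sum_le_sum_of_subset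
          intro i hi
          rw [Finset.mem_image] at hi
          obtain ⟨a, ha, rfl⟩ := hi
          rw [Finset.mem_Ioc] at ha
          rw [Finset.mem_Ico]
          omega
        · intro a ha c hc hac
          simp only [Finset.coe_Ioc, Set.mem_Ioc] at ha hc hac
          omega
    _ = _ := by
        rw [Finset.sum_const, Finset.card_range, nsmul_eq_mul, ← mul_assoc]
        norm_num

section
variable {n : ℕ} {κ : ℝ} {X : Type*} [MetricSpace X] [MeasurableSpace X] [BorelSpace X]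
  {μ : Measure X}

/-- an a.e. property holds at a.e. arclength time of a.e. ray -/
lemma ae_arc [SFinite μ] (C : Rad n κ X μ) (z : X) {p : X → Prop} (hp : ∀ᵐ y ∂μ, p y) :
    ∀ᵐ w ∂μ, 0 < dist z w → ∀ᵐ τ ∂(volume.restrict (Ioc 0 (dist z w))), p (ray C z w τ) := by
  filter_upwards [C.ae_ray z hp] with w hw hd
  rw [ae_restrict_iff' measurableSet_Ioc] at hw ⊢
  rw [ae_iff] at hw ⊢
  set S : Set ℝ := {t | ¬ (t ∈ Ioc (0 : ℝ) 1 → p (C.T z t w))} with hS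
  have h1 : {τ : ℝ | ¬ (τ ∈ Ioc 0 (dist z w) → p (ray C z w τ))} ⊆
      (fun τ => (dist z w)⁻¹ * τ) ⁻¹' S := by
    intro τ hτ
    simp only [mem_ofPred_eq, Classical.not_imp] at hτ
    obtain ⟨h2, h3⟩ := hτ
    simp only [hS, mem_preimage, mem_ofPred_eq, Classical.not_imp]
    have h4 : (dist z w)⁻¹ * τ = τ / dist z w := by rw [div_eq_inv_mul]
    refine ⟨⟨?_, ?_⟩, ?_⟩
    · rw [h4]; exact div_pos h2.1 hd
    · rw [h4]; exact (div_le_one hd).2 h2.2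
    · rw [h4]; exact h3
  refine measure_mono_null h1 ?_
  rw [Real.volume_preimage_mul_left (inv_ne_zero hd.ne'), hw, mul_zero]

end

end Crest.Agent.R247.FarAsm196
end
end

-- ▼ part R247/Cur6_301
section

/-!
# R247, block (1), doc 1392 section 6, deterministic part (6): over `AlongD`

* `jf r v s = ∫ ch2 s * w`, `blk r v s = ∫ ph2 s * w = jf (2 s) - jf s`;
* `decomp` : the telescoping identity;
* `blk_le`, `blk_cap` : the block estimates in `ℝ≥0∞`;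
* `first_le` : the first block.
-/

set_option autoImplicit false
noncomputable section
open Set Filter Topology MeasureTheory
open scoped Interval NNReal ENNReal

namespace Crest.Agent.R247.Cur301
open Crest.Agent.R247.Far553

def jf (r : ℝ → ℝ) (v s : ℝ) : ℝ := ∫ τ in (s / 2)..s, ch2 s τ * wf r v τ

def blk (r : ℝ → ℝ) (v s : ℝ) : ℝ := ∫ τ in (s / 2)..(2 * s), ph2 s τ * wf r v τ

lemma Crv.of_min {r : ℝ → ℝ} {l v t : ℝ}
    (hlip : ∀ x ∈ Icc 0 l, ∀ y ∈ Icc 0 l, |r x - r y| ≤ |x - y|)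
    (h0 : r 0 ≤ t) (hl : r l = l - v) (hv : |v| ≤ t) : Crv r v t 0 l where
  lip := hlip
  hv := hv
  hT0 := fun x hx => by
    have hx0 : 0 ≤ l := hx.1.trans hx.2
    have h1 := hlip l ⟨hx0, le_rfl⟩ x hx
    rw [abs_of_nonneg (by linarith [hx.2] : (0 : ℝ) ≤ l - x)] at h1
    have := (le_abs_self _).trans h1
    unfold Tf
    linarith
  hT2 := fun x hx => by
    have hx0 : 0 ≤ l := hx.1.trans hx.2
    have h1 := hlip x hx 0 ⟨le_rfl, hx0⟩
    rw [sub_zero, abs_of_nonneg hx.1] at h1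
    have := (le_abs_self _).trans h1
    have h2 := (abs_le.1 hv).2
    unfold Tf
    linarith

section telescoping
variable {r : ℝ → ℝ} {v t a b : ℝ}

lemma blk_eq {s : ℝ} (hs : 0 < s) (h : Crv r v t a b) (ha : a ≤ s / 2) (hb : 2 * s ≤ b) :
    blk r v s = jf r v (2 * s) - jf r v s := by
  have hw : ∀ {c d : ℝ}, a ≤ c → c ≤ d → d ≤ b → IntervalIntegrable (wf r v) volume c d :=
    fun {c d} hc hcd hd => ((h.mono hc hd).AD_w hcd).intervalIntegrable
  have i1 : IntervalIntegrable (fun τ => ch2 (2 * s) τ * wf r v τ) volume (s / 2) (2 * s) :=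
    (hw ha (by linarith) hb).continuousOn_mul (continuous_ch2 _).continuousOn
  have i2 : IntervalIntegrable (fun τ => ch2 s τ * wf r v τ) volume (s / 2) (2 * s) :=
    (hw ha (by linarith) hb).continuousOn_mul (continuous_ch2 _).continuousOn
  have h1 : blk r v s = (∫ τ in (s / 2)..(2 * s), ch2 (2 * s) τ * wf r v τ) -
      ∫ τ in (s / 2)..(2 * s), ch2 s τ * wf r v τ := by
    unfold blk
    rw [← intervalIntegral.integral_sub i1 i2]
    apply intervalIntegral.integral_congr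
    intro τ _
    simp only [ph2]
    ring
  have j1 : IntervalIntegrable (fun τ => ch2 (2 * s) τ * wf r v τ) volume (s / 2) s :=
    (hw ha (by linarith) (by linarith)).continuousOn_mul (continuous_ch2 _).continuousOn
  have j2 : IntervalIntegrable (fun τ => ch2 (2 * s) τ * wf r v τ) volume s (2 * s) :=
    (hw (by linarith) (by linarith) hb).continuousOn_mul (continuous_ch2 _).continuousOn
  have j3 : IntervalIntegrable (fun τ => ch2 s τ * wf r v τ) volume (s / 2) s :=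
    (hw ha (by linarith) (by linarith)).continuousOn_mul (continuous_ch2 _).continuousOn
  have j4 : IntervalIntegrable (fun τ => ch2 s τ * wf r v τ) volume s (2 * s) :=
    (hw (by linarith) (by linarith) hb).continuousOn_mul (continuous_ch2 _).continuousOn
  have z1 : ∫ τ in (s / 2)..s, ch2 (2 * s) τ * wf r v τ = 0 := by
    rw [intervalIntegral.integral_congr (g := fun _ => (0 : ℝ))]
    · simp
    · intro τ hτ
      rw [uIcc_of_le (by linarith)] at hτ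
      simp only
      rw [ch2_eq_zero (by linarith) (Or.inl (by linarith [hτ.2])), zero_mul]
  have z2 : ∫ τ in s..(2 * s), ch2 s τ * wf r v τ = 0 := by
    rw [intervalIntegral.integral_congr (g := fun _ => (0 : ℝ))]
    · simp
    · intro τ hτ
      rw [uIcc_of_le (by linarith)] at hτ
      simp only
      rw [ch2_eq_zero hs (Or.inr hτ.1), zero_mul]
  rw [h1, ← intervalIntegral.integral_add_adjacent_intervals j1 j2,
    ← intervalIntegral.integral_add_adjacent_intervals j3 j4, z1, z2, jf, jf]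
  have : 2 * s / 2 = s := by ring
  rw [this]
  ring

/-- the telescoping identity over the dyadic scales `dy i`, `i₁ < i ≤ m` -/
lemma sum_blk (h : Crv r v t a b) {i₁ m : ℕ} (him : i₁ ≤ m) (ha : a ≤ dy m / 2)
    (hb : dy i₁ ≤ b) :
    ∑ i ∈ Finset.Ioc i₁ m, blk r v (dy i) = jf r v (dy i₁) - jf r v (dy m) := by
  induction m, him using Nat.le_induction with
  | base => simp
  | succ k hk ih =>
    have h2 : dy (k + 1) = dy k / 2 := dy_succ k
    have hk0 := dy_pos k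
    rw [← Finset.insert_Ioc_right_eq_Ioc_add_one hk, Finset.sum_insert (by simp),
      ih (by rw [h2] at ha; linarith)]
    have h3 := blk_eq (dy_pos (k + 1)) h ha (by
      have := dy_anti hk
      rw [h2]
      linarith)
    rw [h3]
    have h4 : 2 * dy (k + 1) = dy k := by rw [h2]; ring
    rw [h4]
    ring

/-- **(D)** the decomposition of the far defect -/
theorem decomp (h : Crv r v t a b) {i₁ m : ℕ} (him : i₁ ≤ m) (ha : a ≤ dy m / 2)
    (hb : dy i₁ ≤ b) (Dw : ℝ) :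
    Dw - v = (Dw - v + jf r v (dy m)) + ∑ i ∈ Finset.Ioc i₁ m, blk r v (dy i)
      - jf r v (dy i₁) := by
  rw [sum_blk h him ha hb]
  ring

/-- **(T)** -/
theorem jf_cap {s : ℝ} (h : Crv r v t (s / 2) s) (hs : 0 < s) (hts : 8 * t ≤ s) :
    |jf r v s| ≤ 2 * cX * Tf r v (s / 2) := by
  have hab : s / 2 ≤ s := by linarith
  have hc := one_le_cX
  have hT := h.hT0 (s / 2) (left_mem_Icc.2 hab)
  have h1 := intervalIntegral.norm_integral_le_of_norm_le_const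
    (a := s / 2) (b := s) (f := fun τ => ch2 s τ * wf r v τ)
    (C := cX / s ^ 2 * (9 / 4 * s * Tf r v (s / 2))) (fun τ hτ => by
      rw [uIoc_of_le hab] at hτ
      have h2 := h.abs_w_le hab (by linarith : s ≤ 2 * s) hts (by linarith [h.t_nonneg])
        (Ioc_subset_Icc_self hτ)
      rw [Real.norm_eq_abs, abs_mul, abs_of_nonneg h2.1]
      exact mul_le_mul (abs_ch2 hs τ) h2.2 h2.1 (by positivity))
  rw [Real.norm_eq_abs] at h1
  refine h1.trans ?_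
  rw [abs_of_nonneg (by linarith : (0 : ℝ) ≤ s - s / 2)]
  have h3 : cX / s ^ 2 * (9 / 4 * s * Tf r v (s / 2)) * (s - s / 2) =
      9 / 8 * (cX * Tf r v (s / 2)) := by
    field_simp
    ring
  rw [h3]
  have : 0 ≤ cX * Tf r v (s / 2) := by positivity
  linarith

end telescoping

/-! ### conversion to lower integrals -/

lemma ofReal_int_div {a b : ℝ} (ha : 0 < a) (hab : a ≤ b) {f : ℝ → ℝ}
    (hf0 : ∀ τ, 0 ≤ f τ) (hf : IntervalIntegrable f volume a b) :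
    ENNReal.ofReal (∫ τ in a..b, f τ / τ) =
      ∫⁻ τ in Icc a b, ENNReal.ofReal (f τ) * ENNReal.ofReal τ⁻¹ := by
  have hi := div_int ha hab hf
  rw [intervalIntegral.integral_of_le hab, ← integral_Icc_eq_integral_Ioc,
    ofReal_integral_eq_lintegral_ofReal]
  · apply setLIntegral_congr_fun measurableSet_Icc
    intro τ hτ
    simp only
    rw [div_eq_mul_inv, ENNReal.ofReal_mul (hf0 τ)]
  · rw [intervalIntegrable_iff_integrableOn_Ioc_of_le hab] at hi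
    rwa [← integrableOn_Icc_iff_integrableOn_Ioc] at hi
  · refine (ae_restrict_iff' measurableSet_Icc).2 (Eventually.of_forall fun τ hτ => ?_)
    exact div_nonneg (hf0 τ) (ha.trans_le hτ.1).le

/-- integrability from finiteness of the lower integral -/
lemma intervalIntegrable_of_lint {a b : ℝ} (ha : 0 < a) (hab : a ≤ b) {f : ℝ → ℝ}
    (hf0 : ∀ τ, 0 ≤ f τ) (hm : Measurable f)
    (h : ∫⁻ τ in Icc a b, ENNReal.ofReal (f τ) * ENNReal.ofReal τ⁻¹ ≠ ∞) :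
    IntervalIntegrable f volume a b := by
  rw [intervalIntegrable_iff_integrableOn_Ioc_of_le hab]
  refine IntegrableOn.mono_set (t := Icc a b) ?_ Ioc_subset_Icc_self
  refine ⟨hm.aestronglyMeasurable, ?_⟩
  rw [hasFiniteIntegral_iff_ofReal (Eventually.of_forall hf0)]
  have hb0 : 0 < b := ha.trans_le hab
  have h1 : ∫⁻ τ in Icc a b, ENNReal.ofReal (f τ) ≤
      ENNReal.ofReal b * ∫⁻ τ in Icc a b, ENNReal.ofReal (f τ) * ENNReal.ofReal τ⁻¹ := by
    rw [← lintegral_const_mul' _ _ ENNReal.ofReal_ne_top]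
    apply setLIntegral_mono' measurableSet_Icc
    intro τ hτ
    have hτ0 : 0 < τ := ha.trans_le hτ.1
    rw [← ENNReal.ofReal_mul (hf0 τ), ← ENNReal.ofReal_mul hb0.le]
    apply ENNReal.ofReal_le_ofReal
    have h2 : 1 ≤ b * τ⁻¹ := by
      rw [← div_eq_mul_inv, one_le_div hτ0]
      exact hτ.2
    have h3 := mul_le_mul_of_nonneg_left h2 (hf0 τ)
    have h4 : f τ * (b * τ⁻¹) = b * (f τ * τ⁻¹) := by ring
    linarith
  exact h1.trans_lt (ENNReal.mul_lt_top ENNReal.ofReal_lt_top h.lt_top)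

/-- the right hand side of the block estimate -/
def Bq (ρ a b : ℝ) (qs ks Hs gs nks : ℝ → ℝ) : ℝ≥0∞ :=
  (∫⁻ τ in Icc a b, ENNReal.ofReal (Hs τ) * ENNReal.ofReal τ⁻¹) ^ 2 +
  (ENNReal.ofReal ρ⁻¹ * ∫⁻ τ in Icc a b,
    ENNReal.ofReal (if |ks τ| ≤ ρ ^ 2 then nks τ else 0) * ENNReal.ofReal τ⁻¹) ^ 2 +
  ENNReal.ofReal ρ⁻¹ * (∫⁻ τ in Icc a b,
    ENNReal.ofReal (if |ks τ| ≤ ρ ^ 2 then 0 else nks τ) * ENNReal.ofReal τ⁻¹) +
  ENNReal.ofReal (ρ⁻¹ ^ 2) * (∫⁻ τ in Icc a b, ENNReal.ofReal |ks τ| * ENNReal.ofReal τ⁻¹) +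
  (∫⁻ τ in Icc a b, ENNReal.ofReal (qs τ) * ENNReal.ofReal τ⁻¹) +
  (∫⁻ τ in Icc a b, ENNReal.ofReal (gs τ ^ 2) * ENNReal.ofReal τ⁻¹)

lemma Crv.abs_deriv_gf_le {r : ℝ → ℝ} {v t a b τ : ℝ} (h : Crv r v t a b) (hτ : τ ∈ Ioo a b) :
    |deriv (gf r) τ| ≤ |r τ| := by
  apply le_of_forall_pos_le_add
  intro ε hε
  have key : ‖deriv (gf r) τ‖ ≤ |r τ| + ε := by
    refine norm_deriv_le_of_lip' (𝕜 := ℝ) (F := ℝ) (f := gf r) (x₀ := τ) (C := |r τ| + ε)
      (by positivity) ?_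
    have h1 : ∀ᶠ x in 𝓝 τ, x ∈ Ioo a b := isOpen_Ioo.mem_nhds hτ
    have h2 : ∀ᶠ x in 𝓝 τ, |x - τ| < ε := by
      have := Metric.ball_mem_nhds τ hε
      filter_upwards [this] with x hx
      rwa [Metric.mem_ball, Real.dist_eq] at hx
    filter_upwards [h1, h2] with x hx hx2
    rw [Real.norm_eq_abs, Real.norm_eq_abs]
    have h3 := h.lip x (Ioo_subset_Icc_self hx) τ (Ioo_subset_Icc_self hτ)
    have h4 : gf r x - gf r τ = (r x + r τ) / 2 * (r x - r τ) := by unfold gf; ring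
    rw [h4, abs_mul]
    have h5 : |(r x + r τ) / 2| ≤ |r τ| + ε := by
      have h6 : (r x + r τ) / 2 = r τ + (r x - r τ) / 2 := by ring
      rw [h6]
      refine (abs_add_le _ _).trans ?_
      rw [abs_div, abs_two]
      have := abs_nonneg (r x - r τ)
      linarith
    exact mul_le_mul h5 h3 (abs_nonneg _) ((abs_nonneg _).trans h5)
  rwa [Real.norm_eq_abs] at key

/-- the radial defect is nonnegative -/
lemma Crv.Nh_nonneg {r : ℝ → ℝ} {v t a b τ : ℝ} (h : Crv r v t a b) (hτ : τ ∈ Ioo a b)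
    (h0 : 0 ≤ a) : 0 ≤ τ ^ 2 - 2 * τ * deriv (gf r) τ + r τ ^ 2 := by
  have h1 := h.abs_deriv_gf_le hτ
  have h2 := le_abs_self (deriv (gf r) τ)
  have hτ0 : 0 ≤ τ := h0.trans hτ.1.le
  have h3 : τ * deriv (gf r) τ ≤ τ * |r τ| := mul_le_mul_of_nonneg_left (h2.trans h1) hτ0
  have h4 : |r τ| ^ 2 = r τ ^ 2 := sq_abs _
  nlinarith [sq_nonneg (τ - |r τ|)]

/-- `AlongD` gives `Sc` on a subinterval -/
lemma sc_of_along {l ρ Dw gz a b : ℝ} {r qs ks Hs gs nks : ℝ → ℝ}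
    (A : AlongD l ρ (gf r) qs ks Hs gs nks Dw gz) {v t : ℝ} (hc : Crv r v t a b)
    (ha : 0 < a) (hab : a ≤ b) (hb : b ≤ l)
    (hH : ∀ τ, 0 ≤ Hs τ) (hn : ∀ τ, 0 ≤ nks τ) (hg : ∀ τ, 0 ≤ gs τ) (hρ : 0 < ρ)
    (ig : IntervalIntegrable (fun τ => gs τ ^ 2) volume a b) :
    Sc r ρ a b A.U A.U1 A.e qs A.K A.K1 nks Hs (fun τ => gs τ ^ 2) := by
  have hl0 : 0 ≤ l := (ha.le.trans hab).trans hb
  have hsub : ∀ {τ : ℝ}, τ ∈ Icc a b → τ ∈ Icc 0 l := fun {τ} hτ =>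
    ⟨ha.le.trans hτ.1, hτ.2.trans hb⟩
  have hmono : ∀ {f : ℝ → ℝ}, IntervalIntegrable f volume 0 l →
      IntervalIntegrable f volume a b := fun {f} hf =>
    hf.mono_set (by
      rw [uIcc_of_le hab, uIcc_of_le hl0]
      exact Icc_subset_Icc ha.le hb)
  have hae : ∀ {p : ℝ → Prop}, (∀ᵐ τ ∂(volume.restrict (Ioo 0 l)), p τ) →
      ∀ᵐ τ, τ ∈ Icc a b → p τ := fun {p} hp => by
    rw [ae_restrict_iff' measurableSet_Ioo] at hp
    have h1 : ∀ᵐ τ : ℝ, τ ≠ l := by simp [ae_iff, measure_singleton]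
    filter_upwards [hp, h1] with τ h2 h3 hτ
    exact h2 ⟨ha.trans_le hτ.1, lt_of_le_of_ne (hτ.2.trans hb) h3⟩
  have mkAD : ∀ {F f : ℝ → ℝ}, IntervalIntegrable f volume 0 l →
      (∀ c ∈ Icc 0 l, ∀ d ∈ Icc 0 l, F d - F c = ∫ τ in c..d, f τ) → AD F f a b :=
    fun {F f} hf hF => ⟨hab, hmono hf, fun x hx => by
      have := hF a (hsub ⟨le_rfl, hab⟩) x (hsub hx)
      linarith⟩
  have iU1 : IntervalIntegrable A.U1 volume 0 l := by
    apply ContinuousOn.intervalIntegrable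
    rw [uIcc_of_le hl0]
    exact A.U1_cont
  refine
    { hU := mkAD iU1 A.ftc_U
      hU1 := mkAD (intervalIntegrable_const.add A.e_int) A.ftc_U1
      hK := mkAD A.K1_int A.ftc_K
      hQ := ?_
      hN0 := fun τ hτ => A.N_nonneg τ (hsub hτ)
      hN1 := ?_
      hND := ?_
      hGn := Eventually.of_forall fun τ _ => hn τ
      hH := Eventually.of_forall fun τ _ => hH τ
      hD := Eventually.of_forall fun τ _ => sq_nonneg _
      iGn := hmono A.nks_int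
      iH := hmono A.Hs_int
      iD := ig }
  · filter_upwards [hae A.hU] with τ h1 hτ
    rw [h1 hτ]
    ring
  · filter_upwards [hae A.K1_le] with τ h1 hτ
    exact h1 hτ
  · have e1 : ∀ᵐ τ : ℝ, τ ≠ a := by simp [ae_iff, measure_singleton]
    have e2 : ∀ᵐ τ : ℝ, τ ≠ b := by simp [ae_iff, measure_singleton]
    filter_upwards [hae A.N_le, e1, e2] with τ h1 h1a h1b hτ
    have h2 := h1 hτ
    have h3 := A.N_nonneg τ (hsub hτ)
    have h5 : 0 ≤ ρ * gs τ := mul_nonneg hρ.le (hg τ)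
    have h6 := hc.Nh_nonneg (τ := τ)
      ⟨lt_of_le_of_ne hτ.1 (Ne.symm h1a), lt_of_le_of_ne hτ.2 h1b⟩ ha.le
    have h7 := Real.sq_sqrt h3
    have h8 := Real.sq_sqrt h6
    have h9 := Real.sqrt_nonneg (τ ^ 2 - 2 * τ * A.U1 τ + A.K τ + 2 * A.U τ)
    have h12 : 2 * gf r τ = r τ ^ 2 := by unfold gf; ring
    rw [h12] at h2
    have h11 : (√(τ ^ 2 - 2 * τ * A.U1 τ + A.K τ + 2 * A.U τ)) ^ 2 ≤
        (√(τ ^ 2 - 2 * τ * deriv (gf r) τ + r τ ^ 2) + ρ * gs τ) ^ 2 :=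
      pow_le_pow_left₀ h9 h2 2
    unfold Nf
    have h13 : (√(τ ^ 2 - 2 * τ * deriv (gf r) τ + r τ ^ 2) + ρ * gs τ) ^ 2 ≤
        2 * (√(τ ^ 2 - 2 * τ * deriv (gf r) τ + r τ ^ 2)) ^ 2 + 2 * (ρ * gs τ) ^ 2 := by
      nlinarith [sq_nonneg (√(τ ^ 2 - 2 * τ * deriv (gf r) τ + r τ ^ 2) - ρ * gs τ)]
    rw [h7] at h11
    rw [h8] at h13
    have h14 : (ρ * gs τ) ^ 2 = ρ ^ 2 * gs τ ^ 2 := by ring
    rw [h14] at h13
    linarith

end Crest.Agent.R247.Cur301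
end
end

-- ▼ part R247/Cur7_301

/-!
# R247, block (1), doc 1392 section 6, deterministic part (7): the block estimates over `AlongD`

* `blk_le`, `blk_cap` : the block estimates in `ℝ≥0∞`;
* `first_real`, `first_le` : the first block.
-/

set_option autoImplicit false
noncomputable section
open Set Filter Topology MeasureTheory
open scoped Interval NNReal ENNReal

namespace Crest.Agent.R247.Cur301
open Crest.Agent.R247.Far553

/-- `∫ f dτ/τ` from the lower integral -/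
lemma int_eq_toReal {a b : ℝ} (ha : 0 < a) (hab : a ≤ b) {f : ℝ → ℝ}
    (hf0 : ∀ τ, 0 ≤ f τ) (hf : IntervalIntegrable f volume a b) :
    ∫ τ in a..b, f τ / τ =
      (∫⁻ τ in Icc a b, ENNReal.ofReal (f τ) * ENNReal.ofReal τ⁻¹).toReal := by
  rw [← ofReal_int_div ha hab hf0 hf, ENNReal.toReal_ofReal]
  exact intervalIntegral.integral_nonneg hab fun τ hτ => div_nonneg (hf0 τ) (ha.trans_le hτ.1).le

/-- **(B)** the block estimate -/
theorem blk_le {l ρ Dw gz s C1 v t : ℝ} {r qs ks Hs gs nks : ℝ → ℝ}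
    (A : AlongD l ρ (gf r) qs ks Hs gs nks Dw gz) (hc : Crv r v t (s / 2) (2 * s))
    (hs : 0 < s) (hts : 8 * t ≤ s) (hl : 2 * s ≤ l) (hρ : 0 < ρ) (hC1 : 1 ≤ C1)
    (hT : s * Tf r v (s / 2) ≤ C1 * ρ ^ 2) (ht : t ^ 2 ≤ C1 * ρ ^ 2)
    (mH : Measurable Hs) (mg : Measurable gs) (mn : Measurable nks) (mq : Measurable qs)
    (mk : Measurable ks)
    (hH : ∀ τ, 0 ≤ Hs τ) (hg : ∀ τ, 0 ≤ gs τ) (hn : ∀ τ, 0 ≤ nks τ) (hq : ∀ τ, 0 ≤ qs τ) :
    ENNReal.ofReal (blk r v s ^ 2) ≤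
      ENNReal.ofReal (20000 * cX ^ 2 * C1 ^ 2 * (ρ ^ 2 / s) ^ 2) *
        Bq ρ (s / 2) (2 * s) qs ks Hs gs nks := by
  have hcX := one_le_cX
  have hab : s / 2 ≤ 2 * s := by linarith
  have ha : 0 < s / 2 := by linarith
  have hcoef : 0 < 20000 * cX ^ 2 * C1 ^ 2 * (ρ ^ 2 / s) ^ 2 := by positivity
  by_cases hB : Bq ρ (s / 2) (2 * s) qs ks Hs gs nks = ∞
  · rw [hB, ENNReal.mul_top (by simpa using hcoef)]
    exact le_top
  have mks : Measurable fun τ => |ks τ| := mk.abs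
  have hset : MeasurableSet {τ | |ks τ| ≤ ρ ^ 2} := measurableSet_le mks measurable_const
  set n1 : ℝ → ℝ := fun τ => if |ks τ| ≤ ρ ^ 2 then nks τ else 0 with hn1
  set n2 : ℝ → ℝ := fun τ => if |ks τ| ≤ ρ ^ 2 then 0 else nks τ with hn2
  have mn1 : Measurable n1 := Measurable.ite hset mn measurable_const
  have mn2 : Measurable n2 := Measurable.ite hset measurable_const mn
  have n1n : ∀ τ, 0 ≤ n1 τ := fun τ => by
    simp only [hn1]
    split_ifs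
    · exact hn τ
    · exact le_rfl
  have n2n : ∀ τ, 0 ≤ n2 τ := fun τ => by
    simp only [hn2]
    split_ifs
    · exact le_rfl
    · exact hn τ
  set T1 := ∫⁻ τ in Icc (s / 2) (2 * s), ENNReal.ofReal (Hs τ) * ENNReal.ofReal τ⁻¹ with hT1
  set T2 := ∫⁻ τ in Icc (s / 2) (2 * s), ENNReal.ofReal (n1 τ) * ENNReal.ofReal τ⁻¹ with hT2
  set T3 := ∫⁻ τ in Icc (s / 2) (2 * s), ENNReal.ofReal (n2 τ) * ENNReal.ofReal τ⁻¹ with hT3
  set T4 := ∫⁻ τ in Icc (s / 2) (2 * s), ENNReal.ofReal |ks τ| * ENNReal.ofReal τ⁻¹ with hT4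
  set T5 := ∫⁻ τ in Icc (s / 2) (2 * s), ENNReal.ofReal (qs τ) * ENNReal.ofReal τ⁻¹ with hT5
  set T6 := ∫⁻ τ in Icc (s / 2) (2 * s), ENNReal.ofReal (gs τ ^ 2) * ENNReal.ofReal τ⁻¹ with hT6
  have hBq : Bq ρ (s / 2) (2 * s) qs ks Hs gs nks =
      T1 ^ 2 + (ENNReal.ofReal ρ⁻¹ * T2) ^ 2 + ENNReal.ofReal ρ⁻¹ * T3 +
        ENNReal.ofReal (ρ⁻¹ ^ 2) * T4 + T5 + T6 := rfl
  rw [hBq] at hB ⊢
  simp only [ENNReal.add_eq_top, not_or] at hB
  obtain ⟨⟨⟨⟨⟨f1, f2⟩, f3⟩, f4⟩, f5⟩, f6⟩ := hB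
  have hρi : 0 < ρ⁻¹ := inv_pos.2 hρ
  have g1 : T1 ≠ ∞ := fun h => f1 (by rw [h]; simp)
  have g2 : T2 ≠ ∞ := fun h => f2 (by
    rw [h, ENNReal.mul_top (by simpa using hρ)]
    simp)
  have g3 : T3 ≠ ∞ := fun h => f3 (by
    rw [h, ENNReal.mul_top (by simpa using hρ)])
  have g4 : T4 ≠ ∞ := fun h => f4 (by
    have : (0 : ℝ) < ρ⁻¹ ^ 2 := by positivity
    rw [h, ENNReal.mul_top (ENNReal.ofReal_pos.2 this).ne'])
  have i1 := intervalIntegrable_of_lint ha hab hH mH g1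
  have i2 := intervalIntegrable_of_lint ha hab n1n mn1 g2
  have i3 := intervalIntegrable_of_lint ha hab n2n mn2 g3
  have i4 := intervalIntegrable_of_lint ha hab (fun τ => abs_nonneg _) mks g4
  have i5 := intervalIntegrable_of_lint ha hab hq mq f5
  have i6 := intervalIntegrable_of_lint ha hab (fun τ => sq_nonneg (gs τ)) (mg.pow_const 2) f6
  have hsc := sc_of_along A hc ha hab hl hH hn hg hρ i6
  have hKk : ∀ᵐ τ, τ ∈ Icc (s / 2) (2 * s) → A.K τ = ks τ := by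
    have h0 := A.hK
    rw [ae_restrict_iff' measurableSet_Ioo] at h0
    have h1 : ∀ᵐ τ : ℝ, τ ≠ l := by simp [ae_iff, measure_singleton]
    filter_upwards [h0, h1] with τ h2 h3 hτ
    exact h2 ⟨ha.trans_le hτ.1, lt_of_le_of_ne (hτ.2.trans hl) h3⟩
  have hmain := scale_main (X := T1.toReal) (k1 := ρ⁻¹ * T2.toReal) (k2 := ρ⁻¹ * T3.toReal)
    (Kb := ρ⁻¹ ^ 2 * T4.toReal) (Qb := T5.toReal) (Db := T6.toReal) hc hs hts hρ hC1 hT ht hsc
    ENNReal.toReal_nonneg (by positivity) (by positivity) (by positivity)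
    ENNReal.toReal_nonneg ENNReal.toReal_nonneg
    (int_eq_toReal ha hab hH i1).le
    (by
      have h1 : ∫ τ in (s / 2)..(2 * s), nks τ / τ =
          (∫ τ in (s / 2)..(2 * s), n1 τ / τ) + ∫ τ in (s / 2)..(2 * s), n2 τ / τ := by
        rw [← intervalIntegral.integral_add (div_int ha hab i2) (div_int ha hab i3)]
        apply intervalIntegral.integral_congr
        intro τ _
        simp only [hn1, hn2]
        split_ifs <;> simp
      rw [h1, int_eq_toReal ha hab n1n i2, int_eq_toReal ha hab n2n i3]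
      have h2 : ρ * (ρ⁻¹ * T2.toReal + ρ⁻¹ * T3.toReal) = T2.toReal + T3.toReal := by
        field_simp
      rw [h2])
    (by
      have h1 : ∫ τ in (s / 2)..(2 * s), |A.K τ| / τ = ∫ τ in (s / 2)..(2 * s), |ks τ| / τ := by
        apply intervalIntegral.integral_congr_ae
        filter_upwards [hKk] with τ h2 hτ
        rw [uIoc_of_le hab] at hτ
        rw [h2 (Ioc_subset_Icc_self hτ)]
      rw [h1, int_eq_toReal ha hab (fun τ => abs_nonneg _) i4]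
      have h2 : ρ ^ 2 * (ρ⁻¹ ^ 2 * T4.toReal) = T4.toReal := by
        field_simp
      rw [h2])
    (by
      have h1 : ∫ τ in (s / 2)..(2 * s), |qs τ| / τ = ∫ τ in (s / 2)..(2 * s), qs τ / τ := by
        apply intervalIntegral.integral_congr
        intro τ _
        simp only [abs_of_nonneg (hq τ)]
      rw [h1, int_eq_toReal ha hab hq i5])
    (int_eq_toReal ha hab (fun τ => sq_nonneg (gs τ)) i6).le
  have h1 : ENNReal.ofReal (blk r v s ^ 2) ≤ ENNReal.ofReal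
      (20000 * cX ^ 2 * C1 ^ 2 * (ρ ^ 2 / s) ^ 2 * (T1.toReal ^ 2 + (ρ⁻¹ * T2.toReal) ^ 2 +
        ρ⁻¹ * T3.toReal + ρ⁻¹ ^ 2 * T4.toReal + T5.toReal + T6.toReal)) :=
    ENNReal.ofReal_le_ofReal hmain
  refine h1.trans (le_of_eq ?_)
  rw [ENNReal.ofReal_mul hcoef.le, ENNReal.ofReal_add (by positivity) (by positivity),
    ENNReal.ofReal_add (by positivity) (by positivity),
    ENNReal.ofReal_add (by positivity) (by positivity),
    ENNReal.ofReal_add (by positivity) (by positivity),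
    ENNReal.ofReal_add (by positivity) (by positivity),
    ENNReal.ofReal_pow ENNReal.toReal_nonneg, ENNReal.ofReal_pow (by positivity),
    ENNReal.ofReal_mul hρi.le, ENNReal.ofReal_mul hρi.le,
    ENNReal.ofReal_mul (by positivity : (0 : ℝ) ≤ ρ⁻¹ ^ 2),
    ENNReal.ofReal_toReal g1, ENNReal.ofReal_toReal g2, ENNReal.ofReal_toReal g3,
    ENNReal.ofReal_toReal g4, ENNReal.ofReal_toReal f5, ENNReal.ofReal_toReal f6]

/-- the cap in the same normalisation -/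
theorem blk_cap {s ρ C1 v t : ℝ} {r : ℝ → ℝ} (hc : Crv r v t (s / 2) (2 * s))
    (hs : 0 < s) (hts : 8 * t ≤ s) (hT : s * Tf r v (s / 2) ≤ C1 * ρ ^ 2) :
    blk r v s ^ 2 ≤ 49 * cX ^ 2 * C1 ^ 2 * (ρ ^ 2 / s) ^ 2 := by
  have hcX := one_le_cX
  have hcap := hc.cap hs hts
  have hT' : Tf r v (s / 2) ≤ C1 * (ρ ^ 2 / s) := by
    rw [← mul_div_assoc, le_div_iff₀ hs]
    linarith
  have h1 : |blk r v s| ≤ 7 * cX * (C1 * (ρ ^ 2 / s)) :=
    hcap.trans (mul_le_mul_of_nonneg_left hT' (by linarith))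
  rw [← sq_abs]
  refine (pow_le_pow_left₀ (abs_nonneg _) h1 2).trans (le_of_eq ?_)
  ring


/-- **(F)** the first block, real form -/
theorem first_real {l ρ Dw gz v t : ℝ} {r qs ks Hs gs nks : ℝ → ℝ}
    (A : AlongD l ρ (gf r) qs ks Hs gs nks Dw gz) (hc : Crv r v t 0 l)
    (hρ : 0 < ρ) (hρl : ρ ≤ l) (hq : ∀ τ, 0 ≤ qs τ)
    (iq : IntervalIntegrable qs volume 0 ρ) :
    |Dw - v + jf r v ρ| ≤ ρ * gz + (∫ τ in (0 : ℝ)..ρ, Hs τ) + cX * ∫ τ in (0 : ℝ)..ρ, qs τ := by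
  have hcX := one_le_cX
  have hl0 : 0 ≤ l := hρ.le.trans hρl
  have hρ0 := hρ.le
  have hsub : ∀ {τ : ℝ}, τ ∈ Icc 0 ρ → τ ∈ Icc 0 l := fun {τ} hτ => ⟨hτ.1, hτ.2.trans hρl⟩
  have hmono : ∀ {f : ℝ → ℝ}, IntervalIntegrable f volume 0 l →
      IntervalIntegrable f volume 0 ρ := fun {f} hf =>
    hf.mono_set (by
      rw [uIcc_of_le hρ0, uIcc_of_le hl0]
      exact Icc_subset_Icc le_rfl hρl)
  have mkAD : ∀ {F f : ℝ → ℝ}, IntervalIntegrable f volume 0 l →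
      (∀ c ∈ Icc 0 l, ∀ d ∈ Icc 0 l, F d - F c = ∫ τ in c..d, f τ) → AD F f 0 ρ :=
    fun {F f} hf hF => ⟨hρ0, hmono hf, fun x hx => by
      have := hF 0 (hsub ⟨le_rfl, hρ0⟩) x (hsub hx)
      linarith⟩
  have iU1 : IntervalIntegrable A.U1 volume 0 l := by
    apply ContinuousOn.intervalIntegrable
    rw [uIcc_of_le hl0]
    exact A.U1_cont
  have hU : AD A.U A.U1 0 ρ := mkAD iU1 A.ftc_U
  have hU1 : AD A.U1 (fun τ => 1 + A.e τ) 0 ρ :=
    mkAD (intervalIntegrable_const.add A.e_int) A.ftc_U1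
  -- general formula
  have key : ∀ {F F1 f : ℝ → ℝ}, AD F F1 0 ρ → AD F1 (fun τ => 1 + f τ) 0 ρ →
      IntervalIntegrable f volume 0 ρ →
      ∫ τ in (0 : ℝ)..ρ, ch2 ρ τ * F τ =
        F1 0 + (∫ τ in (0 : ℝ)..ρ, ch ρ τ) + ∫ τ in (0 : ℝ)..ρ, ch ρ τ * f τ := by
    intro F F1 f h1 h2 hf
    have e1 := (AD_ch1 (s := ρ) _ _ hρ0).parts h1
      (by rw [ch1_eq_zero (τ := 0) hρ (Or.inl (by linarith)), zero_mul])
      (by rw [ch1_eq_zero (τ := ρ) hρ (Or.inr le_rfl), zero_mul])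
    have e2 := ((AD_ch (s := ρ) _ _ hρ0).mul h2).integral_eq
    have hcc : ContinuousOn (ch ρ) (uIcc 0 ρ) := (continuous_ch ρ).continuousOn
    have hcc1 : ContinuousOn (ch1 ρ) (uIcc 0 ρ) := (continuous_ch1 ρ).continuousOn
    rw [intervalIntegral.integral_add (h2.intervalIntegrable.continuousOn_mul hcc1)
      (h2.int.continuousOn_mul hcc), ch_eq_one (τ := 0) hρ (by linarith),
      ch_eq_zero (τ := ρ) hρ le_rfl] at e2
    have e3 : ∫ τ in (0 : ℝ)..ρ, ch ρ τ * (1 + f τ) =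
        (∫ τ in (0 : ℝ)..ρ, ch ρ τ) + ∫ τ in (0 : ℝ)..ρ, ch ρ τ * f τ := by
      rw [← intervalIntegral.integral_add ((continuous_ch ρ).intervalIntegrable _ _)
        (hf.continuousOn_mul hcc)]
      apply intervalIntegral.integral_congr
      intro τ _
      simp only
      ring
    rw [e3] at e2
    linarith
  have hf1 := key hU hU1 (hmono A.e_int)
  have hf2 : ∫ τ in (0 : ℝ)..ρ, ch2 ρ τ * ((τ - v) ^ 2 / 2) =
      -v + ∫ τ in (0 : ℝ)..ρ, ch ρ τ := by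
    have h1 : AD (fun τ : ℝ => (τ - v) ^ 2 / 2) (fun τ => τ - v) 0 ρ := by
      refine AD.of_hasDerivAt hρ0 (fun x _ => ?_) (by fun_prop)
      have h2 : HasDerivAt (fun τ : ℝ => τ - v) 1 x := (hasDerivAt_id x).sub_const v
      refine ((h2.pow 2).div_const 2).congr_deriv ?_
      simp
    have h2 : AD (fun τ : ℝ => τ - v) (fun τ => 1 + 0) 0 ρ := by
      refine AD.of_hasDerivAt hρ0 (fun x _ => ?_) (by fun_prop)
      simpa using (hasDerivAt_id x).sub_const v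
    have h3 := key (f := fun _ => 0) h1 h2 (by simp)
    rw [h3]
    simp
  -- `jf` as an integral over `[0, ρ]`
  have hw : IntervalIntegrable (wf r v) volume 0 ρ :=
    ((hc.mono le_rfl hρl).AD_w hρ0).intervalIntegrable
  have hcc2 : ContinuousOn (ch2 ρ) (uIcc 0 ρ) := (continuous_ch2 ρ).continuousOn
  have hj : jf r v ρ = ∫ τ in (0 : ℝ)..ρ, ch2 ρ τ * wf r v τ := by
    have hi := hw.continuousOn_mul hcc2
    have s1 : uIcc 0 (ρ / 2) ⊆ uIcc 0 ρ := by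
      rw [uIcc_of_le (by linarith), uIcc_of_le hρ0]
      exact Icc_subset_Icc le_rfl (by linarith)
    have s2 : uIcc (ρ / 2) ρ ⊆ uIcc 0 ρ := by
      rw [uIcc_of_le (by linarith), uIcc_of_le hρ0]
      exact Icc_subset_Icc (by linarith) le_rfl
    rw [← intervalIntegral.integral_add_adjacent_intervals (hi.mono_set s1) (hi.mono_set s2), jf]
    have z1 : ∫ τ in (0 : ℝ)..(ρ / 2), ch2 ρ τ * wf r v τ = 0 := by
      rw [intervalIntegral.integral_congr (g := fun _ => (0 : ℝ))]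
      · simp
      · intro τ hτ
        rw [uIcc_of_le (by linarith)] at hτ
        simp only
        rw [ch2_eq_zero hρ (Or.inl hτ.2), zero_mul]
    rw [z1, zero_add]
  have hdec : ∫ τ in (0 : ℝ)..ρ, ch2 ρ τ * wf r v τ =
      (∫ τ in (0 : ℝ)..ρ, ch2 ρ τ * A.U τ) + ρ ^ 2 * (∫ τ in (0 : ℝ)..ρ, ch2 ρ τ * qs τ) -
        ∫ τ in (0 : ℝ)..ρ, ch2 ρ τ * ((τ - v) ^ 2 / 2) := by
    have j1 := hU.intervalIntegrable.continuousOn_mul hcc2
    have j2 := (iq.continuousOn_mul hcc2).const_mul (ρ ^ 2)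
    have j3 : IntervalIntegrable (fun τ : ℝ => ch2 ρ τ * ((τ - v) ^ 2 / 2)) volume 0 ρ := by
      apply Continuous.intervalIntegrable
      exact (continuous_ch2 ρ).mul (by fun_prop)
    rw [← intervalIntegral.integral_const_mul, ← intervalIntegral.integral_add j1 j2,
      ← intervalIntegral.integral_sub (j1.add j2) j3]
    apply intervalIntegral.integral_congr_ae
    have h0 := A.hU
    rw [ae_restrict_iff' measurableSet_Ioo] at h0
    have h1 : ∀ᵐ τ : ℝ, τ ≠ l := by simp [ae_iff, measure_singleton]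
    filter_upwards [h0, h1] with τ h2 h3 hτ
    rw [uIoc_of_le hρ0] at hτ
    have h4 := h2 ⟨hτ.1, lt_of_le_of_ne (hτ.2.trans hρl) h3⟩
    have h5 : gf r τ = A.U τ + ρ ^ 2 * qs τ := by linarith
    unfold gf at h5
    unfold wf
    rw [h5]
    ring
  have hfin : Dw - v + jf r v ρ = (A.U1 0 + Dw) + (∫ τ in (0 : ℝ)..ρ, ch ρ τ * A.e τ) +
      ρ ^ 2 * ∫ τ in (0 : ℝ)..ρ, ch2 ρ τ * qs τ := by
    rw [hj, hdec, hf1, hf2]
    ring
  rw [hfin]
  have b1 : |∫ τ in (0 : ℝ)..ρ, ch ρ τ * A.e τ| ≤ ∫ τ in (0 : ℝ)..ρ, Hs τ := by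
    refine (intervalIntegral.abs_integral_le_integral_abs hρ0).trans ?_
    have hcc : ContinuousOn (ch ρ) (uIcc 0 ρ) := (continuous_ch ρ).continuousOn
    apply intervalIntegral.integral_mono_ae_restrict hρ0
      (((hmono A.e_int).continuousOn_mul hcc).abs) (hmono A.Hs_int)
    refine (ae_restrict_iff' (measurableSet_Icc (a := (0 : ℝ)) (b := ρ))).2 ?_
    have h0 := A.e_le
    rw [ae_restrict_iff' measurableSet_Ioo] at h0
    have h1 : ∀ᵐ τ : ℝ, τ ≠ l := by simp [ae_iff, measure_singleton]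
    have h1' : ∀ᵐ τ : ℝ, τ ≠ 0 := by simp [ae_iff, measure_singleton]
    filter_upwards [h0, h1, h1'] with τ h2 h3 h3' hτ
    have h4 := h2 ⟨lt_of_le_of_ne hτ.1 (Ne.symm h3'), lt_of_le_of_ne (hτ.2.trans hρl) h3⟩
    rw [abs_mul, abs_of_nonneg (ch_nonneg ρ τ)]
    calc ch ρ τ * |A.e τ| ≤ 1 * |A.e τ| :=
          mul_le_mul_of_nonneg_right (ch_le_one ρ τ) (abs_nonneg _)
      _ ≤ Hs τ := by rwa [one_mul]
  have b2 : |ρ ^ 2 * ∫ τ in (0 : ℝ)..ρ, ch2 ρ τ * qs τ| ≤ cX * ∫ τ in (0 : ℝ)..ρ, qs τ := by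
    rw [abs_mul, abs_of_nonneg (by positivity : (0 : ℝ) ≤ ρ ^ 2)]
    have h1 : |∫ τ in (0 : ℝ)..ρ, ch2 ρ τ * qs τ| ≤ cX / ρ ^ 2 * ∫ τ in (0 : ℝ)..ρ, qs τ := by
      refine (intervalIntegral.abs_integral_le_integral_abs hρ0).trans ?_
      rw [← intervalIntegral.integral_const_mul]
      apply intervalIntegral.integral_mono_on hρ0 ((iq.continuousOn_mul hcc2).abs)
        (iq.const_mul _)
      intro τ _
      rw [abs_mul, abs_of_nonneg (hq τ)]
      exact mul_le_mul_of_nonneg_right (abs_ch2 hρ τ) (hq τ)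
    calc ρ ^ 2 * |∫ τ in (0 : ℝ)..ρ, ch2 ρ τ * qs τ|
        ≤ ρ ^ 2 * (cX / ρ ^ 2 * ∫ τ in (0 : ℝ)..ρ, qs τ) :=
          mul_le_mul_of_nonneg_left h1 (by positivity)
      _ = cX * ∫ τ in (0 : ℝ)..ρ, qs τ := by field_simp
  calc |A.U1 0 + Dw + (∫ τ in (0 : ℝ)..ρ, ch ρ τ * A.e τ) +
        ρ ^ 2 * ∫ τ in (0 : ℝ)..ρ, ch2 ρ τ * qs τ|
      ≤ |A.U1 0 + Dw| + |∫ τ in (0 : ℝ)..ρ, ch ρ τ * A.e τ| +
        |ρ ^ 2 * ∫ τ in (0 : ℝ)..ρ, ch2 ρ τ * qs τ| := abs_add_three _ _ _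
    _ ≤ _ := by
        have := A.first
        linarith

/-- conversion of an integral over `[0, ρ]` -/
lemma ofReal_int {a b : ℝ} (hab : a ≤ b) {f : ℝ → ℝ}
    (hf0 : ∀ τ, 0 ≤ f τ) (hf : IntervalIntegrable f volume a b) :
    ENNReal.ofReal (∫ τ in a..b, f τ) = ∫⁻ τ in Icc a b, ENNReal.ofReal (f τ) := by
  rw [intervalIntegral.integral_of_le hab, ← integral_Icc_eq_integral_Ioc,
    ofReal_integral_eq_lintegral_ofReal]
  · rw [intervalIntegrable_iff_integrableOn_Ioc_of_le hab] at hf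
    rwa [← integrableOn_Icc_iff_integrableOn_Ioc] at hf
  · exact Eventually.of_forall fun τ => hf0 τ

lemma intervalIntegrable_of_lint' {a b : ℝ} (hab : a ≤ b) {f : ℝ → ℝ}
    (hf0 : ∀ τ, 0 ≤ f τ) (hm : Measurable f)
    (h : ∫⁻ τ in Icc a b, ENNReal.ofReal (f τ) ≠ ∞) :
    IntervalIntegrable f volume a b := by
  rw [intervalIntegrable_iff_integrableOn_Ioc_of_le hab]
  refine IntegrableOn.mono_set (t := Icc a b) ?_ Ioc_subset_Icc_self
  refine ⟨hm.aestronglyMeasurable, ?_⟩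
  rw [hasFiniteIntegral_iff_ofReal (Eventually.of_forall hf0)]
  exact h.lt_top

/-- Cauchy–Schwarz on `[0, ρ]` -/
lemma sq_int_le {ρ : ℝ} (hρ : 0 < ρ) {f : ℝ → ℝ} (hf0 : ∀ τ, 0 ≤ f τ)
    (hf : IntervalIntegrable f volume 0 ρ)
    (hf2 : IntervalIntegrable (fun τ => f τ ^ 2) volume 0 ρ) :
    (∫ τ in (0 : ℝ)..ρ, f τ) ^ 2 ≤ ρ * ∫ τ in (0 : ℝ)..ρ, f τ ^ 2 := by
  apply sq_le_of_param hρ (intervalIntegral.integral_nonneg hρ.le fun τ _ => hf0 τ)
  intro c hc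
  have h1 : ∫ τ in (0 : ℝ)..ρ, 2 * f τ ≤ ∫ τ in (0 : ℝ)..ρ, (c + c⁻¹ * f τ ^ 2) := by
    apply intervalIntegral.integral_mono_on hρ.le (hf.const_mul 2)
      (intervalIntegrable_const.add (hf2.const_mul _))
    intro τ _
    have h3 : 0 ≤ c⁻¹ * (f τ - c) ^ 2 := by positivity
    have h4 : c⁻¹ * (f τ - c) ^ 2 = c⁻¹ * f τ ^ 2 - 2 * f τ + c := by
      field_simp
      ring
    linarith
  rw [intervalIntegral.integral_const_mul, intervalIntegral.integral_add intervalIntegrable_const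
    (hf2.const_mul _), intervalIntegral.integral_const_mul, intervalIntegral.integral_const,
    smul_eq_mul] at h1
  rw [div_eq_inv_mul]
  have h2 : (ρ - 0) * c = c * ρ := by ring
  rw [h2] at h1
  exact h1

/-- **(F)** the first block, `ℝ≥0∞` form -/
theorem first_le {l ρ Dw gz v t Mq : ℝ} {r qs ks Hs gs nks : ℝ → ℝ}
    (A : AlongD l ρ (gf r) qs ks Hs gs nks Dw gz) (hc : Crv r v t 0 l)
    (hρ : 0 < ρ) (hρl : ρ ≤ l) (hMq : 1 ≤ Mq)
    (mH : Measurable Hs) (mq : Measurable qs)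
    (hH : ∀ τ, 0 ≤ Hs τ) (hq : ∀ τ, 0 ≤ qs τ) (hqM : ∀ᵐ τ, τ ∈ Icc 0 ρ → qs τ ≤ Mq)
    (hgz : 0 ≤ gz) :
    ENNReal.ofReal ((Dw - v + jf r v ρ) ^ 2) ≤ ENNReal.ofReal (3 * cX ^ 2 * Mq) *
      (ENNReal.ofReal ((ρ * gz) ^ 2) +
        ENNReal.ofReal ρ * (∫⁻ τ in Icc 0 ρ, ENNReal.ofReal (Hs τ ^ 2)) +
        ENNReal.ofReal ρ * ∫⁻ τ in Icc 0 ρ, ENNReal.ofReal (qs τ)) := by
  have hcX := one_le_cX
  have hcoef : 0 < 3 * cX ^ 2 * Mq := by positivity
  have hρe : ENNReal.ofReal ρ ≠ 0 := by simpa using hρ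
  have hl0 : 0 ≤ l := hρ.le.trans hρl
  by_cases h2 : ∫⁻ τ in Icc 0 ρ, ENNReal.ofReal (Hs τ ^ 2) = ∞
  · rw [h2, ENNReal.mul_top hρe, add_top, top_add, ENNReal.mul_top (by simpa using hcoef)]
    exact le_top
  by_cases h3 : ∫⁻ τ in Icc 0 ρ, ENNReal.ofReal (qs τ) = ∞
  · rw [h3, ENNReal.mul_top hρe, add_top, ENNReal.mul_top (by simpa using hcoef)]
    exact le_top
  have iH2 := intervalIntegrable_of_lint' hρ.le (fun τ => sq_nonneg (Hs τ)) (mH.pow_const 2) h2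
  have iq := intervalIntegrable_of_lint' hρ.le hq mq h3
  have iH : IntervalIntegrable Hs volume 0 ρ := A.Hs_int.mono_set (by
      rw [uIcc_of_le hρ.le, uIcc_of_le hl0]
      exact Icc_subset_Icc le_rfl hρl)
  have hreal := first_real A hc hρ hρl hq iq
  have hHsq := sq_int_le hρ hH iH iH2
  set IH := ∫ τ in (0 : ℝ)..ρ, Hs τ with hIH
  set IH2 := ∫ τ in (0 : ℝ)..ρ, Hs τ ^ 2 with hIH2
  set Iq := ∫ τ in (0 : ℝ)..ρ, qs τ with hIq
  have hIq0 : 0 ≤ Iq := intervalIntegral.integral_nonneg hρ.le fun τ _ => hq τ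
  have hIH20 : 0 ≤ IH2 := intervalIntegral.integral_nonneg hρ.le fun τ _ => sq_nonneg _
  have hIqM : Iq ≤ Mq * ρ := by
    have h4 : Iq ≤ ∫ _ in (0 : ℝ)..ρ, Mq := by
      apply intervalIntegral.integral_mono_ae_restrict hρ.le iq intervalIntegrable_const
      exact (ae_restrict_iff' (measurableSet_Icc (a := (0 : ℝ)) (b := ρ))).2 hqM
    rw [intervalIntegral.integral_const, smul_eq_mul] at h4
    linarith
  have hmain : (Dw - v + jf r v ρ) ^ 2 ≤ 3 * cX ^ 2 * Mq * ((ρ * gz) ^ 2 + ρ * IH2 + ρ * Iq) := by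
    rw [← sq_abs]
    have h5 := pow_le_pow_left₀ (abs_nonneg _) hreal 2
    refine h5.trans ?_
    have h6 : (ρ * gz + IH + cX * Iq) ^ 2 ≤ 3 * ((ρ * gz) ^ 2 + IH ^ 2 + (cX * Iq) ^ 2) := by
      nlinarith [sq_nonneg (ρ * gz - IH), sq_nonneg (ρ * gz - cX * Iq), sq_nonneg (IH - cX * Iq)]
    refine h6.trans ?_
    have h7 : (cX * Iq) ^ 2 ≤ cX ^ 2 * Mq * (ρ * Iq) := by
      have : Iq * Iq ≤ Mq * ρ * Iq := mul_le_mul_of_nonneg_right hIqM hIq0
      calc (cX * Iq) ^ 2 = cX ^ 2 * (Iq * Iq) := by ring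
        _ ≤ cX ^ 2 * (Mq * ρ * Iq) := mul_le_mul_of_nonneg_left this (by positivity)
        _ = _ := by ring
    have h8 : 1 ≤ cX ^ 2 * Mq := one_le_mul_of_one_le_of_one_le (one_le_pow₀ hcX) hMq
    have h9 : (ρ * gz) ^ 2 ≤ cX ^ 2 * Mq * (ρ * gz) ^ 2 :=
      le_mul_of_one_le_left (sq_nonneg _) h8
    have h10 : IH ^ 2 ≤ cX ^ 2 * Mq * (ρ * IH2) :=
      hHsq.trans (le_mul_of_one_le_left (by positivity) h8)
    linarith
  refine (ENNReal.ofReal_le_ofReal hmain).trans (le_of_eq ?_)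
  rw [ENNReal.ofReal_mul hcoef.le, ENNReal.ofReal_add (by positivity) (by positivity),
    ENNReal.ofReal_add (by positivity) (by positivity), ENNReal.ofReal_mul hρ.le,
    ENNReal.ofReal_mul hρ.le, hIH2, hIq, ofReal_int hρ.le (fun τ => sq_nonneg (Hs τ)) iH2,
    ofReal_int hρ.le hq iq]

/-! ### the curve of `Rad` -/

set_option linter.unusedSectionVars false
section rad
open Crest.Agent.R247.Mcp688
variable {n : ℕ} {κ : ℝ} {X : Type*} [MetricSpace X] [MeasurableSpace X] [BorelSpace X]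
  {μ : Measure X} (C : Rad n κ X μ)

/-- **(C)** the geometric hypotheses for the minimiser `z → w` seen from `x` -/
theorem crv_ray {x z w : X} (hU : (z, w) ∈ C.U) (hzw : 0 < dist z w) :
    Crv (fun τ => dist x (ray C z w τ)) (dist z w - dist x w) (dist x z) 0 (dist z w) := by
  have hmem : ∀ τ ∈ Icc 0 (dist z w), τ / dist z w ∈ Icc (0 : ℝ) 1 := fun τ hτ =>
    ⟨div_nonneg hτ.1 hzw.le, (div_le_one hzw).2 hτ.2⟩
  apply Crv.of_min
  · intro a ha b hb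
    have h1 : |dist x (ray C z w a) - dist x (ray C z w b)| ≤
        dist (ray C z w a) (ray C z w b) := by
      rw [dist_comm x, dist_comm x]
      exact abs_dist_sub_le _ _ _
    refine h1.trans (le_of_eq ?_)
    unfold ray
    rw [C.dist_T z w hU _ (hmem a ha) _ (hmem b hb), ← sub_div, abs_div, abs_of_pos hzw,
      div_mul_cancel₀ _ hzw.ne']
  · simp only [ray]
    rw [zero_div, C.T_zero z w hU]
  · simp only [ray]
    rw [div_self hzw.ne', C.T_one z w hU]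
    ring
  · have := abs_dist_sub_le z x w
    rw [dist_comm z x] at this
    exact this

lemma measurable_ray (z w : X) : Measurable (ray C z w) := by
  unfold ray
  exact C.measT.comp (measurable_const.prodMk
    ((measurable_id.div_const _).prodMk measurable_const))

end rad

end Crest.Agent.R247.Cur301
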