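import Crest.Agent.R247.Prt6_657
import Crest.Agent.R247.Bs2_84
import Crest.Agent.R247.App1_470
import Crest.Agent.R247.Gs2_939

-- ▼ part R247/Prt7_657
section

/-!
R247, block (5), leaf (5-P), file 7: smooth approximation, in the graph norm of the Laplacian, on
compact subsets of one chart. (helper657)
-/

set_option autoImplicit false
set_option maxSynthPendingDepth 3
set_option linter.unusedSectionVars false
open scoped ContDiff ENNReal NNReal Topology Manifold Bundle
open MeasureTheory Set Filter Metric Bundle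
open Crest.GeometryTopology.CoordMetric Crest.GeometryTopology.ChartCurvature
open Crest.Agent.R202.Ell Crest.Agent.R247.Ms322 Crest.Agent.R226.ChartMet842
open Crest.Agent.R247.Dir593
open Crest.Agent.R247.Bo84 (inCh mLap mLap_chart lap_congr)

namespace Crest.Agent.R247.Frd657

noncomputable section

theorem integral_sq_eq {α G : Type*} [MeasurableSpace α] [NormedAddCommGroup G] {ν : Measure α}
    {h : α → G} (hm : AEStronglyMeasurable h ν) :
    ∫ x, ‖h x‖ ^ 2 ∂ν = (eLpNorm h 2 ν ^ 2).toReal := by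
  rw [integral_eq_lintegral_of_nonneg_ae (Eventually.of_forall fun x => sq_nonneg _)
    (hm.norm.pow 2), eLpNorm_two_sq]
  congr 1
  refine lintegral_congr fun x => ?_
  rw [ENNReal.ofReal_pow (norm_nonneg _), ofReal_norm]

theorem integrable_sq {α G : Type*} [MeasurableSpace α] [NormedAddCommGroup G] {ν : Measure α}
    {h : α → G} (hm : MemLp h 2 ν) : Integrable (fun x => ‖h x‖ ^ 2) ν := by
  simpa using hm.integrable_norm_pow (by norm_num)

variable {n : ℕ} {M : Type*} [MetricSpace M] [ChartedSpace (EuclideanSpace ℝ (Fin n)) M]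
  [IsManifold (𝓡 n) ∞ M]
  [RiemannianBundle (fun p : M => TangentSpace (𝓡 n) p)]
  [IsContMDiffRiemannianBundle (𝓡 n) ∞ (EuclideanSpace ℝ (Fin n)) (fun p : M => TangentSpace (𝓡 n) p)]
  [IsRiemannianManifold (𝓡 n) M] [MeasurableSpace M] [BorelSpace M] [SecondCountableTopology M]
  [Nonempty M]

local notation "𝔼" => EuclideanSpace ℝ (Fin n)

/-- from the chart to a compact subset of the source -/
theorem tendsto_restrict (x₀ : M) {K : Set 𝔼} (hK : IsCompact K)
    (hKt : K ⊆ (chartAt 𝔼 x₀).target) {G : Type} [NormedAddCommGroup G] {h : ℕ → M → G}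
    {q : ℕ → ℝ≥0∞} (hq : Tendsto q atTop (𝓝 0)) (D : ℝ≥0∞) (hD : D ≠ ⊤)
    (hb : ∀ k, eLpNorm (fun b => h k ((chartAt 𝔼 x₀).symm b)) 2 (volume.restrict K) ≤ D * q k) :
    Tendsto (fun k => eLpNorm (h k) 2
      ((μHE[n] : Measure M).restrict ((chartAt 𝔼 x₀).symm '' K))) atTop (𝓝 0) := by
  obtain ⟨C, hC, hCb⟩ := eLpNorm_le_chart (n := n) x₀ hK hKt
  have hKM := isCompact_symm_image x₀ hK hKt
  have t1 : Tendsto (fun k => ENNReal.ofReal C * (D * q k)) atTop (𝓝 0) := by
    have h1 := ENNReal.Tendsto.const_mul hq (Or.inr hD)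
    have h2 := ENNReal.Tendsto.const_mul h1 (Or.inr (ENNReal.ofReal_ne_top (r := C)))
    simpa using h2
  refine tendsto_of_tendsto_of_tendsto_of_le_of_le tendsto_const_nhds t1 (fun _ => bot_le)
    (fun k => ?_)
  have h1 := hCb (((chartAt 𝔼 x₀).symm '' K).indicator (h k)) (fun z hz => indicator_of_notMem hz _)
  rw [eLpNorm_indicator_eq_eLpNorm_restrict hKM.measurableSet] at h1
  refine h1.trans (mul_le_mul_right ?_ _)
  refine le_trans (le_of_eq ?_) (hb k)
  refine eLpNorm_congr_ae ?_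
  filter_upwards [self_mem_ae_restrict hK.measurableSet] with b hb'
  exact indicator_of_mem (mem_image_of_mem _ hb') (h k)

theorem nonneg_of_ae (x₀ : M) {g : M → ℝ} {S : ℝ}
    (h : ∀ᵐ z ∂(μHE[n] : Measure M), |g z| ≤ S) : 0 ≤ S := by
  by_contra hS
  push Not at hS
  have h1 : ∀ᵐ b : 𝔼, b ∉ (chartAt 𝔼 x₀).target := by
    filter_upwards [ae_chart (n := n) x₀ h] with b hb hbt
    have := (abs_nonneg _).trans (hb hbt)
    linarith
  have h2 : volume (chartAt 𝔼 x₀).target = 0 := by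
    have h3 := ae_iff.1 h1
    simpa using h3
  have h4 := (chartAt 𝔼 x₀).open_target.measure_pos volume
    ⟨_, (chartAt 𝔼 x₀).map_source (mem_chart_source 𝔼 x₀)⟩
  rw [h2] at h4
  exact lt_irrefl _ h4

theorem norm_dxf_bdd (x₀ : M) {K : Set 𝔼} (hK : IsCompact K) (hKt : K ⊆ (chartAt 𝔼 x₀).target)
    (i : Fin n) : ∃ C : ℝ, 0 ≤ C ∧ ∀ b ∈ K, ‖dxf x₀ i ((chartAt 𝔼 x₀).symm b)‖ ≤ C := by
  have hc : ContinuousOn (fun b => inverseField (chartMetric n M x₀) b i i) (chartAt 𝔼 x₀).target :=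
    (Crest.Agent.R202.Tens.contDiffOn_inv_entry
      (isRiemannianOn_chartMetric (n := n) x₀) i i).continuousOn
  obtain ⟨C, hC⟩ := hK.exists_bound_of_continuousOn (hc.mono hKt)
  refine ⟨√(max C 0), Real.sqrt_nonneg _, fun b hb => ?_⟩
  have h1 := hC b hb
  rw [← inner_dxf' x₀ (hKt hb) i i, real_inner_self_eq_norm_sq, Real.norm_eq_abs,
    abs_of_nonneg (sq_nonneg _)] at h1
  exact Real.le_sqrt_of_sq_le (h1.trans (le_max_left _ _))

/-- near the set where `χ = 1` the localised gradient is the gradient -/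
theorem locG_of_one {χ u : EE n → ℝ} {G : Fin n → EE n → ℝ} {b : EE n}
    (h : ∀ᶠ y in 𝓝 b, χ y = 1) (i : Fin n) : locG χ u G i b = G i b := by
  have h1 : pderiv i χ b = 0 := by
    have h2 : χ =ᶠ[𝓝 b] fun _ => 1 := h
    unfold Crest.GeometryTopology.CoordMetric.pderiv
    rw [h2.fderiv_eq]; simp
  rw [locG, h1, h.self_of_nhds]; ring

theorem locF_of_one {A : Fin n → Fin n → EE n → ℝ} {χ u f : EE n → ℝ} {G : Fin n → EE n → ℝ}
    {b : EE n} (h : ∀ᶠ y in 𝓝 b, χ y = 1) : locF A χ u G f b = f b := by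
  have h1 : ∀ᶠ y in 𝓝 b, ∀ i, pderiv i χ y = 0 := by
    filter_upwards [h.eventually_nhds] with y hy i
    have h2 : χ =ᶠ[𝓝 y] fun _ => 1 := hy
    unfold Crest.GeometryTopology.CoordMetric.pderiv
    rw [h2.fderiv_eq]; simp
  have h3 : ∀ i, flx A χ i =ᶠ[𝓝 b] fun _ => 0 := by
    intro i
    filter_upwards [h1] with y hy
    unfold flx
    exact Finset.sum_eq_zero fun j _ => by rw [hy j, mul_zero]
  have h4 : ∀ i, pderiv i (flx A χ i) b = 0 := by
    intro i
    have h5 := h3 i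
    unfold Crest.GeometryTopology.CoordMetric.pderiv
    rw [h5.fderiv_eq]; simp
  have h5 : ∀ i, flx A χ i b = 0 := fun i => (h3 i).self_of_nhds
  have h6 : ∀ i, pderiv i χ b = 0 := h1.self_of_nhds
  simp only [locF, h.self_of_nhds, h4, h5, h6]
  simp

theorem mLap_pb (x₀ : M) {P : 𝔼 → ℝ} (hP : IsTest P) (hs : tsupport P ⊆ (chartAt 𝔼 x₀).target)
    {b : 𝔼} (hb : b ∈ (chartAt 𝔼 x₀).target) :
    mLap n (pb x₀ P) ((chartAt 𝔼 x₀).symm b) = lapW (Ac x₀) (dens x₀) P b := by
  rw [mLap_chart hb (((pb_smooth x₀ hP hs).of_le Bo84.two_le_infty).contMDiffAt), lapW_eq]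
  have h : (fun b => pb x₀ P ((chartAt 𝔼 x₀).symm b)) =ᶠ[𝓝 b] P := by
    filter_upwards [(chartAt 𝔼 x₀).open_target.mem_nhds hb] with y hy
    exact pb_symm x₀ P hy
  exact lap_congr h

variable (S : GradS M (EuclideanSpace ℝ (Fin n)) (μHE[n] : Measure M))
  [IsFiniteMeasureOnCompacts (μHE[n] : Measure M)]

/-- **smooth approximation on a compact subset of a chart**, in the graph norm of the Laplacian -/
theorem exists_near (hS : ∀ f, S.G f = Gr (n := n) f) (x₀ : M) {u : Lp ℝ 2 (μHE[n] : Measure M)}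
    (hu : u ∈ S.V) {S0 : ℝ} (hb : ∀ᵐ z ∂(μHE[n] : Measure M), |u z| ≤ S0) {f : M → ℝ}
    (hf : MemLp f 2 (μHE[n] : Measure M))
    (heq : ∀ p : M → ℝ, GradS.IsT p →
      ∫ z, inner ℝ (S.D u z) (S.G p z) ∂(μHE[n] : Measure M) =
        - ∫ z, f z * p z ∂(μHE[n] : Measure M))
    {K : Set M} (hK : IsCompact K) (hKs : K ⊆ (chartAt 𝔼 x₀).source) {ε : ℝ} (hε : 0 < ε) :
    ∃ w : M → ℝ, ContMDiff (𝓡 n) 𝓘(ℝ, ℝ) ∞ w ∧ HasCompactSupport w ∧ (∀ z, |w z| ≤ S0) ∧
      ∫ z in K, ((w z - u z) ^ 2 + ‖Gr (n := n) w z - S.D u z‖ ^ 2 + (mLap n w z - f z) ^ 2)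
        ∂(μHE[n] : Measure M) ≤ ε := by
  have hS0 : 0 ≤ S0 := nonneg_of_ae x₀ hb
  have ho := (chartAt 𝔼 x₀).open_target
  set Ω : Set 𝔼 := (chartAt 𝔼 x₀).target with hΩ
  set K' : Set 𝔼 := chartAt 𝔼 x₀ '' K with hK'def
  have hK' : IsCompact K' := isCompact_chart_image x₀ hK hKs
  have hK't : K' ⊆ Ω := chart_image_subset x₀ hKs
  have hKeq : (chartAt 𝔼 x₀).symm '' K' = K := by
    rw [hK'def, image_image]
    have : EqOn (fun z => (chartAt 𝔼 x₀).symm (chartAt 𝔼 x₀ z)) id K := fun z hz =>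
      (chartAt 𝔼 x₀).left_inv (hKs hz)
    rw [this.image_eq, image_id]
  obtain ⟨χ, hχ, hχΩ, hχ1', hχ1, hχ01⟩ := exists_cutoff hK' ho hK't
  have hnear : ∀ b ∈ K', ∀ᶠ y in 𝓝 b, χ y = 1 := fun b hb =>
    hχ1'.filter_mono (nhds_le_nhdsSet hb)
  set uh : 𝔼 → ℝ := fun b => u ((chartAt 𝔼 x₀).symm b) with huh
  set fh : 𝔼 → ℝ := fun b => dens x₀ b * f ((chartAt 𝔼 x₀).symm b) with hfh
  have l1 : L2On Ω uh := L2On_chart fun K _ => (Lp.memLp u).restrict K
  have l2 : ∀ i, L2On Ω (cf x₀ i (S.D u)) := fun i => L2On_cf x₀ i (Lp.memLp _)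
  have l3 : L2On Ω fh := by
    have h1 : L2On Ω (fun b => f ((chartAt 𝔼 x₀).symm b)) := L2On_chart fun K _ => hf.restrict K
    intro K₁ hK₁ hc
    obtain ⟨C, hC⟩ := hc.exists_bound_of_continuousOn ((continuousOn_dens x₀).mono hK₁)
    refine MemLp.of_le_mul (c := C) (h1 K₁ hK₁ hc)
      ((((continuousOn_dens x₀).mono hK₁).aestronglyMeasurable hc.measurableSet).mul
        (h1 K₁ hK₁ hc).1) ?_
    rw [ae_restrict_iff' hc.measurableSet]
    refine Eventually.of_forall fun b hb => ?_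
    rw [norm_mul]
    exact mul_le_mul_of_nonneg_right (hC b hb) (norm_nonneg _)
  have heq' : ∀ P, IsTest P → tsupport P ⊆ Ω →
      ∫ b, ∑ i, ∑ j, Ac x₀ i j b * cf x₀ j (S.D u) b * pderiv i P b = - ∫ b, fh b * P b := by
    intro P hP hs
    refine weak_eq_chart (F := S.D u) (f := f) (fun p hp => ?_) x₀ hP hs
    rw [← heq p hp, hS]
  obtain ⟨K₁, H, v, hK₁Ω, hχK₁, hv, -, -, ⟨k0, hvk⟩, hlap⟩ := exists_approx_graph ho (coefOn_Ac x₀)
    (continuousOn_dens x₀) (fun b hb => (dens_pos x₀ hb).ne') l1 l2 l3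
    (fun i => wdOn_cf S hS x₀ i hu) heq' hχ hχΩ
  have hvs : ∀ k, tsupport (v k) ⊆ Ω := fun k => (hv.supp k).trans hK₁Ω
  -- sup bound
  have hχu : ∀ᵐ b, |χ b * uh b| ≤ S0 := by
    filter_upwards [ae_chart (n := n) x₀ hb] with b hb'
    by_cases hbt : b ∈ Ω
    · rw [abs_mul, abs_of_nonneg (hχ01 b).1]
      calc χ b * |uh b| ≤ 1 * |uh b| := mul_le_mul_of_nonneg_right (hχ01 b).2 (abs_nonneg _)
        _ = |uh b| := one_mul _
        _ ≤ S0 := hb' hbt
    · rw [image_eq_zero_of_notMem_tsupport (fun h => hbt (hχΩ h)), zero_mul, abs_zero]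
      exact hS0
  have hvb : ∀ k b, |v k b| ≤ S0 := fun k b => by rw [hvk k]; exact abs_cv_le hχu _ _
  set w : ℕ → M → ℝ := fun k => pb x₀ (v k) with hw
  have hwb : ∀ k z, |w k z| ≤ S0 := by
    intro k z
    by_cases hz : z ∈ (chartAt 𝔼 x₀).source
    · rw [hw]
      simp only
      rw [pb_of_mem x₀ _ hz]; exact hvb k _
    · rw [hw]
      simp only
      rw [pb, indicator_of_notMem hz, abs_zero]; exact hS0
  have hwT : ∀ k, GradS.IsT (w k) := fun k => isT_pb x₀ (hv.test k) (hvs k)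
  have hwS : ∀ k, ContMDiff (𝓡 n) 𝓘(ℝ, ℝ) ∞ (w k) := fun k => pb_smooth x₀ (hv.test k) (hvs k)
  have hwc : ∀ k, w k ∈ Bs84.core n M := fun k => ⟨hwS k, (hwT k).2⟩
  -- convergences
  have t1 : Tendsto (fun k => eLpNorm (fun z => w k z - u z) 2
      ((μHE[n] : Measure M).restrict K)) atTop (𝓝 0) := by
    rw [← hKeq]
    refine tendsto_restrict x₀ hK' hK't hv.h0 1 ENNReal.one_ne_top fun k => ?_
    rw [one_mul]
    refine le_trans (le_of_eq ?_) (eLpNorm_mono_measure _ (Measure.restrict_le_self (s := K')))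
    refine eLpNorm_congr_ae ?_
    filter_upwards [self_mem_ae_restrict hK'.measurableSet] with b hb'
    simp only [hw, pb_symm x₀ _ (hK't hb'), hχ1 b hb', one_mul, huh]
  have t2 : Tendsto (fun k => eLpNorm (fun z => Gr (n := n) (w k) z - S.D u z) 2
      ((μHE[n] : Measure M).restrict K)) atTop (𝓝 0) := by
    rw [← hKeq]
    choose C hC0 hC using fun i => norm_dxf_bdd (n := n) x₀ hK' hK't i
    have hsum : Tendsto (fun k => ∑ i, ENNReal.ofReal (C i) *
        eLpNorm (fun b => pderiv i (v k) b - locG χ uh (fun i => cf x₀ i (S.D u)) i b) 2 volume)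
        atTop (𝓝 0) := by
      have h1 : ∀ i ∈ (Finset.univ : Finset (Fin n)), Tendsto (fun k => ENNReal.ofReal (C i) *
          eLpNorm (fun b => pderiv i (v k) b - locG χ uh (fun i => cf x₀ i (S.D u)) i b) 2 volume)
          atTop (𝓝 0) := by
        intro i _
        have := ENNReal.Tendsto.const_mul (hv.h1 i) (Or.inr (ENNReal.ofReal_ne_top (r := C i)))
        simpa using this
      simpa using tendsto_finsetSum _ h1
    refine tendsto_restrict x₀ hK' hK't hsum 1 ENNReal.one_ne_top fun k => ?_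
    rw [one_mul]
    have hms : ∀ i, AEStronglyMeasurable
        (fun b => pderiv i (v k) b - locG χ uh (fun i => cf x₀ i (S.D u)) i b) volume := fun i =>
      ((hv.test k).pderiv i).continuous.aestronglyMeasurable.sub (hv.m1 i).1
    have hmd : ∀ i, AEStronglyMeasurable (fun b => dxf x₀ i ((chartAt 𝔼 x₀).symm b))
        (volume.restrict K') := fun i => (aesm_dxf x₀ i).mono_measure (Measure.restrict_mono hK't le_rfl)
    have e1 : eLpNorm (fun b => Gr (n := n) (w k) ((chartAt 𝔼 x₀).symm b)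
          - S.D u ((chartAt 𝔼 x₀).symm b)) 2 (volume.restrict K') =
        eLpNorm (∑ i, fun b => (pderiv i (v k) b - locG χ uh (fun i => cf x₀ i (S.D u)) i b) •
          dxf x₀ i ((chartAt 𝔼 x₀).symm b)) 2 (volume.restrict K') := by
      refine eLpNorm_congr_ae ?_
      filter_upwards [self_mem_ae_restrict hK'.measurableSet] with b hb'
      rw [Finset.sum_apply, expand_cf x₀ (Gr (n := n) (w k)) (hK't hb'),
        expand_cf x₀ (S.D u) (hK't hb'), ← Finset.sum_sub_distrib]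
      refine Finset.sum_congr rfl fun i _ => ?_
      rw [← sub_smul, cf_Gr_pb x₀ i (v k) (hK't hb'), locG_of_one (hnear b hb') i]
    rw [e1]
    refine (eLpNorm_sum_le (fun i _ => ((hms i).restrict).smul (hmd i)) (by norm_num)).trans ?_
    refine Finset.sum_le_sum fun i _ => ?_
    refine le_trans ?_ (mul_le_mul_right (eLpNorm_mono_measure _ (Measure.restrict_le_self (s := K'))) _)
    refine eLpNorm_le_mul_eLpNorm_of_ae_le_mul ?_ 2
    rw [ae_restrict_iff' hK'.measurableSet]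
    refine Eventually.of_forall fun b hb' => ?_
    rw [Pi.smul_apply', norm_smul, mul_comm]
    exact mul_le_mul_of_nonneg_right (hC i b hb') (norm_nonneg _)
  have t3 : Tendsto (fun k => eLpNorm (fun z => mLap n (w k) z - f z) 2
      ((μHE[n] : Measure M).restrict K)) atTop (𝓝 0) := by
    rw [← hKeq]
    refine tendsto_restrict x₀ hK' hK't hlap 1 ENNReal.one_ne_top fun k => ?_
    rw [one_mul]
    refine le_trans (le_of_eq ?_) (eLpNorm_mono_measure _ (Measure.restrict_le_self (s := K')))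
    refine eLpNorm_congr_ae ?_
    filter_upwards [self_mem_ae_restrict hK'.measurableSet] with b hb'
    have hd : dens (n := n) x₀ b ≠ 0 := (dens_pos x₀ (hK't hb')).ne'
    simp only [hw, mLap_pb x₀ (hv.test k) (hvs k) (hK't hb'), locF_of_one (hnear b hb'), hfh]
    rw [← mul_assoc, inv_mul_cancel₀ hd, one_mul]
  -- membership
  have m1 : ∀ k, MemLp (fun z => w k z - u z) 2 ((μHE[n] : Measure M).restrict K) := fun k =>
    ((hwT k).memLp.sub (Lp.memLp u)).restrict K
  have m2 : ∀ k, MemLp (fun z => Gr (n := n) (w k) z - S.D u z) 2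
      ((μHE[n] : Measure M).restrict K) := by
    intro k
    have h1 := (hwT k).memLpG S
    rw [hS] at h1
    exact (h1.sub (Lp.memLp (S.D u))).restrict K
  have m3 : ∀ k, MemLp (fun z => mLap n (w k) z - f z) 2 ((μHE[n] : Measure M).restrict K) := by
    intro k
    have h1 := Bs84.core_mLap (hwc k)
    exact ((h1.1.continuous.memLp_of_hasCompactSupport h1.2).sub hf).restrict K
  -- the integral
  have key : ∀ k, ∫ z in K, ((w k z - u z) ^ 2 + ‖Gr (n := n) (w k) z - S.D u z‖ ^ 2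
        + (mLap n (w k) z - f z) ^ 2) ∂(μHE[n] : Measure M) =
      (eLpNorm (fun z => w k z - u z) 2 ((μHE[n] : Measure M).restrict K) ^ 2).toReal +
      (eLpNorm (fun z => Gr (n := n) (w k) z - S.D u z) 2
        ((μHE[n] : Measure M).restrict K) ^ 2).toReal +
      (eLpNorm (fun z => mLap n (w k) z - f z) 2 ((μHE[n] : Measure M).restrict K) ^ 2).toReal := by
    intro k
    have e1 := integral_add (integrable_sq (m1 k)) (integrable_sq (m2 k))
    have e2 := integral_add ((integrable_sq (m1 k)).add (integrable_sq (m2 k))) (integrable_sq (m3 k))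
    have e3 : ∫ z in K, ((w k z - u z) ^ 2 + ‖Gr (n := n) (w k) z - S.D u z‖ ^ 2
        + (mLap n (w k) z - f z) ^ 2) ∂(μHE[n] : Measure M) =
        ∫ z in K, (((fun z => ‖w k z - u z‖ ^ 2) + fun z => ‖Gr (n := n) (w k) z - S.D u z‖ ^ 2) z
        + ‖mLap n (w k) z - f z‖ ^ 2) ∂(μHE[n] : Measure M) := by
      refine integral_congr_ae (Eventually.of_forall fun z => ?_)
      simp only [Real.norm_eq_abs, sq_abs, Pi.add_apply]
    rw [← integral_sq_eq (m1 k).1, ← integral_sq_eq (m2 k).1, ← integral_sq_eq (m3 k).1, e3, e2]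
    congr 1
  have tsq : ∀ {q : ℕ → ℝ≥0∞}, Tendsto q atTop (𝓝 0) →
      Tendsto (fun k => (q k ^ 2).toReal) atTop (𝓝 0) := by
    intro q hq
    have h1 : Tendsto (fun k => q k ^ 2) atTop (𝓝 (0 ^ 2)) := ENNReal.Tendsto.pow hq
    rw [zero_pow two_ne_zero] at h1
    have h2 := (ENNReal.tendsto_toReal ENNReal.zero_ne_top).comp h1
    rw [ENNReal.toReal_zero] at h2
    exact h2
  have tt := ((tsq t1).add (tsq t2)).add (tsq t3)
  simp only [add_zero] at tt
  obtain ⟨k, hk⟩ := (tt.eventually (gt_mem_nhds hε)).exists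
  exact ⟨w k, hwS k, (hwT k).2, hwb k, by rw [key k]; exact hk.le⟩

end

end Crest.Agent.R247.Frd657
end

-- ▼ part R247/Prt8_657

/-!
R247, block (5), leaf P4 (helper657), file 8: the local half of `Appr` for the manifold:
`ApprOn B (chartAt 𝔼 x₀).source` for every `x₀`.
-/

set_option autoImplicit false
set_option maxSynthPendingDepth 3
set_option linter.unusedSectionVars false
open scoped ContDiff ENNReal NNReal Topology Manifold Bundle
open MeasureTheory Set Filter Metric Bundle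
open Crest.GeometryTopology.CoordMetric Crest.GeometryTopology.ChartCurvature
open Crest.GeometryTopology.PointedLimit
open Crest.Agent.R202.Ell Crest.Agent.R247.Ms322
open Crest.Agent.R247.Dir593 Crest.Agent.R247.Hes124 Crest.Agent.R247.App470
open Crest.Agent.R247.Bo84 (mLap)

namespace Crest.Agent.R247.Frd657

noncomputable section

variable {n : ℕ} {M : Type*} [MetricSpace M] [ChartedSpace (EuclideanSpace ℝ (Fin n)) M]
  [IsManifold (𝓡 n) ∞ M]
  [RiemannianBundle (fun p : M => TangentSpace (𝓡 n) p)]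
  [IsContMDiffRiemannianBundle (𝓡 n) ∞ (EuclideanSpace ℝ (Fin n)) (fun p : M => TangentSpace (𝓡 n) p)]
  [IsRiemannianManifold (𝓡 n) M] [MeasurableSpace M] [BorelSpace M] [SecondCountableTopology M]
  [Nonempty M]

local notation "𝔼" => EuclideanSpace ℝ (Fin n)

/-- **P4, local half** -/
theorem apprOn [IsFiniteMeasureOnCompacts (μHE[n] : Measure M)] {κ : ℝ}
    (B : BochS n κ M (μHE[n] : Measure M)) (hG : ∀ f, B.G f = Gr (n := n) f)
    (hcore : ∀ w : M → ℝ, ContMDiff (𝓡 n) 𝓘(ℝ, ℝ) ∞ w → HasCompactSupport w → w ∈ B.core)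
    (htr : ∀ w ∈ B.core, ∀ x, tr (B.H w x) = mLap n w x) (x₀ : M) :
    ApprOn B (chartAt 𝔼 x₀).source := by
  intro u f S0 hu hb hf heq K hK hKs ε hε
  obtain ⟨w, hw, hwc, hwb, hwi⟩ := exists_near B.toGradS hG x₀ hu hb hf heq hK hKs hε
  have hwB := hcore w hw hwc
  refine ⟨w, hwB, fun x => (hwb x).trans (by linarith), le_trans (le_of_eq ?_) hwi⟩
  refine integral_congr_ae (Eventually.of_forall fun z => ?_)
  simp only [hG, htr w hwB]

/-- the local half of `Appr` for the manifold -/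
theorem apprOn_boch {κ : ℝ} (hκ : HasRicciLowerBound n M (-κ)) (x₀ : M) :
    haveI := Gs939.finOnCompacts (n := n) (M := M)
    ApprOn (Gs939.boch (n := n) (M := M) hκ) (chartAt 𝔼 x₀).source := by
  haveI := Gs939.finOnCompacts (n := n) (M := M)
  refine apprOn _ (fun f => rfl) (fun w hw hc => ?_) (fun w hw x => ?_) x₀
  · rw [Gs939.boch_core]; exact ⟨hw, hc⟩
  · rw [Gs939.boch_core] at hw
    rw [Gs939.boch_H]
    exact Bs84.tr_Hf (n := n) (hw.1.of_le Bo84.two_le_infty).contMDiffAt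

end

end Crest.Agent.R247.Frd657
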