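import Crest.Agent.R247.App1_470
import Crest.Agent.R247.Ib2_939
import Crest.Agent.R247.Prt8_657
import Crest.Agent.R247.Fd3_656
import Crest.Agent.R247.Rdg6_879

-- ▼ part R247/App2_470
section

/-!
R247, block (5), leaf P4 (helper470), part 2: partition of unity by smooth functions with compact
support on the manifold, product rule for the Laplacian on the core, and the passage from
approximation in charts to `Appr` on the manifold.
-/

set_option autoImplicit false
set_option maxSynthPendingDepth 3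
set_option linter.unusedSectionVars false

open Bundle Bornology Set MeasureTheory Manifold Filter Metric
open scoped ENNReal ContDiff Topology NNReal
open Crest.GeometryTopology.CoordMetric Crest.GeometryTopology.ChartCurvature
open Crest.Agent.R226.ChartMet842 Crest.Agent.R247.Ms322 Crest.Agent.R247.Bo84
open Crest.Agent.R247.Hes124 Crest.Agent.R247.Ib939

namespace Crest.Agent.R247.App470

noncomputable section

local notation "𝔼" => EuclideanSpace ℝ (Fin _)

section PU

variable {n : ℕ} {M : Type*} [MetricSpace M] [ChartedSpace (EuclideanSpace ℝ (Fin n)) M]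
  [IsManifold (𝓡 n) ∞ M] [SecondCountableTopology M]

/-- finite partitions of unity near a compact set, by smooth functions with compact support -/
theorem exists_pu {K : Set M} (hK : IsCompact K) {O : M → Set M} (hO : ∀ x, IsOpen (O x))
    (hx : ∀ x, x ∈ O x) : ∃ (s : Finset M) (χ : M → M → ℝ),
      (∀ a ∈ s, χ a ∈ Core n M ∧ (∀ x, 0 ≤ χ a x) ∧ tsupport (χ a) ⊆ O a) ∧
      (∀ x, ∑ a ∈ s, χ a x ≤ 1) ∧
      ∃ W : Set M, IsOpen W ∧ K ⊆ W ∧ ∀ x ∈ W, ∑ a ∈ s, χ a x = 1 := by
  classical
  have : LocallyCompactSpace M :=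
    ChartedSpace.locallyCompactSpace (EuclideanSpace ℝ (Fin n)) M
  obtain ⟨K', hK'c, hK'⟩ := exists_compact_superset hK
  have hC : ∀ x : M, ∃ C : Set M, IsCompact C ∧ x ∈ interior C := fun x =>
    let ⟨C, hC, hxC⟩ := exists_compact_mem_nhds x
    ⟨C, hC, mem_interior_iff_mem_nhds.2 hxC⟩
  choose C hCc hCx using hC
  obtain ⟨f, hf⟩ := SmoothPartitionOfUnity.exists_isSubordinate (𝓡 n) hK'c.isClosed
    (fun x => O x ∩ interior (C x)) (fun x => (hO x).inter isOpen_interior)
    (fun x _ => mem_iUnion.2 ⟨x, hx x, hCx x⟩)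
  have hfin : {i | (Function.support (f i) ∩ K').Nonempty}.Finite :=
    f.locallyFinite.finite_nonempty_inter_compact hK'c
  refine ⟨hfin.toFinset, fun a => f a, fun a _ => ⟨⟨(f a).contMDiff, ?_⟩, fun x => f.nonneg a x,
    (hf a).trans inter_subset_left⟩, fun x => ?_, interior K', isOpen_interior, hK', fun x hxK => ?_⟩
  · exact (hCc a).of_isClosed_subset (isClosed_tsupport _)
      ((hf a).trans (inter_subset_right.trans interior_subset))
  · have h1 : {i | f i x ≠ 0}.Finite := f.locallyFinite.point_finite x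
    have h2 : ∑ᶠ i, f i x = ∑ i ∈ hfin.toFinset ∪ h1.toFinset, f i x := by
      refine finsum_eq_sum_of_support_subset _ fun i hi => ?_
      rw [Finset.coe_union, Finite.coe_toFinset, Finite.coe_toFinset]
      exact Or.inr hi
    calc ∑ a ∈ hfin.toFinset, f a x ≤ ∑ i ∈ hfin.toFinset ∪ h1.toFinset, f i x :=
          Finset.sum_le_sum_of_subset_of_nonneg Finset.subset_union_left
            fun i _ _ => f.nonneg i x
      _ = ∑ᶠ i, f i x := h2.symm
      _ ≤ 1 := f.sum_le_one x
  · have hxK' : x ∈ K' := interior_subset hxK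
    have h2 := f.sum_eq_one hxK'
    rw [finsum_eq_sum_of_support_subset] at h2
    · exact h2
    · intro i hi
      rw [Finite.coe_toFinset]
      exact ⟨x, hi, hxK'⟩

theorem zero_mem_core : (fun _ : M => (0:ℝ)) ∈ Core n M :=
  ⟨contMDiff_const, HasCompactSupport.zero⟩

theorem mul_mem_core {u v : M → ℝ} (hu : u ∈ Core n M) (hv : v ∈ Core n M) :
    (fun x => u x * v x) ∈ Core n M :=
  ⟨hu.1.mul hv.1, hu.2.mul_right⟩

end PU

variable {n : ℕ} {M : Type*} [MetricSpace M] [ChartedSpace (EuclideanSpace ℝ (Fin n)) M]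
  [IsManifold (𝓡 n) ∞ M]
  [RiemannianBundle (fun p : M => TangentSpace (𝓡 n) p)]
  [IsContMDiffRiemannianBundle (𝓡 n) ∞ (EuclideanSpace ℝ (Fin n)) (fun p : M => TangentSpace (𝓡 n) p)]
  [IsRiemannianManifold (𝓡 n) M]
  [MeasurableSpace M] [BorelSpace M] [SecondCountableTopology M] [Nonempty M]
  [IsFiniteMeasureOnCompacts (μHE[n] : Measure M)] {κ : ℝ}

variable {B : BochS n κ M (μHE[n] : Measure M)}

theorem corePU_M (hc : B.core = Core n M) : CorePU B := by
  intro K hK O hO hx
  obtain ⟨s, χ, h1, h2, h3⟩ := exists_pu (n := n) hK hO hx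
  exact ⟨s, χ, fun a ha => ⟨hc ▸ (h1 a ha).1, (h1 a ha).2⟩, h2, h3⟩

theorem coreMul_M (hG : B.G = Gr (n := n)) (hc : B.core = Core n M)
    (hT : ∀ w ∈ B.core, ∀ x, tr (B.H w x) = mLap n w x) : CoreMul B := by
  intro u v hu hv
  rw [hc] at hu hv
  have huv : (fun x => u x * v x) ∈ B.core := by rw [hc]; exact mul_mem_core hu hv
  refine ⟨huv, Eventually.of_forall fun x => ?_⟩
  rw [hT _ huv, hT v (by rw [hc]; exact hv), hT u (by rw [hc]; exact hu), hG, inner_Gr_mGam]
  exact mLap_mul ((hu.1 x).of_le two_le_infty) ((hv.1 x).of_le two_le_infty)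

/-- **`Appr` on the manifold from approximation in charts.** -/
theorem appr_M (hG : B.G = Gr (n := n)) (hc : B.core = Core n M)
    (hT : ∀ w ∈ B.core, ∀ x, tr (B.H w x) = mLap n w x)
    (hloc : ∀ x₀ : M, ApprOn B (chartAt (EuclideanSpace ℝ (Fin n)) x₀).source) : Appr B :=
  appr_of_loc (by rw [hc]; exact zero_mem_core) (coreMul_M hG hc hT) (corePU_M hc)
    fun x₀ => ⟨_, (chartAt (EuclideanSpace ℝ (Fin n)) x₀).open_source,
      mem_chart_source _ x₀, hloc x₀⟩

end

end Crest.Agent.R247.App470
end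

-- ▼ part R247/App3_470
section

/-!
R247, block (5), leaf P4 (helper657, helper470): `Appr` holds on every Riemannian manifold
(`Gs939.boch` = the Bochner structure of the manifold).
-/

set_option autoImplicit false
set_option maxSynthPendingDepth 3
set_option linter.unusedSectionVars false

open Bundle Bornology Set MeasureTheory Manifold Filter Metric
open scoped ENNReal ContDiff Topology NNReal
open Crest.GeometryTopology.PointedLimit
open Crest.Agent.R247.Hes124 Crest.Agent.R247.Ib939

namespace Crest.Agent.R247.App470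

noncomputable section

variable {n : ℕ} {M : Type*} [MetricSpace M] [ChartedSpace (EuclideanSpace ℝ (Fin n)) M]
  [IsManifold (𝓡 n) ∞ M]
  [RiemannianBundle (fun p : M => TangentSpace (𝓡 n) p)]
  [IsContMDiffRiemannianBundle (𝓡 n) ∞ (EuclideanSpace ℝ (Fin n)) (fun p : M => TangentSpace (𝓡 n) p)]
  [IsRiemannianManifold (𝓡 n) M]
  [MeasurableSpace M] [BorelSpace M] [SecondCountableTopology M] [Nonempty M]

/-- the Laplacian of the Bochner structure is the Laplacian of the manifold on the core -/
theorem tr_boch {κ : ℝ} (hκ : HasRicciLowerBound n M (-κ)) {w : M → ℝ}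
    (hw : w ∈ (Gs939.boch hκ).core) (x : M) :
    tr ((Gs939.boch hκ).H w x) = Bo84.mLap n w x := by
  rw [Gs939.boch_core] at hw
  rw [Gs939.boch_H]
  exact Bs84.tr_Hf (n := n) (hw.1.of_le Bo84.two_le_infty).contMDiffAt

/-- **P4**: smooth approximation in the graph norm of the Laplacian, on every manifold. -/
theorem appr_boch {κ : ℝ} (hκ : HasRicciLowerBound n M (-κ)) :
    haveI := Gs939.finOnCompacts (n := n) (M := M)
    Appr (Gs939.boch (n := n) (M := M) hκ) := by
  have := Gs939.finOnCompacts (n := n) (M := M)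
  exact appr_M (B := Gs939.boch (n := n) (M := M) hκ) rfl rfl (fun w hw x => tr_boch hκ hw x)
    (fun x₀ => Frd657.apprOn_boch hκ x₀)

/-- the same, for any instance of finiteness on compact sets -/
theorem appr_boch' [IsFiniteMeasureOnCompacts (μHE[n] : Measure M)] {κ : ℝ}
    (hκ : HasRicciLowerBound n M (-κ)) : Appr (Gs939.boch (n := n) (M := M) hκ) :=
  appr_boch hκ

end

end Crest.Agent.R247.App470
end

-- ▼ part R247/Env_879

/-!
R247 (helper879): the environment `Fd656.EnvF` of one centre exists on every pinched manifold.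

* `vol_ge'`: lower volumes from the pinching
* `env_block_of`: `EnvF (Gs939.boch hk) C x (1024 * δ)` from the pinching and a `SegS`
-/

set_option autoImplicit false
set_option maxSynthPendingDepth 3
set_option linter.unusedSectionVars false

open Bundle Set Filter Topology MeasureTheory Metric
open scoped Manifold ContDiff ENNReal
open Crest.GeometryTopology.PointedLimit
open Crest.Agent.R247.Mcp688
open Crest.Agent.R247.Fd656

noncomputable section
namespace Crest.Agent.R247.Env879

universe u

section mfd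
variable {n : ℕ} {M : Type*} [MetricSpace M] [ChartedSpace (EuclideanSpace ℝ (Fin n)) M]
  [IsManifold (𝓡 n) ∞ M]
  [RiemannianBundle (fun p : M => TangentSpace (𝓡 n) p)]
  [IsContMDiffRiemannianBundle (𝓡 n) ∞ (EuclideanSpace ℝ (Fin n)) (fun p : M => TangentSpace (𝓡 n) p)]
  [IsRiemannianManifold (𝓡 n) M] [MeasurableSpace M] [BorelSpace M]

/-- the lower pinching -/
lemma vol_ge' {δ : ℝ} (hδ : 0 ≤ δ) (hδ1 : δ ≤ 1) {q x y : M} (hx : dist x q < 1)
    (hp : ∀ x ∈ ball q 50, ∀ r : ℝ, 0 < r → r ≤ 40 →
      ENNReal.ofReal (1 - δ) * volume (ball (0 : EuclideanSpace ℝ (Fin n)) r) ≤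
        (Measure.euclideanHausdorffMeasure n : Measure M) (ball x r))
    (hy : dist x y < 20) {r : ℝ} (hr : 0 < r) (hr1 : r ≤ 20) :
    ENNReal.ofReal ((1 - 1024 * δ) * om n * r ^ n) ≤
      (Measure.euclideanHausdorffMeasure n : Measure M) (ball y r) := by
  have hyq : y ∈ ball q 50 := by
    rw [mem_ball]
    have := dist_triangle y x q
    rw [dist_comm y x] at this
    linarith
  refine le_trans ?_ (hp y hyq r hr (by linarith))
  rw [vol_ball n hr, ← ENNReal.ofReal_mul (by linarith)]
  refine ENNReal.ofReal_le_ofReal ?_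
  have h0 := (om_pos n).le
  have h1 : 0 ≤ om n * r ^ n := by positivity
  nlinarith

end mfd

section block
variable {n : ℕ} {M : Type u} [MetricSpace M] [CompleteSpace M] [ConnectedSpace M]
    [ChartedSpace (EuclideanSpace ℝ (Fin n)) M]
    [IsManifold 𝓘(ℝ, EuclideanSpace ℝ (Fin n)) ∞ M]
    [RiemannianBundle (fun x : M => TangentSpace 𝓘(ℝ, EuclideanSpace ℝ (Fin n)) x)]
    [IsContMDiffRiemannianBundle 𝓘(ℝ, EuclideanSpace ℝ (Fin n)) ∞ (EuclideanSpace ℝ (Fin n))
      (fun x : M => TangentSpace 𝓘(ℝ, EuclideanSpace ℝ (Fin n)) x)]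
    [IsRiemannianManifold 𝓘(ℝ, EuclideanSpace ℝ (Fin n)) M]
    [MeasurableSpace M] [BorelSpace M] [ProperSpace M] [SecondCountableTopology M] [Nonempty M]
    [IsFiniteMeasureOnCompacts (Measure.euclideanHausdorffMeasure n : Measure M)]

/-- **`EnvF` on a pinched manifold**, from a `SegS`. -/
theorem env_block_of (hn : 1 ≤ n) {δ : ℝ} (hδ0 : 0 < δ) (hδ : 4096 * δ ≤ 1) {q : M}
    (hk : HasRicciLowerBound n M (-δ))
    (hp : ∀ x ∈ ball q 50, ∀ r : ℝ, 0 < r → r ≤ 40 →
      ENNReal.ofReal (1 - δ) * volume (ball (0 : EuclideanSpace ℝ (Fin n)) r) ≤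
        (Measure.euclideanHausdorffMeasure n : Measure M) (ball x r))
    (C : Rad n δ M (Measure.euclideanHausdorffMeasure n : Measure M))
    (hQ : Nonempty (Fv510.SegS (Gs939.boch (n := n) (M := M) hk) C)) {x : M}
    (hx : dist x q < 1) :
    EnvF (Gs939.boch (n := n) (M := M) hk) C x (1024 * δ) := by
  have := Ms322.isOpenPosMeasure n M
  exact {
    n_pos := hn
    κ_nonneg := hδ0.le
    κ_le := by linarith
    κ_δ := by linarith
    δ_le := by linarith
    hA := App470.appr_boch' hk
    W := Rdg879.wlap_block C hn hδ0.le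
    hL := Rdg879.lk_block C hn
    Q := hQ
    sing := fun z => Iso311.muHE_singleton (by omega) z
    pos := fun z r hr => (isOpen_ball.measure_pos _ ⟨z, mem_ball_self hr⟩).ne'
    vol_ge := fun y r hy hr hr1 => vol_ge' hδ0.le (by linarith) hx hp hy hr hr1
    vol_le := fun y r _ hr hr1 => (measure_mono ball_subset_closedBall).trans
      (closedBall_le_pinch C hδ0.le (by linarith) y hr.le (by linarith))
    bishop := fun z s _ => closedBall_le_om C hδ0.le z s
    vol64 := vol64_le C hδ0.le (by linarith) x }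

end block

end Crest.Agent.R247.Env879
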