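import Crest.Agent.R247.Exc1_853
import Crest.Agent.R247.Mcp5_688
import Crest.Agent.R247.Far0_553

-- ▼ part R247/Exc2_853
section

/-!
# R247, block (1), leaf (1-E), file 2: balls of positive measure from `Rad`, and the excess
inequalities along a minimiser `σ : [0,l] → X` from `z` to `w`.
-/

set_option autoImplicit false
set_option linter.unusedSectionVars false
open MeasureTheory Set Filter Topology Metric
open scoped ENNReal NNReal

noncomputable section
namespace Crest.Agent.R247.Exc853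

open Crest.Agent.R247.Mcp688

variable {n : ℕ} {κ : ℝ} {X : Type*} [MetricSpace X] [MeasurableSpace X] [BorelSpace X]
  {μ : Measure X}

/-- Bishop–Gromov: if one ball has positive measure, all balls have positive measure. -/
lemma bpf_of_rad [ProperSpace X] [IsFiniteMeasureOnCompacts μ] (C : Rad n κ X μ) (hκ : 0 ≤ κ)
    (x : X) (h : μ (ball x 1) ≠ 0) : Bpf μ := by
  intro b r hr
  refine ⟨fun h0 => h ?_, (measure_ball_lt_top).ne⟩
  have h1 := C.mu_ball_le' hκ x b (r := r) (R := 1) (S := max (1 + dist x b) r) hr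
    (le_max_left _ _) (le_max_right _ _)
  rw [h0, mul_zero] at h1
  exact le_antisymm h1 zero_le

/-- doubling in the form of (3c), from two-sided volume bounds -/
lemma doubling_of_vol {g b₁ : X} {ω δ r : ℝ} (hω : 0 < ω) (hδ : δ ≤ 1 / 2)
    (hr : 0 < r) (hge : ENNReal.ofReal ((1 - δ) * ω * r ^ n) ≤ μ (ball b₁ r))
    (hle : μ (ball g (2 * r)) ≤ ENNReal.ofReal ((1 + δ) * ω * (2 * r) ^ n))
    (hfin : μ (ball b₁ r) ≠ ∞) :
    μ.real (ball g (2 * r)) ≤ (3 * 2 ^ n) * μ.real (ball b₁ r) := by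
  have h1 : (1 - δ) * ω * r ^ n ≤ μ.real (ball b₁ r) := by
    have := ENNReal.toReal_mono hfin hge
    rwa [ENNReal.toReal_ofReal] at this
    have : 0 ≤ 1 - δ := by linarith
    positivity
  have h2 : μ.real (ball g (2 * r)) ≤ max ((1 + δ) * ω * (2 * r) ^ n) 0 := by
    have := ENNReal.toReal_mono ENNReal.ofReal_ne_top hle
    rwa [ENNReal.toReal_ofReal'] at this
  have h3 : 0 ≤ μ.real (ball b₁ r) := measureReal_nonneg
  refine h2.trans (max_le ?_ (by positivity))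
  have h4 : (1 + δ) ≤ 3 * (1 - δ) := by linarith
  calc (1 + δ) * ω * (2 * r) ^ n = (1 + δ) * (2 ^ n * (ω * r ^ n)) := by rw [mul_pow]; ring
    _ ≤ (3 * (1 - δ)) * (2 ^ n * (ω * r ^ n)) := by gcongr
    _ = 3 * 2 ^ n * ((1 - δ) * ω * r ^ n) := by ring
    _ ≤ _ := by gcongr

/-- `σ` is a minimiser from `z = σ 0` to `w = σ l` (arclength). -/
structure IsMin (z w : X) (l : ℝ) (σ : ℝ → X) : Prop where
  zero : σ 0 = z
  last : σ l = w
  dist : ∀ a ∈ Icc (0 : ℝ) l, ∀ b ∈ Icc (0 : ℝ) l, dist (σ a) (σ b) = |a - b|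

namespace IsMin
variable {z w : X} {l : ℝ} {σ : ℝ → X} (h : IsMin z w l σ)
include h

lemma dist_le {a b : ℝ} (ha : 0 ≤ a) (hab : a ≤ b) (hb : b ≤ l) :
    Dist.dist (σ a) (σ b) = b - a := by
  rw [h.dist a ⟨ha, hab.trans hb⟩ b ⟨ha.trans hab, hb⟩, abs_sub_comm, abs_of_nonneg (by linarith)]

lemma dist_w {a : ℝ} (ha : 0 ≤ a) (hb : a ≤ l) : Dist.dist (σ a) w = l - a := by
  rw [← h.last]; exact h.dist_le ha hb le_rfl

/-- the excess is nonincreasing along `σ` -/
lemma exc_anti (x : X) {a b : ℝ} (ha : 0 ≤ a) (hab : a ≤ b) (hb : b ≤ l) :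
    Exc x w (σ b) ≤ Exc x w (σ a) :=
  Exc_anti (by
    rw [h.dist_le ha hab hb, h.dist_w (ha.trans hab) hb, h.dist_w ha (hab.trans hb)]; ring)


/-- bound of the excess at the start: `T ≤ 2 d(x,z)` -/
lemma exc_le {x : X} {a : ℝ} (ha : 0 ≤ a) (hb : a ≤ l) :
    Exc x w (σ a) ≤ 2 * Dist.dist x z := by
  have h1 := h.exc_anti x le_rfl ha hb
  refine h1.trans ?_
  rw [h.zero]
  unfold Exc
  have := dist_triangle z x w
  rw [dist_comm z x] at this
  linarith

/-- **(3b)** along `σ`. -/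
theorem xbar_le (hB : Bpf μ) {S : Set X} {R K A L : ℝ} (hK : 1 ≤ K) (hA : 0 ≤ A)
    (hMV : MVH μ S R K A) {x : X} {ρ a b c : ℝ} (hx : x ∈ S) (hw : w ∈ S)
    (hbS : ball (σ a) ρ ⊆ S) (hb' : σ b ∈ S) (hb'' : σ c ∈ S) (hρ : 0 < ρ) (hρR : ρ ≤ R)
    (h8 : 8 * ρ ≤ L) (ha : 0 ≤ a) (hab : L ≤ b - a) (hbc : L ≤ c - b) (hc : c ≤ l)
    (hxb : L ≤ Dist.dist x (σ a)) :
    xbar μ x (σ a) (σ b) ρ ≤
      K ^ 2 * (Exc x w (σ a) - Exc x w (σ c)) + 7 * K ^ 2 * A * ρ ^ 2 / L := by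
  have hL : 0 < L := by linarith
  refine Exc853.xbar_le hB hK hA hMV hx hw hbS hb' hb'' hρ hρR h8 hxb ?_ ?_ ?_ ?_ ?_
  · rw [h.dist_le ha (by linarith) (by linarith)]; exact hab
  · rw [h.dist_w (by linarith) (by linarith)]; linarith
  · rw [h.dist_le (by linarith) (by linarith) hc]; exact hbc
  · rw [h.dist_le ha (by linarith) (by linarith), h.dist_le (by linarith) (by linarith) hc,
      h.dist_le ha (by linarith) hc]; ring
  · rw [h.dist_le ha (by linarith) hc, h.dist_w (by linarith) hc, h.dist_w ha (by linarith)]; ring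

/-- **(3b')** along `σ`, last step, `w'` beyond `w`. -/
theorem xbar_last_le (hB : Bpf μ) {S : Set X} {R K A L : ℝ} (hK : 1 ≤ K) (hA : 0 ≤ A)
    (hMV : MVH μ S R K A) {x w' : X} {ρ a : ℝ} (hx : x ∈ S) (hw : w ∈ S) (hw'S : w' ∈ S)
    (hbS : ball (σ a) ρ ⊆ S) (hρ : 0 < ρ) (hρR : ρ ≤ R)
    (h8 : 8 * ρ ≤ L) (ha : 0 ≤ a) (hal : L ≤ l - a) (hxb : L ≤ Dist.dist x (σ a))
    (hww : L ≤ Dist.dist w w')
    (hw' : Dist.dist x w + Dist.dist w w' = Dist.dist x w') :
    xbar μ x (σ a) w ρ ≤ K ^ 2 * Exc x w (σ a) + 5 * K ^ 2 * A * ρ ^ 2 / L := by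
  have hL : 0 < L := by linarith
  refine Exc853.xbar_last_le hB hK hA hMV hx hw hw'S hbS hρ hρR h8 hxb ?_ hww hw'
  rw [h.dist_w ha (by linarith)]; exact hal

/-- **(3c)** along `σ`: `T(c) ≤ C_U D(b)²/L`. -/
theorem exc_le_sq (hB : Bpf μ) {S : Set X} {R K A Cd L : ℝ} (hK : 0 ≤ K)
    (hA : 0 ≤ A) (hCd : 0 ≤ Cd) (hMV : MVH μ S R K A) {x g : X} {a b c : ℝ} (hx : x ∈ S)
    (hw : w ∈ S) (hS₀ : σ a ∈ S) (hS₁ : σ b ∈ S) (hS₂ : σ c ∈ S) (hSg : g ∈ S)
    (hL : 0 < L) (hLR : L ≤ R)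
    (hdb : ∀ r, 0 < r → r ≤ L → μ.real (ball g (2 * r)) ≤ Cd * μ.real (ball (σ b) r))
    (ha : 0 ≤ a) (hab : L ≤ b - a) (hbc : L ≤ c - b) (hc : c ≤ l)
    (hxg : L ≤ Dist.dist x g) (hgw : L ≤ Dist.dist g w) (hg : Exc x w g = 0) :
    Exc x w (σ c) ≤ (8 * Cd * K * A + 2 * K * A + 16) * (Dist.dist (σ b) g ^ 2 / L) := by
  refine exc_next_le_sq (b₀ := σ a) hB hK hA hCd hMV hx hw hS₀ hS₁ hS₂ hSg hL hLR hdb ?_ ?_ hxg hgw
    ?_ ?_ hg
  · rw [h.dist_le ha (by linarith) (by linarith)]; exact hab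
  · rw [h.dist_le (by linarith) (by linarith) hc]; exact hbc
  · rw [h.dist_le ha (by linarith) (by linarith), h.dist_le (by linarith) (by linarith) hc,
      h.dist_le ha (by linarith) hc]; ring
  · rw [h.dist_le ha (by linarith) hc, h.dist_w (by linarith) hc, h.dist_w ha (by linarith)]; ring

end IsMin

/-- the segment of a good pair of `Rad` is a minimiser -/
lemma isMin_of_rad (C : Rad n κ X μ) {z w : X} (hU : (z, w) ∈ C.U) (hzw : z ≠ w) :
    IsMin z w (dist z w) (fun τ => C.T z (τ / dist z w) w) := by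
  have hd : 0 < dist z w := dist_pos.2 hzw
  refine ⟨?_, ?_, fun a ha b hb => ?_⟩
  · simp only [zero_div]; exact C.T_zero z w hU
  · simp only [div_self hd.ne']; exact C.T_one z w hU
  · have h1 : ∀ t ∈ Icc (0 : ℝ) (dist z w), t / dist z w ∈ Icc (0 : ℝ) 1 := fun t ht =>
      ⟨div_nonneg ht.1 hd.le, (div_le_one hd).2 ht.2⟩
    rw [C.dist_T z w hU _ (h1 a ha) _ (h1 b hb), ← sub_div, abs_div, abs_of_pos hd,
      div_mul_cancel₀ _ hd.ne']

end Crest.Agent.R247.Exc853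
end
end

-- ▼ part R247/Exc3_853

/-!
# R247, block (1), leaf (1-E), file 3: `xbar` as an iterated `lintegral`; (3c) = (U) along a
minimiser over the interface `FarD`.
-/

set_option autoImplicit false
set_option linter.unusedSectionVars false
open MeasureTheory Set Filter Topology Metric
open scoped ENNReal NNReal

noncomputable section
namespace Crest.Agent.R247.Exc853

open Crest.Agent.R247.Mcp688 Crest.Agent.R247.Far553

variable {n : ℕ} {κ : ℝ} {X : Type*} [MetricSpace X] [MeasurableSpace X] [BorelSpace X]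
  {μ : Measure X}

/-- `∫⁻ ofReal f = ofReal (average) * μ(ball)` for a nonnegative integrable `f`. -/
lemma lintegral_ball_eq (hB : Bpf μ) (b : X) {r : ℝ} (hr : 0 < r) {f : X → ℝ}
    (hf : IntegrableOn f (ball b r) μ) (h0 : ∀ y, 0 ≤ f y) :
    ∫⁻ y in ball b r, ENNReal.ofReal (f y) ∂μ =
      ENNReal.ofReal (⨍ y in ball b r, f y ∂μ) * μ (ball b r) := by
  rw [← ofReal_integral_eq_lintegral_ofReal hf (Eventually.of_forall h0), setAverage_eq,
    smul_eq_mul]
  have h1 : μ (ball b r) = ENNReal.ofReal (μ.real (ball b r)) :=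
    (ENNReal.ofReal_toReal (hB b r hr).2).symm
  have hpos : 0 < μ.real (ball b r) := ENNReal.toReal_pos (hB b r hr).1 (hB b r hr).2
  have hI : 0 ≤ ∫ y in ball b r, f y ∂μ := integral_nonneg h0
  conv_rhs => rw [h1, ← ENNReal.ofReal_mul (by positivity)]
  congr 1
  field_simp

/-- `xbar` in the form consumed by (BL): iterated `lintegral`. -/
theorem lintegral_xbar (hB : Bpf μ) (x b b' : X) {ρ : ℝ} (hρ : 0 < ρ) :
    ∫⁻ z in ball b ρ, ∫⁻ y in ball b' ρ, ENNReal.ofReal (dist x z + dist z y - dist x y) ∂μ ∂μ =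
      ENNReal.ofReal (xbar μ x b b' ρ) * μ (ball b ρ) * μ (ball b' ρ) := by
  have h1 : ∀ z, ∫⁻ y in ball b' ρ, ENNReal.ofReal (dist x z + dist z y - dist x y) ∂μ =
      ENNReal.ofReal (⨍ y in ball b' ρ, (dist x z + dist z y - dist x y) ∂μ) * μ (ball b' ρ) :=
    fun z => lintegral_ball_eq hB b' hρ (int_F hB x z b' hρ)
      (fun y => by linarith [dist_triangle x z y])
  have hlip := lip_average (K := 2) hB b' hρ (lip_F x) (fun z => int_F hB x z b' hρ)
  simp only [h1]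
  rw [lintegral_mul_const _ (hlip.continuous.measurable.ennreal_ofReal),
    lintegral_ball_eq hB b hρ (integrableOn_of_lip hB b hρ hlip)
      (fun z => average_nonneg' b' fun y => by linarith [dist_triangle x z y])]
  rfl

/-- a point of the ray from `x` to `v` before `w = T x lam v` has zero excess for `w` -/
lemma exc_ray (C : Rad n κ X μ) {x v : X} (hU : (x, v) ∈ C.U) (hv : x ≠ v) {lam r : ℝ}
    (hlam : lam ∈ Ioc (0 : ℝ) 1) (hr : 0 ≤ r) (hr' : r ≤ lam * dist x v) :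
    Exc x (C.T x lam v) (ray C x v r) = 0 := by
  have hd : 0 < dist x v := dist_pos.2 hv
  have ht : r / dist x v ∈ Icc (0 : ℝ) 1 := by
    refine ⟨by positivity, (div_le_one hd).2 (hr'.trans ?_)⟩
    nlinarith [hlam.2]
  unfold Exc ray
  rw [C.dist_left hU ht, C.dist_T x v hU _ ht lam ⟨hlam.1.le, hlam.2⟩,
    C.dist_left hU ⟨hlam.1.le, hlam.2⟩, div_mul_cancel₀ _ hd.ne', abs_sub_comm,
    abs_of_nonneg (by rw [sub_nonneg]; exact (div_le_iff₀ hd).2 hr'), sub_mul,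
    div_mul_cancel₀ _ hd.ne']
  ring

lemma dist_ray (C : Rad n κ X μ) {x v : X} (hU : (x, v) ∈ C.U) (hv : x ≠ v) {r : ℝ}
    (hr : 0 ≤ r) (hr' : r ≤ dist x v) : dist x (ray C x v r) = r := by
  have hd : 0 < dist x v := dist_pos.2 hv
  unfold ray
  rw [C.dist_left hU ⟨by positivity, (div_le_one hd).2 hr'⟩, div_mul_cancel₀ _ hd.ne']

/-- **(U)** = (3c) along a minimiser `σ : z → w`, `w = T x lam v`, over `FarD`:
`T(2τ) ≤ C_U D(τ)²/τ`, `D(τ) = d(σ τ, γ_v(|σ τ|))`. -/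
theorem U_line {c : FarK} {C : Rad n κ X μ} {x : X} {δ : ℝ} {ph : ℕ → ℝ}
    (F : FarD c C x δ ph) (hB : Bpf μ) (hδ : δ ≤ 1 / 2) {K A : ℝ} (hK : 0 ≤ K) (hA : 0 ≤ A)
    (hMV : MVH μ (ball x 20) 1 K A) {z v w : X} {l lam : ℝ} {σ : ℝ → X}
    (hU : (x, v) ∈ C.U) (hv : x ≠ v) (hlam : lam ∈ Ioc (0 : ℝ) 1) (hw : w = C.T x lam v)
    (hl : 0 ≤ l) (hσ : IsMin z w l σ) (hwx : dist x w < 12) (hwx' : 2 ≤ dist x w) {τ : ℝ}
    (hz : 2 * dist x z ≤ τ) (hτ : 0 < τ) (hτ1 : τ ≤ 1 / 4) :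
    Exc x w (σ (2 * τ)) ≤ (16 * (3 * 2 ^ n) * K * A + 4 * K * A + 32) *
      (dist (σ τ) (ray C x v (dist x (σ τ))) ^ 2 / τ) := by
  have hd : 0 < dist x v := dist_pos.2 hv
  have hlz : dist z w = l := by
    have := hσ.dist_w le_rfl hl
    rw [hσ.zero] at this
    linarith
  have hl1 : 15 / 8 ≤ l := by
    have := dist_triangle x z w
    linarith
  have hxσ : ∀ a, 0 ≤ a → a ≤ l → dist x (σ a) ≤ dist x z + a ∧ a - dist x z ≤ dist x (σ a) := by
    intro a ha hal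
    have h1 := hσ.dist_le le_rfl ha hal
    rw [hσ.zero] at h1
    have h2 := dist_triangle x z (σ a)
    have h3 := dist_triangle z x (σ a)
    rw [dist_comm z x] at h3
    constructor <;> linarith
  have hmem : ∀ a, 0 ≤ a → a ≤ 2 * τ → σ a ∈ ball x 20 := by
    intro a ha hal
    rw [mem_ball, dist_comm]
    have := (hxσ a ha (by linarith)).1
    linarith
  have hwlam : dist x w = lam * dist x v := by rw [hw, C.dist_left hU ⟨hlam.1.le, hlam.2⟩]
  set r := dist x (σ τ) with hr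
  have hr1 := (hxσ τ hτ.le (by linarith)).1
  have hr2 := (hxσ τ hτ.le (by linarith)).2
  have hr0 : 0 ≤ r := dist_nonneg
  set g := ray C x v r with hg
  have hxg : dist x g = r := dist_ray C hU hv hr0 (by
    have : lam * dist x v ≤ dist x v := by nlinarith [hlam.2]
    linarith)
  have hE : Exc x w g = 0 := by
    rw [hw]; exact exc_ray C hU hv hlam hr0 (by linarith)
  have hgw : dist g w = dist x w - r := by
    have : dist x g + dist g w - dist x w = 0 := hE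
    linarith
  have hgS : g ∈ ball x 20 := by rw [mem_ball, dist_comm, hxg]; linarith
  have key := hσ.exc_le_sq (x := x) (g := g) (a := τ / 2) (b := τ) (c := 2 * τ) (L := τ / 2)
    (Cd := 3 * 2 ^ n) hB hK hA (by positivity) hMV (mem_ball_self (by norm_num))
    (by rw [mem_ball, dist_comm]; linarith)
    (hmem _ (by linarith) (by linarith)) (hmem _ (by linarith) (by linarith))
    (hmem _ (by linarith) le_rfl) hgS (by linarith) (by linarith) (fun s hs hs' => ?_)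
    (by linarith) (by linarith) (by linarith) (by linarith) (by linarith) (by linarith) hE
  · refine key.trans (le_of_eq ?_)
    field_simp
    ring
  · have h1 := hmem τ hτ.le (by linarith)
    rw [mem_ball, dist_comm] at h1 hgS
    have hω := c.ω_pos
    exact doubling_of_vol hω hδ hs (F.vol_ge _ _ h1 hs (by linarith))
      (F.vol_le _ _ hgS (by linarith) (by linarith)) (hB _ _ hs).2

end Crest.Agent.R247.Exc853
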