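import Crest.Agent.R247.Far0_553

-- ▼ part R247/Law1_508
section

/-!
# (1-L), part 1: the law of `w` through the end point `v` of the prolonged ray (r4 of docs 1392)

`Nu C x lam W` is the (unnormalised) law of `v`, where `w = T x lam v ∈ W`, `lam = 1/(1+θ)`.
Averages over `W` are replaced by averages over `Nu`, so that the ray from `x` to `w` always
survives up to `v` and only preimages of null sets occur.
-/

set_option autoImplicit false
set_option linter.unusedSectionVars false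
open MeasureTheory Set Filter Topology Metric
open scoped ENNReal NNReal

noncomputable section
namespace Crest.Agent.R247.Law508

open Crest.Agent.R247.Mcp688 Crest.Agent.R247.Far553

variable {n : ℕ} {κ : ℝ} {X : Type*} [MetricSpace X] [MeasurableSpace X] [BorelSpace X]
  {μ : Measure X}

lemma measurableSet_ann (x : X) (a b : ℝ) : MeasurableSet (ann x a b) := by
  have hd : Measurable (fun z : X => dist x z) := (continuous_const.dist continuous_id).measurable
  exact (measurableSet_le measurable_const hd).inter (measurableSet_le hd measurable_const)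

/-- (unnormalised) law of the end point `v` of the prolonged ray, `w = T x lam v ∈ W` -/
def Nu (C : Rad n κ X μ) (x : X) (lam : ℝ) (W : Set X) : Measure X :=
  ENNReal.ofReal (lam ^ n) • (wm μ κ x).restrict (C.T x lam ⁻¹' W)

variable (C : Rad n κ X μ)

lemma Nu_le_wm (x : X) {lam : ℝ} (hl : lam ∈ Ioc (0 : ℝ) 1) (W : Set X) :
    Nu C x lam W ≤ wm μ κ x := by
  refine Measure.le_iff.2 fun s _ => ?_
  rw [Nu, Measure.smul_apply, smul_eq_mul]
  calc ENNReal.ofReal (lam ^ n) * (wm μ κ x).restrict (C.T x lam ⁻¹' W) s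
      ≤ 1 * wm μ κ x s := by
        gcongr
        · exact ENNReal.ofReal_le_one.2 (pow_le_one₀ hl.1.le hl.2)
        · exact Measure.restrict_le_self
    _ = _ := one_mul _

lemma Nu_le (hκ : 0 ≤ κ) (x : X) {lam : ℝ} (hl : lam ∈ Ioc (0 : ℝ) 1) (W : Set X) :
    Nu C x lam W ≤ μ := (Nu_le_wm C x hl W).trans (wm_le μ x hκ)

lemma Nu_ac (x : X) (lam : ℝ) (W : Set X) : Nu C x lam W ≪ μ := by
  refine (Measure.smul_absolutelyContinuous).trans ?_
  exact Measure.absolutelyContinuous_of_le Measure.restrict_le_self |>.trans (wm_ac μ x κ)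

/-- `Nu`-a.e. properties -/
lemma Nu_ae (x : X) {lam : ℝ} (hl : lam ∈ Ioc (0 : ℝ) 1) {W : Set X} (hW : MeasurableSet W) :
    ∀ᵐ v ∂(Nu C x lam W), (x, v) ∈ C.U ∧ (x, C.T x lam v) ∈ C.U ∧ C.T x lam v ∈ W := by
  have h1 : ∀ᵐ v ∂(Nu C x lam W), (x, v) ∈ C.U := (Nu_ac C x lam W).ae_le (C.ae_U x)
  have h2 : ∀ᵐ v ∂(Nu C x lam W), C.T x lam v ∈ W := by
    apply Measure.ae_smul_measure
    exact ae_restrict_mem (hW.preimage (C.measT_xt x lam))
  filter_upwards [h1, h2] with v h1 h2
  exact ⟨h1, C.sub x v h1 lam hl, h2⟩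

lemma Nu_map_le_wm (x : X) {lam : ℝ} (hl : lam ∈ Ioc (0 : ℝ) 1) {W : Set X}
    (hW : MeasurableSet W) :
    (Nu C x lam W).map (C.T x lam) ≤ (wm μ κ x).restrict W := by
  refine Measure.le_iff.2 fun s hs => ?_
  have hm := C.measT_xt x lam
  rw [Measure.map_apply hm hs, Nu, Measure.smul_apply, smul_eq_mul,
    Measure.restrict_apply (hm hs), Measure.restrict_apply hs, ← preimage_inter]
  exact Rad.ofReal_pow_mul n lam hl.1 _ _ (C.measure_preimage_le x hl (hs.inter hW))

/-- **law of `w`**: the push-forward of `Nu` is dominated by `μ` on `W` -/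
lemma Nu_map_le (hκ : 0 ≤ κ) (x : X) {lam : ℝ} (hl : lam ∈ Ioc (0 : ℝ) 1) {W : Set X}
    (hW : MeasurableSet W) :
    (Nu C x lam W).map (C.T x lam) ≤ μ.restrict W :=
  (Nu_map_le_wm C x hl hW).trans (Measure.restrict_mono le_rfl (wm_le μ x hκ))

/-- transfer of integrals from `w` to `v` -/
lemma lintegral_Nu_le (hκ : 0 ≤ κ) (x : X) {lam : ℝ} (hl : lam ∈ Ioc (0 : ℝ) 1) {W : Set X}
    (hW : MeasurableSet W) {g : X → ℝ≥0∞} (hg : Measurable g) :
    ∫⁻ v, g (C.T x lam v) ∂(Nu C x lam W) ≤ ∫⁻ w in W, g w ∂μ := by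
  rw [← lintegral_map hg (C.measT_xt x lam)]
  exact lintegral_mono' (Nu_map_le C hκ x hl hW) le_rfl

/-- transfer of events from `w` to `v` (no measurability of the event) -/
lemma Nu_preimage_le (hκ : 0 ≤ κ) (x : X) {lam : ℝ} (hl : lam ∈ Ioc (0 : ℝ) 1) {W : Set X}
    (hW : MeasurableSet W) (S : Set X) :
    Nu C x lam W {v | C.T x lam v ∈ S} ≤ μ (S ∩ W) := by
  refine (Measure.le_map_apply (C.measT_xt x lam).aemeasurable S).trans ?_
  refine (Nu_map_le C hκ x hl hW S).trans ?_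
  rw [Measure.restrict_apply' hW]

lemma Nu_univ_le (hκ : 0 ≤ κ) (x : X) {lam : ℝ} (hl : lam ∈ Ioc (0 : ℝ) 1) {W : Set X}
    (hW : MeasurableSet W) : Nu C x lam W univ ≤ μ W := by
  have := Nu_preimage_le C hκ x hl hW univ
  simpa using this


/-- transfer from `v` back to `w` for bounded functions: the price is the mass deficit -/
theorem le_lintegral_Nu_wm (hκ : 0 ≤ κ) (x : X) {lam : ℝ} (hl : lam ∈ Ioc (0 : ℝ) 1) {W : Set X}
    (hW : MeasurableSet W) (hWf : μ W ≠ ∞) {f : X → ℝ≥0∞} (hf : Measurable f) {M : ℝ≥0∞}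
    (hM : ∀ w ∈ W, f w ≤ M) :
    ∫⁻ w in W, f w ∂(wm μ κ x) ≤
      ∫⁻ v, f (C.T x lam v) ∂(Nu C x lam W) + M * (wm μ κ x W - Nu C x lam W univ) := by
  set σ : Measure X := (wm μ κ x).restrict W with hσ
  set ν : Measure X := (Nu C x lam W).map (C.T x lam) with hν
  have hle : ν ≤ σ := Nu_map_le_wm C x hl hW
  have hm := C.measT_xt x lam
  have hνu : ν univ = Nu C x lam W univ := by
    rw [hν, Measure.map_apply hm MeasurableSet.univ, preimage_univ]
  have hfin : IsFiniteMeasure ν := by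
    constructor
    rw [hνu]
    exact lt_of_le_of_lt (Nu_univ_le C hκ x hl hW) (lt_top_iff_ne_top.2 hWf)
  have hdec : σ - ν + ν = σ := Measure.sub_add_cancel_of_le hle
  have h1 : ∫⁻ w, f w ∂σ = ∫⁻ w, f w ∂(σ - ν) + ∫⁻ w, f w ∂ν := by
    conv_lhs => rw [← hdec]
    exact lintegral_add_measure _ _ _
  have h2 : ∫⁻ w, f w ∂ν = ∫⁻ v, f (C.T x lam v) ∂(Nu C x lam W) := by
    rw [hν, lintegral_map hf hm]
  have h3 : ∫⁻ w, f w ∂(σ - ν) ≤ M * (wm μ κ x W - Nu C x lam W univ) := by
    have hae : ∀ᵐ w ∂(σ - ν), f w ≤ M := by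
      have : ∀ᵐ w ∂σ, f w ≤ M := by
        rw [hσ, ae_restrict_iff' hW]
        exact Eventually.of_forall hM
      exact (Measure.absolutelyContinuous_of_le Measure.sub_le).ae_le this
    calc ∫⁻ w, f w ∂(σ - ν) ≤ ∫⁻ _, M ∂(σ - ν) := lintegral_mono_ae hae
      _ = M * (σ - ν) univ := by rw [lintegral_const]
      _ = _ := by
          rw [Measure.sub_apply MeasurableSet.univ hle, hνu, hσ, Measure.restrict_apply_univ]
  calc ∫⁻ w in W, f w ∂(wm μ κ x) = ∫⁻ w, f w ∂(σ - ν) + ∫⁻ w, f w ∂ν := h1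
    _ ≤ _ := by rw [h2, add_comm]; gcongr

/-- the weighted and the unweighted measure on bounded sets -/
lemma lintegral_le_wm (hκ : 0 ≤ κ) (x : X) {R : ℝ} {W : Set X}
    (hW : MeasurableSet W) (hR : ∀ w ∈ W, dist x w ≤ R) {f : X → ℝ≥0∞} (hf : Measurable f) :
    ∫⁻ w in W, f w ∂μ ≤ ENNReal.ofReal (Real.exp (κ * R ^ 2 / 2)) *
      ∫⁻ w in W, f w ∂(wm μ κ x) := by
  rw [← lintegral_indicator hW, ← lintegral_indicator hW, lintegral_wm μ x (hf.indicator hW),
    ← lintegral_const_mul' _ _ ENNReal.ofReal_ne_top]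
  refine lintegral_mono fun w => ?_
  by_cases hw : w ∈ W
  · rw [indicator_of_mem hw, ← mul_assoc, ← ENNReal.ofReal_mul (Real.exp_pos _).le]
    have h1 : 1 ≤ Real.exp (κ * R ^ 2 / 2) * wt κ (dist x w) := by
      have h2 := wt_anti hκ dist_nonneg (hR w hw)
      calc (1 : ℝ) = Real.exp (κ * R ^ 2 / 2) * wt κ R := by
            rw [wt, ← Real.exp_add, add_neg_cancel, Real.exp_zero]
        _ ≤ _ := by gcongr
    calc f w = 1 * f w := (one_mul _).symm
      _ ≤ _ := by
          gcongr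
          rw [← ENNReal.ofReal_one]
          exact ENNReal.ofReal_le_ofReal h1
  · rw [indicator_of_notMem hw]; exact bot_le

/-- transfer from `v` back to `w`, unweighted -/
theorem le_lintegral_Nu (hκ : 0 ≤ κ) (x : X) {lam : ℝ} (hl : lam ∈ Ioc (0 : ℝ) 1) {W : Set X}
    (hW : MeasurableSet W) (hWf : μ W ≠ ∞) {R : ℝ} (hR : ∀ w ∈ W, dist x w ≤ R)
    {f : X → ℝ≥0∞} (hf : Measurable f) {M : ℝ≥0∞} (hM : ∀ w ∈ W, f w ≤ M) :
    ∫⁻ w in W, f w ∂μ ≤ ENNReal.ofReal (Real.exp (κ * R ^ 2 / 2)) *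
      (∫⁻ v, f (C.T x lam v) ∂(Nu C x lam W) + M * (wm μ κ x W - Nu C x lam W univ)) := by
  refine (lintegral_le_wm hκ x hW hR hf).trans ?_
  gcongr
  exact le_lintegral_Nu_wm C hκ x hl hW hWf hf hM

/-! ### thin annuli -/

include C in
/-- thin half-open annuli -/
theorem thin_wm (p : X) {a ε : ℝ} (hε : 0 < ε) (ha : 0 < a) :
    wm μ κ p {z | dist p z ∈ Ico a (a + ε)} ≤
      ENNReal.ofReal (2 ^ (n + 1) * (ε / a)) * wm μ κ p (ball p (a + ε)) := by
  have hae : 0 < a + ε := by linarith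
  set r : ℝ := a / (a + ε) with hr
  have hr0 : 0 < r := by positivity
  have hr1 : r ≤ 1 := by rw [hr, div_le_one hae]; linarith
  -- the scaled annuli
  set u : ℕ → ℝ := fun k => r ^ k * (a + ε) with hu
  have hanti : Antitone u := by
    intro i j hij
    simp only [hu]
    have := pow_le_pow_of_le_one hr0.le hr1 hij
    gcongr
  set B : ℕ → Set X := fun k => {z | dist p z ∈ Ico (u (k + 1)) (u k)} with hB
  have hBm : ∀ k, MeasurableSet (B k) := fun k =>
    (continuous_const.dist continuous_id).measurable measurableSet_Ico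
  have hdisj : Pairwise (Function.onFun Disjoint B) := by
    intro i j hij
    have h1 := hanti.pairwise_disjoint_on_Ico_succ hij
    simp only [Function.onFun, Order.succ_eq_add_one] at h1 ⊢
    rw [Set.disjoint_left] at h1 ⊢
    exact fun z hz hz' => h1 hz hz'
  -- the number of annuli
  set N : ℕ := ⌊a / (2 * ε)⌋₊ + 1 with hN
  have hNge : a / (2 * ε) ≤ N := by
    rw [hN]; push_cast; exact (Nat.lt_floor_add_one _).le
  have hrk : ∀ k < N, 1 / 2 ≤ r ^ k := by
    intro k hk
    have hk' : (k : ℝ) ≤ a / (2 * ε) := by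
      have : k ≤ ⌊a / (2 * ε)⌋₊ := by omega
      exact (Nat.le_floor_iff (by positivity)).1 this
    have h1 : 1 + (k : ℝ) * (r - 1) ≤ r ^ k := by
      have := one_add_mul_le_pow (a := r - 1) (by linarith) k
      simpa using this
    have h2 : (1 : ℝ) - r = ε / (a + ε) := by rw [hr]; field_simp; ring
    have h3 : (k : ℝ) * (1 - r) ≤ 1 / 2 := by
      rw [h2]
      calc (k : ℝ) * (ε / (a + ε)) ≤ a / (2 * ε) * (ε / (a + ε)) := by gcongr
        _ = a / (2 * (a + ε)) := by field_simp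
        _ ≤ 1 / 2 := by rw [div_le_div_iff₀ (by positivity) (by norm_num)]; linarith
    nlinarith
  have hstep : ∀ k < N, wm μ κ p {z | dist p z ∈ Ico a (a + ε)} ≤
      ENNReal.ofReal (2 ^ n) * wm μ κ p (B k) := by
    intro k hk
    have hk1 := hrk k hk
    have hpos : 0 < r ^ k := by positivity
    have h1 := C.annulus_le p (t := r ^ k) (a := a) (b := a + ε)
      ⟨hpos, pow_le_one₀ hr0.le hr1⟩
    have h2 : r ^ k * a = u (k + 1) := by
      simp only [hu, hr]; rw [pow_succ]; field_simp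
    rw [h2] at h1
    refine h1.trans (mul_le_mul_left (ENNReal.ofReal_le_ofReal ?_) _)
    have : (r ^ k)⁻¹ ≤ 2 := by
      rw [inv_le_comm₀ hpos (by norm_num)]; linarith
    gcongr
  have hsum : (N : ℝ≥0∞) * wm μ κ p {z | dist p z ∈ Ico a (a + ε)} ≤
      ENNReal.ofReal (2 ^ n) * wm μ κ p (ball p (a + ε)) := by
    calc (N : ℝ≥0∞) * wm μ κ p {z | dist p z ∈ Ico a (a + ε)}
        = ∑ _k ∈ Finset.range N, wm μ κ p {z | dist p z ∈ Ico a (a + ε)} := by simp
      _ ≤ ∑ k ∈ Finset.range N, ENNReal.ofReal (2 ^ n) * wm μ κ p (B k) :=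
          Finset.sum_le_sum fun k hk => hstep k (Finset.mem_range.1 hk)
      _ = ENNReal.ofReal (2 ^ n) * wm μ κ p (⋃ k ∈ Finset.range N, B k) := by
          rw [← Finset.mul_sum, measure_biUnion_finset (fun i _ j _ hij => hdisj hij)
            (fun k _ => hBm k)]
      _ ≤ _ := by
          gcongr
          intro z hz
          simp only [mem_iUnion, Finset.mem_range, exists_prop] at hz
          obtain ⟨k, hk, hz⟩ := hz
          rw [mem_ball, dist_comm]
          refine lt_of_lt_of_le hz.2 ?_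
          simp only [hu]
          calc r ^ k * (a + ε) ≤ 1 * (a + ε) := by
                gcongr; exact pow_le_one₀ hr0.le hr1
            _ = _ := one_mul _
  have hNpos : (0 : ℝ) < N := by rw [hN]; positivity
  have hkey : wm μ κ p {z | dist p z ∈ Ico a (a + ε)} ≤
      ENNReal.ofReal ((N : ℝ)⁻¹) * (ENNReal.ofReal (2 ^ n) * wm μ κ p (ball p (a + ε))) := by
    calc wm μ κ p {z | dist p z ∈ Ico a (a + ε)}
        = ENNReal.ofReal ((N : ℝ)⁻¹) * ((N : ℝ≥0∞) * wm μ κ p {z | dist p z ∈ Ico a (a + ε)}) := by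
          rw [← mul_assoc, ← ENNReal.ofReal_natCast N, ← ENNReal.ofReal_mul (by positivity),
            inv_mul_cancel₀ hNpos.ne', ENNReal.ofReal_one, one_mul]
      _ ≤ _ := by gcongr
  refine hkey.trans ?_
  rw [← mul_assoc, ← ENNReal.ofReal_mul (by positivity)]
  refine mul_le_mul_left (ENNReal.ofReal_le_ofReal ?_) _
  have h5 : (N : ℝ)⁻¹ ≤ 2 * (ε / a) := by
    rw [inv_le_comm₀ hNpos (by positivity)]
    calc (2 * (ε / a))⁻¹ = a / (2 * ε) := by field_simp
      _ ≤ N := hNge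
  calc (N : ℝ)⁻¹ * 2 ^ n ≤ 2 * (ε / a) * 2 ^ n := by gcongr
    _ = _ := by ring

include C in
/-- thin half-open annuli, unweighted -/
theorem thin (hκ : 0 ≤ κ) (p : X) {a ε : ℝ} (hε : 0 < ε) (ha : 0 < a) :
    μ {z | dist p z ∈ Ico a (a + ε)} ≤
      ENNReal.ofReal (Real.exp (κ * (a + ε) ^ 2 / 2) * (2 ^ (n + 1) * (ε / a))) *
        μ (ball p (a + ε)) := by
  have hms : MeasurableSet {z : X | dist p z ∈ Ico a (a + ε)} :=
    (continuous_const.dist continuous_id).measurable measurableSet_Ico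
  have h1 := le_wm μ p hκ hms (R := a + ε) (fun z hz => hz.2.le)
  have h2 := thin_wm C p hε ha
  have h3 : wm μ κ p (ball p (a + ε)) ≤ μ (ball p (a + ε)) := wm_le μ p hκ _
  calc μ {z | dist p z ∈ Ico a (a + ε)}
      = ENNReal.ofReal (Real.exp (κ * (a + ε) ^ 2 / 2)) *
          (ENNReal.ofReal (wt κ (a + ε)) * μ {z | dist p z ∈ Ico a (a + ε)}) := by
        rw [← mul_assoc, ← ENNReal.ofReal_mul (Real.exp_pos _).le, wt, ← Real.exp_add,
          add_neg_cancel, Real.exp_zero, ENNReal.ofReal_one, one_mul]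
    _ ≤ ENNReal.ofReal (Real.exp (κ * (a + ε) ^ 2 / 2)) *
          (ENNReal.ofReal (2 ^ (n + 1) * (ε / a)) * μ (ball p (a + ε))) := by
        refine mul_le_mul_right (h1.trans (h2.trans ?_)) _
        exact mul_le_mul_right h3 _
    _ = _ := by rw [← mul_assoc, ← ENNReal.ofReal_mul (Real.exp_pos _).le]

/-! ### the mass deficit for `W = {4 ≤ d_p ≤ 8}` -/

/-- the constant of `deficit` -/
def Cdef (n : ℕ) (κ : ℝ) : ℝ := n + 2 ^ (n + 5) * Real.exp (κ * 81 / 2)

lemma Cdef_pos (n : ℕ) (κ : ℝ) : 0 < Cdef n κ := by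
  unfold Cdef
  have := Real.exp_pos (κ * 81 / 2)
  positivity

/-- the closed annulus about `p` loses only `O(θ)` of its mass when the rays from `x` to its points
are asked to survive up to `(1+θ)` times their length -/
theorem deficit (hκ : 0 ≤ κ) (x p : X) (hpx : dist p x ≤ 1) {θ : ℝ} (h0 : 0 < θ)
    (h1 : θ ≤ 1 / 20) :
    wm μ κ x (ann p 4 8) ≤ Nu C x (1 / (1 + θ)) (ann p 4 8) univ +
      ENNReal.ofReal (Cdef n κ * θ) * μ (ball p 9) := by
  set lam : ℝ := 1 / (1 + θ) with hlam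
  have hl0 : 0 < lam := by positivity
  have hl1 : lam ≤ 1 := by rw [hlam, div_le_one (by positivity)]; linarith
  have hl2 : 1 - lam ≤ θ := by
    rw [hlam]
    have : 1 - 1 / (1 + θ) = θ / (1 + θ) := by field_simp; ring
    rw [this, div_le_iff₀ (by positivity)]
    nlinarith
  have hWm := measurableSet_ann p 4 8
  set W' : Set X := ann p (4 + 9 * θ) (8 - 9 * θ) with hW'
  -- `W'` is mapped into `W`
  have hmap : wm μ κ x W' ≤ wm μ κ x (C.T x lam ⁻¹' (ann p 4 8)) := by
    apply measure_mono_ae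
    filter_upwards [C.ae_U' x] with v hv hvW
    have hvx : dist x v ≤ 9 := by
      have h3 := dist_triangle x p v
      have h4 := hvW.2
      rw [dist_comm x p] at h3
      linarith
    have hd : dist (C.T x lam v) v ≤ 9 * θ := by
      rw [C.dist_right hv ⟨hl0.le, hl1⟩]
      calc (1 - lam) * dist x v ≤ θ * 9 := by
            apply mul_le_mul hl2 hvx dist_nonneg h0.le
        _ = _ := by ring
    have ht1 := dist_triangle p (C.T x lam v) v
    have ht2 := dist_triangle_right p (C.T x lam v) v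
    have hv1 := hvW.1
    have hv2 := hvW.2
    exact ⟨by linarith, by linarith⟩
  have hpow : 1 - lam ^ n ≤ n * θ := by
    have h3 := one_add_mul_le_pow (a := lam - 1) (by linarith) n
    have h4 : 1 + (lam - 1) = lam := by ring
    rw [h4] at h3
    have : (n : ℝ) * (1 - lam) ≤ n * θ := by gcongr
    linarith
  have hlp : lam ^ n ≤ 1 := pow_le_one₀ hl0.le hl1
  have hsub9 : W' ⊆ ball p 9 := by
    intro z hz
    rw [mem_ball, dist_comm]
    have := hz.2
    linarith
  -- mass of `W'`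
  have hA : wm μ κ x W' ≤ Nu C x lam (ann p 4 8) univ +
      ENNReal.ofReal (n * θ) * μ (ball p 9) := by
    calc wm μ κ x W' = ENNReal.ofReal (lam ^ n + (1 - lam ^ n)) * wm μ κ x W' := by
          rw [add_sub_cancel, ENNReal.ofReal_one, one_mul]
      _ = ENNReal.ofReal (lam ^ n) * wm μ κ x W' +
            ENNReal.ofReal (1 - lam ^ n) * wm μ κ x W' := by
          rw [ENNReal.ofReal_add (by positivity) (by linarith), add_mul]
      _ ≤ ENNReal.ofReal (lam ^ n) * wm μ κ x (C.T x lam ⁻¹' (ann p 4 8)) +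
            ENNReal.ofReal (n * θ) * μ (ball p 9) := by
          refine add_le_add (mul_le_mul_right hmap _) ?_
          exact mul_le_mul' (ENNReal.ofReal_le_ofReal hpow)
            ((wm_le μ x hκ _).trans (measure_mono hsub9))
      _ = _ := by
          rw [Nu, Measure.smul_apply, smul_eq_mul, Measure.restrict_apply_univ]
  -- thin annuli
  have hcov : ann p 4 8 ⊆ W' ∪ ({z | dist p z ∈ Ico (4 : ℝ) (4 + 18 * θ)} ∪
      {z | dist p z ∈ Ico (8 - 9 * θ) (8 - 9 * θ + 18 * θ)}) := by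
    intro z hz
    have hz1 := hz.1
    have hz2 := hz.2
    rcases lt_or_ge (dist p z) (4 + 9 * θ) with h | h
    · right; left
      exact ⟨hz1, by linarith⟩
    · rcases le_or_gt (dist p z) (8 - 9 * θ) with h' | h'
      · left; exact ⟨h, h'⟩
      · right; right
        exact ⟨h'.le, by linarith⟩
  have hexp : ∀ s : ℝ, 0 ≤ s → s ≤ 9 → Real.exp (κ * s ^ 2 / 2) ≤ Real.exp (κ * 81 / 2) := by
    intro s hs hs9
    apply Real.exp_le_exp.2
    have : s ^ 2 ≤ 81 := by nlinarith
    nlinarith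
  have hT : ∀ a : ℝ, 4 ≤ a → a + 18 * θ ≤ 9 → μ {z | dist p z ∈ Ico a (a + 18 * θ)} ≤
      ENNReal.ofReal (2 ^ (n + 4) * Real.exp (κ * 81 / 2) * θ) * μ (ball p 9) := by
    intro a ha ha9
    refine (thin C hκ p (a := a) (ε := 18 * θ) (by linarith) (by linarith)).trans ?_
    refine mul_le_mul' (ENNReal.ofReal_le_ofReal ?_) (measure_mono (ball_subset_ball ha9))
    have h5 := hexp (a + 18 * θ) (by linarith) ha9
    have h6 : 18 * θ / a ≤ 18 * θ / 4 := by gcongr
    have h7 := Real.exp_pos (κ * 81 / 2)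
    calc Real.exp (κ * (a + 18 * θ) ^ 2 / 2) * (2 ^ (n + 1) * (18 * θ / a))
        ≤ Real.exp (κ * 81 / 2) * (2 ^ (n + 1) * (18 * θ / 4)) := by gcongr
      _ = (18 / 4) * (2 ^ (n + 1) * Real.exp (κ * 81 / 2) * θ) := by ring
      _ ≤ 8 * (2 ^ (n + 1) * Real.exp (κ * 81 / 2) * θ) := by
          gcongr; norm_num
      _ = _ := by ring
  calc wm μ κ x (ann p 4 8)
      ≤ wm μ κ x W' + (μ {z | dist p z ∈ Ico (4 : ℝ) (4 + 18 * θ)} +
          μ {z | dist p z ∈ Ico (8 - 9 * θ) (8 - 9 * θ + 18 * θ)}) := by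
        refine (measure_mono hcov).trans ((measure_union_le _ _).trans ?_)
        gcongr
        exact (wm_le μ x hκ _).trans (measure_union_le _ _)
    _ ≤ (Nu C x lam (ann p 4 8) univ + ENNReal.ofReal (n * θ) * μ (ball p 9)) +
          (ENNReal.ofReal (2 ^ (n + 4) * Real.exp (κ * 81 / 2) * θ) * μ (ball p 9) +
            ENNReal.ofReal (2 ^ (n + 4) * Real.exp (κ * 81 / 2) * θ) * μ (ball p 9)) := by
        gcongr
        · exact hT 4 le_rfl (by linarith)
        · exact hT (8 - 9 * θ) (by linarith) (by linarith)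
    _ = _ := by
        rw [add_assoc, ← add_mul, ← ENNReal.ofReal_add (by positivity) (by positivity),
          ← add_mul, ← ENNReal.ofReal_add (by positivity) (by positivity)]
        congr 3
        unfold Cdef
        ring

/-- **(r4)** the average over `W = {4 ≤ d_p ≤ 8}` of a bounded function is controlled by the
average over the end points `v` of the prolonged rays, up to an error `O(θ)`. -/
theorem avg_le (hκ : 0 ≤ κ) (x p : X) (hpx : dist p x ≤ 1) {θ : ℝ} (h0 : 0 < θ)
    (h1 : θ ≤ 1 / 20) (hfin : μ (ball p 9) ≠ ∞) {f : X → ℝ≥0∞} (hf : Measurable f) {M : ℝ≥0∞}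
    (hM : ∀ w ∈ ann p 4 8, f w ≤ M) :
    ∫⁻ w in ann p 4 8, f w ∂μ ≤ ENNReal.ofReal (Real.exp (κ * 81 / 2)) *
      (∫⁻ v, f (C.T x (1 / (1 + θ)) v) ∂(Nu C x (1 / (1 + θ)) (ann p 4 8)) +
        M * (ENNReal.ofReal (Cdef n κ * θ) * μ (ball p 9))) := by
  have hl : 1 / (1 + θ) ∈ Ioc (0 : ℝ) 1 :=
    ⟨by positivity, by rw [div_le_one (by positivity)]; linarith⟩
  have hsub : ann p 4 8 ⊆ ball p 9 := by
    intro z hz
    rw [mem_ball, dist_comm]
    have := hz.2
    linarith
  have hWf : μ (ann p 4 8) ≠ ∞ := ne_top_of_le_ne_top hfin (measure_mono hsub)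
  have h := le_lintegral_Nu C hκ x hl (measurableSet_ann p 4 8) hWf (R := 9) (fun w hw => by
    have h3 := dist_triangle x p w
    have h4 := hw.2
    rw [dist_comm x p] at h3
    linarith) hf hM
  refine h.trans ?_
  have h81 : κ * 9 ^ 2 / 2 = κ * 81 / 2 := by norm_num
  rw [h81]
  gcongr
  rw [tsub_le_iff_left]
  exact deficit C hκ x p hpx h0 h1

end Crest.Agent.R247.Law508
end
end

-- ▼ part R247/Law2_508
section

/-!
# (1-L), part 2: laws of the points of the rays (arclength parameter), first block, measurability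
-/

set_option autoImplicit false
set_option linter.unusedSectionVars false
open MeasureTheory Set Filter Topology Metric
open scoped ENNReal NNReal

noncomputable section
namespace Crest.Agent.R247.Law508

open Crest.Agent.R247.Mcp688 Crest.Agent.R247.Far553

/-! ### change of variables on one ray -/

/-- arclength versus fraction -/
lemma arc_frac {f : ℝ → ℝ≥0∞} (hf : Measurable f) {d : ℝ} (hd : 0 < d) (a b : ℝ) :
    ∫⁻ τ in Icc a b, f (τ / d) = ENNReal.ofReal d * ∫⁻ s in Icc (a / d) (b / d), f s := by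
  have hG : Measurable ((Icc (a / d) (b / d)).indicator f) := hf.indicator measurableSet_Icc
  have h1 : ∫⁻ τ in Icc a b, f (τ / d) = ∫⁻ τ, (Icc (a / d) (b / d)).indicator f (d⁻¹ * τ) := by
    rw [← lintegral_indicator measurableSet_Icc]
    refine lintegral_congr fun τ => ?_
    have hiff : τ ∈ Icc a b ↔ d⁻¹ * τ ∈ Icc (a / d) (b / d) := by
      rw [mem_Icc, mem_Icc, ← div_eq_inv_mul, div_le_div_iff_of_pos_right hd,
        div_le_div_iff_of_pos_right hd]
    by_cases hτ : τ ∈ Icc a b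
    · rw [indicator_of_mem hτ, indicator_of_mem (hiff.1 hτ), div_eq_inv_mul]
    · rw [indicator_of_notMem hτ, indicator_of_notMem (fun h => hτ (hiff.2 h))]
  rw [h1, ← lintegral_map hG (measurable_const_mul _),
    Real.map_volume_mul_left (inv_ne_zero hd.ne'), lintegral_smul_measure, inv_inv,
    abs_of_pos hd, lintegral_indicator measurableSet_Icc, smul_eq_mul]


variable {n : ℕ} {κ : ℝ} {X : Type*} [MetricSpace X] [MeasurableSpace X] [BorelSpace X]
  {μ : Measure X} (C : Rad n κ X μ)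


lemma measurable_ray (x : X) : Measurable (fun p : X × ℝ => ray C x p.1 p.2) := by
  unfold ray
  have hd : Measurable (fun p : X × ℝ => dist x p.1) :=
    (continuous_const.dist continuous_fst).measurable
  exact (C.measT_x x).comp ((measurable_snd.div hd).prodMk measurable_fst)

lemma ray_mem_ann {z w : X} (hU : (z, w) ∈ C.U) {r : ℝ} (h0 : 0 ≤ r) (hr : r ≤ dist z w)
    (hd : 0 < dist z w) : dist z (ray C z w r) = r := by
  rw [ray, C.dist_left hU ⟨by positivity, (div_le_one hd).2 hr⟩]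
  field_simp

/-- **law of `σ_{zw}(τ)`**, `w ∈ W`, `τ` in `[a,b]` (measure `dτ`) -/
theorem law_arc' [SFinite μ] (hκ : 0 ≤ κ) (z : X) {W : Set X} (hW : MeasurableSet W)
    {a b r₀ R : ℝ} (ha : 0 < a) (hab : a ≤ b) (hb : b ≤ r₀)
    (hr : ∀ w ∈ W, r₀ ≤ dist z w) (hR : ∀ w ∈ W, dist z w ≤ R)
    {g : X → ℝ≥0∞} (hg : Measurable g) :
    ∫⁻ w in W, ∫⁻ τ in Icc a b, g (ray C z w τ) ∂volume ∂μ ≤
      ENNReal.ofReal (Real.exp (κ * R ^ 2 / 2) * (R / a) ^ n * (R * (b / r₀))) *
        ∫⁻ y in ann z a b, g y ∂μ := by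
  rcases W.eq_empty_or_nonempty with rfl | ⟨w₀, hw₀⟩
  · simp
  have hr0 : 0 < r₀ := by linarith
  have hR0 : r₀ ≤ R := (hr w₀ hw₀).trans (hR w₀ hw₀)
  have hRp : 0 < R := by linarith
  set G : X → ℝ≥0∞ := (ann z a b).indicator g with hG
  have hGm : Measurable G := hg.indicator (measurableSet_ann z a b)
  have hbr : b / r₀ ≤ 1 := (div_le_one hr0).2 hb
  have h1 : ∀ᵐ w ∂(μ.restrict W), ∫⁻ τ in Icc a b, g (ray C z w τ) ≤
      ENNReal.ofReal R * ∫⁻ s in Icc (a / R) (b / r₀), G (C.T z s w) := by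
    rw [ae_restrict_iff' hW]
    filter_upwards [C.ae_U z] with w hU hw
    have hd : 0 < dist z w := by have := hr w hw; linarith
    have hmf : Measurable (fun s : ℝ => g (C.T z s w)) :=
      hg.comp ((C.measT_x z).comp (measurable_id.prodMk measurable_const))
    calc ∫⁻ τ in Icc a b, g (ray C z w τ)
        = ENNReal.ofReal (dist z w) * ∫⁻ s in Icc (a / dist z w) (b / dist z w),
            g (C.T z s w) := arc_frac hmf hd a b
      _ = ENNReal.ofReal (dist z w) * ∫⁻ s in Icc (a / dist z w) (b / dist z w),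
            G (C.T z s w) := by
          congr 1
          refine setLIntegral_congr_fun measurableSet_Icc fun s hs => ?_
          have hs0 : 0 ≤ s := le_trans (by positivity) hs.1
          have hs1 : s ≤ 1 := hs.2.trans ((div_le_one hd).2 (hb.trans (hr w hw)))
          have hmem : C.T z s w ∈ ann z a b := by
            have h3 := C.dist_left hU ⟨hs0, hs1⟩
            rw [ann, mem_ofPred_eq, h3]
            exact ⟨(div_le_iff₀ hd).1 hs.1, (le_div_iff₀ hd).1 hs.2⟩
          simp only [hG, indicator_of_mem hmem]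
      _ ≤ _ := by
          refine mul_le_mul' (ENNReal.ofReal_le_ofReal (hR w hw)) (lintegral_mono_set ?_)
          refine Icc_subset_Icc ?_ ?_
          · exact div_le_div_of_nonneg_left ha.le hd (hR w hw)
          · exact div_le_div_of_nonneg_left (by linarith) hr0 (hr w hw)
  have h2 := C.ray_lintegral_le hκ z (a := a / R) (b := b / r₀) (R := R) (by positivity) hbr
    hW (W := univ) MeasurableSet.univ (fun w hw => hR w hw) (fun _ _ _ _ _ => mem_univ _) hGm
  have hne : ENNReal.ofReal R ≠ ∞ := ENNReal.ofReal_ne_top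
  calc ∫⁻ w in W, ∫⁻ τ in Icc a b, g (ray C z w τ) ∂volume ∂μ
      ≤ ∫⁻ w in W, ENNReal.ofReal R * ∫⁻ s in Icc (a / R) (b / r₀), G (C.T z s w) ∂volume ∂μ :=
        lintegral_mono_ae h1
    _ = ENNReal.ofReal R * ∫⁻ w in W, ∫⁻ s in Icc (a / R) (b / r₀), G (C.T z s w) ∂volume ∂μ :=
        lintegral_const_mul' _ _ hne
    _ ≤ ENNReal.ofReal R * (ENNReal.ofReal (Real.exp (κ * R ^ 2 / 2) * ((a / R)⁻¹) ^ n *
          (b / r₀ - a / R)) * ∫⁻ y in univ, G y ∂μ) := mul_le_mul_right h2 _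
    _ ≤ ENNReal.ofReal (Real.exp (κ * R ^ 2 / 2) * (R / a) ^ n * (R * (b / r₀))) *
        ∫⁻ y in univ, G y ∂μ := by
        rw [← mul_assoc, ← ENNReal.ofReal_mul hRp.le]
        refine mul_le_mul_left (ENNReal.ofReal_le_ofReal ?_) _
        rw [inv_div]
        have h5 : b / r₀ - a / R ≤ b / r₀ := by
          have : 0 ≤ a / R := by positivity
          linarith
        have h6 : 0 < Real.exp (κ * R ^ 2 / 2) := Real.exp_pos _
        calc R * (Real.exp (κ * R ^ 2 / 2) * (R / a) ^ n * (b / r₀ - a / R))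
            ≤ R * (Real.exp (κ * R ^ 2 / 2) * (R / a) ^ n * (b / r₀)) := by gcongr
          _ = _ := by ring
    _ = _ := by rw [Measure.restrict_univ, hG, lintegral_indicator (measurableSet_ann z a b)]

/-- **law of `σ_{zw}(τ)`**, `w ∈ W`, `τ` in `[a,b]` (measure `dτ/τ`) -/
theorem law_arc [SFinite μ] (hκ : 0 ≤ κ) (z : X) {W : Set X} (hW : MeasurableSet W)
    {a b r₀ R : ℝ} (ha : 0 < a) (hab : a ≤ b) (hb : b ≤ r₀)
    (hr : ∀ w ∈ W, r₀ ≤ dist z w) (hR : ∀ w ∈ W, dist z w ≤ R)
    {g : X → ℝ≥0∞} (hg : Measurable g) :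
    ∫⁻ w in W, ∫⁻ τ in Icc a b, g (C.T z (τ / dist z w) w) * ENNReal.ofReal τ⁻¹ ∂volume ∂μ ≤
      ENNReal.ofReal (Real.exp (κ * R ^ 2 / 2) * (R / a) ^ (n + 1) * (b / r₀)) *
        ∫⁻ y in ann z a b, g y ∂μ := by
  have h1 : ∀ w : X, ∫⁻ τ in Icc a b, g (C.T z (τ / dist z w) w) * ENNReal.ofReal τ⁻¹ ≤
      ENNReal.ofReal a⁻¹ * ∫⁻ τ in Icc a b, g (ray C z w τ) := by
    intro w
    rw [← lintegral_const_mul' _ _ ENNReal.ofReal_ne_top]
    refine setLIntegral_mono' measurableSet_Icc fun τ hτ => ?_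
    rw [mul_comm]
    exact mul_le_mul' (ENNReal.ofReal_le_ofReal (inv_anti₀ ha hτ.1)) le_rfl
  calc ∫⁻ w in W, ∫⁻ τ in Icc a b, g (C.T z (τ / dist z w) w) * ENNReal.ofReal τ⁻¹ ∂volume ∂μ
      ≤ ∫⁻ w in W, ENNReal.ofReal a⁻¹ * ∫⁻ τ in Icc a b, g (ray C z w τ) ∂volume ∂μ :=
        lintegral_mono fun w => h1 w
    _ = ENNReal.ofReal a⁻¹ * ∫⁻ w in W, ∫⁻ τ in Icc a b, g (ray C z w τ) ∂volume ∂μ :=
        lintegral_const_mul' _ _ ENNReal.ofReal_ne_top
    _ ≤ ENNReal.ofReal a⁻¹ * (ENNReal.ofReal (Real.exp (κ * R ^ 2 / 2) * (R / a) ^ n *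
          (R * (b / r₀))) * ∫⁻ y in ann z a b, g y ∂μ) :=
        mul_le_mul_right (law_arc' C hκ z hW ha hab hb hr hR hg) _
    _ = _ := by
        rw [← mul_assoc, ← ENNReal.ofReal_mul (by positivity)]
        congr 2
        rw [pow_succ, div_eq_mul_inv R a, div_eq_mul_inv b r₀]
        ring

/-- **first block**: `w` fixed, `z` uniform in `B(x,t)`, `τ ∈ [0, c t]` -/
theorem law_first [SFinite μ] (hκ : 0 ≤ κ) (w x : X) {t c r₀ R : ℝ} (ht : 0 < t) (hc : 0 < c)
    (hct : 2 * (c * t) ≤ r₀) (hr : ∀ z ∈ ball x t, r₀ ≤ dist z w)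
    (hR : ∀ z ∈ ball x t, dist z w ≤ R) {g : X → ℝ≥0∞} (hg : Measurable g) :
    ∫⁻ z in ball x t, ∫⁻ τ in Icc 0 (c * t), g (ray C z w τ) ∂volume ∂μ ≤
      ENNReal.ofReal (Real.exp (κ * R ^ 2 / 2) * 2 ^ n * (R / r₀) * (c * t)) *
        ∫⁻ y in ball x ((1 + c) * t), g y ∂μ := by
  have hx : x ∈ ball x t := mem_ball_self ht
  have hr0 : 0 < r₀ := by have : 0 < c * t := by positivity
                          linarith
  have hR0 : r₀ ≤ R := (hr x hx).trans (hR x hx)
  have hRp : 0 < R := by linarith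
  have hctr : c * t / r₀ ≤ 1 / 2 := by
    rw [div_le_div_iff₀ hr0 (by norm_num)]; linarith
  set W : Set X := ball x ((1 + c) * t) with hW
  have hWm : MeasurableSet W := isOpen_ball.measurableSet
  set G : X → ℝ≥0∞ := W.indicator g with hG
  have hGm : Measurable G := hg.indicator hWm
  have h1 : ∀ᵐ z ∂(μ.restrict (ball x t)), ∫⁻ τ in Icc 0 (c * t), g (ray C z w τ) ≤
      ENNReal.ofReal R * ∫⁻ s in Icc 0 (c * t / r₀), G (C.T w (1 - s) z) := by
    rw [ae_restrict_iff' isOpen_ball.measurableSet]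
    filter_upwards [C.ae_U w] with z hU hz
    have hU' := C.symm _ _ hU
    have hd : 0 < dist z w := by have := hr z hz; linarith
    have hmf : Measurable (fun s : ℝ => g (C.T z s w)) :=
      hg.comp ((C.measT_x z).comp (measurable_id.prodMk measurable_const))
    calc ∫⁻ τ in Icc 0 (c * t), g (ray C z w τ)
        = ENNReal.ofReal (dist z w) * ∫⁻ s in Icc (0 / dist z w) (c * t / dist z w),
            g (C.T z s w) := arc_frac hmf hd 0 (c * t)
      _ = ENNReal.ofReal (dist z w) * ∫⁻ s in Icc (0 / dist z w) (c * t / dist z w),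
            G (C.T w (1 - s) z) := by
          congr 1
          refine setLIntegral_congr_fun measurableSet_Icc fun s hs => ?_
          have hs0 : 0 ≤ s := by simpa using hs.1
          have hs1 : s * dist z w ≤ c * t := (le_div_iff₀ hd).1 hs.2
          have hs2 : s ≤ 1 / 2 := hs.2.trans
            ((div_le_div_of_nonneg_left (by positivity) hr0 (hr z hz)).trans hctr)
          have heq : C.T w (1 - s) z = C.T z s w := by
            have := C.T_symm z w hU' (1 - s) ⟨by linarith, by linarith⟩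
            rw [this, sub_sub_cancel]
          have hmem : C.T z s w ∈ W := by
            have h3 := C.dist_left hU' (t := s) ⟨hs0, by linarith⟩
            rw [hW, mem_ball]
            have h4 := dist_triangle (C.T z s w) z x
            rw [dist_comm (C.T z s w) z] at h4
            have h5 := mem_ball.1 hz
            nlinarith
          simp only [heq, hG, indicator_of_mem hmem]
      _ ≤ _ := by
          refine mul_le_mul' (ENNReal.ofReal_le_ofReal (hR z hz)) (lintegral_mono_set ?_)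
          refine Icc_subset_Icc ?_ ?_
          · simp
          · exact div_le_div_of_nonneg_left (by positivity) hr0 (hr z hz)
  have hmeas : Measurable (fun p : X × ℝ => G (C.T w (1 - p.2) p.1)) :=
    hGm.comp ((C.measT_x w).comp ((measurable_const.sub measurable_snd).prodMk measurable_fst))
  have h2 : ∫⁻ z in ball x t, ∫⁻ s in Icc 0 (c * t / r₀), G (C.T w (1 - s) z) ∂volume ∂μ ≤
      ENNReal.ofReal (Real.exp (κ * R ^ 2 / 2) * 2 ^ n * (c * t / r₀)) * ∫⁻ y, G y ∂μ := by
    rw [lintegral_lintegral_swap hmeas.aemeasurable]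
    calc ∫⁻ s in Icc 0 (c * t / r₀), ∫⁻ z in ball x t, G (C.T w (1 - s) z) ∂μ ∂volume
        ≤ ∫⁻ _s in Icc 0 (c * t / r₀), ENNReal.ofReal (Real.exp (κ * R ^ 2 / 2) * 2 ^ n) *
            ∫⁻ y, G y ∂μ ∂volume := by
          apply setLIntegral_mono measurable_const
          intro s hs
          have hs1 : s ≤ 1 / 2 := hs.2.trans hctr
          refine (C.setLIntegral_T_le hκ w (t := 1 - s) (D := R)
            ⟨by linarith, by linarith [hs.1]⟩ isOpen_ball.measurableSet MeasurableSet.univ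
            (fun z hz => by rw [dist_comm]; exact hR z hz) (fun _ _ _ => mem_univ _) hGm).trans ?_
          rw [Measure.restrict_univ]
          refine mul_le_mul_left (ENNReal.ofReal_le_ofReal ?_) _
          have h7 : (1 - s)⁻¹ ≤ 2 := by
            rw [inv_le_comm₀ (by linarith) (by norm_num)]; linarith
          have h8 : 0 ≤ (1 - s)⁻¹ := inv_nonneg.2 (by linarith)
          gcongr
      _ = _ := by
          rw [setLIntegral_const, Real.volume_Icc, sub_zero, mul_right_comm,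
            ← ENNReal.ofReal_mul (by positivity)]
  calc ∫⁻ z in ball x t, ∫⁻ τ in Icc 0 (c * t), g (ray C z w τ) ∂volume ∂μ
      ≤ ∫⁻ z in ball x t, ENNReal.ofReal R *
          ∫⁻ s in Icc 0 (c * t / r₀), G (C.T w (1 - s) z) ∂volume ∂μ := lintegral_mono_ae h1
    _ = ENNReal.ofReal R * ∫⁻ z in ball x t, ∫⁻ s in Icc 0 (c * t / r₀),
          G (C.T w (1 - s) z) ∂volume ∂μ := lintegral_const_mul' _ _ ENNReal.ofReal_ne_top
    _ ≤ ENNReal.ofReal R * (ENNReal.ofReal (Real.exp (κ * R ^ 2 / 2) * 2 ^ n * (c * t / r₀)) *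
          ∫⁻ y, G y ∂μ) := mul_le_mul_right h2 _
    _ = _ := by
        rw [← mul_assoc, ← ENNReal.ofReal_mul hRp.le, hG, lintegral_indicator hWm]
        congr 2
        field_simp

/-! ### rays prolonged up to `v` -/


/-- a.e. properties of `w` hold for `w = T x lam v`, `Nu`-a.e. `v` -/
lemma Nu_ae_of_ae (hκ : 0 ≤ κ) (x : X) {lam : ℝ} (hl : lam ∈ Ioc (0 : ℝ) 1) {W : Set X}
    (hW : MeasurableSet W) {p : X → Prop} (hp : ∀ᵐ w ∂μ, p w) :
    ∀ᵐ v ∂(Nu C x lam W), p (C.T x lam v) := by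
  have h1 : ∀ᵐ w ∂((Nu C x lam W).map (C.T x lam)), p w :=
    (Measure.absolutelyContinuous_of_le ((Nu_map_le C hκ x hl hW).trans
      Measure.restrict_le_self)).ae_le hp
  exact ae_of_ae_map (C.measT_xt x lam).aemeasurable h1

/-- the same for a.e. properties of pairs `(z,w)` -/
lemma Nu_ae_of_ae_prod [SFinite μ] (hκ : 0 ≤ κ) (x : X) {lam : ℝ} (hl : lam ∈ Ioc (0 : ℝ) 1)
    {W : Set X} (hW : MeasurableSet W) {p : X × X → Prop} (hp : ∀ᵐ q ∂(μ.prod μ), p q) :
    ∀ᵐ z ∂μ, ∀ᵐ v ∂(Nu C x lam W), p (z, C.T x lam v) := by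
  have h1 := Measure.ae_ae_of_ae_prod hp
  filter_upwards [h1] with z hz
  exact Nu_ae_of_ae C hκ x hl hW hz


/-! ### measurability of the local means and of the bad rays -/

lemma measurable_loc [SecondCountableTopology X] [SFinite μ] (m : ℕ) (K ρ : ℝ) {F : X → ℝ}
    (hF : Measurable F) : Measurable (loc μ m K ρ F) := by
  unfold loc
  apply Measurable.const_mul
  have h1 : ∀ y : X, ∫⁻ z in ball y (K * ρ), ENNReal.ofReal (F z) ∂μ =
      ∫⁻ z, ({p : X × X | dist p.2 p.1 < K * ρ}.indicator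
        (fun p => ENNReal.ofReal (F p.2))) (y, z) ∂μ := by
    intro y
    rw [← lintegral_indicator isOpen_ball.measurableSet]
    refine lintegral_congr fun z => ?_
    by_cases hz : z ∈ ball y (K * ρ)
    · rw [indicator_of_mem hz, indicator_of_mem (show (y, z) ∈ {p : X × X | dist p.2 p.1 < K * ρ}
        from mem_ball.1 hz)]
    · have hz' : (y, z) ∉ {p : X × X | dist p.2 p.1 < K * ρ} := fun h => hz (mem_ball.2 h)
      rw [indicator_of_notMem hz, indicator_of_notMem hz']
  simp_rw [h1]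
  apply Measurable.lintegral_prod_right'
  refine Measurable.indicator (hF.comp measurable_snd).ennreal_ofReal ?_
  exact measurableSet_lt (measurable_snd.dist measurable_fst) measurable_const

lemma measurable_ray_lintegral (x : X) {G : X → ℝ≥0∞} (hG : Measurable G) (a b : ℝ) :
    Measurable (fun v : X => ∫⁻ r in Icc a b, G (ray C x v r)) := by
  apply Measurable.lintegral_prod_right' (f := fun p : X × ℝ => G (ray C x p.1 p.2))
  exact hG.comp (measurable_ray C x)

lemma measurableSet_bad [SecondCountableTopology X] [SFinite μ] (x : X) {F : ℕ → X → ℝ}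
    (hF : ∀ k, Measurable (F k)) (K ε : ℝ) (j : ℕ) :
    MeasurableSet {v | bad C x F K ε j v} := by
  have h1 : {v | bad C x F K ε j v} = ⋃ k, {v | j ≤ k ∧ ENNReal.ofReal (ε * dy j) <
      ∫⁻ r in Icc (dy j) (2 * dy j), loc μ n K (dy k) (F k) (ray C x v r)} := by
    ext v
    simp only [bad, mem_ofPred_eq, mem_iUnion]
  rw [h1]
  refine MeasurableSet.iUnion fun k => ?_
  by_cases hjk : j ≤ k
  · simp only [hjk, true_and]
    exact measurableSet_lt measurable_const
      (measurable_ray_lintegral C x (measurable_loc n K (dy k) (hF k)) _ _)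
  · simp [hjk]



end Crest.Agent.R247.Law508
end
end

-- ▼ part R247/FarAsm1_196

/-!
# Assembly of block (1), part 1: integrated bounds of the block quantities (helper196)
-/

set_option autoImplicit false
set_option linter.unusedSectionVars false
open MeasureTheory Set Filter Topology Metric
open scoped ENNReal NNReal

noncomputable section
namespace Crest.Agent.R247.FarAsm196

open Crest.Agent.R247.Mcp688 Crest.Agent.R247.Far553

section tintdef
variable {n : ℕ} {κ : ℝ} {X : Type*} [MetricSpace X] [MeasurableSpace X] {μ : Measure X}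

/-- time integral (with `dτ/τ`) of `f` along the minimiser from `z` to `w`, `τ ∈ [a,b]` -/
def tint (C : Rad n κ X μ) (a b : ℝ) (f : X → ℝ≥0∞) (z w : X) : ℝ≥0∞ :=
  ∫⁻ τ in Icc a b, f (ray C z w τ) * ENNReal.ofReal τ⁻¹

/-- 508's law of the arclength parametrised rays (literal form of `law_arc`) -/
def LawArc (C : Rad n κ X μ) : Prop :=
  ∀ (z : X) (W : Set X) (r0 R a b : ℝ) (g : X → ℝ≥0∞), MeasurableSet W →
    (∀ w ∈ W, r0 ≤ dist z w ∧ dist z w ≤ R) → 0 < a → a ≤ b → b ≤ r0 → Measurable g →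
    ∫⁻ w in W, (∫⁻ τ in Icc a b, g (C.T z (τ / dist z w) w) * ENNReal.ofReal τ⁻¹) ∂μ ≤
      ENNReal.ofReal (Real.exp (κ * R ^ 2 / 2) * (R / a) ^ (n + 1) * (b / r0)) *
        ∫⁻ y in {y | a ≤ dist z y ∧ dist z y ≤ b}, g y ∂μ

/-- 508's law of the first block (literal form of `law_first`) -/
def LawFirst (C : Rad n κ X μ) : Prop :=
  ∀ (x w : X) (t c r0 R : ℝ) (g : X → ℝ≥0∞), 0 < t → 0 < c → 0 < r0 →
    (∀ z ∈ ball x t, r0 ≤ dist z w ∧ dist z w ≤ R) → 2 * c * t ≤ r0 → Measurable g →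
    ∫⁻ z in ball x t, (∫⁻ τ in Icc 0 (c * t), g (C.T z (τ / dist z w) w)) ∂μ ≤
      ENNReal.ofReal (Real.exp (κ * R ^ 2 / 2) * 2 ^ n * (R / r0) * c * t) *
        ∫⁻ y in ball x ((1 + c) * t), g y ∂μ

end tintdef

variable {n : ℕ} {κ : ℝ} {X : Type*} [MetricSpace X] [MeasurableSpace X] [BorelSpace X]
  {μ : Measure X}

lemma lawArc [SFinite μ] (C : Rad n κ X μ) (hκ : 0 ≤ κ) : LawArc C := by
  intro z W r0 R a b g hW hr ha hab hb hg
  exact Law508.law_arc C hκ z hW ha hab hb (fun w hw => (hr w hw).1) (fun w hw => (hr w hw).2) hg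

lemma lawFirst [SFinite μ] (C : Rad n κ X μ) (hκ : 0 ≤ κ) : LawFirst C := by
  intro x w t c r0 R g ht hc hr0 hr hct hg
  have h := Law508.law_first C hκ w x (t := t) (c := c) (r₀ := r0) (R := R) ht hc
    (by linarith) (fun z hz => (hr z hz).1) (fun z hz => (hr z hz).2) hg
  refine h.trans (le_of_eq ?_)
  congr 2
  ring

lemma measurable_dist' [SecondCountableTopology X] :
    Measurable (fun p : X × X => dist p.1 p.2) := by
  exact measurable_dist

lemma measurable_ray [SecondCountableTopology X] (C : Rad n κ X μ) :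
    Measurable (fun p : (X × X) × ℝ => ray C p.1.1 p.1.2 p.2) := by
  unfold ray
  exact C.measT.comp ((measurable_fst.comp measurable_fst).prodMk
    ((measurable_snd.div (measurable_dist'.comp measurable_fst)).prodMk
      (measurable_snd.comp measurable_fst)))

lemma measurable_tint [SecondCountableTopology X] (C : Rad n κ X μ) (a b : ℝ) {f : X → ℝ≥0∞}
    (hf : Measurable f) : Measurable (fun p : X × X => tint C a b f p.1 p.2) := by
  unfold tint
  apply Measurable.lintegral_prod_right'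
    (f := fun p : (X × X) × ℝ => f (ray C p.1.1 p.1.2 p.2) * ENNReal.ofReal p.2⁻¹)
  exact (hf.comp (measurable_ray C)).mul
    (ENNReal.measurable_ofReal.comp measurable_snd.inv)


/-- the total mass of `dτ/τ` on `[s/4, 3s]` is at most `11`. -/
lemma mass_le {s : ℝ} (hs : 0 < s) :
    ∫⁻ τ in Icc (s / 4) (3 * s), ENNReal.ofReal τ⁻¹ ≤ 11 := by
  calc ∫⁻ τ in Icc (s / 4) (3 * s), ENNReal.ofReal τ⁻¹
      ≤ ∫⁻ _ in Icc (s / 4) (3 * s), ENNReal.ofReal (4 / s) := by
        apply setLIntegral_mono measurable_const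
        intro τ hτ
        apply ENNReal.ofReal_le_ofReal
        rw [inv_le_comm₀ (by linarith [hτ.1]) (by positivity)]
        rw [inv_div]; exact hτ.1
    _ = ENNReal.ofReal (4 / s) * ENNReal.ofReal (3 * s - s / 4) := by
        rw [setLIntegral_const, Real.volume_Icc]
    _ = 11 := by
        rw [← ENNReal.ofReal_mul (by positivity)]
        have : 4 / s * (3 * s - s / 4) = 11 := by field_simp; ring
        rw [this]; norm_num

/-- Cauchy–Schwarz for `tint`. -/
lemma tint_sq_le (C : Rad n κ X μ) {s : ℝ} (hs : 0 < s) {f : X → ℝ≥0∞} (hf : Measurable f)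
    (z w : X) :
    tint C (s / 4) (3 * s) f z w ^ 2 ≤ 11 * tint C (s / 4) (3 * s) (fun y => f y ^ 2) z w := by
  have hray : Measurable (fun τ : ℝ => ray C z w τ) := by
    unfold ray
    exact C.measT.comp (measurable_const.prodMk
      ((measurable_id.div_const _).prodMk measurable_const))
  have h1 : Measurable fun τ : ℝ => f (ray C z w τ) := hf.comp hray
  have h2 : Measurable fun τ : ℝ => ENNReal.ofReal τ⁻¹ :=
    ENNReal.measurable_ofReal.comp measurable_inv
  unfold tint
  set ν : Measure ℝ := volume.restrict (Icc (s / 4) (3 * s)) with hν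
  have h3 := ENNReal.lintegral_mul_le_Lp_mul_Lq ν (p := 2) (q := 2)
    (f := fun τ => f (ray C z w τ) * ENNReal.ofReal τ⁻¹ ^ ((1:ℝ) / 2))
    (g := fun τ => ENNReal.ofReal τ⁻¹ ^ ((1:ℝ) / 2)) (by
      constructor <;> norm_num) ((h1.mul (h2.pow_const _)).aemeasurable)
      (h2.pow_const _).aemeasurable
  have e1 : ∀ τ, ((fun τ => f (ray C z w τ) * ENNReal.ofReal τ⁻¹ ^ ((1:ℝ) / 2)) *
      fun τ => ENNReal.ofReal τ⁻¹ ^ ((1:ℝ) / 2)) τ = f (ray C z w τ) * ENNReal.ofReal τ⁻¹ := by
    intro τ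
    simp only [Pi.mul_apply]
    rw [mul_assoc, ← ENNReal.rpow_add_of_nonneg _ _ (by norm_num) (by norm_num)]
    norm_num
  rw [lintegral_congr e1] at h3
  have e2 : ∀ τ, (f (ray C z w τ) * ENNReal.ofReal τ⁻¹ ^ ((1:ℝ) / 2)) ^ (2:ℝ) =
      f (ray C z w τ) ^ 2 * ENNReal.ofReal τ⁻¹ := by
    intro τ
    rw [ENNReal.mul_rpow_of_nonneg _ _ (by norm_num), ← ENNReal.rpow_mul]
    norm_num
  have e3 : ∀ τ : ℝ, (ENNReal.ofReal τ⁻¹ ^ ((1:ℝ) / 2)) ^ (2:ℝ) = ENNReal.ofReal τ⁻¹ := by
    intro τ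
    rw [← ENNReal.rpow_mul]
    norm_num
  rw [lintegral_congr e2, lintegral_congr e3] at h3
  calc (∫⁻ τ, f (ray C z w τ) * ENNReal.ofReal τ⁻¹ ∂ν) ^ 2
      ≤ ((∫⁻ τ, f (ray C z w τ) ^ 2 * ENNReal.ofReal τ⁻¹ ∂ν) ^ ((1:ℝ) / 2) *
          (∫⁻ τ, ENNReal.ofReal τ⁻¹ ∂ν) ^ ((1:ℝ) / 2)) ^ 2 := by gcongr
    _ = (∫⁻ τ, f (ray C z w τ) ^ 2 * ENNReal.ofReal τ⁻¹ ∂ν) * (∫⁻ τ, ENNReal.ofReal τ⁻¹ ∂ν) := by
        rw [mul_pow, ← ENNReal.rpow_natCast, ← ENNReal.rpow_natCast, ← ENNReal.rpow_mul,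
          ← ENNReal.rpow_mul]
        norm_num
    _ ≤ (∫⁻ τ, f (ray C z w τ) ^ 2 * ENNReal.ofReal τ⁻¹ ∂ν) * 11 := by
        gcongr
        exact mass_le hs
    _ = _ := by rw [mul_comm]

/-! ### the set `NN` is measurable -/

lemma measurable_measure_ball [SecondCountableTopology X] (ν : Measure X) [SFinite ν] (r : ℝ) :
    Measurable (fun b : X => ν (ball b r)) := by
  have h : ∀ b : X, ν (ball b r) =
      ∫⁻ y, ({p : X × X | dist p.2 p.1 < r}.indicator (fun _ => (1 : ℝ≥0∞)) (b, y)) ∂ν := by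
    intro b
    have : (fun y => ({p : X × X | dist p.2 p.1 < r}.indicator (fun _ => (1 : ℝ≥0∞)) (b, y))) =
        (ball b r).indicator (fun _ => (1 : ℝ≥0∞)) := by
      ext y
      by_cases hy : dist y b < r
      · rw [indicator_of_mem (by exact hy), indicator_of_mem (by exact hy)]
      · rw [indicator_of_notMem (by exact hy), indicator_of_notMem (by exact hy)]
    rw [this, lintegral_indicator_const measurableSet_ball, one_mul]
  rw [funext h]
  apply Measurable.lintegral_prod_right'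
  apply measurable_const.indicator
  exact measurableSet_lt (measurable_snd.dist measurable_fst) measurable_const

lemma measurableSet_NN [SecondCountableTopology X] [SFinite μ] (C : Rad n κ X μ) (x : X)
    (s ρ K c : ℝ) : MeasurableSet (NN C x s ρ K c) := by
  unfold NN
  have : SFinite (Lam C x s) := by unfold Lam; infer_instance
  exact measurableSet_le measurable_const (measurable_measure_ball (Lam C x s) (K * ρ))

/-! ### integrated bounds -/

/-- the constant of the law of the arclength parametrised rays -/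
def CL (n : ℕ) : ℝ := Real.exp 50 * 40 ^ (n + 1) * (3 / 2)

lemma CL_pos (n : ℕ) : 0 < CL n := by unfold CL; positivity

lemma measurableSet_ann (p : X) (a b : ℝ) : MeasurableSet (ann p a b) := by
  unfold ann
  have h : Measurable (fun z : X => dist p z) := (continuous_const.dist continuous_id).measurable
  exact (measurableSet_le measurable_const h).inter (measurableSet_le h measurable_const)

lemma dist_bounds {p x z w : X} (hp : dist p x < 1) (hz : dist x z < 1) (hw : w ∈ ann p 4 8) :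
    2 ≤ dist z w ∧ dist z w ≤ 10 := by
  obtain ⟨h1, h2⟩ := hw
  have h3 := dist_triangle p x z
  have h4 := dist_triangle p z w
  have h5 := dist_triangle z p w
  rw [dist_comm z p] at h5
  constructor <;> linarith

lemma tint_avg (hκ1 : κ ≤ 1) {C : Rad n κ X μ} (hlaw : LawArc C) {p x z : X} (hp : dist p x < 1)
    (hz : dist x z < 1) {i : ℕ} (hi : 4 ≤ i) {g : X → ℝ≥0∞} (hg : Measurable g) :
    ∫⁻ w in ann p 4 8, tint C (dy i / 4) (3 * dy i) g z w ∂μ ≤
      ENNReal.ofReal (CL n * ((dy i)⁻¹) ^ n) * ∫⁻ y, g y ∂μ := by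
  have hdy := dy_pos i
  have hdy4 : dy i ≤ 1 / 16 := by
    refine (dy_anti hi).trans ?_
    unfold dy; norm_num
  have h := hlaw z (ann p 4 8) 2 10 (dy i / 4) (3 * dy i) g (measurableSet_ann p 4 8)
    (fun w hw => dist_bounds hp hz hw) (by positivity) (by linarith) (by linarith) hg
  unfold tint ray
  refine h.trans ?_
  refine mul_le_mul' (ENNReal.ofReal_le_ofReal ?_) (setLIntegral_le_lintegral _ _)
  unfold CL
  have e1 : (10 / (dy i / 4)) ^ (n + 1) * (3 * dy i / 2) =
      40 ^ (n + 1) * (3 / 2) * ((dy i)⁻¹) ^ n := by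
    have : 10 / (dy i / 4) = 40 * (dy i)⁻¹ := by field_simp; norm_num
    rw [this, mul_pow, pow_succ ((dy i)⁻¹) n]
    field_simp
  calc Real.exp (κ * 10 ^ 2 / 2) * (10 / (dy i / 4)) ^ (n + 1) * (3 * dy i / 2)
      = Real.exp (κ * 10 ^ 2 / 2) * ((10 / (dy i / 4)) ^ (n + 1) * (3 * dy i / 2)) := by ring
    _ = Real.exp (κ * 10 ^ 2 / 2) * (40 ^ (n + 1) * (3 / 2) * ((dy i)⁻¹) ^ n) := by rw [e1]
    _ ≤ Real.exp 50 * (40 ^ (n + 1) * (3 / 2) * ((dy i)⁻¹) ^ n) := by
        gcongr
        linarith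
    _ = _ := by ring

/-- the block quantity `B_i(z,w)` at scale `dy i` and thickness `dy k` -/
def Blk {c : FarK} {C : Rad n κ X μ} {x : X} {δ : ℝ} {ph : ℕ → ℝ} (F : FarD c C x δ ph)
    (i k : ℕ) (K cN : ℝ) (z w : X) : ℝ≥0∞ :=
  tint C (dy i / 4) (3 * dy i)
      ((NN C x (dy i) (dy k) K cN).indicator fun y => ENNReal.ofReal (F.H k y)) z w ^ 2
  + (ENNReal.ofReal (dy k)⁻¹ * tint C (dy i / 4) (3 * dy i)
      ((NN C x (dy i) (dy k) K cN ∩ {y | |F.kk k y| ≤ dy k ^ 2}).indicator
        fun y => ENNReal.ofReal (F.nk k y)) z w) ^ 2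
  + ENNReal.ofReal (dy k)⁻¹ * tint C (dy i / 4) (3 * dy i)
      ((NN C x (dy i) (dy k) K cN ∩ {y | dy k ^ 2 < |F.kk k y|}).indicator
        fun y => ENNReal.ofReal (F.nk k y)) z w
  + ENNReal.ofReal ((dy k ^ 2)⁻¹) * tint C (dy i / 4) (3 * dy i)
      ((NN C x (dy i) (dy k) K cN).indicator fun y => ENNReal.ofReal |F.kk k y|) z w
  + tint C (dy i / 4) (3 * dy i)
      ((NN C x (dy i) (dy k) K cN).indicator fun y => ENNReal.ofReal (F.q k y)) z w
  + tint C (dy i / 4) (3 * dy i)
      ((NN C x (dy i) (dy k) K cN).indicator fun y => ENNReal.ofReal (F.g k y ^ 2)) z w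

section blk
variable [SecondCountableTopology X] [SFinite μ]
variable {c : FarK} {C : Rad n κ X μ} {x : X} {δ : ℝ} {ph : ℕ → ℝ} (F : FarD c C x δ ph)

lemma meas_ofReal {f : X → ℝ} (hf : Measurable f) : Measurable fun y => ENNReal.ofReal (f y) :=
  ENNReal.measurable_ofReal.comp hf

lemma measSet_le (k : ℕ) : MeasurableSet {y | |F.kk k y| ≤ dy k ^ 2} :=
  measurableSet_le (F.kk_meas k).abs measurable_const

lemma measSet_lt (k : ℕ) : MeasurableSet {y | dy k ^ 2 < |F.kk k y|} :=
  measurableSet_lt measurable_const (F.kk_meas k).abs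

lemma measurable_Blk (i k : ℕ) (K cN : ℝ) :
    Measurable (fun p : X × X => Blk F i k K cN p.1 p.2) := by
  have hN := measurableSet_NN C x (dy i) (dy k) K cN
  unfold Blk
  refine (((((((measurable_tint C _ _ ?_).pow_const 2).add
    (((measurable_tint C _ _ ?_).const_mul _).pow_const 2)).add
    ((measurable_tint C _ _ ?_).const_mul _)).add
    ((measurable_tint C _ _ ?_).const_mul _)).add
    (measurable_tint C _ _ ?_)).add (measurable_tint C _ _ ?_))
  · exact (meas_ofReal (F.H_meas k)).indicator hN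
  · exact (meas_ofReal (F.nk_meas k)).indicator (hN.inter (measSet_le F k))
  · exact (meas_ofReal (F.nk_meas k)).indicator (hN.inter (measSet_lt F k))
  · exact (meas_ofReal (F.kk_meas k).abs).indicator hN
  · exact (meas_ofReal (F.q_meas k)).indicator hN
  · exact (meas_ofReal ((F.g_meas k).pow_const 2)).indicator hN

/-- one term: if `∫ g ≤ B (dy i)^n` then the averaged time integral is at most `CL B`. -/
lemma tint_avg' (hκ1 : κ ≤ 1) (hlaw : LawArc C) {p z : X} (hp : dist p x < 1)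
    (hz : dist x z < 1) {i : ℕ} (hi : 4 ≤ i) {g : X → ℝ≥0∞} (hg : Measurable g) {B : ℝ}
    (hB : 0 ≤ B) (hgB : ∫⁻ y, g y ∂μ ≤ ENNReal.ofReal (B * dy i ^ n)) :
    ∫⁻ w in ann p 4 8, tint C (dy i / 4) (3 * dy i) g z w ∂μ ≤ ENNReal.ofReal (CL n * B) := by
  have hdy := dy_pos i
  refine (tint_avg hκ1 hlaw hp hz hi hg).trans ((mul_le_mul_right hgB _).trans ?_)
  have := CL_pos n
  rw [← ENNReal.ofReal_mul (by positivity)]
  apply ENNReal.ofReal_le_ofReal
  apply le_of_eq
  rw [inv_pow]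
  field_simp

lemma sq_term (hκ1 : κ ≤ 1) (hlaw : LawArc C) {p z : X} (hp : dist p x < 1)
    (hz : dist x z < 1) {i : ℕ} (hi : 4 ≤ i) {f : X → ℝ≥0∞} (hf : Measurable f) {B : ℝ}
    (hB : 0 ≤ B) (hfB : ∫⁻ y, f y ^ 2 ∂μ ≤ ENNReal.ofReal (B * dy i ^ n)) :
    ∫⁻ w in ann p 4 8, tint C (dy i / 4) (3 * dy i) f z w ^ 2 ∂μ ≤
      ENNReal.ofReal (11 * (CL n * B)) := by
  calc ∫⁻ w in ann p 4 8, tint C (dy i / 4) (3 * dy i) f z w ^ 2 ∂μ
      ≤ ∫⁻ w in ann p 4 8, 11 * tint C (dy i / 4) (3 * dy i) (fun y => f y ^ 2) z w ∂μ :=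
        lintegral_mono fun w => tint_sq_le C (dy_pos i) hf z w
    _ = 11 * ∫⁻ w in ann p 4 8, tint C (dy i / 4) (3 * dy i) (fun y => f y ^ 2) z w ∂μ := by
        rw [lintegral_const_mul]
        exact (measurable_tint C _ _ (hf.pow_const 2)).comp (measurable_const.prodMk measurable_id)
    _ ≤ 11 * ENNReal.ofReal (CL n * B) := by
        gcongr
        exact tint_avg' hκ1 hlaw hp hz hi (hf.pow_const 2) hB hfB
    _ = _ := by
        rw [ENNReal.ofReal_mul (p := 11) (by norm_num)]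
        norm_num

/-- integrated bound of the block quantity -/
theorem Blk_avg (hκ1 : κ ≤ 1) (hlaw : LawArc C) {p z : X} (hp : dist p x < 1)
    (hz : dist x z < 1) {i k : ℕ} (hi : 4 ≤ i) (hik : i ≤ k) {K cN : ℝ} (hK : 1 ≤ K)
    (hcN : 0 < cN) :
    ∫⁻ w in ann p 4 8, Blk F i k K cN z w ∂μ ≤
      ENNReal.ofReal (26 * CL n * c.B3 K cN * (1 + (k - i : ℕ)) * ph i) := by
  have hN := measurableSet_NN C x (dy i) (dy k) K cN
  have hB3 := c.B3_pos K cN
  have hph := F.ph_nonneg i
  have hCL := CL_pos n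
  have hdk := dy_pos k
  set B : ℝ := c.B3 K cN * ph i with hB
  have hB0 : 0 ≤ B := by positivity
  set m : ℝ := 1 + (k - i : ℕ) with hm
  have hm1 : 1 ≤ m := by rw [hm]; have : (0:ℝ) ≤ ((k - i : ℕ) : ℝ) := Nat.cast_nonneg _; linarith
  have hm0 : 0 ≤ B * m := by positivity
  -- measurability of the slices
  have hsl : ∀ {f : X → ℝ≥0∞}, Measurable f →
      Measurable fun w => tint C (dy i / 4) (3 * dy i) f z w := fun hf =>
    (measurable_tint C _ _ hf).comp (measurable_const.prodMk measurable_id)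
  have m1 := (meas_ofReal (F.H_meas k)).indicator hN
  have m2 := (meas_ofReal (F.nk_meas k)).indicator (hN.inter (measSet_le F k))
  have m3 := (meas_ofReal (F.nk_meas k)).indicator (hN.inter (measSet_lt F k))
  have m4 := (meas_ofReal (F.kk_meas k).abs).indicator hN
  have m5 := (meas_ofReal (F.q_meas k)).indicator hN
  have m6 := (meas_ofReal ((F.g_meas k).pow_const 2)).indicator hN
  have sqi : ∀ (S : Set X) (f : X → ℝ), (fun y => (S.indicator (fun y => ENNReal.ofReal (f y)) y) ^ 2)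
      = S.indicator fun y => ENNReal.ofReal (f y) ^ 2 := by
    intro S f; ext y
    by_cases hy : y ∈ S
    · rw [indicator_of_mem hy, indicator_of_mem hy]
    · rw [indicator_of_notMem hy, indicator_of_notMem hy]; simp
  -- term 1
  have t1 : ∫⁻ w in ann p 4 8, tint C (dy i / 4) (3 * dy i)
      ((NN C x (dy i) (dy k) K cN).indicator fun y => ENNReal.ofReal (F.H k y)) z w ^ 2 ∂μ ≤
      ENNReal.ofReal (11 * (CL n * B)) := by
    apply sq_term hκ1 hlaw hp hz hi m1 hB0
    rw [sqi, lintegral_indicator hN]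
    refine le_trans (le_of_eq (lintegral_congr fun y => ?_)) (F.d2_H K cN hK hcN i k hi hik)
    rw [ENNReal.ofReal_pow (F.H_nonneg k y)]
  -- term 2
  have t2 : ∫⁻ w in ann p 4 8, (ENNReal.ofReal (dy k)⁻¹ * tint C (dy i / 4) (3 * dy i)
      ((NN C x (dy i) (dy k) K cN ∩ {y | |F.kk k y| ≤ dy k ^ 2}).indicator
        fun y => ENNReal.ofReal (F.nk k y)) z w) ^ 2 ∂μ ≤
      ENNReal.ofReal (11 * (CL n * (B * m))) := by
    simp_rw [mul_pow]
    rw [lintegral_const_mul _ ((hsl m2).pow_const 2)]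
    have h := sq_term (p := p) (z := z) hκ1 hlaw hp hz hi m2 (B := dy k ^ 2 * (B * m)) (by positivity) (by
      rw [sqi, lintegral_indicator (hN.inter (measSet_le F k))]
      refine le_trans (le_of_eq (lintegral_congr fun y => ?_))
        ((F.d2_nk2 K cN hK hcN i k hi hik).trans (ENNReal.ofReal_le_ofReal (le_of_eq ?_)))
      · rw [ENNReal.ofReal_pow (F.nk_nonneg k y)]
      · rw [hB, hm]; ring)
    refine (mul_le_mul_right h _).trans ?_
    rw [← ENNReal.ofReal_pow (by positivity), ← ENNReal.ofReal_mul (by positivity)]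
    apply ENNReal.ofReal_le_ofReal
    apply le_of_eq
    field_simp
  -- term 3
  have t3 : ∫⁻ w in ann p 4 8, ENNReal.ofReal (dy k)⁻¹ * tint C (dy i / 4) (3 * dy i)
      ((NN C x (dy i) (dy k) K cN ∩ {y | dy k ^ 2 < |F.kk k y|}).indicator
        fun y => ENNReal.ofReal (F.nk k y)) z w ∂μ ≤ ENNReal.ofReal (CL n * (B * m)) := by
    rw [lintegral_const_mul _ (hsl m3)]
    have h := tint_avg' (p := p) (z := z) hκ1 hlaw hp hz hi m3 (B := dy k * (B * m)) (by positivity) (by
      rw [lintegral_indicator (hN.inter (measSet_lt F k))]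
      refine (F.d2_nk1 K cN hK hcN i k hi hik).trans (ENNReal.ofReal_le_ofReal (le_of_eq ?_))
      rw [hB, hm]; ring)
    refine (mul_le_mul_right h _).trans ?_
    rw [← ENNReal.ofReal_mul (by positivity)]
    apply ENNReal.ofReal_le_ofReal
    apply le_of_eq
    field_simp
  -- term 4
  have t4 : ∫⁻ w in ann p 4 8, ENNReal.ofReal ((dy k ^ 2)⁻¹) * tint C (dy i / 4) (3 * dy i)
      ((NN C x (dy i) (dy k) K cN).indicator fun y => ENNReal.ofReal |F.kk k y|) z w ∂μ ≤
      ENNReal.ofReal (CL n * B) := by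
    rw [lintegral_const_mul _ (hsl m4)]
    have h := tint_avg' (p := p) (z := z) hκ1 hlaw hp hz hi m4 (B := dy k ^ 2 * B) (by positivity) (by
      rw [lintegral_indicator hN]
      refine (F.d2_k K cN hK hcN i k hi hik).trans (ENNReal.ofReal_le_ofReal (le_of_eq ?_))
      rw [hB]; ring)
    refine (mul_le_mul_right h _).trans ?_
    rw [← ENNReal.ofReal_mul (by positivity)]
    apply ENNReal.ofReal_le_ofReal
    apply le_of_eq
    field_simp
  -- term 5
  have t5 : ∫⁻ w in ann p 4 8, tint C (dy i / 4) (3 * dy i)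
      ((NN C x (dy i) (dy k) K cN).indicator fun y => ENNReal.ofReal (F.q k y)) z w ∂μ ≤
      ENNReal.ofReal (CL n * B) := by
    apply tint_avg' hκ1 hlaw hp hz hi m5 hB0
    rw [lintegral_indicator hN]
    exact F.d2_q K cN hK hcN i k hi hik
  -- term 6
  have t6 : ∫⁻ w in ann p 4 8, tint C (dy i / 4) (3 * dy i)
      ((NN C x (dy i) (dy k) K cN).indicator fun y => ENNReal.ofReal (F.g k y ^ 2)) z w ∂μ ≤
      ENNReal.ofReal (CL n * B) := by
    apply tint_avg' hκ1 hlaw hp hz hi m6 hB0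
    rw [lintegral_indicator hN]
    exact F.d2_g K cN hK hcN i k hi hik
  unfold Blk
  rw [lintegral_add_right _ (hsl m6), lintegral_add_right _ (hsl m5),
    lintegral_add_right _ ((hsl m4).const_mul _), lintegral_add_right _ ((hsl m3).const_mul _),
    lintegral_add_right _ (((hsl m2).const_mul _).pow_const 2)]
  refine (add_le_add (add_le_add (add_le_add (add_le_add (add_le_add t1 t2) t3) t4) t5) t6).trans ?_
  rw [← ENNReal.ofReal_add (by positivity) (by positivity),
    ← ENNReal.ofReal_add (by positivity) (by positivity),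
    ← ENNReal.ofReal_add (by positivity) (by positivity),
    ← ENNReal.ofReal_add (by positivity) (by positivity),
    ← ENNReal.ofReal_add (by positivity) (by positivity)]
  apply ENNReal.ofReal_le_ofReal
  have hBm : B ≤ B * m := by nlinarith
  have h1 : CL n * B ≤ CL n * (B * m) := by gcongr
  calc 11 * (CL n * B) + 11 * (CL n * (B * m)) + CL n * (B * m) + CL n * B + CL n * B + CL n * B
      ≤ 26 * (CL n * (B * m)) := by linarith
    _ = _ := by rw [hB]; ring

end blk

end Crest.Agent.R247.FarAsm196
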