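import Crest.Agent.R247.Mcp5_688
import Crest.Agent.R247.Hes2_124
import Crest.Agent.R247.Smv0_126

-- ▼ part R247/Fv1_510
section

/-!
R247, block (5-V) (helper510), part 1: limits along almost every curve of a family.

`(P, π)` is a measure space of curves `c p : [a,b] → X` whose occupation measure has density at
most `K` with respect to `m`.  If `Φₖ(p,·)` has derivative `Ψₖ(p,·)` and the errors
`|Φₖ - Φ|, |Ψₖ - Ψ|` at time `t` are at most `eₖ (c p t)` with `eₖ → 0` in `L¹(m)`, then for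
almost every curve `Φ(p,·)` is a.e. equal to an absolutely continuous function with
derivative `Ψ(p,·)`.
-/

set_option autoImplicit false
open MeasureTheory Set Filter Topology
open scoped ENNReal NNReal

noncomputable section
namespace Crest.Agent.R247.Fv510

/-- fast subsequence -/
lemma exists_fast {u : ℕ → ℝ≥0∞} (h : Tendsto u atTop (𝓝 0)) :
    ∃ φ : ℕ → ℕ, StrictMono φ ∧ ∑' k, u (φ k) ≤ 2 := by
  have hpos : ∀ k : ℕ, (0 : ℝ≥0∞) < (2⁻¹ : ℝ≥0∞) ^ k := fun k =>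
    pos_iff_ne_zero.2 (pow_ne_zero _ (by simp))
  have h1 : ∀ k : ℕ, ∀ᶠ j in atTop, u j ≤ (2⁻¹ : ℝ≥0∞) ^ k := fun k =>
    h.eventually_le_const (hpos k)
  obtain ⟨φ, hφ, hφ'⟩ := extraction_forall_of_eventually h1
  refine ⟨φ, hφ, ?_⟩
  calc ∑' k, u (φ k) ≤ ∑' k : ℕ, (2⁻¹ : ℝ≥0∞) ^ k := ENNReal.tsum_le_tsum hφ'
    _ = 2 := by rw [ENNReal.tsum_geometric, ENNReal.one_sub_inv_two, inv_inv]

section curve

variable {P X : Type*} [MeasurableSpace P] [MeasurableSpace X] {π : Measure P} {m : Measure X}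

/-- The one-curve statement: pointwise limit of primitives. -/
lemma limit_one {a b : ℝ} (hab : a ≤ b) {e : ℕ → ℝ → ℝ≥0∞}
    (he : ∀ k, AEMeasurable (e k) (volume.restrict (Icc a b)))
    (hsum : ∑' k, ∫⁻ t in Icc a b, e k t ≠ ∞) {Φk Ψk : ℕ → ℝ → ℝ} {Φ Ψ : ℝ → ℝ}
    (hΦ : ∀ k, ∀ᵐ t ∂(volume.restrict (Icc a b)), ENNReal.ofReal |Φk k t - Φ t| ≤ e k t)
    (hΨ : ∀ k, ∀ᵐ t ∂(volume.restrict (Icc a b)), ENNReal.ofReal |Ψk k t - Ψ t| ≤ e k t)
    (hI : ∀ k, IntervalIntegrable (Ψk k) volume a b)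
    (hD : ∀ k, ∃ c₀, ∀ᵐ t ∂(volume.restrict (Icc a b)), Φk k t = c₀ + ∫ s in a..t, Ψk k s) :
    IntervalIntegrable Ψ volume a b ∧
      ∃ c, ∀ᵐ t ∂(volume.restrict (Icc a b)), Φ t = c + ∫ s in a..t, Ψ s := by
  set ν : Measure ℝ := volume.restrict (Icc a b) with hν
  -- a.e. convergence of `e`
  have hsum' : ∫⁻ t, ∑' k, e k t ∂ν ≠ ∞ := by
    rw [lintegral_tsum he]; exact hsum
  have hae : ∀ᵐ t ∂ν, Tendsto (fun k => e k t) atTop (𝓝 0) := by
    have h1 : AEMeasurable (fun t => ∑' k, e k t) ν := AEMeasurable.tsum he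
    filter_upwards [ae_lt_top' h1 hsum'] with t ht
    exact ENNReal.tendsto_atTop_zero_of_tsum_ne_top ht.ne
  have hint0 : Tendsto (fun k => ∫⁻ t, e k t ∂ν) atTop (𝓝 0) :=
    ENNReal.tendsto_atTop_zero_of_tsum_ne_top hsum
  -- pointwise convergence
  have conv : ∀ {f : ℕ → ℝ → ℝ} {g : ℝ → ℝ},
      (∀ k, ∀ᵐ t ∂ν, ENNReal.ofReal |f k t - g t| ≤ e k t) →
      ∀ᵐ t ∂ν, Tendsto (fun k => f k t) atTop (𝓝 (g t)) := by
    intro f g h
    filter_upwards [hae, ae_all_iff.2 h] with t ht hk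
    rw [tendsto_iff_norm_sub_tendsto_zero]
    have h2 : Tendsto (fun k => ENNReal.ofReal |f k t - g t|) atTop (𝓝 0) :=
      tendsto_of_tendsto_of_tendsto_of_le_of_le tendsto_const_nhds ht (fun _ => bot_le) hk
    have h3 := (ENNReal.tendsto_toReal ENNReal.zero_ne_top).comp h2
    simp only [ENNReal.toReal_zero] at h3
    refine h3.congr fun k => ?_
    simp [Function.comp, Real.norm_eq_abs]
  have hΦ' := conv hΦ
  have hΨ' := conv hΨ
  have hIk : ∀ k, Integrable (Ψk k) ν := fun k => by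
    rw [hν, ← IntegrableOn, integrableOn_Icc_iff_integrableOn_Ioc]
    exact (intervalIntegrable_iff_integrableOn_Ioc_of_le hab).1 (hI k)
  have hmeas : AEStronglyMeasurable Ψ ν :=
    aestronglyMeasurable_of_tendsto_ae atTop (fun k => (hIk k).1) hΨ'
  -- L¹ distance
  have hL : ∀ k, ∫⁻ t, ENNReal.ofReal |Ψk k t - Ψ t| ∂ν ≤ ∫⁻ t, e k t ∂ν := fun k =>
    lintegral_mono_ae (hΨ k)
  have hfin : ∃ k, ∫⁻ t, e k t ∂ν < ∞ := by
    have := (hint0.eventually_lt_const (by simp : (0 : ℝ≥0∞) < 1)).exists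
    obtain ⟨k, hk⟩ := this
    exact ⟨k, hk.trans (by simp)⟩
  have hΨi : Integrable Ψ ν := by
    obtain ⟨k, hk⟩ := hfin
    have h1 : Integrable (fun t => Ψk k t - Ψ t) ν := by
      refine ⟨(hIk k).1.sub hmeas, ?_⟩
      rw [hasFiniteIntegral_iff_norm]
      exact lt_of_le_of_lt (hL k) hk
    have h2 : Ψ = fun t => Ψk k t - (Ψk k t - Ψ t) := by ext t; ring
    rw [h2]
    exact (hIk k).sub h1
  have hΨii : IntervalIntegrable Ψ volume a b := by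
    rw [intervalIntegrable_iff_integrableOn_Ioc_of_le hab, ← integrableOn_Icc_iff_integrableOn_Ioc]
    exact hΨi
  -- convergence of the primitives
  have hprim : ∀ t ∈ Icc a b, Tendsto (fun k => ∫ s in a..t, Ψk k s) atTop
      (𝓝 (∫ s in a..t, Ψ s)) := by
    intro t ht
    simp only [intervalIntegral.integral_of_le ht.1]
    have hsub : Ioc a t ⊆ Icc a b := fun s hs => ⟨hs.1.le, hs.2.trans ht.2⟩
    have hle : volume.restrict (Ioc a t) ≤ ν := Measure.restrict_mono hsub le_rfl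
    refine tendsto_integral_of_L1 Ψ (hΨi.mono_measure hle).1
      (Eventually.of_forall fun k => (hIk k).mono_measure hle) ?_
    refine tendsto_of_tendsto_of_tendsto_of_le_of_le tendsto_const_nhds hint0
      (fun _ => bot_le) fun k => ?_
    refine le_trans ?_ (hL k)
    calc ∫⁻ s in Ioc a t, ‖Ψk k s - Ψ s‖ₑ ≤ ∫⁻ s, ‖Ψk k s - Ψ s‖ₑ ∂ν :=
          lintegral_mono' hle le_rfl
      _ = ∫⁻ s, ENNReal.ofReal |Ψk k s - Ψ s| ∂ν := by
          apply lintegral_congr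
          intro s
          rw [← ofReal_norm, Real.norm_eq_abs]
  refine ⟨hΨii, ?_⟩
  by_cases hne : ν = 0
  · refine ⟨0, ?_⟩
    rw [hne]; simp
  · have : NeZero ν := ⟨hne⟩
    choose ck hck using hD
    have hall := ae_all_iff.2 hck
    obtain ⟨t₀, ⟨ht₀, hm₀⟩, hk₀⟩ :=
      ((hΦ'.and (ae_restrict_mem measurableSet_Icc)).and hall).exists
    refine ⟨Φ t₀ - ∫ s in a..t₀, Ψ s, ?_⟩
    have hc : Tendsto ck atTop (𝓝 (Φ t₀ - ∫ s in a..t₀, Ψ s)) := by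
      have h1 := ht₀.sub (hprim t₀ hm₀)
      refine h1.congr fun k => ?_
      rw [hk₀ k]; ring
    filter_upwards [hΦ', ae_restrict_mem measurableSet_Icc, hall] with t ht hm hk
    refine tendsto_nhds_unique ht ?_
    refine (hc.add (hprim t hm)).congr fun k => ?_
    rw [hk k]

/-- **Limit along almost every curve.** -/
theorem curve_limit [SFinite π] {c : P → ℝ → X} (hc : Measurable fun q : P × ℝ => c q.1 q.2)
    {a b : ℝ} (hab : a ≤ b) {K : ℝ≥0∞} (hK : K ≠ ∞)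
    (hle : ∀ g : X → ℝ≥0∞, Measurable g →
      ∫⁻ p, (∫⁻ t in Icc a b, g (c p t)) ∂π ≤ K * ∫⁻ y, g y ∂m)
    {e : ℕ → X → ℝ≥0∞} (he : ∀ k, Measurable (e k))
    (hlim : Tendsto (fun k => ∫⁻ y, e k y ∂m) atTop (𝓝 0))
    (wt : P → ℝ≥0) {Φk Ψk : ℕ → P → ℝ → ℝ} {Φ Ψ : P → ℝ → ℝ}
    (hΦ : ∀ k, ∀ᵐ p ∂π, ∀ᵐ t ∂(volume.restrict (Icc a b)),
      ENNReal.ofReal |Φk k p t - Φ p t| ≤ wt p * e k (c p t))
    (hΨ : ∀ k, ∀ᵐ p ∂π, ∀ᵐ t ∂(volume.restrict (Icc a b)),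
      ENNReal.ofReal |Ψk k p t - Ψ p t| ≤ wt p * e k (c p t))
    (hI : ∀ k, ∀ᵐ p ∂π, IntervalIntegrable (Ψk k p) volume a b)
    (hD : ∀ k, ∀ᵐ p ∂π, ∃ c₀, ∀ᵐ t ∂(volume.restrict (Icc a b)),
      Φk k p t = c₀ + ∫ s in a..t, Ψk k p s) :
    ∀ᵐ p ∂π, IntervalIntegrable (Ψ p) volume a b ∧
      ∃ c₀, ∀ᵐ t ∂(volume.restrict (Icc a b)), Φ p t = c₀ + ∫ s in a..t, Ψ p s := by
  obtain ⟨φ, hφ, hφs⟩ := exists_fast hlim
  have hm : ∀ k, Measurable fun q : P × ℝ => e (φ k) (c q.1 q.2) := fun k => (he _).comp hc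
  have hm1 : ∀ k, Measurable fun p => ∫⁻ t in Icc a b, e (φ k) (c p t) := fun k =>
    Measurable.lintegral_prod_right' (hm k)
  have htot : ∫⁻ p, (∑' k, ∫⁻ t in Icc a b, e (φ k) (c p t)) ∂π ≠ ∞ := by
    rw [lintegral_tsum fun k => (hm1 k).aemeasurable]
    refine ne_top_of_le_ne_top (ENNReal.mul_ne_top hK (by simp : (2 : ℝ≥0∞) ≠ ∞)) ?_
    calc ∑' k, ∫⁻ p, (∫⁻ t in Icc a b, e (φ k) (c p t)) ∂π
        ≤ ∑' k, K * ∫⁻ y, e (φ k) y ∂m := ENNReal.tsum_le_tsum fun k => hle _ (he _)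
      _ = K * ∑' k, ∫⁻ y, e (φ k) y ∂m := ENNReal.tsum_mul_left
      _ ≤ K * 2 := by gcongr
  have hfin := ae_lt_top' (AEMeasurable.tsum fun k => (hm1 k).aemeasurable) htot
  filter_upwards [hfin, ae_all_iff.2 hΦ, ae_all_iff.2 hΨ, ae_all_iff.2 hI, ae_all_iff.2 hD]
    with p hp h1 h2 h3 h4
  have hmk : ∀ k, Measurable fun t => e (φ k) (c p t) := fun k =>
    (hm k).comp measurable_prodMk_left
  refine limit_one hab (e := fun k t => wt p * e (φ k) (c p t))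
    (fun k => ((hmk k).const_mul _).aemeasurable) ?_
    (fun k => h1 (φ k)) (fun k => h2 (φ k)) (fun k => h3 (φ k)) (fun k => h4 (φ k))
  have h5 : ∀ k, ∫⁻ t in Icc a b, (wt p : ℝ≥0∞) * e (φ k) (c p t) =
      wt p * ∫⁻ t in Icc a b, e (φ k) (c p t) := fun k => lintegral_const_mul _ (hmk k)
  rw [tsum_congr h5, ENNReal.tsum_mul_left]
  exact ENNReal.mul_ne_top ENNReal.coe_ne_top hp.ne

/-- continuous representative: two a.e. equal functions on `[a,b]`, one continuous. -/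
lemma eq_of_ae_of_continuousOn {a b : ℝ} (hab : a < b) {f g : ℝ → ℝ}
    (hf : ContinuousOn f (Icc a b)) (hg : ContinuousOn g (Icc a b))
    (h : ∀ᵐ t ∂(volume.restrict (Icc a b)), f t = g t) : ∀ t ∈ Icc a b, f t = g t := by
  have := Measure.eqOn_Icc_of_ae_eq (μ := (volume : Measure ℝ)) hab.ne h hf hg
  exact this

/-- if `Φ` is continuous on `[a,b]`, the primitive formula holds everywhere. -/
lemma prim_everywhere {a b : ℝ} (hab : a < b) {Φ Ψ : ℝ → ℝ}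
    (hI : IntervalIntegrable Ψ volume a b) (hc : ContinuousOn Φ (Icc a b))
    (h : ∃ c₀, ∀ᵐ t ∂(volume.restrict (Icc a b)), Φ t = c₀ + ∫ s in a..t, Ψ s) :
    ∀ t ∈ Icc a b, Φ t = Φ a + ∫ s in a..t, Ψ s := by
  obtain ⟨c₀, h⟩ := h
  have hg : ContinuousOn (fun t => c₀ + ∫ s in a..t, Ψ s) (Icc a b) := by
    refine continuousOn_const.add ?_
    have := intervalIntegral.continuousOn_primitive_interval' (μ := volume) hI
      (left_mem_uIcc (a := a) (b := b))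
    rwa [uIcc_of_le hab.le] at this
  have h1 := eq_of_ae_of_continuousOn hab hc hg h
  intro t ht
  have h2 := h1 a ⟨le_refl _, hab.le⟩
  simp only [intervalIntegral.integral_same, add_zero] at h2
  rw [h1 t ht, h2]

end curve

section rad

open Crest.Agent.R247.Mcp688

variable {n : ℕ} {κ : ℝ} {X : Type*} [MetricSpace X] [MeasurableSpace X] [BorelSpace X]
  {μ : Measure X} (C : Rad n κ X μ)

include C in
/-- the occupation measure of the segments from `A` to `B` -/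
lemma seg_le [SFinite μ] (hκ : 0 ≤ κ) {A B W : Set X} (hA : MeasurableSet A)
    (hB : MeasurableSet B) (hW : MeasurableSet W) {D : ℝ}
    (hD : ∀ x ∈ A, ∀ z ∈ B, dist x z ≤ D)
    (hABW : ∀ x ∈ A, ∀ z ∈ B, (x, z) ∈ C.U → ∀ t ∈ Icc (0 : ℝ) 1, C.T x t z ∈ W)
    {g : X → ℝ≥0∞} (hg : Measurable g) :
    ∫⁻ p, (∫⁻ t in Icc (0 : ℝ) 1, g (C.T p.1 t p.2)) ∂((μ.restrict A).prod (μ.restrict B)) ≤
      ENNReal.ofReal (Real.exp (κ * D ^ 2 / 2) * 2 ^ n) * (μ A + μ B) * ∫⁻ y, g y ∂(μ.restrict W) := by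
  have hm : Measurable fun q : (X × X) × ℝ => g (C.T q.1.1 q.2 q.1.2) :=
    hg.comp (C.measT.comp ((measurable_fst.fst).prodMk (measurable_snd.prodMk measurable_fst.snd)))
  rw [lintegral_prod _ (Measurable.lintegral_prod_right' hm).aemeasurable]
  exact C.segment_le hκ hA hB hW hD hABW hg

/-- **Limit along almost every minimising segment.** -/
theorem seg_limit [SFinite μ] (hκ : 0 ≤ κ) {A B W : Set X} (hA : MeasurableSet A)
    (hB : MeasurableSet B) (hW : MeasurableSet W) {D : ℝ}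
    (hD : ∀ x ∈ A, ∀ z ∈ B, dist x z ≤ D)
    (hABW : ∀ x ∈ A, ∀ z ∈ B, (x, z) ∈ C.U → ∀ t ∈ Icc (0 : ℝ) 1, C.T x t z ∈ W)
    (hAf : μ A ≠ ∞) (hBf : μ B ≠ ∞)
    {e : ℕ → X → ℝ≥0∞} (he : ∀ k, Measurable (e k))
    (hlim : Tendsto (fun k => ∫⁻ y in W, e k y ∂μ) atTop (𝓝 0))
    (wt : X × X → ℝ≥0) {Φk Ψk : ℕ → X × X → ℝ → ℝ} {Φ Ψ : X × X → ℝ → ℝ}
    (hΦ : ∀ k, ∀ᵐ p ∂((μ.restrict A).prod (μ.restrict B)), ∀ᵐ t ∂(volume.restrict (Icc (0 : ℝ) 1)),
      ENNReal.ofReal |Φk k p t - Φ p t| ≤ wt p * e k (C.T p.1 t p.2))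
    (hΨ : ∀ k, ∀ᵐ p ∂((μ.restrict A).prod (μ.restrict B)), ∀ᵐ t ∂(volume.restrict (Icc (0 : ℝ) 1)),
      ENNReal.ofReal |Ψk k p t - Ψ p t| ≤ wt p * e k (C.T p.1 t p.2))
    (hI : ∀ k, ∀ᵐ p ∂((μ.restrict A).prod (μ.restrict B)), IntervalIntegrable (Ψk k p) volume 0 1)
    (hDr : ∀ k, ∀ᵐ p ∂((μ.restrict A).prod (μ.restrict B)), ∃ c₀,
      ∀ᵐ t ∂(volume.restrict (Icc (0 : ℝ) 1)), Φk k p t = c₀ + ∫ s in (0 : ℝ)..t, Ψk k p s) :
    ∀ᵐ p ∂((μ.restrict A).prod (μ.restrict B)), IntervalIntegrable (Ψ p) volume 0 1 ∧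
      ∃ c₀, ∀ᵐ t ∂(volume.restrict (Icc (0 : ℝ) 1)), Φ p t = c₀ + ∫ s in (0 : ℝ)..t, Ψ p s := by
  have hc : Measurable fun q : (X × X) × ℝ => C.T q.1.1 q.2 q.1.2 :=
    C.measT.comp ((measurable_fst.fst).prodMk (measurable_snd.prodMk measurable_fst.snd))
  have hK : ENNReal.ofReal (Real.exp (κ * D ^ 2 / 2) * 2 ^ n) * (μ A + μ B) ≠ ∞ :=
    ENNReal.mul_ne_top ENNReal.ofReal_ne_top (ENNReal.add_ne_top.2 ⟨hAf, hBf⟩)
  have hle : ∀ g : X → ℝ≥0∞, Measurable g →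
      ∫⁻ p, (∫⁻ t in Icc (0 : ℝ) 1, g (C.T p.1 t p.2)) ∂((μ.restrict A).prod (μ.restrict B)) ≤
      ENNReal.ofReal (Real.exp (κ * D ^ 2 / 2) * 2 ^ n) * (μ A + μ B) * ∫⁻ y, g y ∂(μ.restrict W) :=
    fun g hg => seg_le C hκ hA hB hW hD hABW hg
  exact curve_limit (P := X × X) (X := X) (π := (μ.restrict A).prod (μ.restrict B))
    (m := μ.restrict W) (c := fun p t => C.T p.1 t p.2) hc zero_le_one hK hle he hlim wt
    (Φk := Φk) (Ψk := Ψk) (Φ := Φ) (Ψ := Ψ) hΦ hΨ hI hDr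

include C in
/-- a.e. points on a.e. segment: an a.e. property holds at a.e. point of a.e. segment -/
lemma ae_seg [SFinite μ] (hκ : 0 ≤ κ) {A B : Set X} (hA : MeasurableSet A)
    (hB : MeasurableSet B) {D : ℝ} (hD : ∀ x ∈ A, ∀ z ∈ B, dist x z ≤ D)
    {q : X → Prop} (hq : ∀ᵐ y ∂μ, q y) :
    ∀ᵐ p ∂((μ.restrict A).prod (μ.restrict B)), ∀ᵐ t ∂(volume.restrict (Icc (0 : ℝ) 1)),
      q (C.T p.1 t p.2) := by
  obtain ⟨N, hN1, hN2, hN3⟩ := exists_measurable_superset_of_null (μ := μ) (s := {z | ¬ q z}) hq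
  have hm0 : Measurable (N.indicator (fun _ => (1 : ℝ≥0∞))) := measurable_const.indicator hN2
  have hm : Measurable fun r : (X × X) × ℝ =>
      N.indicator (fun _ => (1 : ℝ≥0∞)) (C.T r.1.1 r.2 r.1.2) :=
    hm0.comp (C.measT.comp ((measurable_fst.fst).prodMk
      (measurable_snd.prodMk measurable_fst.snd)))
  have h0 := seg_le C hκ hA hB MeasurableSet.univ hD (fun _ _ _ _ _ _ _ => mem_univ _) hm0
  have h1 : ∫⁻ y, N.indicator (fun _ => (1 : ℝ≥0∞)) y ∂(μ.restrict univ) = 0 := by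
    rw [Measure.restrict_univ, lintegral_indicator_const hN2, one_mul, hN3]
  rw [h1, mul_zero, nonpos_iff_eq_zero,
    lintegral_eq_zero_iff (Measurable.lintegral_prod_right' hm)] at h0
  filter_upwards [h0] with p hp
  have hm2 : Measurable fun t : ℝ => N.indicator (fun _ => (1 : ℝ≥0∞)) (C.T p.1 t p.2) :=
    hm.comp measurable_prodMk_left
  have h2 := (lintegral_eq_zero_iff hm2).1 hp
  filter_upwards [h2] with t ht
  by_contra hcon
  have : C.T p.1 t p.2 ∈ N := hN1 hcon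
  simp [this] at ht


end rad

end Crest.Agent.R247.Fv510
end
end

-- ▼ part R247/Fv2_510

/-!
R247, block (5-V) (helper510), part 2: `H²` functions along almost every minimising segment.

`SegS B C` : calculus of the core functions of a `BochS` along almost every segment of a `Rad`
(`s p t` = unit tangent in the frame).  `H2 B w u Du A` : `w k → u`, `G (w k) → Du`,
`H (w k) → A` in `L²_loc`.  Then for almost every pair `u`, `⟪Du, s⟫`, `⟪Du, Du'⟫` are absolutely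
continuous along the segment with the expected derivatives.
-/

set_option autoImplicit false
set_option linter.unusedSectionVars false
open MeasureTheory Set Filter Topology
open scoped ENNReal NNReal RealInnerProductSpace

noncomputable section
namespace Crest.Agent.R247.Fv510

open Crest.Agent.R247.Mcp688 Crest.Agent.R247.Hes124 Crest.Agent.R247.Dir593
  Crest.Agent.R247.Dir593.GradS
open Crest.Agent.R247.Smv126 (hf)

/-! ### one dimensional primitives -/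

/-- a function with bounded derivative on `(a,b)` is a primitive -/
lemma prim_of_deriv {a b : ℝ} (hab : a < b) {f f' : ℝ → ℝ}
    (hd : ∀ t ∈ Ioo a b, HasDerivAt f (f' t) t) {C : ℝ}
    (hC : ∀ᵐ t ∂(volume.restrict (Icc a b)), |f' t| ≤ C) :
    IntervalIntegrable f' volume a b ∧
      ∃ c₀, ∀ᵐ t ∂(volume.restrict (Icc a b)), f t = c₀ + ∫ s in a..t, f' s := by
  have hr : volume.restrict (Icc a b) = volume.restrict (Ioo a b) :=
    (Measure.restrict_congr_set Ioo_ae_eq_Icc).symm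
  have hmeas : AEStronglyMeasurable f' (volume.restrict (Ioo a b)) := by
    refine ((stronglyMeasurable_deriv f).aestronglyMeasurable).congr ?_
    filter_upwards [ae_restrict_mem measurableSet_Ioo] with t ht
    exact (hd t ht).deriv
  have hint : IntegrableOn f' (Ioo a b) := by
    refine (integrable_const C).mono' hmeas ?_
    rw [← hr]
    simpa [Real.norm_eq_abs] using hC
  have hI : IntervalIntegrable f' volume a b := by
    rw [intervalIntegrable_iff_integrableOn_Ioo_of_le hab.le]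
    exact hint
  refine ⟨hI, ?_⟩
  obtain ⟨m, hm⟩ := exists_between hab
  refine ⟨f m - ∫ s in a..m, f' s, ?_⟩
  rw [hr]
  filter_upwards [ae_restrict_mem measurableSet_Ioo] with t ht
  have hI1 : IntervalIntegrable f' volume a m :=
    hI.mono_set (by rw [uIcc_of_le hm.1.le, uIcc_of_le hab.le]; exact Icc_subset_Icc_right hm.2.le)
  have hI2 : IntervalIntegrable f' volume m t := by
    refine hI.mono_set ?_
    rw [uIcc_of_le hab.le]
    exact uIcc_subset_Icc ⟨hm.1.le, hm.2.le⟩ ⟨ht.1.le, ht.2.le⟩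
  have h1 : ∫ s in m..t, f' s = f t - f m := by
    refine intervalIntegral.integral_eq_sub_of_hasDerivAt (fun s hs => ?_) hI2
    refine hd s ?_
    have := hs
    rw [uIcc, mem_Icc] at this
    exact ⟨lt_of_lt_of_le (lt_min hm.1 ht.1) this.1, lt_of_le_of_lt this.2 (max_lt hm.2 ht.2)⟩
  have h2 : ∫ s in a..t, f' s = (∫ s in a..m, f' s) + ∫ s in m..t, f' s :=
    (intervalIntegral.integral_add_adjacent_intervals hI1 hI2).symm
  rw [h2, h1]
  ring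

/-! ### `L¹` errors from `L²` convergence -/

section L1

variable {X : Type*} [MeasurableSpace X] {ν : Measure X}
variable {E : Type*} [NormedAddCommGroup E] [InnerProductSpace ℝ E]
variable {E' : Type*} [NormedAddCommGroup E'] [InnerProductSpace ℝ E']

/-- product of an `L²`-null sequence with an `L²`-bounded one tends to zero in `L¹` -/
lemma tendsto_mul_L1 {f : ℕ → X → E} {g : ℕ → X → E'} (hf : ∀ k, MemLp (f k) 2 ν)
    (hg : ∀ k, MemLp (g k) 2 ν) (h0 : Tendsto (fun k => ∫ x, ‖f k x‖ ^ 2 ∂ν) atTop (𝓝 0))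
    {B : ℝ} (hB : Tendsto (fun k => ∫ x, ‖g k x‖ ^ 2 ∂ν) atTop (𝓝 B)) :
    Tendsto (fun k => ∫⁻ x, ENNReal.ofReal (‖f k x‖ * ‖g k x‖) ∂ν) atTop (𝓝 0) := by
  have e : ∀ k, ∫⁻ x, ENNReal.ofReal (‖f k x‖ * ‖g k x‖) ∂ν =
      ENNReal.ofReal (∫ x, ‖f k x‖ * ‖g k x‖ ∂ν) := fun k =>
    (ofReal_integral_eq_lintegral_ofReal (int_norm_mul (hf k) (hg k))
      (Eventually.of_forall fun x => by positivity)).symm
  simp only [e]
  rw [← ENNReal.ofReal_zero]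
  refine (ENNReal.continuous_ofReal.tendsto 0).comp ?_
  have h1 : Tendsto (fun k => √(∫ x, ‖f k x‖ ^ 2 ∂ν) * √(∫ x, ‖g k x‖ ^ 2 ∂ν)) atTop (𝓝 0) := by
    have := h0.sqrt.mul hB.sqrt
    simpa using this
  exact squeeze_zero (fun k => integral_nonneg fun x => by positivity)
    (fun k => cs_norm (hf k) (hg k)) h1

lemma L2To.tendsto_L1 [IsFiniteMeasure ν] {f : ℕ → X → E} {g : X → E} (h : L2To ν f g) :
    Tendsto (fun k => ∫⁻ x, ENNReal.ofReal ‖f k x - g x‖ ∂ν) atTop (𝓝 0) := by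
  have h1 := tendsto_mul_L1 (ν := ν) (f := fun k x => f k x - g x) (g := fun _ _ => (1 : ℝ))
    (fun k => (h.mem k).sub h.mem') (fun k => memLp_const 1) h.lim tendsto_const_nhds
  simpa using h1

/-- convergence of the error `‖f_k - g‖ ‖f'_k‖ + ‖g‖ ‖f'_k - g'‖` -/
lemma L2To.tendsto_prod {f : ℕ → X → E} {g : X → E} {f' : ℕ → X → E'} {g' : X → E'}
    (h : L2To ν f g) (h' : L2To ν f' g') :
    Tendsto (fun k => ∫⁻ x, ENNReal.ofReal (‖f k x - g x‖ * ‖f' k x‖ + ‖g x‖ * ‖f' k x - g' x‖) ∂ν)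
      atTop (𝓝 0) := by
  have h1 := tendsto_mul_L1 (ν := ν) (fun k => (h.mem k).sub h.mem') (fun k => h'.mem k) h.lim
    h'.norm_sq
  have h2 := tendsto_mul_L1 (ν := ν) (fun k => (h'.mem k).sub h'.mem') (fun _ => h.mem') h'.lim
    tendsto_const_nhds
  have h3 := h1.add h2
  rw [add_zero] at h3
  refine h3.congr fun k => ?_
  simp only [Pi.sub_apply]
  have hm1 : AEMeasurable (fun x => ENNReal.ofReal (‖f k x - g x‖ * ‖f' k x‖)) ν :=
    (int_norm_mul ((h.mem k).sub h.mem') (h'.mem k)).1.aemeasurable.ennreal_ofReal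
  rw [← lintegral_add_left' hm1]
  refine lintegral_congr fun x => ?_
  rw [← ENNReal.ofReal_add (by positivity) (by positivity), mul_comm ‖g x‖]

end L1

/-! ### from balls to almost every pair -/

section pairs

variable {n : ℕ} {κ : ℝ} {X : Type*} [MetricSpace X] [MeasurableSpace X] [BorelSpace X]
  {μ : Measure X} (C : Rad n κ X μ)

lemma ae_pair_of_balls [SFinite μ] (x₀ : X) {q : X × X → Prop}
    (h : ∀ m : ℕ, ∀ᵐ p ∂((μ.restrict (Metric.ball x₀ m)).prod (μ.restrict (Metric.ball x₀ m))),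
      q p) : ∀ᵐ p ∂(μ.prod μ), q p := by
  have h1 : ∀ m : ℕ, ∀ᵐ p ∂((μ.prod μ).restrict (Metric.ball x₀ m ×ˢ Metric.ball x₀ m)), q p :=
    fun m => by rw [← Measure.prod_restrict]; exact h m
  have h2 := (ae_restrict_iUnion_iff (μ := μ.prod μ)
    (fun m : ℕ => Metric.ball x₀ (m : ℝ) ×ˢ Metric.ball x₀ (m : ℝ)) q).2 h1
  have h3 : (⋃ m : ℕ, Metric.ball x₀ (m : ℝ) ×ˢ Metric.ball x₀ (m : ℝ)) = (univ : Set (X × X)) := by
    ext p
    simp only [mem_iUnion, mem_prod, Metric.mem_ball, mem_univ, iff_true]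
    obtain ⟨m, hm⟩ := exists_nat_gt (max (dist p.1 x₀) (dist p.2 x₀))
    exact ⟨m, (le_max_left _ _).trans_lt hm, (le_max_right _ _).trans_lt hm⟩
  rwa [h3, Measure.restrict_univ] at h2

include C in
lemma ae_seg_all [SFinite μ] (hκ : 0 ≤ κ) {q : X → Prop} (hq : ∀ᵐ y ∂μ, q y) :
    ∀ᵐ p ∂(μ.prod μ), ∀ᵐ t ∂(volume.restrict (Icc (0 : ℝ) 1)), q (C.T p.1 t p.2) := by
  by_cases hX : Nonempty X
  · obtain ⟨x₀⟩ := hX
    refine ae_pair_of_balls x₀ fun m => ?_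
    refine ae_seg C hκ Metric.isOpen_ball.measurableSet Metric.isOpen_ball.measurableSet
      (D := 2 * m) (fun x hx z hz => ?_) hq
    have := dist_triangle_right x z x₀
    rw [Metric.mem_ball] at hx hz
    linarith
  · exact Eventually.of_forall fun p => (hX ⟨p.1⟩).elim

/-- **Limit along almost every minimising segment**, `L¹_loc` errors. -/
theorem seg_limit_all [ProperSpace X] [IsFiniteMeasureOnCompacts μ] [SFinite μ] (hκ : 0 ≤ κ)
    {e : ℕ → X → ℝ≥0∞} (he : ∀ K, IsCompact K → ∀ k, AEMeasurable (e k) (μ.restrict K))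
    (hlim : ∀ K, IsCompact K → Tendsto (fun k => ∫⁻ y in K, e k y ∂μ) atTop (𝓝 0))
    (wt : X × X → ℝ≥0) {Φk Ψk : ℕ → X × X → ℝ → ℝ} {Φ Ψ : X × X → ℝ → ℝ}
    (hΦ : ∀ k, ∀ᵐ p ∂(μ.prod μ), ∀ᵐ t ∂(volume.restrict (Icc (0 : ℝ) 1)),
      ENNReal.ofReal |Φk k p t - Φ p t| ≤ wt p * e k (C.T p.1 t p.2))
    (hΨ : ∀ k, ∀ᵐ p ∂(μ.prod μ), ∀ᵐ t ∂(volume.restrict (Icc (0 : ℝ) 1)),
      ENNReal.ofReal |Ψk k p t - Ψ p t| ≤ wt p * e k (C.T p.1 t p.2))
    (hD : ∀ k, ∀ᵐ p ∂(μ.prod μ), IntervalIntegrable (Ψk k p) volume 0 1 ∧ ∃ c₀,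
      ∀ᵐ t ∂(volume.restrict (Icc (0 : ℝ) 1)), Φk k p t = c₀ + ∫ s in (0 : ℝ)..t, Ψk k p s) :
    ∀ᵐ p ∂(μ.prod μ), IntervalIntegrable (Ψ p) volume 0 1 ∧
      ∃ c₀, ∀ᵐ t ∂(volume.restrict (Icc (0 : ℝ) 1)), Φ p t = c₀ + ∫ s in (0 : ℝ)..t, Ψ p s := by
  by_cases hX : Nonempty X
  swap
  · exact Eventually.of_forall fun p => (hX ⟨p.1⟩).elim
  obtain ⟨x₀⟩ := hX
  refine ae_pair_of_balls x₀ fun m => ?_
  set B : Set X := Metric.ball x₀ m with hB
  set W : Set X := Metric.closedBall x₀ (3 * m) with hW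
  have hWc : IsCompact W := isCompact_closedBall _ _
  have hac : ∀ {q : X × X → Prop}, (∀ᵐ p ∂(μ.prod μ), q p) →
      ∀ᵐ p ∂((μ.restrict B).prod (μ.restrict B)), q p := by
    intro q hq
    rw [Measure.prod_restrict]
    exact ae_restrict_of_ae hq
  have hBm : MeasurableSet B := Metric.isOpen_ball.measurableSet
  have hdist : ∀ x ∈ B, ∀ z ∈ B, dist x z ≤ 2 * m := by
    intro x hx z hz
    have := dist_triangle_right x z x₀
    rw [hB, Metric.mem_ball] at hx hz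
    linarith
  have hABW : ∀ x ∈ B, ∀ z ∈ B, (x, z) ∈ C.U → ∀ t ∈ Icc (0 : ℝ) 1, C.T x t z ∈ W := by
    intro x hx z hz hU t ht
    rw [hW, Metric.mem_closedBall]
    have h1 := C.dist_left hU ht
    have h2 : t * dist x z ≤ 1 * dist x z := by gcongr; exact ht.2
    have h3 := hdist x hx z hz
    have h4 := dist_triangle (C.T x t z) x x₀
    rw [hB, Metric.mem_ball] at hx
    rw [dist_comm (C.T x t z) x] at h4
    linarith
  have hBf : μ B ≠ ∞ := (lt_of_le_of_lt (measure_mono Metric.ball_subset_closedBall)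
    (isCompact_closedBall x₀ (m : ℝ)).measure_lt_top).ne
  -- measurable versions of the errors
  set e' : ℕ → X → ℝ≥0∞ := fun k => (he W hWc k).mk (e k) with he'
  have hee : ∀ k, ∀ᵐ y ∂μ, y ∈ W → e k y = e' k y := fun k =>
    (ae_restrict_iff' hWc.measurableSet).1 (he W hWc k).ae_eq_mk
  have hlim' : Tendsto (fun k => ∫⁻ y in W, e' k y ∂μ) atTop (𝓝 0) := by
    refine (hlim W hWc).congr fun k => ?_
    exact lintegral_congr_ae (he W hWc k).ae_eq_mk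
  have hae : ∀ k, ∀ᵐ p ∂((μ.restrict B).prod (μ.restrict B)),
      ∀ᵐ t ∂(volume.restrict (Icc (0 : ℝ) 1)), e k (C.T p.1 t p.2) = e' k (C.T p.1 t p.2) := by
    intro k
    have hmem : ∀ᵐ p ∂((μ.restrict B).prod (μ.restrict B)), p ∈ B ×ˢ B ∧ p ∈ C.U := by
      rw [Measure.prod_restrict]
      refine (ae_restrict_mem (hBm.prod hBm)).and (ae_restrict_of_ae ?_)
      exact Measure.ae_prod_iff_ae_ae (p := fun p : X × X => p ∈ C.U) C.measU |>.2
        (Eventually.of_forall fun x => C.ae_U x)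
    filter_upwards [ae_seg C hκ hBm hBm hdist (hee k), hmem] with p hp hpm
    filter_upwards [hp, ae_restrict_mem measurableSet_Icc] with t ht htm
    exact ht (hABW p.1 hpm.1.1 p.2 hpm.1.2 hpm.2 t htm)
  refine seg_limit C hκ hBm hBm hWc.measurableSet hdist hABW hBf hBf
    (e := e') (fun k => (he W hWc k).measurable_mk) hlim' wt (Φk := Φk) (Ψk := Ψk) ?_ ?_ ?_ ?_
  · intro k
    filter_upwards [hac (hΦ k), hae k] with p h1 h2
    filter_upwards [h1, h2] with t h3 h4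
    rwa [← h4]
  · intro k
    filter_upwards [hac (hΨ k), hae k] with p h1 h2
    filter_upwards [h1, h2] with t h3 h4
    rwa [← h4]
  · exact fun k => (hac (hD k)).mono fun p hp => hp.1
  · exact fun k => (hac (hD k)).mono fun p hp => hp.2

end pairs

/-! ### the interface: calculus of core functions along almost every segment -/

section SegS

variable {n : ℕ} {κ κ' : ℝ} {X : Type*} [MetricSpace X] [MeasurableSpace X] [BorelSpace X]
  {μ : Measure X}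

/-- Calculus along almost every minimising segment `t ↦ T p.1 t p.2`; `s p t` = unit tangent at
`T p.1 t p.2` in the orthonormal frame. -/
structure SegS (B : BochS n κ' X μ) (C : Rad n κ X μ) where
  s : X × X → ℝ → F n
  norm_s : ∀ᵐ p ∂(μ.prod μ), ∀ t ∈ Ioo (0 : ℝ) 1, ‖s p t‖ = 1
  d1 : ∀ {v : X → ℝ}, v ∈ B.core → ∀ᵐ p ∂(μ.prod μ), ∀ t ∈ Ioo (0 : ℝ) 1,
    HasDerivAt (fun t => v (C.T p.1 t p.2)) (dist p.1 p.2 * ⟪B.G v (C.T p.1 t p.2), s p t⟫) t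
  d2 : ∀ {v : X → ℝ}, v ∈ B.core → ∀ᵐ p ∂(μ.prod μ), ∀ t ∈ Ioo (0 : ℝ) 1,
    HasDerivAt (fun t => ⟪B.G v (C.T p.1 t p.2), s p t⟫)
      (dist p.1 p.2 * ⟪mv (B.H v (C.T p.1 t p.2)) (s p t), s p t⟫) t
  d3 : ∀ {v v' : X → ℝ}, v ∈ B.core → v' ∈ B.core →
    ∀ᵐ p ∂(μ.prod μ), ∀ t ∈ Ioo (0 : ℝ) 1,
    HasDerivAt (fun t => ⟪B.G v (C.T p.1 t p.2), B.G v' (C.T p.1 t p.2)⟫)
      (dist p.1 p.2 * (⟪mv (B.H v (C.T p.1 t p.2)) (s p t), B.G v' (C.T p.1 t p.2)⟫ +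
        ⟪B.G v (C.T p.1 t p.2), mv (B.H v' (C.T p.1 t p.2)) (s p t)⟫)) t
  /-- locally Lipschitz functions, at almost every time -/
  dl : ∀ {f : X → ℝ}, LocallyLipschitz f → ∀ᵐ p ∂(μ.prod μ),
    ∀ᵐ t ∂(volume.restrict (Ioo (0 : ℝ) 1)),
      HasDerivAt (fun t => f (C.T p.1 t p.2)) (dist p.1 p.2 * ⟪B.G f (C.T p.1 t p.2), s p t⟫) t
  /-- locally Lipschitz functions, at the starting point -/
  dl0 : ∀ {f : X → ℝ}, LocallyLipschitz f → ∀ᵐ p ∂(μ.prod μ),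
    HasDerivWithinAt (fun t => f (C.T p.1 t p.2))
      (-(dist p.1 p.2 * ⟪B.G f p.1, B.G (dist p.2) p.1⟫)) (Ici 0) 0
  /-- distance to a second point along the rays of `x` -/
  rdw : ∀ x : X, ∀ᵐ p ∂(μ.prod μ),
    HasDerivWithinAt (fun t : ℝ => dist (C.T x t p.1) p.2) ⟪B.G (hf x) p.1, B.G (dist p.2) p.1⟫
      (Iio 1) 1
  /-- distance of two points moving along the rays of `x` -/
  pe0 : ∀ x : X, ∀ᵐ p ∂(μ.prod μ),
    HasDerivWithinAt (fun t : ℝ => dist (C.T x t p.1) (C.T x t p.2))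
      (⟪B.G (hf x) p.1, B.G (dist p.2) p.1⟫ + ⟪B.G (hf x) p.2, B.G (dist p.1) p.2⟫) (Iio 1) 1
  norm_hf : ∀ x : X, ∀ᵐ z ∂μ, ‖B.G (hf x) z‖ = dist x z
  norm_gd : ∀ᵐ p ∂(μ.prod μ), ‖B.G (dist p.2) p.1‖ ≤ 1

/-- `H²_loc` functions through core approximations -/
structure H2 (B : BochS n κ' X μ) (w : ℕ → X → ℝ) (u : X → ℝ) (Du : X → F n) (A : X → S n) :
    Prop where
  core : ∀ k, w k ∈ B.core
  toU : ∀ K, IsCompact K → L2To (μ.restrict K) w u
  toD : ∀ K, IsCompact K → L2To (μ.restrict K) (fun k => B.G (w k)) Du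
  toA : ∀ K, IsCompact K → L2To (μ.restrict K) (fun k => B.H (w k)) A

variable {B : BochS n κ' X μ} {C : Rad n κ X μ}

lemma abs_inner_sub_le (a b s : F n) (hs : ‖s‖ = 1) : |⟪a, s⟫ - ⟪b, s⟫| ≤ ‖a - b‖ := by
  rw [← inner_sub_left]
  have := abs_real_inner_le_norm (a - b) s
  rwa [hs, mul_one] at this

lemma abs_mv_sub_le (A A' : S n) (s : F n) (hs : ‖s‖ = 1) :
    |⟪mv A s, s⟫ - ⟪mv A' s, s⟫| ≤ ‖A - A'‖ := by
  refine (abs_inner_sub_le _ _ s hs).trans ?_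
  rw [← mv_sub_left]
  have := norm_mv_le (A - A') s
  rwa [hs, mul_one] at this

lemma norm_mv_one (A : S n) (s : F n) (hs : ‖s‖ = 1) : ‖mv A s‖ ≤ ‖A‖ := by
  have := norm_mv_le A s
  rwa [hs, mul_one] at this

/-- `|⟪a, b⟫ - ⟪a', b'⟫| ≤ ‖a - a'‖ ‖b‖ + ‖a'‖ ‖b - b'‖` -/
lemma abs_inner_sub_inner_le {E : Type*} [NormedAddCommGroup E] [InnerProductSpace ℝ E]
    (a a' b b' : E) : |⟪a, b⟫ - ⟪a', b'⟫| ≤ ‖a - a'‖ * ‖b‖ + ‖a'‖ * ‖b - b'‖ := by
  have e : ⟪a, b⟫ - ⟪a', b'⟫ = ⟪a - a', b⟫ + ⟪a', b - b'⟫ := by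
    rw [inner_sub_left, inner_sub_right]; ring
  rw [e]
  exact (abs_add_le _ _).trans (add_le_add (abs_real_inner_le_norm _ _)
    (abs_real_inner_le_norm _ _))

namespace SegS

variable [ProperSpace X] [IsFiniteMeasureOnCompacts μ] [SFinite μ]

lemma ae_Ioo_of_Icc {q : ℝ → Prop} (h : ∀ t ∈ Ioo (0 : ℝ) 1, q t) :
    ∀ᵐ t ∂(volume.restrict (Icc (0 : ℝ) 1)), q t := by
  rw [← Measure.restrict_congr_set (Ioo_ae_eq_Icc (μ := (volume : Measure ℝ)) (a := 0) (b := 1))]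
  filter_upwards [ae_restrict_mem measurableSet_Ioo] with t ht
  exact h t ht

lemma ae_norm_s (Q : SegS B C) : ∀ᵐ p ∂(μ.prod μ), ∀ᵐ t ∂(volume.restrict (Icc (0 : ℝ) 1)),
    ‖Q.s p t‖ = 1 := by
  filter_upwards [Q.norm_s] with p hp
  exact ae_Ioo_of_Icc hp

lemma core_bdd {v : X → ℝ} (hv : v ∈ B.core) :
    ∃ c : ℝ, 0 ≤ c ∧ ∀ᵐ y ∂μ, ‖B.G v y‖ ≤ c ∧ ‖B.H v y‖ ≤ c := by
  obtain ⟨C1, hC1, -, hC2⟩ := BochS.test_bdd B.toGradS (B.core_test hv)
  obtain ⟨C3, hC3⟩ := B.H_bdd hv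
  refine ⟨max C1 C3, le_max_of_le_left hC1, ?_⟩
  filter_upwards [hC2, hC3] with y h1 h2
  exact ⟨h1.trans (le_max_left _ _), h2.trans (le_max_right _ _)⟩

/-- primitives for core functions -/
lemma core_prim1 (Q : SegS B C) (hκ : 0 ≤ κ) {v : X → ℝ} (hv : v ∈ B.core) :
    ∀ᵐ p ∂(μ.prod μ),
      IntervalIntegrable (fun t => dist p.1 p.2 * ⟪B.G v (C.T p.1 t p.2), Q.s p t⟫) volume 0 1 ∧
      ∃ c₀, ∀ᵐ t ∂(volume.restrict (Icc (0 : ℝ) 1)), v (C.T p.1 t p.2) =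
        c₀ + ∫ r in (0 : ℝ)..t, dist p.1 p.2 * ⟪B.G v (C.T p.1 r p.2), Q.s p r⟫ := by
  obtain ⟨c, hc0, hc⟩ := core_bdd hv
  filter_upwards [Q.d1 hv, ae_seg_all C hκ hc, Q.ae_norm_s] with p h1 h2 h3
  refine prim_of_deriv zero_lt_one h1 (C := dist p.1 p.2 * c) ?_
  filter_upwards [h2, h3] with t h4 h5
  rw [abs_mul, abs_of_nonneg dist_nonneg]
  gcongr
  refine (abs_real_inner_le_norm _ _).trans ?_
  rw [h5, mul_one]
  exact h4.1

lemma core_prim2 (Q : SegS B C) (hκ : 0 ≤ κ) {v : X → ℝ} (hv : v ∈ B.core) :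
    ∀ᵐ p ∂(μ.prod μ),
      IntervalIntegrable (fun t => dist p.1 p.2 * ⟪mv (B.H v (C.T p.1 t p.2)) (Q.s p t), Q.s p t⟫)
        volume 0 1 ∧
      ∃ c₀, ∀ᵐ t ∂(volume.restrict (Icc (0 : ℝ) 1)), ⟪B.G v (C.T p.1 t p.2), Q.s p t⟫ =
        c₀ + ∫ r in (0 : ℝ)..t,
          dist p.1 p.2 * ⟪mv (B.H v (C.T p.1 r p.2)) (Q.s p r), Q.s p r⟫ := by
  obtain ⟨c, hc0, hc⟩ := core_bdd hv
  filter_upwards [Q.d2 hv, ae_seg_all C hκ hc, Q.ae_norm_s] with p h1 h2 h3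
  refine prim_of_deriv zero_lt_one h1 (C := dist p.1 p.2 * c) ?_
  filter_upwards [h2, h3] with t h4 h5
  rw [abs_mul, abs_of_nonneg dist_nonneg]
  gcongr
  refine (abs_real_inner_le_norm _ _).trans ?_
  rw [h5, mul_one]
  exact (norm_mv_one _ _ h5).trans h4.2

lemma core_prim3 (Q : SegS B C) (hκ : 0 ≤ κ) {v v' : X → ℝ} (hv : v ∈ B.core)
    (hv' : v' ∈ B.core) :
    ∀ᵐ p ∂(μ.prod μ),
      IntervalIntegrable (fun t => dist p.1 p.2 *
        (⟪mv (B.H v (C.T p.1 t p.2)) (Q.s p t), B.G v' (C.T p.1 t p.2)⟫ +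
          ⟪B.G v (C.T p.1 t p.2), mv (B.H v' (C.T p.1 t p.2)) (Q.s p t)⟫)) volume 0 1 ∧
      ∃ c₀, ∀ᵐ t ∂(volume.restrict (Icc (0 : ℝ) 1)),
        ⟪B.G v (C.T p.1 t p.2), B.G v' (C.T p.1 t p.2)⟫ =
        c₀ + ∫ r in (0 : ℝ)..t, dist p.1 p.2 *
        (⟪mv (B.H v (C.T p.1 r p.2)) (Q.s p r), B.G v' (C.T p.1 r p.2)⟫ +
          ⟪B.G v (C.T p.1 r p.2), mv (B.H v' (C.T p.1 r p.2)) (Q.s p r)⟫) := by
  obtain ⟨c, hc0, hc⟩ := core_bdd hv
  obtain ⟨c', hc0', hc'⟩ := core_bdd hv'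
  filter_upwards [Q.d3 hv hv', ae_seg_all C hκ hc, ae_seg_all C hκ hc', Q.ae_norm_s]
    with p h1 h2 h2' h3
  refine prim_of_deriv zero_lt_one h1 (C := dist p.1 p.2 * (c * c' + c * c')) ?_
  filter_upwards [h2, h2', h3] with t h4 h4' h5
  rw [abs_mul, abs_of_nonneg dist_nonneg]
  gcongr
  refine (abs_add_le _ _).trans (add_le_add ?_ ?_)
  · refine (abs_real_inner_le_norm _ _).trans ?_
    exact mul_le_mul ((norm_mv_one _ _ h5).trans h4.2) h4'.1 (norm_nonneg _) hc0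
  · refine (abs_real_inner_le_norm _ _).trans ?_
    exact mul_le_mul h4.1 ((norm_mv_one _ _ h5).trans h4'.2) (norm_nonneg _) hc0

end SegS

end SegS

end Crest.Agent.R247.Fv510
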