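import Crest.Agent.R247.Mcp5_688

-- ▼ part R247/Sv1_436
section

/-! # R247, leaf (1-S): the ray inequality from the pointwise resolvent identity, survival bounds

`C : Rad n κ X μ`, centre `x`.  All functions are read along the rays `t ↦ C.T x t v`. -/

set_option autoImplicit false
set_option linter.unusedSectionVars false
open MeasureTheory Set Filter Topology
open scoped ENNReal NNReal

noncomputable section
namespace Crest.Agent.R247.Sv436

open Crest.Agent.R247.Mcp688

variable {n : ℕ} {κ : ℝ} {X : Type*} [MetricSpace X] [MeasurableSpace X] [BorelSpace X]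
  {μ : Measure X}

/-- bounded measurable functions are integrable along rays, with the weight `1/t` -/
lemma intervalIntegrable_ray (C : Rad n κ X μ) {x v : X} {B : X → ℝ} (hB : Measurable B)
    {a b M : ℝ} (ha : 0 < a) (hab : a ≤ b)
    (hM : ∀ᵐ t ∂(volume.restrict (Ioc a b)), |B (C.T x t v)| ≤ M) :
    IntervalIntegrable (fun t => B (C.T x t v) / t) volume a b := by
  rw [intervalIntegrable_iff_integrableOn_Ioc_of_le hab]
  have hmT : Measurable fun t : ℝ => C.T x t v :=
    C.measT.comp (measurable_const.prodMk (measurable_id.prodMk measurable_const))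
  have hm : Measurable fun t : ℝ => B (C.T x t v) / t := (hB.comp hmT).div measurable_id
  refine Integrable.mono' (g := fun _ => |M| / a) (integrable_const _) hm.aestronglyMeasurable ?_
  filter_upwards [hM, ae_restrict_mem measurableSet_Ioc] with t ht htm
  have ht0 : 0 < t := ha.trans htm.1
  rw [Real.norm_eq_abs, abs_div, abs_of_pos ht0]
  calc |B (C.T x t v)| / t ≤ |M| / t :=
        div_le_div_of_nonneg_right (ht.trans (le_abs_self M)) ht0.le
    _ ≤ |M| / a := by
        gcongr
        exact htm.1.le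

/-- **The ray identity.**  `q` locally Lipschitz with radial derivative `D`, and a.e. on
`closedBall x R0` the pointwise identity `A + N = 2 D - 2 q + 4 B + E`.  Then along almost every
ray ending in `closedBall x R0`: `∫_a^b (A + N + 2 q)/t = 2 (q(b) - q(a)) + ∫ (4 B + E)/t`. -/
theorem ray_identity [SFinite μ] (C : Rad n κ X μ) (x : X) {q D A N B : X → ℝ} {R0 : ℝ}
    (hD : RD C x q D)
    (hL : ∀ R, ∃ L, ∀ y z, dist x y ≤ R → dist x z ≤ R → |q y - q z| ≤ L * dist y z)
    (hP : ∀ᵐ y ∂μ, dist x y ≤ R0 → A y + N y = 2 * D y - 2 * q y + B y)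
    (hqm : Measurable q) (hB : Measurable B) {M : ℝ}
    (hBM : ∀ᵐ y ∂μ, dist x y ≤ R0 → |B y| ≤ M) :
    ∀ᵐ v ∂μ, dist x v ≤ R0 → ∀ a b : ℝ, 0 < a → a ≤ b → b ≤ 1 →
      IntervalIntegrable (fun t => (A (C.T x t v) + N (C.T x t v)) / t) volume a b ∧
      IntervalIntegrable (fun t => q (C.T x t v) / t) volume a b ∧
      IntervalIntegrable (fun t => B (C.T x t v) / t) volume a b ∧
      ∫ t in a..b, (A (C.T x t v) + N (C.T x t v)) / t =
        2 * (q (C.T x b v) - q (C.T x a v)) - 2 * (∫ t in a..b, q (C.T x t v) / t)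
          + (∫ t in a..b, B (C.T x t v) / t) := by
  filter_upwards [C.ray_ftc x hD hL, C.ae_U x, C.ae_ray x hP, C.ae_ray x hBM]
    with v hv hU hPv hBv hR a b ha hab hb
  obtain ⟨hI, hE⟩ := hv a b ha hab hb
  have hsub : Ioc a b ⊆ Ioc (0 : ℝ) 1 := Ioc_subset_Ioc ha.le hb
  have hin : ∀ t ∈ Ioc a b, dist x (C.T x t v) ≤ R0 := by
    intro t ht
    have ht' : t ∈ Icc (0 : ℝ) 1 := ⟨ha.le.trans ht.1.le, ht.2.trans hb⟩
    rw [C.dist_left hU ht']
    calc t * dist x v ≤ 1 * dist x v := by gcongr; exact ht'.2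
      _ ≤ R0 := by rw [one_mul]; exact hR
  have hBI : IntervalIntegrable (fun t => B (C.T x t v) / t) volume a b := by
    refine intervalIntegrable_ray C hB ha hab (M := M) ?_
    filter_upwards [ae_restrict_of_ae_restrict_of_subset hsub hBv,
      ae_restrict_mem measurableSet_Ioc] with t ht htm
    exact ht (hin t htm)
  have hqI : IntervalIntegrable (fun t => q (C.T x t v) / t) volume a b := by
    obtain ⟨L, hL'⟩ := hL R0
    have hx0 : dist x x ≤ R0 := by
      rw [dist_self]
      exact dist_nonneg.trans hR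
    refine intervalIntegrable_ray C hqm ha hab (M := |q x| + |L| * R0) ?_
    filter_upwards [ae_restrict_mem measurableSet_Ioc] with t htm
    have h1 := hL' (C.T x t v) x (hin t htm) hx0
    have h2 : |q (C.T x t v)| ≤ |q x| + |q (C.T x t v) - q x| := by
      have := abs_add_le (q x) (q (C.T x t v) - q x)
      simpa using this
    have h3 : L * dist (C.T x t v) x ≤ |L| * R0 := by
      rw [dist_comm]
      have h4 := hin t htm
      calc L * dist x (C.T x t v) ≤ |L| * dist x (C.T x t v) := by
            gcongr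
            exact le_abs_self L
        _ ≤ _ := by gcongr
    linarith
  have hAE : ∀ᵐ t ∂(volume.restrict (Ioc a b)),
      (A (C.T x t v) + N (C.T x t v)) / t =
        2 * (D (C.T x t v) / t) - 2 * (q (C.T x t v) / t) + B (C.T x t v) / t := by
    filter_upwards [ae_restrict_of_ae_restrict_of_subset hsub hPv,
      ae_restrict_mem measurableSet_Ioc] with t ht htm
    rw [ht (hin t htm)]
    ring
  have hsum : IntervalIntegrable (fun t =>
      2 * (D (C.T x t v) / t) - 2 * (q (C.T x t v) / t) + B (C.T x t v) / t) volume a b :=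
    ((hI.const_mul 2).sub (hqI.const_mul 2)).add hBI
  refine ⟨?_, hqI, hBI, ?_⟩
  · refine hsum.congr_ae ?_
    rw [uIoc_of_le hab]
    filter_upwards [hAE] with t ht
    exact ht.symm
  · rw [intervalIntegral.integral_of_le hab, integral_congr_ae hAE,
      ← intervalIntegral.integral_of_le hab,
      intervalIntegral.integral_add ((hI.const_mul 2).sub (hqI.const_mul 2)) hBI,
      intervalIntegral.integral_sub (hI.const_mul 2) (hqI.const_mul 2),
      intervalIntegral.integral_const_mul, intervalIntegral.integral_const_mul, hE]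

/-- **The ray inequality.** -/
theorem ray_ineq [SFinite μ] (C : Rad n κ X μ) (x : X) {q D B : X → ℝ} {R0 c1 : ℝ}
    (hc1 : 0 ≤ c1) (hD : RD C x q D)
    (hL : ∀ R, ∃ L, ∀ y z, dist x y ≤ R → dist x z ≤ R → |q y - q z| ≤ L * dist y z)
    {A : X → ℝ≥0∞}
    (hP : ∀ᵐ y ∂μ, dist x y ≤ R0 → 0 ≤ D y - q y + B y ∧
      A y ≤ ENNReal.ofReal (c1 * (D y - q y + B y)))
    (hq0 : ∀ y, 0 ≤ q y) (hqm : Measurable q) (hB : Measurable B) {M : ℝ}
    (hBM : ∀ᵐ y ∂μ, dist x y ≤ R0 → |B y| ≤ M) :
    ∀ᵐ v ∂μ, dist x v ≤ R0 → ∀ a b : ℝ, 0 < a → a ≤ b → b ≤ 1 →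
      IntervalIntegrable (fun t => B (C.T x t v) / t) volume a b ∧
      ∫⁻ t in Ioc a b, A (C.T x t v) * ENNReal.ofReal t⁻¹ ≤
        ENNReal.ofReal (c1 * (q (C.T x b v) + ∫ t in a..b, B (C.T x t v) / t)) := by
  have hid := ray_identity C x (q := q) (D := D) (A := fun y => D y - q y + B y)
    (N := fun y => D y - q y + B y) (B := fun y => 2 * B y) hD hL
    (Eventually.of_forall fun y _ => by ring) hqm (hB.const_mul 2) (M := 2 * M) (by
      filter_upwards [hBM] with y hy hR
      rw [abs_mul, abs_of_pos (two_pos : (0 : ℝ) < 2)]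
      linarith [hy hR])
  filter_upwards [hid, C.ae_ray x hP, C.ae_U x] with v hv hPv hU hR a b ha hab hb
  obtain ⟨h1, h2, h3, h4⟩ := hv hR a b ha hab hb
  have hsub : Ioc a b ⊆ Ioc (0 : ℝ) 1 := Ioc_subset_Ioc ha.le hb
  have hBI : IntervalIntegrable (fun t => B (C.T x t v) / t) volume a b := by
    have := h3.const_mul (1 / 2)
    refine this.congr ?_
    exact fun t _ => by ring
  have hfI : IntervalIntegrable
      (fun t => (D (C.T x t v) - q (C.T x t v) + B (C.T x t v)) / t) volume a b := by
    have := h1.const_mul (1 / 2)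
    refine this.congr ?_
    exact fun t _ => by ring
  have hin : ∀ t ∈ Ioc a b, dist x (C.T x t v) ≤ R0 := by
    intro t ht
    have ht' : t ∈ Icc (0 : ℝ) 1 := ⟨ha.le.trans ht.1.le, ht.2.trans hb⟩
    rw [C.dist_left hU ht']
    calc t * dist x v ≤ 1 * dist x v := by gcongr; exact ht'.2
      _ ≤ R0 := by rw [one_mul]; exact hR
  have hval : ∫ t in a..b, (D (C.T x t v) - q (C.T x t v) + B (C.T x t v)) / t =
      (q (C.T x b v) - q (C.T x a v)) - (∫ t in a..b, q (C.T x t v) / t)
        + ∫ t in a..b, B (C.T x t v) / t := by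
    have e1 : ∫ t in a..b, ((D (C.T x t v) - q (C.T x t v) + B (C.T x t v)) +
        (D (C.T x t v) - q (C.T x t v) + B (C.T x t v))) / t =
        2 * ∫ t in a..b, (D (C.T x t v) - q (C.T x t v) + B (C.T x t v)) / t := by
      rw [← intervalIntegral.integral_const_mul]
      exact intervalIntegral.integral_congr fun t _ => by ring
    have e2 : ∫ t in a..b, 2 * B (C.T x t v) / t = 2 * ∫ t in a..b, B (C.T x t v) / t := by
      rw [← intervalIntegral.integral_const_mul]
      exact intervalIntegral.integral_congr fun t _ => by ring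
    rw [e1, e2] at h4
    linarith
  have hqpos : 0 ≤ ∫ t in a..b, q (C.T x t v) / t := by
    apply intervalIntegral.integral_nonneg hab
    intro t ht
    exact div_nonneg (hq0 _) (ha.le.trans ht.1)
  refine ⟨hBI, ?_⟩
  have hPt := ae_restrict_of_ae_restrict_of_subset hsub hPv
  calc ∫⁻ t in Ioc a b, A (C.T x t v) * ENNReal.ofReal t⁻¹
      ≤ ∫⁻ t in Ioc a b, ENNReal.ofReal
          (c1 * ((D (C.T x t v) - q (C.T x t v) + B (C.T x t v)) / t)) := by
        refine lintegral_mono_ae ?_
        filter_upwards [hPt, ae_restrict_mem measurableSet_Ioc] with t ht htm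
        have ht0 : 0 < t := ha.trans htm.1
        obtain ⟨h5, h6⟩ := ht (hin t htm)
        calc A (C.T x t v) * ENNReal.ofReal t⁻¹
            ≤ ENNReal.ofReal (c1 * (D (C.T x t v) - q (C.T x t v) + B (C.T x t v))) *
                ENNReal.ofReal t⁻¹ := by gcongr
          _ = _ := by
              rw [← ENNReal.ofReal_mul (mul_nonneg hc1 h5)]
              congr 1
              rw [div_eq_mul_inv]
              ring
    _ = ENNReal.ofReal (∫ t in Ioc a b,
          c1 * ((D (C.T x t v) - q (C.T x t v) + B (C.T x t v)) / t)) := by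
        rw [ofReal_integral_eq_lintegral_ofReal]
        · exact (((intervalIntegrable_iff_integrableOn_Ioc_of_le hab).1 hfI).const_mul c1)
        · filter_upwards [hPt, ae_restrict_mem measurableSet_Ioc] with t ht htm
          have ht0 : 0 < t := ha.trans htm.1
          have h5 := (ht (hin t htm)).1
          show 0 ≤ c1 * ((D (C.T x t v) - q (C.T x t v) + B (C.T x t v)) / t)
          positivity
    _ ≤ _ := by
        apply ENNReal.ofReal_le_ofReal
        rw [← intervalIntegral.integral_of_le hab, intervalIntegral.integral_const_mul, hval]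
        have := hq0 (C.T x a v)
        gcongr
        linarith

end Crest.Agent.R247.Sv436
end
end

-- ▼ part R247/Sv2_436

/-! # R247, leaf (1-S): survival bounds

`Q` (= `q_ρ` or `R q_ρ` for the centre `x`) satisfies, for all `v`, `β > 0`, `c`:
if `c ≤ h x z + β h v z` for all `z`, then a.e. `Q z ≤ A (h x z + β h v z - c) + C0 (1 + β)`.
Consequence: `Q z ≤ C0 (1 + τ/τ')` at (almost) every point `z` between `x` and `v`,
`τ = d(x,z)`, `τ' = d(z,v)`. -/

set_option autoImplicit false
set_option linter.unusedSectionVars false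
open MeasureTheory Set Filter Topology TopologicalSpace
open scoped ENNReal NNReal

noncomputable section
namespace Crest.Agent.R247.Sv436

open Crest.Agent.R247.Mcp688

variable {X : Type*} [MetricSpace X] [MeasurableSpace X] [BorelSpace X] {μ : Measure X}

/-- the functions `h y z = F (d(y,z))`, `F t = t²/2` for `t ≤ R0`, `F ≥ R0²/2` beyond. -/
structure HalfSq (h : X → X → ℝ) (R0 : ℝ) : Prop where
  near : ∀ y z, dist y z ≤ R0 → h y z = dist y z ^ 2 / 2
  far : ∀ y z, R0 ≤ dist y z → R0 ^ 2 / 2 ≤ h y z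
  lip : ∃ L, ∀ y y' z, |h y z - h y' z| ≤ L * dist y y'

lemma HalfSq.nonneg {h : X → X → ℝ} {R0 : ℝ} (H : HalfSq h R0) (y z : X) : 0 ≤ h y z := by
  rcases le_total (dist y z) R0 with h1 | h1
  · rw [H.near y z h1]; positivity
  · exact (by positivity : 0 ≤ R0 ^ 2 / 2).trans (H.far y z h1)

/-- elementary convexity: `β/(1+β) (a+b)² ≤ a² + β b²` -/
lemma conv_ineq {β a b : ℝ} (hβ : 0 < β) : β / (1 + β) * (a + b) ^ 2 ≤ a ^ 2 + β * b ^ 2 := by
  rw [div_mul_eq_mul_div, div_le_iff₀ (by linarith)]
  nlinarith [sq_nonneg (a - β * b)]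

/-- lower bound for `h x z + β h v z` -/
lemma HalfSq.lower {h : X → X → ℝ} {R0 : ℝ} (H : HalfSq h R0) {x v : X} (hv : dist x v ≤ R0)
    {β : ℝ} (hβ : 0 < β) (z : X) :
    β / (1 + β) * (dist x v ^ 2 / 2) ≤ h x z + β * h v z := by
  have hR0 : 0 ≤ R0 := dist_nonneg.trans hv
  have hd : dist x v ^ 2 ≤ R0 ^ 2 := by gcongr
  have hb1 : β / (1 + β) ≤ 1 := by rw [div_le_one (by linarith)]; linarith
  have hb2 : β / (1 + β) ≤ β := by
    rw [div_le_iff₀ (by linarith)]
    nlinarith
  have hb0 : 0 ≤ β / (1 + β) := by positivity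
  rcases le_total (dist x z) R0 with h1 | h1
  · rcases le_total (dist v z) R0 with h2 | h2
    · rw [H.near x z h1, H.near v z h2]
      have h3 : dist x v ^ 2 ≤ (dist x z + dist v z) ^ 2 := by
        have := dist_triangle_right x v z
        gcongr
      have h4 := conv_ineq (a := dist x z) (b := dist v z) hβ
      have h5 : β / (1 + β) * dist x v ^ 2 ≤ β / (1 + β) * (dist x z + dist v z) ^ 2 := by
        gcongr
      linarith
    · have h3 := H.far v z h2
      have h4 := H.nonneg x z
      have h5 : β / (1 + β) * (dist x v ^ 2 / 2) ≤ β * (R0 ^ 2 / 2) := by gcongr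
      have h6 : β * (R0 ^ 2 / 2) ≤ β * h v z := by gcongr
      linarith
  · have h3 := H.far x z h1
    have h4 := mul_nonneg hβ.le (H.nonneg v z)
    have h5 : β / (1 + β) * (dist x v ^ 2 / 2) ≤ 1 * (R0 ^ 2 / 2) := by gcongr
    linarith

/-- the positivity input for the centre `x` (see the header) -/
def SurvIn (μ : Measure X) (h : X → X → ℝ) (x : X) (Q : X → ℝ) (A C0 : ℝ) : Prop :=
  ∀ (v : X) (β c : ℝ), 0 < β → (∀ z, c ≤ h x z + β * h v z) →
    ∀ᵐ z ∂μ, Q z ≤ A * (h x z + β * h v z - c) + C0 * (1 + β)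

/-- the inequality for all `v`, `β` at almost every point -/
theorem surv_ae [SeparableSpace X] {h : X → X → ℝ} {R0 : ℝ} (H : HalfSq h R0) {x : X}
    {Q : X → ℝ} {A C0 : ℝ} (hS : SurvIn μ h x Q A C0) :
    ∀ᵐ z ∂μ, ∀ v, dist x v < R0 → ∀ β : ℝ, 0 < β →
      Q z ≤ A * (h x z + β * h v z - β / (1 + β) * (dist x v ^ 2 / 2)) + C0 * (1 + β) := by
  rcases isEmpty_or_nonempty X with hX | hX
  · exact Eventually.of_forall fun z => (hX.false z).elim
  have key : ∀ᵐ z ∂μ, ∀ (i : ℕ) (b : ℚ), dist x (denseSeq X i) < R0 → 0 < b →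
      Q z ≤ A * (h x z + b * h (denseSeq X i) z -
        (b : ℝ) / (1 + b) * (dist x (denseSeq X i) ^ 2 / 2)) + C0 * (1 + b) := by
    rw [ae_all_iff]
    intro i
    rw [ae_all_iff]
    intro b
    by_cases h1 : dist x (denseSeq X i) < R0
    · by_cases h2 : 0 < b
      · have hb : (0 : ℝ) < b := by exact_mod_cast h2
        filter_upwards [hS (denseSeq X i) b
          ((b : ℝ) / (1 + b) * (dist x (denseSeq X i) ^ 2 / 2)) hb
          (fun z => H.lower h1.le hb z)] with z hz _ _
        exact hz
      · exact Eventually.of_forall fun z _ h3 => absurd h3 h2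
    · exact Eventually.of_forall fun z h3 => absurd h3 h1
  filter_upwards [key] with z hz v hv β hβ
  obtain ⟨L, hL⟩ := H.lip
  -- density in `v`
  have step1 : ∀ b : ℚ, 0 < b → Q z ≤ A * (h x z + b * h v z -
      (b : ℝ) / (1 + b) * (dist x v ^ 2 / 2)) + C0 * (1 + b) := by
    intro b hb
    have hb' : (0 : ℝ) < b := by exact_mod_cast hb
    have hcont : Continuous fun w : X => A * (h x z + b * h w z -
        (b : ℝ) / (1 + b) * (dist x w ^ 2 / 2)) + C0 * (1 + b) := by
      have hc : Continuous fun w : X => h w z := by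
        have : LipschitzWith (Real.toNNReal |L|) fun w : X => h w z := by
          apply LipschitzWith.of_dist_le_mul
          intro y y'
          rw [Real.coe_toNNReal _ (abs_nonneg _), Real.dist_eq]
          exact (hL y y' z).trans (by gcongr; exact le_abs_self L)
        exact this.continuous
      have hd : Continuous fun w : X => dist x w := continuous_const.dist continuous_id
      exact (((continuous_const.add (continuous_const.mul hc)).sub
        (continuous_const.mul ((hd.pow 2).div_const 2))).const_mul A).add continuous_const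
    have hopen : IsOpen {w : X | dist x w < R0} :=
      isOpen_lt (continuous_const.dist continuous_id) continuous_const
    have hclosed : IsClosed {w : X | Q z ≤ A * (h x z + b * h w z -
        (b : ℝ) / (1 + b) * (dist x w ^ 2 / 2)) + C0 * (1 + b)} :=
      isClosed_le continuous_const hcont
    have hmem : v ∈ closure ({w : X | dist x w < R0} ∩ range (denseSeq X)) :=
      (denseRange_denseSeq X).open_subset_closure_inter hopen hv
    refine hclosed.closure_subset_iff.2 ?_ hmem
    rintro w ⟨hw1, i, rfl⟩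
    exact hz i b hw1 hb
  -- density in `β`
  have hcont : ContinuousOn (fun b : ℝ => A * (h x z + b * h v z -
      b / (1 + b) * (dist x v ^ 2 / 2)) + C0 * (1 + b)) (Ioi 0) := by
    have h1 : ContinuousOn (fun b : ℝ => b / (1 + b)) (Ioi 0) :=
      continuousOn_id.div (continuousOn_const.add continuousOn_id)
        (fun b hb => by have := mem_Ioi.1 hb; positivity)
    fun_prop
  have h2 : ContinuousAt (fun b : ℝ => A * (h x z + b * h v z -
      b / (1 + b) * (dist x v ^ 2 / 2)) + C0 * (1 + b)) β :=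
    hcont.continuousAt (Ioi_mem_nhds hβ)
  have h3 : β ∈ closure (Ioi (0 : ℝ) ∩ range ((↑) : ℚ → ℝ)) :=
    (Rat.denseRange_cast (𝕜 := ℝ)).open_subset_closure_inter isOpen_Ioi hβ
  rw [mem_closure_iff_seq_limit] at h3
  obtain ⟨u, hu, hul⟩ := h3
  refine ge_of_tendsto (h2.tendsto.comp hul) (Eventually.of_forall fun k => ?_)
  obtain ⟨h4, b, hb⟩ := hu k
  simp only [Function.comp]
  rw [← hb]
  refine step1 b ?_
  rw [← hb] at h4
  exact_mod_cast (mem_Ioi.1 h4)

/-- **Survival bound**, almost everywhere form -/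
theorem surv_bound [SeparableSpace X] {h : X → X → ℝ} {R0 : ℝ} (H : HalfSq h R0) {x : X}
    {Q : X → ℝ} {A C0 : ℝ} (hS : SurvIn μ h x Q A C0) :
    ∀ᵐ z ∂μ, ∀ v, dist x v < R0 → dist x z + dist z v = dist x v → 0 < dist x z → z ≠ v →
      Q z ≤ C0 * (1 + dist x z / dist z v) := by
  filter_upwards [surv_ae H hS] with z hz v hv hb hxz hne
  have hzv : 0 < dist z v := dist_pos.2 hne
  set τ := dist x z with hτ
  set τ' := dist z v with hτ'
  have hβ : 0 < τ / τ' := by positivity
  have h1 := hz v hv (τ / τ') hβ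
  have h2 : h x z = τ ^ 2 / 2 := H.near x z (by rw [← hτ]; linarith)
  have h3 : h v z = τ' ^ 2 / 2 := by
    rw [H.near v z (by rw [dist_comm, ← hτ']; linarith), dist_comm v z]
  have h4 : h x z + τ / τ' * h v z - τ / τ' / (1 + τ / τ') * (dist x v ^ 2 / 2) = 0 := by
    rw [h2, h3, ← hb]
    field_simp
    ring
  rw [h4, mul_zero, zero_add] at h1
  exact h1

/-- **Survival bound along the rays**, a.e. fraction -/
theorem surv_ray [SeparableSpace X] [SFinite μ] {n : ℕ} {κ : ℝ} (C : Rad n κ X μ)
    {h : X → X → ℝ} {R0 : ℝ}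
    (H : HalfSq h R0) {x : X} {Q : X → ℝ} {A C0 : ℝ} (hS : SurvIn μ h x Q A C0)
    :
    ∀ᵐ v ∂μ, 0 < dist x v → dist x v < R0 → ∀ᵐ t ∂(volume.restrict (Ioo (0 : ℝ) 1)),
      Q (C.T x t v) ≤ C0 / (1 - t) := by
  filter_upwards [C.ae_ray x (surv_bound H hS), C.ae_U x] with v hv hU h0' hR
  filter_upwards [ae_restrict_of_ae_restrict_of_subset Ioo_subset_Ioc_self hv,
    ae_restrict_mem measurableSet_Ioo] with t ht htm
  have ht1 : t ∈ Icc (0 : ℝ) 1 := ⟨htm.1.le, htm.2.le⟩
  have hl := C.dist_left hU ht1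
  have hr := C.dist_right hU ht1
  have h2 : 0 < 1 - t := by linarith [htm.2]
  have h1 := ht v hR (by rw [hl, hr]; ring) (by rw [hl]; exact mul_pos htm.1 h0')
      (by
        intro he
        rw [dist_eq_zero.2 he] at hr
        exact (mul_pos h2 h0').ne hr)
  rw [hl, hr] at h1
  have h3 : C0 * (1 + t * dist x v / ((1 - t) * dist x v)) = C0 / (1 - t) := by
    field_simp
    ring
  rw [h3] at h1
  exact h1

end Crest.Agent.R247.Sv436
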