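import Crest.Agent.R247.Mcp4_688
import Crest.Agent.R247.Num2_824
import Crest.Agent.R247.Max3_193
import Crest.Agent.R247.Iso2_311
import Crest.Agent.R247.Fd0_656
import Crest.Agent.R247.Max5_193
import Crest.Agent.R247.Fv2_510
import Crest.Agent.R247.Obj2_554

-- ▼ part R247/Num4_824
section

/-!
# R247, block (1-N), part N3': the sum of the volume drops over the dyadic scales
-/

open MeasureTheory Finset
open scoped ENNReal

namespace Crest.Agent.R247.Num824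

open Crest.Agent.R247.Mcp688 Crest.Agent.R247.Mcp688.Rad

variable {n : ℕ} {κ : ℝ} {X : Type*} [MetricSpace X] [MeasurableSpace X] {μ : Measure X}

/-- volume ratio -/
noncomputable def vr (n : ℕ) (μ : Measure X) (x : X) (s : ℝ) : ℝ := Vc μ x s / s ^ n

lemma vr_nonneg (n : ℕ) (μ : Measure X) (x : X) {s : ℝ} (hs : 0 ≤ s) : 0 ≤ vr n μ x s :=
  div_nonneg ENNReal.toReal_nonneg (by positivity)

/-- normalised drop -/
noncomputable def pd (n : ℕ) (κ : ℝ) (μ : Measure X) (x : X) (s : ℝ) : ℝ :=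
  drop n κ μ x s / s ^ n

lemma drop_eq_pd (n : ℕ) (κ : ℝ) (μ : Measure X) (x : X) {s : ℝ} (hs : 0 < s) :
    drop n κ μ x s = s ^ n * pd n κ μ x s := by
  unfold pd
  field_simp

lemma pd_le [BorelSpace X] (n : ℕ) {κ : ℝ} (hκ : 0 ≤ κ) (μ : Measure X) (x : X) {s : ℝ} (hs : 0 < s)
    (h1 : κ * s ^ 2 ≤ 1) :
    pd n κ μ x s ≤ 2 ^ (n + 1) * (vr n μ x s - vr n μ x (2 * s)) +
      64 * 2 ^ n * (κ * s ^ 2) * vr n μ x s := by
  unfold pd vr
  rw [div_le_iff₀ (by positivity)]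
  refine (drop_le n hκ μ x hs h1).trans (le_of_eq ?_)
  field_simp

/-- the drop is nonnegative -/
theorem drop_nonneg [BorelSpace X] (C : Rad n κ X μ) [SFinite μ] (hκ : 0 ≤ κ) (x : X) {r : ℝ} (hr : 0 < r)
    (hfin : μ (Metric.closedBall x r) ≠ ∞) : 0 ≤ drop n κ μ x r := by
  have hd : Measurable fun z : X => dist x z := (continuous_const.dist continuous_id).measurable
  have hm : Measurable fun z : X => cut r (dist x z) := (continuous_cut.measurable).comp hd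
  have h := C.nu_bound hκ x hr hfin (φ := fun z => 0 * cut r (dist x z))
    (D := fun z => 0 * (cut' r (dist x z) * dist x z)) (L := 0) (S := 1) (hm.const_mul 0)
    (fun y z => by simp) (fun z _ => by simp) (fun z => by simp) ((C.RD_cut hr).const_mul 0)
  rw [one_mul] at h
  exact (abs_nonneg _).trans h

theorem pd_nonneg [BorelSpace X] (C : Rad n κ X μ) [SFinite μ] (hκ : 0 ≤ κ) (x : X) {r : ℝ} (hr : 0 < r)
    (hfin : μ (Metric.closedBall x r) ≠ ∞) : 0 ≤ pd n κ μ x r :=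
  div_nonneg (drop_nonneg C hκ x hr hfin) (by positivity)

/-- **Telescoping of the drops.** -/
theorem sum_pd_le [BorelSpace X] (n : ℕ) {κ : ℝ} (hκ : 0 ≤ κ) (μ : Measure X) (x : X) {s0 a b : ℝ} (hs : 0 < s0)
    (h1 : κ * s0 ^ 2 ≤ 1) (ha : a ≤ vr n μ x (2 * s0))
    (hb : ∀ s, 0 < s → s ≤ 2 * s0 → vr n μ x s ≤ b) (N : ℕ) :
    ∑ m ∈ range N, pd n κ μ x (s0 / 2 ^ m) ≤
      2 ^ (n + 1) * (b - a) + 128 * 2 ^ n * (κ * s0 ^ 2) * b := by
  have hb0 : 0 ≤ b := (vr_nonneg n μ x (by positivity)).trans (hb s0 hs (by linarith))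
  have hsm : ∀ m : ℕ, 0 < s0 / 2 ^ m := fun m => by positivity
  have hsm' : ∀ m : ℕ, s0 / 2 ^ m ≤ s0 := fun m => by
    apply div_le_self hs.le
    exact one_le_pow₀ (by norm_num)
  have hstep : ∀ m : ℕ, pd n κ μ x (s0 / 2 ^ m) ≤
      2 ^ (n + 1) * (vr n μ x (s0 / 2 ^ m) - vr n μ x (2 * (s0 / 2 ^ m))) +
        64 * 2 ^ n * (κ * s0 ^ 2) * b * (1 / 4 : ℝ) ^ m := by
    intro m
    have h2 : κ * (s0 / 2 ^ m) ^ 2 ≤ 1 := by
      refine le_trans ?_ h1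
      have := hsm' m
      have := (hsm m).le
      gcongr
    refine (pd_le n hκ μ x (hsm m) h2).trans ?_
    have h3 : 64 * 2 ^ n * (κ * (s0 / 2 ^ m) ^ 2) * vr n μ x (s0 / 2 ^ m) ≤
        64 * 2 ^ n * (κ * (s0 / 2 ^ m) ^ 2) * b := by
      have := hb _ (hsm m) (by linarith [hsm' m])
      gcongr
    have h4 : (s0 / 2 ^ m) ^ 2 = s0 ^ 2 * (1 / 4 : ℝ) ^ m := by
      rw [div_pow, ← pow_mul, mul_comm m 2, pow_mul, one_div, inv_pow, div_eq_mul_inv]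
      norm_num
    rw [h4] at h3 ⊢
    have h5 : 64 * 2 ^ n * (κ * (s0 ^ 2 * (1 / 4) ^ m)) * b =
      64 * 2 ^ n * (κ * s0 ^ 2) * b * (1 / 4) ^ m := by ring
    linarith [h3, h5]
  have htel : ∀ N : ℕ, ∑ m ∈ range N, (vr n μ x (s0 / 2 ^ m) - vr n μ x (2 * (s0 / 2 ^ m))) ≤
      b - a := by
    intro N
    rcases Nat.eq_zero_or_pos N with rfl | hN
    · rw [range_zero, sum_empty]
      linarith [hb (2 * s0) (by positivity) le_rfl]
    obtain ⟨K, rfl⟩ : ∃ K, N = K + 1 := ⟨N - 1, by omega⟩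
    have h5 : ∀ K : ℕ, ∑ m ∈ range (K + 1), (vr n μ x (s0 / 2 ^ m) - vr n μ x (2 * (s0 / 2 ^ m))) =
        vr n μ x (s0 / 2 ^ K) - vr n μ x (2 * s0) := by
      intro K
      induction K with
      | zero => simp
      | succ K ih =>
        rw [sum_range_succ, ih]
        have h6 : 2 * (s0 / 2 ^ (K + 1)) = s0 / 2 ^ K := by
          rw [pow_succ]; field_simp
        rw [h6]
        ring
    rw [h5]
    linarith [hb _ (hsm K) (by linarith [hsm' K])]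
  have hgeo : ∑ m ∈ range N, (1 / 4 : ℝ) ^ m ≤ 2 := by
    have h7 := geom_sum_eq (by norm_num : (1 / 4 : ℝ) ≠ 1) N
    rw [h7]
    have h8 : (0 : ℝ) ≤ (1 / 4 : ℝ) ^ N := by positivity
    rw [div_le_iff_of_neg (by norm_num)]
    linarith
  calc ∑ m ∈ range N, pd n κ μ x (s0 / 2 ^ m)
      ≤ ∑ m ∈ range N, (2 ^ (n + 1) * (vr n μ x (s0 / 2 ^ m) - vr n μ x (2 * (s0 / 2 ^ m))) +
        64 * 2 ^ n * (κ * s0 ^ 2) * b * (1 / 4 : ℝ) ^ m) := sum_le_sum fun m _ => hstep m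
    _ = 2 ^ (n + 1) * ∑ m ∈ range N, (vr n μ x (s0 / 2 ^ m) - vr n μ x (2 * (s0 / 2 ^ m))) +
        64 * 2 ^ n * (κ * s0 ^ 2) * b * ∑ m ∈ range N, (1 / 4 : ℝ) ^ m := by
        rw [sum_add_distrib, mul_sum, mul_sum]
    _ ≤ 2 ^ (n + 1) * (b - a) + 64 * 2 ^ n * (κ * s0 ^ 2) * b * 2 := by
        gcongr
        exact htel N
    _ = _ := by ring

/-- with the volume pinching `(1-δ) ω ≤ v ≤ (1+δ) ω` and `κ s0² ≤ δ ≤ 1` -/
theorem sum_pd_le' [BorelSpace X] (n : ℕ) {κ : ℝ} (hκ : 0 ≤ κ) (μ : Measure X) (x : X) {s0 δ ω : ℝ} (hs : 0 < s0)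
    (hδ : δ ≤ 1) (hω : 0 ≤ ω) (h1 : κ * s0 ^ 2 ≤ δ) (ha : (1 - δ) * ω ≤ vr n μ x (2 * s0))
    (hb : ∀ s, 0 < s → s ≤ 2 * s0 → vr n μ x s ≤ (1 + δ) * ω) (N : ℕ) :
    ∑ m ∈ range N, pd n κ μ x (s0 / 2 ^ m) ≤ 260 * 2 ^ n * ω * δ := by
  have hδ0 : 0 ≤ δ := le_trans (by positivity) h1
  refine (sum_pd_le n hκ μ x hs (h1.trans hδ) ha hb N).trans ?_
  have h2 : 128 * 2 ^ n * (κ * s0 ^ 2) * ((1 + δ) * ω) ≤ 128 * 2 ^ n * δ * ((1 + 1) * ω) := by
    gcongr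
  have h3 : (2 : ℝ) ^ (n + 1) = 2 * 2 ^ n := by rw [pow_succ]; ring
  have h4 : (1 + δ) * ω - (1 - δ) * ω = 2 * (δ * ω) := by ring
  rw [h3, h4]
  have h5 : 0 ≤ 2 ^ n * (δ * ω) := by positivity
  nlinarith

end Crest.Agent.R247.Num824
end

-- ▼ part R247/Fd1_656
section

/-!
# R247, FD-ASM (2) (helper656): sums of `phat`, volume fields

* `ph_summ`, `ph_tail` : `phat` is summable with small tails;
* `drop_le_phat`;
* `ball_ge`, `ball_le'`, `vr_le` : volume pinching on a manifold with `Ric ≥ -κ`.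
-/

set_option autoImplicit false
set_option linter.unusedSectionVars false

open MeasureTheory Filter Topology Set Metric
open scoped RealInnerProductSpace ENNReal NNReal

noncomputable section

namespace Crest.Agent.R247.Fd656

open Crest.Agent.R247.Mcp688 Crest.Agent.R247.Mcp688.Rad Crest.Agent.R247.Far553
open Crest.Agent.R247.Num824 Crest.Agent.R247.Max193

section weights

/-- weights -/
def wt (n : ℕ) (a : ℝ) (i : ℕ) : ℝ := Real.exp (-(a * 2 ^ i)) * (2 ^ i) ^ n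

lemma wt_nonneg (n : ℕ) (a : ℝ) (i : ℕ) : 0 ≤ wt n a i := by unfold wt; positivity

/-- the constant in `wt_le` -/
def Kw (n : ℕ) (a : ℝ) : ℝ := (n + 2).factorial / a ^ (n + 2)

lemma Kw_nonneg (n : ℕ) {a : ℝ} (ha : 0 < a) : 0 ≤ Kw n a := by unfold Kw; positivity

lemma wt_le (n : ℕ) {a : ℝ} (ha : 0 < a) (i : ℕ) : wt n a i ≤ Kw n a * (1 / 4 : ℝ) ^ i := by
  have h1 : (a * 2 ^ i) ^ (n + 2) / (n + 2).factorial ≤ Real.exp (a * 2 ^ i) :=
    Real.pow_div_factorial_le_exp _ (by positivity) _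
  have h2 : (0 : ℝ) < (n + 2).factorial := by positivity
  have h3 : 0 < Real.exp (a * 2 ^ i) := Real.exp_pos _
  have h5 : (1 / 4 : ℝ) ^ i * (2 ^ i) ^ 2 = 1 := by
    rw [← pow_mul, mul_comm i 2, pow_mul, ← mul_pow]; norm_num
  have h6 : (0:ℝ) < (1 / 4 : ℝ) ^ i := by positivity
  rw [div_le_iff₀ h2] at h1
  unfold wt Kw
  rw [Real.exp_neg, inv_mul_le_iff₀ h3, div_mul_eq_mul_div, mul_div_assoc', le_div_iff₀ (by positivity)]
  calc ((2:ℝ) ^ i) ^ n * a ^ (n + 2)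
      = (a * 2 ^ i) ^ (n + 2) * (1 / 4 : ℝ) ^ i := by
        rw [mul_pow, pow_add (2 ^ i : ℝ) n 2]
        linear_combination (-(a ^ (n + 2) * ((2:ℝ) ^ i) ^ n)) * h5
    _ ≤ (Real.exp (a * 2 ^ i) * (n + 2).factorial) * (1 / 4 : ℝ) ^ i := by gcongr
    _ = _ := by ring

lemma summable_wt (n : ℕ) {a : ℝ} (ha : 0 < a) : Summable (wt n a) :=
  Summable.of_nonneg_of_le (wt_nonneg n a) (wt_le n ha)
    ((summable_geometric_of_lt_one (by norm_num) (by norm_num)).mul_left _)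

lemma tail_wt (n : ℕ) {a : ℝ} (ha : 0 < a) (i : ℕ) :
    ∑' j, wt n a (i + j) ≤ 2 * Kw n a * dy i ^ 2 := by
  have hs : Summable fun j => wt n a (i + j) := by
    have := (summable_nat_add_iff i).2 (summable_wt n ha)
    simpa [add_comm] using this
  have hg : Summable fun j : ℕ => Kw n a * (1 / 4 : ℝ) ^ (i + j) := by
    have : (fun j : ℕ => Kw n a * (1 / 4 : ℝ) ^ (i + j)) =
        fun j => (Kw n a * (1 / 4 : ℝ) ^ i) * (1 / 4 : ℝ) ^ j := by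
      funext j; rw [pow_add]; ring
    rw [this]
    exact (summable_geometric_of_lt_one (by norm_num) (by norm_num)).mul_left _
  refine (hs.tsum_le_tsum (fun j => wt_le n ha _) hg).trans ?_
  have e : (fun j : ℕ => Kw n a * (1 / 4 : ℝ) ^ (i + j)) =
        fun j => (Kw n a * (1 / 4 : ℝ) ^ i) * (1 / 4 : ℝ) ^ j := by
      funext j; rw [pow_add]; ring
  rw [e, tsum_mul_left, tsum_geometric_of_lt_one (by norm_num) (by norm_num)]
  have h1 : dy i ^ 2 = (1 / 4 : ℝ) ^ i := by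
    unfold dy; rw [← pow_mul, mul_comm i 2, pow_mul]; norm_num
  rw [h1]
  have h2 : 0 ≤ Kw n a * (1 / 4 : ℝ) ^ i := mul_nonneg (Kw_nonneg n ha) (by positivity)
  norm_num
  linarith

end weights

section phat

variable {n : ℕ} {κ : ℝ} {X : Type*} [MetricSpace X] [MeasurableSpace X] [BorelSpace X]
  [ProperSpace X] {μ : Measure X} [IsFiniteMeasureOnCompacts μ]

lemma two_pow_mul_dy_eq {i j : ℕ} (h : i ≤ j + 4) : 2 ^ i * dy j = 16 / 2 ^ (j + 4 - i) := by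
  obtain ⟨m, hm⟩ := Nat.exists_eq_add_of_le h
  rw [hm, Nat.add_sub_cancel_left]
  unfold dy
  rw [eq_div_iff (by positivity)]
  have h2 : (2:ℝ) ^ i * 2 ^ m = 2 ^ j * 16 := by
    rw [← pow_add, ← hm, pow_add]; norm_num
  have h3 : (1 / 2 : ℝ) ^ j * 2 ^ j = 1 := by rw [← mul_pow]; norm_num
  linear_combination (1 / 2 : ℝ) ^ j * h2 + 16 * h3

/-- `phat` as a convolution -/
lemma phat_eq (n : ℕ) (κ : ℝ) (μ : Measure X) (x : X) (a : ℝ) (j : ℕ) :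
    phat n κ μ x a j =
      ∑ p ∈ Finset.HasAntidiagonal.antidiagonal (j + 4), wt n a p.1 * pd n κ μ x (16 / 2 ^ p.2) + wt n a j := by
  have hd := dy_pos j
  rw [Finset.Nat.sum_antidiagonal_eq_sum_range_succ
    (fun i m => wt n a i * pd n κ μ x (16 / 2 ^ m)) (j + 4)]
  unfold phat
  rw [mul_add, Finset.mul_sum]
  congr 1
  · refine Finset.sum_congr rfl fun i hi => ?_
    have hi' : i ≤ j + 4 := by have := Finset.mem_range.1 hi; omega
    rw [← two_pow_mul_dy_eq hi']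
    unfold wt pd
    rw [mul_pow, inv_pow, mul_div_assoc']
    have h2 : ((2:ℝ) ^ i) ^ n ≠ 0 := by positivity
    have h3 : dy j ^ n ≠ 0 := by positivity
    rw [eq_div_iff (by positivity)]
    field_simp
  · unfold wt dy
    have : ((1 / 2 : ℝ) ^ j)⁻¹ = 2 ^ j := by rw [one_div, inv_pow, inv_inv]
    rw [this]; ring

lemma pd_nonneg' (C : Rad n κ X μ) (hκ : 0 ≤ κ) (x : X) {r : ℝ} (hr : 0 < r) :
    0 ≤ pd n κ μ x r :=
  pd_nonneg C hκ x hr (isCompact_closedBall x r).measure_lt_top.ne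

lemma phat_nonneg' (C : Rad n κ X μ) (hκ : 0 ≤ κ) (x : X) (a : ℝ) (j : ℕ) :
    0 ≤ phat n κ μ x a j := by
  rw [phat_eq]
  exact add_nonneg (Finset.sum_nonneg fun p _ => mul_nonneg (wt_nonneg _ _ _)
    (pd_nonneg' C hκ x (by positivity))) (wt_nonneg _ _ _)

/-- constant of the tails -/
def Ct (n : ℕ) (a ω : ℝ) : ℝ := (∑' i, wt n a i) * (260 * 2 ^ n * ω) + 2 * Kw n a

lemma tsum_wt_nonneg (n : ℕ) (a : ℝ) : 0 ≤ ∑' i, wt n a i := tsum_nonneg (wt_nonneg n a)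

lemma Ct_nonneg (n : ℕ) {a ω : ℝ} (ha : 0 < a) (hω : 0 ≤ ω) : 0 ≤ Ct n a ω := by
  unfold Ct
  have := tsum_wt_nonneg n a
  have := Kw_nonneg n ha
  positivity

/-- **`phat` is summable, and its tails are small** -/
theorem phat_tail (C : Rad n κ X μ) (hκ : 0 ≤ κ) (x : X) {a : ℝ} (ha : 0 < a) {δ ω : ℝ}
    (hδ : δ ≤ 1) (hω : 0 ≤ ω) (h1 : κ * 16 ^ 2 ≤ δ) (hv : (1 - δ) * ω ≤ vr n μ x (2 * 16))
    (hb : ∀ s, 0 < s → s ≤ 2 * 16 → vr n μ x s ≤ (1 + δ) * ω) :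
    Summable (phat n κ μ x a) ∧
      ∀ i, ∑' j, phat n κ μ x a (i + j) ≤ Ct n a ω * (δ + dy i ^ 2) := by
  have hδ0 : 0 ≤ δ := le_trans (by positivity) h1
  set P : ℕ → ℝ := fun m => pd n κ μ x (16 / 2 ^ m) with hP
  have hP0 : ∀ m, 0 ≤ P m := fun m => pd_nonneg' C hκ x (by positivity)
  have hPle : ∀ N, ∑ m ∈ Finset.range N, P m ≤ 260 * 2 ^ n * ω * δ := fun N =>
    sum_pd_le' n hκ μ x (by norm_num) hδ hω h1 hv hb N
  have hPs : Summable P := summable_of_sum_range_le hP0 hPle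
  have hPt : ∑' m, P m ≤ 260 * 2 ^ n * ω * δ := Real.tsum_le_of_sum_range_le hP0 hPle
  have hw := summable_wt n ha
  have hmul : Summable fun p : ℕ × ℕ => wt n a p.1 * P p.2 :=
    hw.mul_of_nonneg hPs (wt_nonneg n a) hP0
  set c : ℕ → ℝ := fun k => ∑ p ∈ Finset.HasAntidiagonal.antidiagonal k, wt n a p.1 * P p.2 with hc
  have hc0 : ∀ k, 0 ≤ c k := fun k => Finset.sum_nonneg fun p _ =>
    mul_nonneg (wt_nonneg _ _ _) (hP0 _)
  have hcs : Summable c := summable_sum_mul_antidiagonal_of_summable_mul hmul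
  have hct : (∑' i, wt n a i) * ∑' m, P m = ∑' k, c k :=
    hw.tsum_mul_tsum_eq_tsum_sum_antidiagonal hPs hmul
  have hph : phat n κ μ x a = fun j => c (j + 4) + wt n a j := by
    funext j; rw [phat_eq]
  have hcs4 : Summable fun j => c (j + 4) := (summable_nat_add_iff 4).2 hcs
  refine ⟨by rw [hph]; exact hcs4.add hw, fun i => ?_⟩
  rw [hph]
  have hs1 : Summable fun j => c (i + j + 4) := by
    have := (summable_nat_add_iff (i + 4)).2 hcs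
    refine this.congr fun j => ?_
    congr 1; omega
  have hs2 : Summable fun j => wt n a (i + j) := by
    have := (summable_nat_add_iff i).2 hw
    simpa [add_comm] using this
  rw [hs1.tsum_add hs2]
  have e1 : ∑' j, c (i + j + 4) ≤ ∑' k, c k := by
    have := hcs.sum_add_tsum_nat_add (i + 4)
    have h3 : ∑' j, c (j + (i + 4)) = ∑' j, c (i + j + 4) := by
      congr 1; funext j; congr 1; omega
    have h4 : 0 ≤ ∑ k ∈ Finset.range (i + 4), c k := Finset.sum_nonneg fun k _ => hc0 k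
    linarith
  have e2 := tail_wt n ha i
  have hW := tsum_wt_nonneg n a
  have e3 : (∑' i, wt n a i) * ∑' m, P m ≤ (∑' i, wt n a i) * (260 * 2 ^ n * ω * δ) :=
    mul_le_mul_of_nonneg_left hPt hW
  have hK := Kw_nonneg n ha
  have hd2 : 0 ≤ dy i ^ 2 := by positivity
  unfold Ct
  have e4 : 0 ≤ (∑' i, wt n a i) * (260 * 2 ^ n * ω) * dy i ^ 2 := by positivity
  have e5 : 0 ≤ 2 * Kw n a * δ := by positivity
  have e6 : ((∑' i, wt n a i) * (260 * 2 ^ n * ω) + 2 * Kw n a) * (δ + dy i ^ 2) =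
    (∑' i, wt n a i) * (260 * 2 ^ n * ω * δ) + 2 * Kw n a * dy i ^ 2 +
      ((∑' i, wt n a i) * (260 * 2 ^ n * ω) * dy i ^ 2 + 2 * Kw n a * δ) := by ring
  rw [e6]
  linarith [hct]

/-- the drop at scale `16 dy j` -/
theorem drop_le_phat (C : Rad n κ X μ) (hκ : 0 ≤ κ) (x : X) (a : ℝ) (j : ℕ) :
    Rad.drop n κ μ x (16 * dy j) ≤ Real.exp (16 * a) * phat n κ μ x a j * dy j ^ n := by
  have hd := dy_pos j
  have hterm : ∀ p ∈ Finset.HasAntidiagonal.antidiagonal (j + 4), 0 ≤ wt n a p.1 * pd n κ μ x (16 / 2 ^ p.2) :=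
    fun p _ => mul_nonneg (wt_nonneg _ _ _) (pd_nonneg' C hκ x (by positivity))
  have h1 : wt n a 4 * pd n κ μ x (16 / 2 ^ j) ≤ phat n κ μ x a j := by
    rw [phat_eq]
    have h2 := Finset.single_le_sum (f := fun p : ℕ × ℕ => wt n a p.1 * pd n κ μ x (16 / 2 ^ p.2))
      hterm (show (4, j) ∈ Finset.HasAntidiagonal.antidiagonal (j + 4) by
        rw [Finset.HasAntidiagonal.mem_antidiagonal]; omega)
    have h3 := wt_nonneg n a j
    simp only at h2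
    linarith
  have e1 : (16 : ℝ) / 2 ^ j = 16 * dy j := by
    unfold dy; rw [one_div, inv_pow]; rfl
  rw [e1] at h1
  rw [drop_eq_pd n κ μ x (show 0 < 16 * dy j by positivity)]
  unfold wt at h1
  have h4 : Real.exp (16 * a) * Real.exp (-(a * 2 ^ 4)) = 1 := by
    rw [← Real.exp_add]
    have : 16 * a + -(a * 2 ^ 4) = 0 := by ring
    rw [this, Real.exp_zero]
  have h5 := mul_le_mul_of_nonneg_left h1 (Real.exp_pos (16 * a)).le
  have h6 : Real.exp (16 * a) * (Real.exp (-(a * 2 ^ 4)) * (2 ^ 4) ^ n * pd n κ μ x (16 * dy j)) =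
      16 ^ n * pd n κ μ x (16 * dy j) := by
    have : Real.exp (16 * a) * (Real.exp (-(a * 2 ^ 4)) * (2 ^ 4) ^ n * pd n κ μ x (16 * dy j)) =
      (Real.exp (16 * a) * Real.exp (-(a * 2 ^ 4))) * ((2 ^ 4) ^ n * pd n κ μ x (16 * dy j)) := by
      ring
    rw [this, h4, one_mul]; norm_num
  rw [h6] at h5
  rw [mul_pow]
  calc 16 ^ n * dy j ^ n * pd n κ μ x (16 * dy j)
      = (16 ^ n * pd n κ μ x (16 * dy j)) * dy j ^ n := by ring
    _ ≤ _ := by gcongr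

end phat

end Crest.Agent.R247.Fd656
end
end

-- ▼ part R247/Fd2_656

/-!
# R247, FD-ASM (3) (helper656): the environment `EnvF` of one centre and the literal Props of the
fields of `FarD` (constants depend on `n` only)

`ph := phx n κ μ x = phat n κ μ x (c3 n / 64)`.
-/

set_option autoImplicit false
set_option linter.unusedSectionVars false
set_option linter.unusedVariables false

open MeasureTheory Filter Topology Set Metric
open scoped RealInnerProductSpace ENNReal NNReal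

noncomputable section

namespace Crest.Agent.R247.Fd656

universe u

open Crest.Agent.R242 Crest.Agent.R247.Dir593 Crest.Agent.R247.Dir593.GradS
open Crest.Agent.R247.Smv126 Crest.Agent.R247.Obj554 Crest.Agent.R247.Hes124
open Crest.Agent.R247.Far553 Crest.Agent.R247.Mcp688 Crest.Agent.R247.Max193

/-- volume of the unit ball of `ℝⁿ` -/
def om (n : ℕ) : ℝ := (volume (ball (0 : EuclideanSpace ℝ (Fin n)) 1)).toReal

/-- bound of the volume of `B(x, 64)` (`κ ≤ 1/1024`) -/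
def V64 (n : ℕ) : ℝ := 8 * 64 ^ n * om n

/-- the environment of one centre `x`: everything the remaining fields may use -/
structure EnvF {n : ℕ} {κ : ℝ} {X : Type u} [MetricSpace X] [ProperSpace X] [MeasurableSpace X]
    [BorelSpace X] {μ : Measure X} [IsFiniteMeasureOnCompacts μ] (B : BochS n κ X μ)
    (C : Rad n κ X μ) (x : X) (δ : ℝ) : Prop where
  n_pos : 1 ≤ n
  κ_nonneg : 0 ≤ κ
  κ_le : 1024 * κ ≤ 1
  κ_δ : κ * 16 ^ 2 ≤ δ
  δ_le : δ ≤ 1 / 4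
  hA : Appr B
  W : WLap B.toGradS n κ
  hL : LK B.toGradS C
  Q : Nonempty (Fv510.SegS B C)
  sing : ∀ z : X, μ {z} = 0
  pos : ∀ (z : X) (r : ℝ), 0 < r → μ (ball z r) ≠ 0
  vol_ge : ∀ y r, dist x y < 20 → 0 < r → r ≤ 20 →
    ENNReal.ofReal ((1 - δ) * om n * r ^ n) ≤ μ (ball y r)
  vol_le : ∀ y r, dist x y < 20 → 0 < r → r ≤ 20 →
    μ (ball y r) ≤ ENNReal.ofReal ((1 + δ) * om n * r ^ n)
  /-- Bishop (all balls) -/
  bishop : ∀ (z : X) (s : ℝ), 0 < s →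
    μ (closedBall z s) ≤ ENNReal.ofReal (Real.exp (κ * s ^ 2 / 2) * s ^ n * om n)
  vol64 : μ.real (closedBall x 64) ≤ V64 n

/-- the far defect of the centre `x` -/
def phx (n : ℕ) (κ : ℝ) {X : Type u} [MetricSpace X] [MeasurableSpace X] (μ : Measure X) (x : X)
    (j : ℕ) : ℝ := phat n κ μ x (c3 n / 64) j

section fields

/-- (D1a) -/
def D1aP (n : ℕ) : Prop := ∀ K : ℝ, 1 ≤ K → ∃ A : ℝ, 0 < A ∧
  ∀ (κ : ℝ) (X : Type u) [MetricSpace X] [ProperSpace X] [MeasurableSpace X] [BorelSpace X]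
    (μ : Measure X) [IsFiniteMeasureOnCompacts μ] (B : BochS n κ X μ) (C : Rad n κ X μ) (x : X)
    (δ : ℝ), EnvF B C x δ → ∀ O : HObj B x,
  ∀ᵐ v ∂μ, dist x v < 12 → ∀ k, ∀ a b : ℝ, 0 < a → a ≤ b → b < dist x v →
    8 * (b - a) ≤ a → 8 * (b - a) ≤ dist x v - b → dy k ≤ b - a →
      ∫⁻ r in Icc a b, loc μ n K (dy k) (fun z => Hf O k z + gf B x k z) (ray C x v r) ≤
        ENNReal.ofReal (A * a * Real.sqrt ((b - a) / min a (dist x v - b)))

/-- (D1b) -/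
def D1bP (n : ℕ) : Prop := ∀ K ε : ℝ, 1 ≤ K → 0 < ε → ∃ A : ℝ, 0 < A ∧
  ∀ (κ : ℝ) (X : Type u) [MetricSpace X] [ProperSpace X] [MeasurableSpace X] [BorelSpace X]
    (μ : Measure X) [IsFiniteMeasureOnCompacts μ] (B : BochS n κ X μ) (C : Rad n κ X μ) (x : X)
    (δ : ℝ), EnvF B C x δ → ∀ O : HObj B x, ∀ j, 4 ≤ j →
  μ {v | 1 ≤ dist x v ∧ dist x v < 12 ∧ bad C x (fun k z => Hf O k z + gf B x k z) K ε j v} ≤
    ENNReal.ofReal (A * phx n κ μ x j)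

/-- (D2) H -/
def D2HP (n : ℕ) : Prop := ∀ K s : ℝ, 1 ≤ K → 0 < s → ∃ A : ℝ, 0 < A ∧
  ∀ (κ : ℝ) (X : Type u) [MetricSpace X] [ProperSpace X] [MeasurableSpace X] [BorelSpace X]
    (μ : Measure X) [IsFiniteMeasureOnCompacts μ] (B : BochS n κ X μ) (C : Rad n κ X μ) (x : X)
    (δ : ℝ), EnvF B C x δ → ∀ O : HObj B x, ∀ j k, 4 ≤ j → j ≤ k →
    ∫⁻ z in NN C x (dy j) (dy k) K s, ENNReal.ofReal (Hf O k z ^ 2) ∂μ ≤
      ENNReal.ofReal (A * phx n κ μ x j * dy j ^ n)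

/-- (D2) g -/
def D2gP (n : ℕ) : Prop := ∀ K s : ℝ, 1 ≤ K → 0 < s → ∃ A : ℝ, 0 < A ∧
  ∀ (κ : ℝ) (X : Type u) [MetricSpace X] [ProperSpace X] [MeasurableSpace X] [BorelSpace X]
    (μ : Measure X) [IsFiniteMeasureOnCompacts μ] (B : BochS n κ X μ) (C : Rad n κ X μ) (x : X)
    (δ : ℝ), EnvF B C x δ → ∀ O : HObj B x, ∀ j k, 4 ≤ j → j ≤ k →
    ∫⁻ z in NN C x (dy j) (dy k) K s, ENNReal.ofReal (gf B x k z ^ 2) ∂μ ≤
      ENNReal.ofReal (A * phx n κ μ x j * dy j ^ n)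

/-- (D2) q -/
def D2qP (n : ℕ) : Prop := ∀ K s : ℝ, 1 ≤ K → 0 < s → ∃ A : ℝ, 0 < A ∧
  ∀ (κ : ℝ) (X : Type u) [MetricSpace X] [ProperSpace X] [MeasurableSpace X] [BorelSpace X]
    (μ : Measure X) [IsFiniteMeasureOnCompacts μ] (B : BochS n κ X μ) (C : Rad n κ X μ) (x : X)
    (δ : ℝ), EnvF B C x δ → ∀ O : HObj B x, ∀ j k, 4 ≤ j → j ≤ k →
    ∫⁻ z in NN C x (dy j) (dy k) K s, ENNReal.ofReal (qf B x k z) ∂μ ≤
      ENNReal.ofReal (A * phx n κ μ x j * dy j ^ n)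

/-- (D2) k -/
def D2kP (n : ℕ) : Prop := ∀ K s : ℝ, 1 ≤ K → 0 < s → ∃ A : ℝ, 0 < A ∧
  ∀ (κ : ℝ) (X : Type u) [MetricSpace X] [ProperSpace X] [MeasurableSpace X] [BorelSpace X]
    (μ : Measure X) [IsFiniteMeasureOnCompacts μ] (B : BochS n κ X μ) (C : Rad n κ X μ) (x : X)
    (δ : ℝ), EnvF B C x δ → ∀ O : HObj B x, ∀ j k, 4 ≤ j → j ≤ k →
    ∫⁻ z in NN C x (dy j) (dy k) K s, ENNReal.ofReal |kf B x k z| ∂μ ≤
      ENNReal.ofReal (A * dy k ^ 2 * phx n κ μ x j * dy j ^ n)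

/-- (D2) nk, L² part -/
def D2n2P (n : ℕ) : Prop := ∀ K s : ℝ, 1 ≤ K → 0 < s → ∃ A : ℝ, 0 < A ∧
  ∀ (κ : ℝ) (X : Type u) [MetricSpace X] [ProperSpace X] [MeasurableSpace X] [BorelSpace X]
    (μ : Measure X) [IsFiniteMeasureOnCompacts μ] (B : BochS n κ X μ) (C : Rad n κ X μ) (x : X)
    (δ : ℝ), EnvF B C x δ → ∀ O : HObj B x, ∀ j k, 4 ≤ j → j ≤ k →
    ∫⁻ z in NN C x (dy j) (dy k) K s ∩ {z | |kf B x k z| ≤ dy k ^ 2},
        ENNReal.ofReal (nf O k z ^ 2) ∂μ ≤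
      ENNReal.ofReal (A * dy k ^ 2 * (1 + (k - j : ℕ)) * phx n κ μ x j * dy j ^ n)

/-- (D2) nk, L¹ part -/
def D2n1P (n : ℕ) : Prop := ∀ K s : ℝ, 1 ≤ K → 0 < s → ∃ A : ℝ, 0 < A ∧
  ∀ (κ : ℝ) (X : Type u) [MetricSpace X] [ProperSpace X] [MeasurableSpace X] [BorelSpace X]
    (μ : Measure X) [IsFiniteMeasureOnCompacts μ] (B : BochS n κ X μ) (C : Rad n κ X μ) (x : X)
    (δ : ℝ), EnvF B C x δ → ∀ O : HObj B x, ∀ j k, 4 ≤ j → j ≤ k →
    ∫⁻ z in NN C x (dy j) (dy k) K s ∩ {z | dy k ^ 2 < |kf B x k z|},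
        ENNReal.ofReal (nf O k z) ∂μ ≤
      ENNReal.ofReal (A * dy k * (1 + (k - j : ℕ)) * phx n κ μ x j * dy j ^ n)

/-- (D2') -/
def D2bP (n : ℕ) : Prop := ∃ A : ℝ, 0 < A ∧
  ∀ (κ : ℝ) (X : Type u) [MetricSpace X] [ProperSpace X] [MeasurableSpace X] [BorelSpace X]
    (μ : Measure X) [IsFiniteMeasureOnCompacts μ] (B : BochS n κ X μ) (C : Rad n κ X μ) (x : X)
    (δ : ℝ), EnvF B C x δ → ∀ O : HObj B x, ∀ j, 4 ≤ j →
    ∫⁻ z in ball x (16 * dy j), ENNReal.ofReal (Hf O j z ^ 2 + gf B x j z ^ 2 + qf B x j z) ∂μ ≤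
      ENNReal.ofReal (A * phx n κ μ x j * dy j ^ n)

/-- (PE) -/
def PeP (n : ℕ) : Prop :=
  ∀ (κ : ℝ) (X : Type u) [MetricSpace X] [ProperSpace X] [MeasurableSpace X] [BorelSpace X]
    (μ : Measure X) [IsFiniteMeasureOnCompacts μ] (B : BochS n κ X μ) (C : Rad n κ X μ) (x : X)
    (δ : ℝ), EnvF B C x δ → ∀ O : HObj B x, ∀ k,
  ∀ᵐ p ∂(μ.prod μ), dist x p.1 < 12 → dist x p.2 < 12 →
    ∃ A : ℝ, HasDerivWithinAt (fun t : ℝ => dist (C.T x t p.1) (C.T x t p.2)) A (Iio 1) 1 ∧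
      ENNReal.ofReal |A - dist p.1 p.2| ≤ err C (dy k) (Hf O k) (gf B x k) p.1 p.2

/-- (D3) -/
def D3P (n : ℕ) : Prop :=
  ∀ (κ : ℝ) (X : Type u) [MetricSpace X] [ProperSpace X] [MeasurableSpace X] [BorelSpace X]
    (μ : Measure X) [IsFiniteMeasureOnCompacts μ] (B : BochS n κ X μ) (C : Rad n κ X μ) (x : X)
    (δ : ℝ), EnvF B C x δ → ∀ O : HObj B x, ∀ k,
  ∀ᵐ p ∂(μ.prod μ), dist x p.1 < 2 → dist x p.2 < 12 → p.1 ≠ p.2 →
    ∃ Dw : ℝ, HasDerivWithinAt (fun t : ℝ => dist (C.T x t p.1) p.2) Dw (Iio 1) 1 ∧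
      HasDerivWithinAt (fun τ : ℝ => dist x (ray C p.1 p.2 τ) ^ 2 / 2) (-Dw) (Ici 0) 0 ∧
      Nonempty (AlongD (dist p.1 p.2) (dy k) (fun τ => dist x (ray C p.1 p.2 τ) ^ 2 / 2)
        (fun τ => qf B x k (ray C p.1 p.2 τ)) (fun τ => kf B x k (ray C p.1 p.2 τ))
        (fun τ => Hf O k (ray C p.1 p.2 τ)) (fun τ => gf B x k (ray C p.1 p.2 τ))
        (fun τ => nf O k (ray C p.1 p.2 τ)) Dw (gf B x k p.1))

end fields

end Crest.Agent.R247.Fd656
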