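import Crest.Agent.R247.FarAsm6_196
import Crest.Agent.R247.Far0_553
import Crest.Agent.R247.Num5_824
import Crest.Agent.R247.FarAsm3_196

-- ▼ part R247/FarAsm7_196
section

/-!
# Assembly of block (1), part 7: `DecayP → NNP → PathP` (helper196)
-/

set_option autoImplicit false
set_option linter.unusedSectionVars false
open MeasureTheory Set Filter Topology Metric
open scoped ENNReal NNReal

noncomputable section
namespace Crest.Agent.R247.FarAsm196

universe u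

open Crest.Agent.R247.Mcp688 Crest.Agent.R247.Far553

open Classical in
lemma hit_mono {c1 : ℝ} {B B' : ℕ → Prop} (h : ∀ i, B i → B' i) {m : ℕ}
    (hh : Num824.Hit c1 B m) : Num824.Hit c1 B' m := by
  obtain ⟨i, hi, hc⟩ := hh
  refine ⟨i, hi, hc.trans_le ?_⟩
  have : (Finset.filter (fun j => B j) (Finset.Ico i (m + 1))).card ≤
      (Finset.filter (fun j => B' j) (Finset.Ico i (m + 1))).card := by
    apply Finset.card_le_card
    intro j hj
    rw [Finset.mem_filter] at hj ⊢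
    exact ⟨hj.1, h j hj.2⟩
  convert (Nat.cast_le (α := ℝ)).2 this

lemma exists_jm {a : ℝ} (ha : 0 < a) : ∃ j2 : ℕ, ∀ j, j2 ≤ j → dy j ^ a ≤ 1 / 20 := by
  obtain ⟨N, hN⟩ := exists_nat_ge (5 / a)
  refine ⟨N, fun j hj => ?_⟩
  rw [dy_rpow, ← Real.rpow_mul (by norm_num)]
  have h1 : (N : ℝ) ≤ j := by exact_mod_cast hj
  have h2 : 5 ≤ (j : ℝ) * a := by
    rw [div_le_iff₀ ha] at hN
    nlinarith
  calc (2 : ℝ) ^ (-(j : ℝ) * a) ≤ (2 : ℝ) ^ (-(5 : ℝ)) := two_rpow_mono (by linarith)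
    _ ≤ 1 / 20 := by
      rw [Real.rpow_neg (by norm_num)]
      norm_num

lemma lamj_pos (a : ℝ) (j : ℕ) : 0 < lamj a j := by
  unfold lamj
  have : 0 < dy j ^ a := Real.rpow_pos_of_pos (dy_pos j) _
  positivity

lemma lamj_mem (a : ℝ) (j : ℕ) : lamj a j ∈ Ioc (0 : ℝ) 1 := by
  refine ⟨lamj_pos a j, ?_⟩
  unfold lamj
  have : 0 < dy j ^ a := Real.rpow_pos_of_pos (dy_pos j) _
  rw [div_le_one (by positivity)]
  linarith

/-- **`PathP` from the closing (`DecayP`) and the rays nearby (`NNP`)** -/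
theorem path_of {n : ℕ} {c : FarK} (hDec : DecayP.{u} n c) (hN : NNP.{u} n c) :
    PathP.{u} n c := by
  obtain ⟨δ1, a, β, c1, C0, L, j0, jm, hδ1, ha0, ha1, hβ0, hβ1, hc10, hc11, hC0, hL, hdec⟩ := hDec
  obtain ⟨K, ε, K2, c', k0, hK, hε, hK2, hc', hnn⟩ := hN
  obtain ⟨j2, hj2⟩ := exists_jm ha0
  have hB1 := c.B1_pos 1
  have hcX := Cur301.one_le_cX
  have hMq : 1 ≤ 5 * c.B1 1 + 1 := by linarith
  have hg := Num824.geoC_pos (b := β / 2) (by positivity)
  have hCp : 0 < Cpc β C0 (5 * c.B1 1 + 1) := by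
    unfold Cpc A1c
    have := dy_pos 6
    positivity
  refine ⟨min δ1 (1 / 2), a, β / 2, c1, Cpc β C0 (5 * c.B1 1 + 1),
    K2 + Real.sqrt (4 * C0), c', (K, ε) :: L, kf β, j0 + 2 * k0 + 4,
    max jm (max (j0 + 2 * k0 + 10) j2), lt_min hδ1 (by norm_num), min_le_right _ _, ha0, ha1,
    by positivity, hc10, hc11, hCp, ?_, hc', ?_, le_kf β, fun i j hij => kf_le hβ0.le hβ1 hij,
    by omega, fun j hj => hj2 j (by omega), ?_⟩
  · have h1 : 1 ≤ Real.sqrt (4 * C0) := by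
      rw [Real.one_le_sqrt]
      linarith
    linarith
  · intro q hq
    rw [List.mem_cons] at hq
    rcases hq with rfl | hq
    · exact ⟨hK, hε⟩
    · exact hL q hq
  intro κ hκ0 hκ X _ _ _ _ μ _ C x ph F p hp j hj
  have hj1 : jm ≤ j := by omega
  have hj3 : j0 + 2 * k0 + 10 ≤ j := by omega
  have hj4 : j2 ≤ j := by omega
  have hθ := hj2 j hj4
  have hθ0 : 0 < dy j ^ a := Real.rpow_pos_of_pos (dy_pos j) _
  set W : Set X := ann p 4 8 with hW
  have hWm : MeasurableSet W := measurableSet_ann p 4 8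
  have hlam := lamj_mem a j
  have hδ' : min δ1 (1 / 2) ≤ δ1 := min_le_left _ _
  have hδ0 : (0 : ℝ) ≤ min δ1 (1 / 2) := (lt_min hδ1 (by norm_num)).le
  have hδ2 : min δ1 (1 / 2) ≤ 1 / 2 := min_le_right _ _
  have hdy1 : dy j ≤ 1 / 16 := by
    refine (dy_anti (show 4 ≤ j by omega)).trans ?_
    unfold dy; norm_num
  have hjpos := dy_pos j
  set m : ℕ := j - (j0 + 2 * k0 + 4) with hm
  have hmj : m ≤ j := by omega
  have hdym := dy_pos m
  have hdyjm : dy j ≤ dy m := dy_anti hmj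
  have hdym1 : dy m ≤ 1 / 16 := by
    refine (dy_anti (show 4 ≤ m by omega)).trans ?_
    unfold dy; norm_num
  -- a.e. facts
  have a1 := hdec κ hκ0 (hκ.trans hδ') X μ C x ph (F.mono hδ') p hp j hj1
  have a2 : ∀ᵐ v ∂(Law508.Nu C x (lamj a j) W), _ :=
    (Law508.Nu_ac C x (lamj a j) W).ae_le
      (hnn κ hκ0 (hκ.trans (hδ2.trans (by norm_num))) X μ C x (min δ1 (1 / 2)) ph F hδ0 hδ2)
  have a3 := Law508.Nu_ae C x hlam hWm
  have a4 : ∀ᵐ z ∂μ, ∀ᵐ v ∂(Law508.Nu C x (lamj a j) W), ∀ k,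
      dist x z < 2 → dist x (C.T x (lamj a j) v) < 12 → z ≠ C.T x (lamj a j) v →
      ∃ Dw : ℝ, HasDerivWithinAt (fun t : ℝ => dist (C.T x t z) (C.T x (lamj a j) v)) Dw
        (Iio 1) 1 ∧
      HasDerivWithinAt (fun τ : ℝ => dist x (ray C z (C.T x (lamj a j) v) τ) ^ 2 / 2) (-Dw)
        (Ici 0) 0 ∧
      Nonempty (AlongD (dist z (C.T x (lamj a j) v)) (dy k)
        (fun τ => dist x (ray C z (C.T x (lamj a j) v) τ) ^ 2 / 2)
        (fun τ => F.q k (ray C z (C.T x (lamj a j) v) τ))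
        (fun τ => F.kk k (ray C z (C.T x (lamj a j) v) τ))
        (fun τ => F.H k (ray C z (C.T x (lamj a j) v) τ))
        (fun τ => F.g k (ray C z (C.T x (lamj a j) v) τ))
        (fun τ => F.nk k (ray C z (C.T x (lamj a j) v) τ)) Dw (F.g k z)) := by
    have h := ae_all_iff.2 F.d3
    exact Law508.Nu_ae_of_ae_prod C hκ0 x hlam hWm h
  filter_upwards [a1, a4] with z b1 b4 hz
  have b5 : ∀ᵐ v ∂(Law508.Nu C x (lamj a j) W), (z, C.T x (lamj a j) v) ∈ C.U :=
    Law508.Nu_ae_of_ae C hκ0 x hlam hWm (C.ae_U z)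
  have b6 := Law508.Nu_ae_of_ae C hκ0 x hlam hWm (ae_arc C z (F.q_le m))
  filter_upwards [b1 hz, a2, a3, b4, b5, b6] with v d1 d2 d3 d4 d5 d6
  intro w hw
  subst hw
  set w : X := C.T x (lamj a j) v with hwdef
  obtain ⟨hxv, hxw, hwW⟩ := d3
  have hz1 : dist x z < 1 := by linarith
  have hzw := dist_bounds hp hz1 hwW
  have hxw1 : 3 ≤ dist x w ∧ dist x w ≤ 9 := by
    obtain ⟨h1, h2⟩ := hwW
    have h3 := dist_triangle p x w
    have h4 := dist_triangle x p w
    rw [dist_comm x p] at h4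
    constructor <;> linarith
  have hdv : dist x w = lamj a j * dist x v := C.dist_left hxv ⟨hlam.1.le, hlam.2⟩
  have hdv' : dist x v = (1 + dy j ^ a) * dist x w := by
    rw [hdv, lamj]
    field_simp
  have hv1 : 1 ≤ dist x v := by rw [hdv']; nlinarith
  have hv2 : dist x v < 12 := by rw [hdv']; nlinarith
  have hne : z ≠ w := by
    intro h
    have := hzw.1
    rw [h, dist_self] at this
    norm_num at this
  -- the radial derivative
  obtain ⟨Dw, hDw, -, -⟩ := d4 0 (by linarith) (by linarith) hne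
  refine ⟨Dw, hDw, fun hhit => ?_⟩
  have hA : ∀ k, Nonempty (AlongD (dist z w) (dy k) (fun τ => dist x (ray C z w τ) ^ 2 / 2)
        (fun τ => F.q k (ray C z w τ)) (fun τ => F.kk k (ray C z w τ))
        (fun τ => F.H k (ray C z w τ)) (fun τ => F.g k (ray C z w τ))
        (fun τ => F.nk k (ray C z w τ)) Dw (F.g k z)) := by
    intro k
    obtain ⟨Dw', hDw', -, hA'⟩ := d4 k (by linarith) (by linarith) hne
    have : Dw' = Dw := (uniqueDiffWithinAt_Iio (1 : ℝ)).eq_deriv _ hDw' hDw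
    rw [this] at hA'
    exact hA'
  have hhit' : ¬ Num824.Hit c1 (fun i => v ∈ BdS (F.mono hδ') L i) j := by
    intro h
    refine hhit (hit_mono (fun i hi => ?_) h)
    obtain ⟨h1, h2, h3, q, hq, hb⟩ := hi
    exact ⟨h1, h2, h3, q, List.mem_cons_of_mem _ hq, hb⟩
  have hT := d1 hhit'
  refine line_bound F hβ0 hβ1 hC0 hMq (L := (K, ε) :: L) List.mem_cons_self hj3 d5 hzw.1 hz
    hA (fun τ hτ => hT τ hτ w _ rfl rfl) hv1 hv2 (fun i hi hg => d2 hv1 hv2 i hi hg) ?_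
  -- `q` is bounded on the first block
  have h7 := d6 (by linarith)
  rw [ae_restrict_iff' measurableSet_Ioc] at h7
  have h8 : ∀ᵐ τ : ℝ, τ ≠ 0 := by simp [ae_iff, measure_singleton]
  filter_upwards [h7, h8] with τ h7 h8 hτ
  have hτ0 : 0 < τ := lt_of_le_of_ne hτ.1 (Ne.symm h8)
  have hτl : τ ≤ dist z w := by linarith [hτ.2, hzw.1]
  have h9 : dist z (ray C z w τ) = τ := Law508.ray_mem_ann C d5 hτ.1 hτl (by linarith)
  have h10 : dist x (ray C z w τ) ≤ 2 * dy m := by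
    have := dist_triangle x z (ray C z w τ)
    have := hτ.2
    linarith
  have h11 := h7 ⟨hτ0, hτl⟩ (by linarith)
  have h12 : dist x (ray C z w τ) ^ 2 ≤ (2 * dy m) ^ 2 := pow_le_pow_left₀ dist_nonneg h10 2
  have h13 : dy m ^ 2 * F.q m (ray C z w τ) ≤ dy m ^ 2 * (5 * c.B1 1) := by
    refine h11.trans ?_
    calc c.B1 1 * (dist x (ray C z w τ) ^ 2 + dy m ^ 2)
        ≤ c.B1 1 * ((2 * dy m) ^ 2 + dy m ^ 2) := by gcongr
      _ = _ := by ring
  have h14 := le_of_mul_le_mul_left h13 (by positivity)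
  linarith

end Crest.Agent.R247.FarAsm196
end
end

-- ▼ part R247/Num6_824
section

/-!
# R247, block (1-N): `tail_D` in the literal form of `FarConcl`
-/

open MeasureTheory Finset
open scoped ENNReal

namespace Crest.Agent.R247.Num824

open Crest.Agent.R247.Far553

lemma tsum_tail_anti {p : ℕ → ℝ} (hp : ∀ j, 0 ≤ p j) (hs : Summable p) {a a' : ℕ} (h : a ≤ a') :
    ∑' j, p (a' + j) ≤ ∑' j, p (a + j) := by
  have h1 : ∀ a, Summable fun j => p (a + j) := fun a => by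
    simpa [add_comm] using (summable_nat_add_iff (f := p) a).2 hs
  obtain ⟨k, rfl⟩ := Nat.exists_eq_add_of_le h
  have h2 : ∑' j, p (a + j) = ∑ i ∈ range k, p (a + i) + ∑' j, p (a + (j + k)) :=
    ((h1 a).sum_add_tsum_nat_add k).symm
  rw [h2]
  have h3 : ∑' j, p (a + k + j) = ∑' j, p (a + (j + k)) := by
    congr 1
    funext j
    congr 1
    ring
  rw [h3]
  exact le_add_of_nonneg_left (sum_nonneg fun i _ => hp _)

/-- **Summation of the errors in the literal form of `FarConcl`.** `m`, `A` depend on `b`, `c`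
only; take `J₁ := m * j₁`. -/
theorem tail_D' {b c : ℝ} (hb : 0 < b) (hc : 0 < c) (hc1 : c ≤ 1) :
    ∃ m : ℕ, 2 ≤ m ∧ ∃ A > (0 : ℝ), ∀ (A1 K0 : ℝ), 0 ≤ A1 → 0 ≤ K0 →
      ∀ {Ω : Type*} [MeasurableSpace Ω] (P : Measure Ω) [IsFiniteMeasure P] (Bd : ℕ → Set Ω),
      (∀ j, MeasurableSet (Bd j)) → (∀ i < 4, Bd i = ∅) →
      ∀ ph : ℕ → ℝ, (∀ i, 0 ≤ ph i) → Summable ph →
      (∀ i, 4 ≤ i → P (Bd i) ≤ ENNReal.ofReal (K0 * ph i)) →
      ∀ D : ℕ → ℝ, (∀ j, 0 ≤ D j) →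
      (∀ j, 4 ≤ j → D j ≤ A1 * (∑ i ∈ Ico 4 (j + 1), (2 : ℝ) ^ (-(b * ((j : ℝ) - i))) * ph i +
        P.real {w | Hit c (fun i => w ∈ Bd i) j} + dy j ^ b)) →
      Summable D ∧ ∀ j₁, 4 ≤ j₁ → ∀ J, m * j₁ ≤ J → ∑' j, D (J + j) ≤
        A * A1 * (1 + K0) * (∑' j, ph (j₁ + j) +
          dy (J - j₁) ^ (b / 2) * (1 + ∑' j, ph (4 + j))) := by
  obtain ⟨m, hm, A, hA, H⟩ := tail_D hb hc hc1
  refine ⟨m, hm, A, hA, ?_⟩
  intro A1 K0 hA1 hK0 Ω _ P _ Bd hBd hB4 ph hph hs hK D hD0 hD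
  obtain ⟨h1, h2⟩ := H A1 K0 hA1 hK0 P Bd hBd hB4 ph hph hs hK D hD0 hD
  refine ⟨h1, fun j₁ hj₁ J hJ => ?_⟩
  have hJ4 : 4 * m ≤ J := by
    calc 4 * m = m * 4 := mul_comm _ _
      _ ≤ m * j₁ := Nat.mul_le_mul_left m hj₁
      _ ≤ J := hJ
  refine (h2 J hJ4).trans ?_
  have h3 : j₁ ≤ J / m := by
    rw [Nat.le_div_iff_mul_le (by omega)]
    rw [mul_comm]
    exact hJ
  have h4 := tsum_tail_anti hph hs h3
  have h5 : ((1 / 2 : ℝ) ^ J) ^ (b / 2) ≤ dy (J - j₁) ^ (b / 2) := by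
    apply Real.rpow_le_rpow (by positivity) _ (by positivity)
    exact dy_anti (Nat.sub_le _ _)
  have h6 : 0 ≤ ∑' j, ph (4 + j) := tsum_nonneg fun j => hph _
  gcongr

end Crest.Agent.R247.Num824
end

-- ▼ part R247/Fin1_508
section

/-!
# Assembly of block (1), averaging, part 1 (helper508)

Measurability and measure of the bad rays, identification of the radial derivative.
-/

set_option autoImplicit false
set_option linter.unusedSectionVars false
open MeasureTheory Set Filter Topology Metric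
open scoped ENNReal NNReal

noncomputable section
namespace Crest.Agent.R247.Fin508

open Crest.Agent.R247.Mcp688 Crest.Agent.R247.Far553 Crest.Agent.R247.FarAsm196

variable {n : ℕ} {κ : ℝ} {X : Type*} [MetricSpace X] [MeasurableSpace X] [BorelSpace X]
  {μ : Measure X} {c : FarK} {C : Rad n κ X μ} {x : X} {δ : ℝ} {ph : ℕ → ℝ}

/-! ### the bad rays -/

lemma BdS_nil (F : FarD c C x δ ph) (i : ℕ) : BdS F [] i = ∅ := by
  ext v
  simp [BdS]

lemma BdS_cons (F : FarD c C x δ ph) (q : ℝ × ℝ) (L : List (ℝ × ℝ)) (i : ℕ) :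
    BdS F (q :: L) i = ({v | 4 ≤ i ∧ 1 ≤ dist x v ∧ dist x v < 12} ∩
      {v | bad C x (fun k z => F.H k z + F.g k z) q.1 q.2 i v}) ∪ BdS F L i := by
  ext v
  simp only [BdS, List.mem_cons, mem_ofPred_eq, mem_union, mem_inter_iff, exists_eq_or_imp]
  tauto

lemma BdS_lt (F : FarD c C x δ ph) (L : List (ℝ × ℝ)) {i : ℕ} (hi : i < 4) :
    BdS F L i = ∅ := by
  ext v
  simp only [BdS, mem_ofPred_eq, mem_empty_iff_false, iff_false, not_and]
  intro h
  omega

lemma BdS_subset (F : FarD c C x δ ph) (L : List (ℝ × ℝ)) (i : ℕ) :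
    BdS F L i ⊆ ball x 12 := by
  intro v hv
  rw [mem_ball, dist_comm]
  exact hv.2.2.1

lemma measurableSet_BdS [SecondCountableTopology X] [SFinite μ] (F : FarD c C x δ ph)
    (L : List (ℝ × ℝ)) (i : ℕ) : MeasurableSet (BdS F L i) := by
  induction L with
  | nil => rw [BdS_nil]; exact MeasurableSet.empty
  | cons q L ih =>
    rw [BdS_cons]
    refine MeasurableSet.union (MeasurableSet.inter ?_ ?_) ih
    · by_cases h : 4 ≤ i
      · simp only [h, true_and]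
        have hd : Measurable (fun v : X => dist x v) :=
          (continuous_const.dist continuous_id).measurable
        exact (measurableSet_le measurable_const hd).inter (measurableSet_lt hd measurable_const)
      · simp [h]
    · exact Law508.measurableSet_bad C x (fun k => (F.H_meas k).add (F.g_meas k)) q.1 q.2 i

/-- the constant of the measure of the bad rays -/
def K0 (c : FarK) (L : List (ℝ × ℝ)) : ℝ := (L.map fun q => c.B2 q.1 q.2).sum

lemma K0_nonneg (c : FarK) (L : List (ℝ × ℝ)) : 0 ≤ K0 c L := by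
  unfold K0
  apply List.sum_nonneg
  intro r hr
  rw [List.mem_map] at hr
  obtain ⟨q, _, rfl⟩ := hr
  exact (c.B2_pos _ _).le

lemma measure_BdS_le (F : FarD c C x δ ph) {L : List (ℝ × ℝ)} (hL : Lev L) {i : ℕ} (hi : 4 ≤ i) :
    μ (BdS F L i) ≤ ENNReal.ofReal (K0 c L * ph i) := by
  induction L with
  | nil => rw [BdS_nil]; simp
  | cons q L ih =>
    have hq := hL q (List.mem_cons_self ..)
    have hL' : Lev L := fun q hq => hL q (List.mem_cons_of_mem _ hq)
    have h1 := F.d1b q.1 q.2 hq.1 hq.2 i hi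
    have hph := F.ph_nonneg i
    have hB := c.B2_pos q.1 q.2
    have hK := K0_nonneg c L
    rw [BdS_cons]
    calc μ ({v | 4 ≤ i ∧ 1 ≤ dist x v ∧ dist x v < 12} ∩
          {v | bad C x (fun k z => F.H k z + F.g k z) q.1 q.2 i v} ∪ BdS F L i)
        ≤ μ {v | 1 ≤ dist x v ∧ dist x v < 12 ∧
            bad C x (fun k z => F.H k z + F.g k z) q.1 q.2 i v} + μ (BdS F L i) := by
          refine (measure_union_le _ _).trans (add_le_add_left (measure_mono ?_) _)
          rintro v ⟨⟨_, h2, h3⟩, h4⟩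
          exact ⟨h2, h3, h4⟩
      _ ≤ ENNReal.ofReal (c.B2 q.1 q.2 * ph i) + ENNReal.ofReal (K0 c L * ph i) :=
          add_le_add h1 (ih hL')
      _ = _ := by
          rw [← ENNReal.ofReal_add (by positivity) (by positivity)]
          congr 1
          unfold K0
          rw [List.map_cons, List.sum_cons]
          ring

open Classical in
lemma hit_subset (F : FarD c C x δ ph) (L : List (ℝ × ℝ)) {c1 : ℝ} (hc : 0 < c1) (j : ℕ) :
    {v | Num824.Hit c1 (fun i => v ∈ BdS F L i) j} ⊆ ball x 12 := by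
  intro v hv
  obtain ⟨i, hi, h⟩ := hv
  have h1 : (0 : ℝ) < c1 * ((j : ℝ) + 1 - i) := by
    have : (i : ℝ) ≤ j := by exact_mod_cast hi
    apply mul_pos hc
    linarith
  have h2 : (0 : ℝ) < (((Finset.Ico i (j + 1)).filter fun l => v ∈ BdS F L l).card : ℝ) :=
    h1.trans h
  have h3 : 0 < ((Finset.Ico i (j + 1)).filter fun l => v ∈ BdS F L l).card := by
    exact_mod_cast h2
  obtain ⟨l, hl⟩ := Finset.card_pos.1 h3
  exact BdS_subset F L l (Finset.mem_filter.1 hl).2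

/-! ### the radial derivative -/

/-- the sequence `1 - 1/(k+1)` -/
lemma tendsto_seq : Tendsto (fun k : ℕ => 1 - 1 / ((k : ℝ) + 1)) atTop (𝓝[<] (1 : ℝ)) := by
  rw [tendsto_nhdsWithin_iff]
  constructor
  · have := tendsto_one_div_add_atTop_nhds_zero_nat (𝕜 := ℝ)
    have h2 := this.const_sub (1 : ℝ)
    simpa using h2
  · refine Eventually.of_forall fun k => ?_
    have : (0 : ℝ) < 1 / ((k : ℝ) + 1) := by positivity
    simp only [mem_Iio]
    linarith

lemma tendsto_of_deriv {f : ℝ → ℝ} {A : ℝ} (h : HasDerivWithinAt f A (Iio 1) 1) :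
    Tendsto (fun k : ℕ => slope f 1 (1 - 1 / ((k : ℝ) + 1))) atTop (𝓝 A) := by
  rw [hasDerivWithinAt_iff_tendsto_slope' (by simp)] at h
  exact h.comp tendsto_seq


/-- the radial derivative is bounded by the length -/
lemma abs_deriv_le {z w : X} (hU : (x, z) ∈ C.U) {A : ℝ}
    (h : Tendsto (fun k : ℕ => slope (fun t : ℝ => dist (C.T x t z) w) 1 (1 - 1 / ((k : ℝ) + 1)))
      atTop (𝓝 A)) : |A| ≤ dist x z := by
  have h1 := h.abs
  refine le_of_tendsto h1 (Eventually.of_forall fun k => ?_)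
  have hk : (0 : ℝ) < 1 / ((k : ℝ) + 1) := by positivity
  have hk1 : 1 / ((k : ℝ) + 1) ≤ 1 := by
    rw [div_le_one (by positivity)]
    have : (0 : ℝ) ≤ k := Nat.cast_nonneg k
    linarith
  set t : ℝ := 1 - 1 / ((k : ℝ) + 1) with ht
  have ht1 : t - 1 ≠ 0 := by rw [ht]; linarith
  have hd := C.dist_T x z hU t ⟨by rw [ht]; linarith, by rw [ht]; linarith⟩ 1 (by simp)
  rw [slope_def_field, abs_div, div_le_iff₀ (abs_pos.2 ht1)]
  have h3 := abs_dist_sub_le (C.T x t z) (C.T x 1 z) w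
  rw [hd] at h3
  linarith [h3]

lemma abs_Rw_le {z w : X} {A : ℝ} (h : |A| ≤ dist x z) : |Rw x z w A| ≤ 2 * dist x z := by
  unfold Rw
  have h1 := abs_dist_sub_le z x w
  rw [dist_comm z x] at h1
  have h2 := abs_sub A (dist z w - dist x w)
  linarith

/-- the radial derivatives are given by `Dw` for almost all pairs -/
theorem der_ident [SecondCountableTopology X] [SFinite μ] (C : Rad n κ X μ) (x : X)
    {Dw : X → X → ℝ} (hm : Measurable (Function.uncurry Dw))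
    (hD : ∀ w, RD C x (fun z => dist z w) (fun z => Dw z w)) :
    ∀ᵐ z ∂μ, ∀ᵐ w ∂μ, |Rw x z w (Dw z w)| ≤ 2 * dist x z ∧
      ∀ A, HasDerivWithinAt (fun t : ℝ => dist (C.T x t z) w) A (Iio 1) 1 → A = Dw z w := by
  set f : ℕ → X × X → ℝ := fun k p =>
    slope (fun t : ℝ => dist (C.T x t p.1) p.2) 1 (1 - 1 / ((k : ℝ) + 1)) with hf
  have hfm : ∀ k, Measurable (f k) := by
    intro k
    simp only [hf, slope_def_field]
    exact ((((C.measT_xt x _).comp measurable_fst).dist measurable_snd).sub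
      (((C.measT_xt x _).comp measurable_fst).dist measurable_snd)).div_const _
  have hS : MeasurableSet {p : X × X | Tendsto (fun k => f k p) atTop (𝓝 (Function.uncurry Dw p))} :=
    measurableSet_tendsto_fun hfm hm
  have h1 : ∀ᵐ z ∂μ, ∀ᵐ w ∂μ, Tendsto (fun k => f k (z, w)) atTop (𝓝 (Dw z w)) := by
    rw [Measure.ae_ae_comm (p := fun z w => Tendsto (fun k => f k (z, w)) atTop (𝓝 (Dw z w))) hS]
    refine Eventually.of_forall fun w => ?_
    filter_upwards [hD w] with z hz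
    exact tendsto_of_deriv hz
  filter_upwards [h1, C.ae_U x] with z hz hU
  filter_upwards [hz] with w hw
  exact ⟨abs_Rw_le (abs_deriv_le hU hw), fun A hA => tendsto_nhds_unique (tendsto_of_deriv hA) hw⟩

end Crest.Agent.R247.Fin508
end
end

-- ▼ part R247/Fin2_508
section

/-!
# Assembly of block (1), averaging, part 2 (helper508)

The slice estimate: the integral over `w` for fixed `z`.
-/

set_option autoImplicit false
set_option linter.unusedSectionVars false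
open MeasureTheory Set Filter Topology Metric
open scoped ENNReal NNReal

noncomputable section
namespace Crest.Agent.R247.Fin508

open Crest.Agent.R247.Mcp688 Crest.Agent.R247.Far553 Crest.Agent.R247.FarAsm196

/-- the exponentially weighted sum of the `ph i` -/
def SJ (b : ℝ) (ph : ℕ → ℝ) (j : ℕ) : ℝ :=
  ∑ i ∈ Finset.Ico 4 (j + 1), (2 : ℝ) ^ (-(b * ((j : ℝ) - i))) * ph i

lemma SJ_nonneg (b : ℝ) {ph : ℕ → ℝ} (hph : ∀ i, 0 ≤ ph i) (j : ℕ) : 0 ≤ SJ b ph j := by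
  unfold SJ
  exact Finset.sum_nonneg fun i _ => mul_nonneg (by positivity) (hph i)

lemma SJ_anti {b b' : ℝ} (h : b' ≤ b) {ph : ℕ → ℝ} (hph : ∀ i, 0 ≤ ph i) (j : ℕ) :
    SJ b ph j ≤ SJ b' ph j := by
  unfold SJ
  refine Finset.sum_le_sum fun i hi => ?_
  have h1 : (i : ℝ) ≤ j := by exact_mod_cast Nat.lt_succ_iff.1 (Finset.mem_Ico.1 hi).2
  refine mul_le_mul_of_nonneg_right ?_ (hph i)
  apply Real.rpow_le_rpow_of_exponent_le (by norm_num)
  have : b' * ((j : ℝ) - i) ≤ b * ((j : ℝ) - i) := by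
    apply mul_le_mul_of_nonneg_right h; linarith
  linarith

lemma term_le_SJ {b : ℝ} {ph : ℕ → ℝ} (hph : ∀ i, 0 ≤ ph i) {i j : ℕ} (h4 : 4 ≤ i)
    (hij : i ≤ j) : ph i ≤ (2 : ℝ) ^ (b * ((j : ℝ) - i)) * SJ b ph j := by
  have h1 : (2 : ℝ) ^ (-(b * ((j : ℝ) - i))) * ph i ≤ SJ b ph j := by
    unfold SJ
    exact Finset.single_le_sum (f := fun i : ℕ => (2 : ℝ) ^ (-(b * ((j : ℝ) - i))) * ph i)
      (fun i _ => mul_nonneg (by positivity) (hph i)) (Finset.mem_Ico.2 ⟨h4, by omega⟩)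
  calc ph i = (2 : ℝ) ^ (b * ((j : ℝ) - i)) * ((2 : ℝ) ^ (-(b * ((j : ℝ) - i))) * ph i) := by
        rw [← mul_assoc, ← Real.rpow_add (by norm_num)]
        simp
    _ ≤ _ := by gcongr

/-- summation of the block errors -/
lemma sum_blocks {b B K0 : ℝ} (hb : 0 < b) (hB : 0 ≤ B) (hK : 0 ≤ K0) {ph : ℕ → ℝ}
    (hph : ∀ i, 0 ≤ ph i) {kf : ℕ → ℕ → ℕ} (hkf2 : ∀ i j, i ≤ j → kf i j ≤ j) (j : ℕ) (s : ℝ) :
    ∑ i ∈ Finset.Ico 4 (j + 1), (s ^ 2 * (2 : ℝ) ^ (-(b * ((j : ℝ) - i)))) *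
      (B * (1 + (kf i j - i : ℕ)) * ph i + K0 * ph i) ≤
    s ^ 2 * ((B * Num824.logC b + K0) * SJ (b / 2) ph j) := by
  have hl := Num824.one_le_logC hb
  unfold SJ
  rw [Finset.mul_sum, Finset.mul_sum]
  refine Finset.sum_le_sum fun i hi => ?_
  have hij : i ≤ j := Nat.lt_succ_iff.1 (Finset.mem_Ico.1 hi).2
  have h1 := Num824.logabs hb (j - i)
  rw [Nat.cast_sub hij] at h1
  have h2 : ((kf i j - i : ℕ) : ℝ) ≤ (j : ℝ) - i := by
    rw [← Nat.cast_sub hij]
    exact_mod_cast Nat.sub_le_sub_right (hkf2 i j hij) i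
  have h3 : (2 : ℝ) ^ (-(b * ((j : ℝ) - i))) ≤ (2 : ℝ) ^ (-(b / 2 * ((j : ℝ) - i))) := by
    apply Real.rpow_le_rpow_of_exponent_le (by norm_num)
    have : (0 : ℝ) ≤ (j : ℝ) - i := by
      have : (i : ℝ) ≤ j := by exact_mod_cast hij
      linarith
    nlinarith
  have h0 := hph i
  have hP : (0 : ℝ) < (2 : ℝ) ^ (-(b * ((j : ℝ) - i))) := by positivity
  calc (s ^ 2 * (2 : ℝ) ^ (-(b * ((j : ℝ) - i)))) *
        (B * (1 + (kf i j - i : ℕ)) * ph i + K0 * ph i)
      ≤ (s ^ 2 * (2 : ℝ) ^ (-(b * ((j : ℝ) - i)))) *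
        (B * (1 + ((j : ℝ) - i)) * ph i + K0 * ph i) := by gcongr
    _ = s ^ 2 * (B * ((1 + ((j : ℝ) - i)) * (2 : ℝ) ^ (-(b * ((j : ℝ) - i)))) * ph i +
        K0 * (2 : ℝ) ^ (-(b * ((j : ℝ) - i))) * ph i) := by ring
    _ ≤ s ^ 2 * (B * (Num824.logC b * (2 : ℝ) ^ (-(b / 2 * ((j : ℝ) - i)))) * ph i +
        K0 * (2 : ℝ) ^ (-(b / 2 * ((j : ℝ) - i))) * ph i) := by gcongr
    _ = _ := by ring

variable {n : ℕ} {κ : ℝ} {X : Type*} [MetricSpace X] [MeasurableSpace X] [BorelSpace X]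
  {μ : Measure X} {c : FarK} {C : Rad n κ X μ} {x : X} {δ : ℝ} {ph : ℕ → ℝ}

/-- the hit set at scale `j` -/
def Ht (F : FarD c C x δ ph) (L : List (ℝ × ℝ)) (c1 : ℝ) (j : ℕ) : Set X :=
  {v | Num824.Hit c1 (fun i => v ∈ BdS F L i) j}

variable [SecondCountableTopology X] [SFinite μ]

lemma meas_Blk_w (F : FarD c C x δ ph) (i k : ℕ) (K cN : ℝ) (z : X) :
    Measurable fun w => Blk F i k K cN z w := by
  have h := measurable_Blk F i k K cN
  generalize Blk F i k K cN = f at h ⊢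
  exact h.comp (measurable_const.prodMk measurable_id)

lemma meas_Blk_T (F : FarD c C x δ ph) (i k : ℕ) (K cN : ℝ) (z : X) (lam : ℝ) :
    Measurable fun v => Blk F i k K cN z (C.T x lam v) := by
  have h := meas_Blk_w F i k K cN z
  generalize Blk F i k K cN z = f at h ⊢
  exact h.comp (C.measT_xt x lam)

lemma meas_Fst_w (F : FarD c C x δ ph) (m : ℕ) (z : X) : Measurable fun w => Fst F m z w := by
  have h := measurable_Fst F m
  generalize Fst F m = f at h ⊢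
  exact h.comp (measurable_const.prodMk measurable_id)

lemma meas_Fst_T (F : FarD c C x δ ph) (m : ℕ) (z : X) (lam : ℝ) :
    Measurable fun v => Fst F m z (C.T x lam v) := by
  have h := meas_Fst_w F m z
  generalize Fst F m z = f at h ⊢
  exact h.comp (C.measT_xt x lam)

lemma meas_BdS_ind (F : FarD c C x δ ph) (L : List (ℝ × ℝ)) (i : ℕ)  :
    Measurable fun v => ((BdS F L i).indicator (fun _ => (1 : ℝ≥0∞)) v) :=
  measurable_const.indicator (measurableSet_BdS F L i)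

/-- block plus indicator -/
def Bi (F : FarD c C x δ ph) (L : List (ℝ × ℝ)) (i k : ℕ) (K cN : ℝ) (z w v : X) : ℝ≥0∞ :=
  Blk F i k K cN z w + (BdS F L i).indicator (fun _ => 1) v

lemma meas_Bi (F : FarD c C x δ ph) (L : List (ℝ × ℝ)) (i k : ℕ) (K cN : ℝ) (z : X) (lam : ℝ) :
    Measurable fun v => Bi F L i k K cN z (C.T x lam v) v := by
  unfold Bi
  exact (meas_Blk_T F i k K cN z lam).add (meas_BdS_ind F L i)

/-- one block -/
lemma blk_one (hκ : 0 ≤ κ) (hκ1 : κ ≤ 1) (F : FarD c C x δ ph)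
    {L : List (ℝ × ℝ)} (hL : Lev L) {K cN : ℝ} (hK : 1 ≤ K) (hcN : 0 < cN) {i k : ℕ}
    (hi : 4 ≤ i) (hik : i ≤ k) {p z : X} (hp : dist p x < 1) (hz : dist x z < 1) {lam : ℝ}
    (hl : lam ∈ Ioc (0 : ℝ) 1) :
    ∫⁻ v, Bi F L i k K cN z (C.T x lam v) v ∂(Law508.Nu C x lam (ann p 4 8)) ≤
      ENNReal.ofReal (26 * CL n * c.B3 K cN * (1 + (k - i : ℕ)) * ph i + K0 c L * ph i) := by
  have hWm : MeasurableSet (ann p 4 8) := FarAsm196.measurableSet_ann p 4 8
  have hph := F.ph_nonneg i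
  have hCL := CL_pos n
  have hB3 := c.B3_pos K cN
  have hK0 := K0_nonneg c L
  have hB := Blk_avg F hκ1 (lawArc C hκ) hp hz hi hik hK hcN
  have hBw := meas_Blk_w F i k K cN z
  have hBT := meas_Blk_T F i k K cN z lam
  unfold Bi
  rw [lintegral_add_left hBT, lintegral_indicator (measurableSet_BdS F L i), setLIntegral_const,
    one_mul, ENNReal.ofReal_add (by positivity) (by positivity)]
  refine add_le_add ?_ ?_
  · generalize Blk F i k K cN z = f at hB hBw ⊢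
    exact (Law508.lintegral_Nu_le C hκ x hl hWm hBw).trans hB
  · exact (Law508.Nu_le C hκ x hl _ _).trans (measure_BdS_le F hL hi)

/-- the sum of the blocks -/
def BlkS (F : FarD c C x δ ph) (L : List (ℝ × ℝ)) (kf : ℕ → ℕ → ℕ) (b K cN : ℝ) (j : ℕ)
    (z w v : X) : ℝ≥0∞ :=
  ∑ i ∈ Finset.Ico 4 (j + 1), ENNReal.ofReal (dy j ^ 2 * (2 : ℝ) ^ (-(b * ((j : ℝ) - i)))) *
    Bi F L i (kf i j) K cN z w v

lemma meas_BlkS (F : FarD c C x δ ph) (L : List (ℝ × ℝ)) (kf : ℕ → ℕ → ℕ) (b K cN : ℝ)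
    (j : ℕ) (z : X) (lam : ℝ) :
    Measurable fun v => BlkS F L kf b K cN j z (C.T x lam v) v := by
  unfold BlkS
  exact Finset.measurable_sum _ fun i _ => (meas_Bi F L i (kf i j) K cN z lam).const_mul _

lemma BlkS_avg (hκ : 0 ≤ κ) (hκ1 : κ ≤ 1) (F : FarD c C x δ ph)
    {L : List (ℝ × ℝ)} (hL : Lev L) {kf : ℕ → ℕ → ℕ} (hkf1 : ∀ i j, i ≤ kf i j)
    (hkf2 : ∀ i j, i ≤ j → kf i j ≤ j) {b K cN : ℝ} (hb : 0 < b) (hK : 1 ≤ K) (hcN : 0 < cN)
    (j : ℕ) {p z : X} (hp : dist p x < 1) (hz : dist x z < 1) {lam : ℝ}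
    (hl : lam ∈ Ioc (0 : ℝ) 1) :
    ∫⁻ v, BlkS F L kf b K cN j z (C.T x lam v) v ∂(Law508.Nu C x lam (ann p 4 8)) ≤
      ENNReal.ofReal (dy j ^ 2 * ((26 * CL n * c.B3 K cN * Num824.logC b + K0 c L) *
        SJ (b / 2) ph j)) := by
  have hph := F.ph_nonneg
  have hCL := CL_pos n
  have hB3 := c.B3_pos K cN
  have hK0 := K0_nonneg c L
  have hdj := dy_pos j
  refine le_trans ?_ (ENNReal.ofReal_le_ofReal (sum_blocks hb
    (by positivity : (0 : ℝ) ≤ 26 * CL n * c.B3 K cN) hK0 hph hkf2 j (dy j)))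
  rw [ENNReal.ofReal_sum_of_nonneg (fun i _ => by
    have := hph i
    positivity)]
  unfold BlkS
  rw [lintegral_finsetSum _ (fun i _ => (meas_Bi F L i (kf i j) K cN z lam).const_mul _)]
  refine Finset.sum_le_sum fun i hi => ?_
  rw [lintegral_const_mul _ (meas_Bi F L i (kf i j) K cN z lam),
    ENNReal.ofReal_mul (p := dy j ^ 2 * (2 : ℝ) ^ (-(b * ((j : ℝ) - i)))) (by positivity)]
  exact mul_le_mul_right (blk_one hκ hκ1 F hL hK hcN (Finset.mem_Ico.1 hi).1 (hkf1 i j) hp hz hl) _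

/-- integration of the pathwise right-hand side against `Nu` -/
lemma Rhs_avg (hκ : 0 ≤ κ) (hκ1 : κ ≤ 1) (hδ : δ ≤ 1) (F : FarD c C x δ ph)
    {L : List (ℝ × ℝ)} (hL : Lev L) {kf : ℕ → ℕ → ℕ} (hkf1 : ∀ i j, i ≤ kf i j)
    (hkf2 : ∀ i j, i ≤ j → kf i j ≤ j) {b K cN : ℝ} (hb : 0 < b) (hK : 1 ≤ K) (hcN : 0 < cN)
    (m j : ℕ) {p z : X} (hp : dist p x < 1) (hz : dist x z < 1) {lam : ℝ}
    (hl : lam ∈ Ioc (0 : ℝ) 1) :
    ∫⁻ v, (Fst F m z (C.T x lam v) + BlkS F L kf b K cN j z (C.T x lam v) v +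
        ENNReal.ofReal (dy j ^ 2 * dy j ^ b)) ∂(Law508.Nu C x lam (ann p 4 8)) ≤
      ∫⁻ w in ann p 4 8, Fst F m z w ∂μ +
      ENNReal.ofReal (dy j ^ 2 * ((26 * CL n * c.B3 K cN * Num824.logC b + K0 c L) *
        SJ (b / 2) ph j) + dy j ^ 2 * dy j ^ b * CW n c) := by
  have hWm : MeasurableSet (ann p 4 8) := FarAsm196.measurableSet_ann p 4 8
  have hFm := meas_Fst_T F m z lam
  have hFw := meas_Fst_w F m z
  have hph := F.ph_nonneg
  have hCL := CL_pos n
  have hB3 := c.B3_pos K cN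
  have hK0 := K0_nonneg c L
  have hCW := CW_pos n c
  have hdj := dy_pos j
  have hlog := Num824.one_le_logC hb
  have hSJ := SJ_nonneg (b / 2) hph j
  have hS := BlkS_avg hκ hκ1 F hL hkf1 hkf2 hb hK hcN j hp hz hl
  have hU : Law508.Nu C x lam (ann p 4 8) univ ≤ ENNReal.ofReal (CW n c) :=
    (Law508.Nu_univ_le C hκ x hl hWm).trans (ann_le F hδ hp)
  generalize Fst F m z = f at hFm hFw ⊢
  generalize BlkS F L kf b K cN j z = g at hS ⊢
  rw [lintegral_add_right _ measurable_const, lintegral_add_left hFm, lintegral_const]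
  have hF : ∫⁻ v, f (C.T x lam v) ∂(Law508.Nu C x lam (ann p 4 8)) ≤
      ∫⁻ w in ann p 4 8, f w ∂μ := Law508.lintegral_Nu_le C hκ x hl hWm hFw
  refine (add_le_add (add_le_add hF hS) (mul_le_mul_right hU _)).trans ?_
  rw [ENNReal.ofReal_add (by positivity) (by positivity), ENNReal.ofReal_mul
    (q := CW n c) (by positivity), add_assoc]

end Crest.Agent.R247.Fin508
end
end

-- ▼ part R247/Fin3_508

/-!
# Assembly of block (1), averaging, part 3 (helper508)

`farConcl_of_path : PathP n c → FarConcl n c`.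
-/

set_option autoImplicit false
set_option linter.unusedSectionVars false
open MeasureTheory Set Filter Topology Metric
open scoped ENNReal NNReal

noncomputable section
namespace Crest.Agent.R247.Fin508

universe u

open Crest.Agent.R247.Mcp688 Crest.Agent.R247.Far553 Crest.Agent.R247.FarAsm196

section slice
variable {n : ℕ} {κ : ℝ} {X : Type*} [MetricSpace X] [MeasurableSpace X] [BorelSpace X]
  {μ : Measure X} {c : FarK} {C : Rad n κ X μ} {x : X} {δ : ℝ} {ph : ℕ → ℝ}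

lemma lamj_mem (a : ℝ) (j : ℕ) : lamj a j ∈ Ioc (0 : ℝ) 1 := by
  have h := dy_pos j
  have h2 : 0 < dy j ^ a := Real.rpow_pos_of_pos h a
  unfold lamj
  exact ⟨by positivity, by rw [div_le_one (by positivity)]; linarith⟩

lemma ball_le (F : FarD c C x δ ph) (hδ : δ ≤ 1) {r : ℝ} (h0 : 0 < r) (hr : r ≤ 20) :
    μ (ball x r) ≤ ENNReal.ofReal (2 * c.ω * r ^ n) := by
  have hω := c.ω_pos
  refine (F.vol_le x r (by simp) h0 hr).trans (ENNReal.ofReal_le_ofReal ?_)
  gcongr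
  linarith

lemma ball9_le (F : FarD c C x δ ph) (hδ : δ ≤ 1) {p : X} (hp : dist p x < 1) :
    μ (ball p 9) ≤ ENNReal.ofReal (CW n c) := by
  refine (measure_mono (?_ : ball p 9 ⊆ ball x 10)).trans ?_
  · intro w hw
    rw [mem_ball] at hw ⊢
    have := dist_triangle w p x
    linarith
  · exact ball_le F hδ (by norm_num) (by norm_num)

lemma Ht_eq (F : FarD c C x δ ph) (hδ : δ ≤ 1) (L : List (ℝ × ℝ)) {c1 : ℝ} (hc : 0 < c1)
    (j : ℕ) : μ (Ht F L c1 j) = ENNReal.ofReal ((μ.restrict (ball x 12)).real (Ht F L c1 j)) := by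
  have hfin : μ (ball x 12) ≠ ∞ :=
    ne_top_of_le_ne_top ENNReal.ofReal_ne_top (ball_le F hδ (by norm_num) (by norm_num))
  have hs : Ht F L c1 j ⊆ ball x 12 := hit_subset F L hc j
  rw [Measure.real, Measure.restrict_apply' measurableSet_ball,
    inter_eq_left.2 hs, ENNReal.ofReal_toReal]
  exact ne_top_of_le_ne_top hfin (measure_mono hs)

variable [SecondCountableTopology X] [SFinite μ]

/-- **slice estimate**: the average over `w ∈ W` for fixed `z`. -/
theorem slice (hκ : 0 ≤ κ) (hκ1 : κ ≤ 1) (hδ : δ ≤ 1) (F : FarD c C x δ ph)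
    {L : List (ℝ × ℝ)} (hL : Lev L) {kf : ℕ → ℕ → ℕ} (hkf1 : ∀ i j, i ≤ kf i j)
    (hkf2 : ∀ i j, i ≤ j → kf i j ≤ j) {a b c1 Cp K cN : ℝ} (hb : 0 < b)
    (hc1 : 0 < c1) (hCp : 0 < Cp) (hK : 1 ≤ K) (hcN : 0 < cN) (m j : ℕ)
    (hθ : dy j ^ a ≤ 1 / 20) {p z : X} (hp : dist p x < 1) (hz : dist x z < dy j)
    {Dw : X → ℝ} (hDw : Measurable Dw) (h1 : ∀ᵐ w ∂μ, |Rw x z w (Dw w)| ≤ 2 * dist x z)
    (h2 : ∀ᵐ v ∂(Law508.Nu C x (lamj a j) (ann p 4 8)), v ∉ Ht F L c1 j →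
      ENNReal.ofReal (Rw x z (C.T x (lamj a j) v) (Dw (C.T x (lamj a j) v)) ^ 2) ≤
        ENNReal.ofReal Cp * (Fst F m z (C.T x (lamj a j) v) +
          BlkS F L kf b K cN j z (C.T x (lamj a j) v) v +
          ENNReal.ofReal (dy j ^ 2 * dy j ^ b))) :
    ∫⁻ w in ann p 4 8, ENNReal.ofReal (Rw x z w (Dw w) ^ 2) ∂μ ≤
      ENNReal.ofReal (Real.exp 50) * (ENNReal.ofReal Cp * ∫⁻ w in ann p 4 8, Fst F m z w ∂μ +
        ENNReal.ofReal (dy j ^ 2 * (4 * (μ.restrict (ball x 12)).real (Ht F L c1 j) +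
          4 * (Law508.Cdef n 1 * dy j ^ a) * CW n c +
          Cp * ((26 * CL n * c.B3 K cN * Num824.logC b + K0 c L) * SJ (b / 2) ph j +
            dy j ^ b * CW n c)))) := by
  have hdj := dy_pos j
  have hdj1 := dy_le_one j
  have hθ0 : 0 < dy j ^ a := Real.rpow_pos_of_pos hdj a
  have hl := lamj_mem a j
  have hCL := CL_pos n
  have hB3 := c.B3_pos K cN
  have hK0 := K0_nonneg c L
  have hCW := CW_pos n c
  have hlog := Num824.one_le_logC hb
  have hSJ := SJ_nonneg (b / 2) F.ph_nonneg j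
  have hCd := Law508.Cdef_pos n 1
  set M : ℝ≥0∞ := ENNReal.ofReal (4 * dy j ^ 2) with hM
  set f : X → ℝ≥0∞ := fun w => min (ENNReal.ofReal (Rw x z w (Dw w) ^ 2)) M with hf
  have hRm : Measurable fun w => Rw x z w (Dw w) := by
    unfold Rw
    exact hDw.sub ((measurable_const.dist measurable_id).sub (measurable_const.dist measurable_id))
  have hfm : Measurable f := (hRm.pow_const 2).ennreal_ofReal.min measurable_const
  have hfM : ∀ w, f w ≤ M := fun w => min_le_right _ _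
  have s1 : ∫⁻ w in ann p 4 8, ENNReal.ofReal (Rw x z w (Dw w) ^ 2) ∂μ ≤
      ∫⁻ w in ann p 4 8, f w ∂μ := by
    apply lintegral_mono_ae
    filter_upwards [ae_restrict_of_ae h1] with w hw
    apply le_min le_rfl
    apply ENNReal.ofReal_le_ofReal
    have h3 : |Rw x z w (Dw w)| ≤ 2 * dy j := by linarith
    calc Rw x z w (Dw w) ^ 2 = |Rw x z w (Dw w)| ^ 2 := (sq_abs _).symm
      _ ≤ (2 * dy j) ^ 2 := by gcongr
      _ = 4 * dy j ^ 2 := by ring
  have hfin : μ (ball p 9) ≠ ∞ := ne_top_of_le_ne_top ENNReal.ofReal_ne_top (ball9_le F hδ hp)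
  have s2 := Law508.avg_le C hκ x p hp.le hθ0 hθ hfin hfm (M := M) (fun w _ => hfM w)
  have hlam : 1 / (1 + dy j ^ a) = lamj a j := rfl
  rw [hlam] at s2
  -- the integral over the end points
  have hHm : MeasurableSet (Ht F L c1 j) :=
    Num824.measurableSet_hit (fun i => measurableSet_BdS F L i) j
  have hmR : Measurable fun v => (Fst F m z (C.T x (lamj a j) v) +
      BlkS F L kf b K cN j z (C.T x (lamj a j) v) v + ENNReal.ofReal (dy j ^ 2 * dy j ^ b)) :=
    ((meas_Fst_T F m z _).add (meas_BlkS F L kf b K cN j z _)).add measurable_const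
  have s3 : ∫⁻ v, f (C.T x (lamj a j) v) ∂(Law508.Nu C x (lamj a j) (ann p 4 8)) ≤
      M * μ (Ht F L c1 j) + ENNReal.ofReal Cp * (∫⁻ w in ann p 4 8, Fst F m z w ∂μ +
      ENNReal.ofReal (dy j ^ 2 * ((26 * CL n * c.B3 K cN * Num824.logC b + K0 c L) *
        SJ (b / 2) ph j) + dy j ^ 2 * dy j ^ b * CW n c)) := by
    have hR := Rhs_avg hκ hκ1 hδ F hL hkf1 hkf2 hb hK hcN m j hp (by linarith : dist x z < 1) hl
    calc ∫⁻ v, f (C.T x (lamj a j) v) ∂(Law508.Nu C x (lamj a j) (ann p 4 8))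
        ≤ ∫⁻ v, ((Ht F L c1 j).indicator (fun _ => M) v + ENNReal.ofReal Cp *
            (Fst F m z (C.T x (lamj a j) v) + BlkS F L kf b K cN j z (C.T x (lamj a j) v) v +
              ENNReal.ofReal (dy j ^ 2 * dy j ^ b))) ∂(Law508.Nu C x (lamj a j) (ann p 4 8)) := by
          apply lintegral_mono_ae
          filter_upwards [h2] with v hv
          by_cases hH : v ∈ Ht F L c1 j
          · rw [indicator_of_mem hH]
            exact (hfM _).trans le_self_add
          · rw [indicator_of_notMem hH, zero_add]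
            exact (min_le_left _ _).trans (hv hH)
      _ = M * Law508.Nu C x (lamj a j) (ann p 4 8) (Ht F L c1 j) + ENNReal.ofReal Cp *
            ∫⁻ v, (Fst F m z (C.T x (lamj a j) v) + BlkS F L kf b K cN j z (C.T x (lamj a j) v) v +
              ENNReal.ofReal (dy j ^ 2 * dy j ^ b)) ∂(Law508.Nu C x (lamj a j) (ann p 4 8)) := by
          rw [lintegral_add_left (measurable_const.indicator hHm), lintegral_const_mul _ hmR,
            lintegral_indicator hHm, setLIntegral_const]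
      _ ≤ _ := add_le_add (mul_le_mul_right (Law508.Nu_le C hκ x hl _ _) _)
          (mul_le_mul_right hR _)
  have hexp : ENNReal.ofReal (Real.exp (κ * 81 / 2)) ≤ ENNReal.ofReal (Real.exp 50) := by
    apply ENNReal.ofReal_le_ofReal
    apply Real.exp_le_exp.2
    linarith
  have hCdκ : Law508.Cdef n κ ≤ Law508.Cdef n 1 := by
    unfold Law508.Cdef
    gcongr
  refine s1.trans (s2.trans (mul_le_mul' hexp ?_))
  rw [Ht_eq F hδ L hc1 j] at s3
  set h : ℝ := (μ.restrict (ball x 12)).real (Ht F L c1 j) with hh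
  have hh0 : 0 ≤ h := measureReal_nonneg
  have s4 : M * (ENNReal.ofReal (Law508.Cdef n κ * dy j ^ a) * μ (ball p 9)) ≤
      ENNReal.ofReal (4 * dy j ^ 2 * (Law508.Cdef n 1 * dy j ^ a * CW n c)) := by
    rw [hM, ENNReal.ofReal_mul (p := 4 * dy j ^ 2) (by positivity),
      ENNReal.ofReal_mul (p := Law508.Cdef n 1 * dy j ^ a) (by positivity)]
    refine mul_le_mul_right (mul_le_mul' (ENNReal.ofReal_le_ofReal ?_) (ball9_le F hδ hp)) _
    gcongr
  refine (add_le_add s3 s4).trans ?_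
  rw [hM, ← ENNReal.ofReal_mul (by positivity), mul_add (ENNReal.ofReal Cp),
    ← ENNReal.ofReal_mul hCp.le]
  generalize hI : ENNReal.ofReal Cp * ∫⁻ w in ann p 4 8, Fst F m z w ∂μ = I
  calc ENNReal.ofReal (4 * dy j ^ 2 * h) + (I + ENNReal.ofReal (Cp * (dy j ^ 2 *
          ((26 * CL n * c.B3 K cN * Num824.logC b + K0 c L) * SJ (b / 2) ph j) +
            dy j ^ 2 * dy j ^ b * CW n c))) +
        ENNReal.ofReal (4 * dy j ^ 2 * (Law508.Cdef n 1 * dy j ^ a * CW n c))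
      = I + (ENNReal.ofReal (4 * dy j ^ 2 * h) + ENNReal.ofReal (Cp * (dy j ^ 2 *
          ((26 * CL n * c.B3 K cN * Num824.logC b + K0 c L) * SJ (b / 2) ph j) +
            dy j ^ 2 * dy j ^ b * CW n c)) +
        ENNReal.ofReal (4 * dy j ^ 2 * (Law508.Cdef n 1 * dy j ^ a * CW n c))) := by ring
    _ = _ := by
        rw [← ENNReal.ofReal_add (by positivity) (by positivity),
          ← ENNReal.ofReal_add (by positivity) (by positivity)]
        congr 2
        ring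
    _ ≤ _ := le_rfl

/-- the final constant -/
def Afin (n : ℕ) (c : FarK) (L : List (ℝ × ℝ)) (b b' Cp K cN : ℝ) (j0 : ℕ) : ℝ :=
  Real.exp 50 * (Cp * CF n c * 2 ^ (b' * j0) * (2 ^ j0) ^ (n + 2) +
    2 * c.ω * (4 + 4 * Law508.Cdef n 1 * CW n c +
      Cp * (26 * CL n * c.B3 K cN * Num824.logC b + K0 c L) + Cp * CW n c))

lemma Afin_pos (n : ℕ) (c : FarK) (L : List (ℝ × ℝ)) {b b' Cp K cN : ℝ} (hb : 0 < b)
    (hCp : 0 < Cp) (j0 : ℕ) : 0 < Afin n c L b b' Cp K cN j0 := by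
  have hCL := CL_pos n
  have hB3 := c.B3_pos K cN
  have hK0 := K0_nonneg c L
  have hCW := CW_pos n c
  have hlog := Num824.one_le_logC hb
  have hCd := Law508.Cdef_pos n 1
  have hω := c.ω_pos
  have hCF := CF_pos n c
  unfold Afin
  positivity

lemma dy_add (m j0 : ℕ) : dy m = 2 ^ j0 * dy (m + j0) := by
  unfold dy
  rw [pow_add, one_div, inv_pow, inv_pow]
  field_simp

/-- the real-number arithmetic of the averaging -/
lemma arith {E Cp CFc P T2 B CWc Cd ω2 ph S S' h θ e e' s sn sm smn : ℝ}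
    (hE : 0 ≤ E) (hCp : 0 ≤ Cp) (hCF : 0 ≤ CFc) (hP : 0 ≤ P) (hT : 0 ≤ T2) (hB : 0 ≤ B)
    (hCW : 0 ≤ CWc) (hCd : 0 ≤ Cd) (hω : 0 ≤ ω2) (hS : 0 ≤ S) (hh : 0 ≤ h)
    (he' : 0 ≤ e') (hs : 0 ≤ s) (hsn : 0 ≤ sn) (hSS : S' ≤ S) (hθe : θ ≤ e') (hee : e ≤ e')
    (hph : ph ≤ P * S) (hsm : sm * smn = T2 * (s * sn)) :
    E * (Cp * (CFc * ph * sm * smn) + s * (4 * h + 4 * (Cd * θ) * CWc +
      Cp * (B * S' + e * CWc)) * (ω2 * sn)) ≤
    E * (Cp * CFc * P * T2 + ω2 * (4 + 4 * Cd * CWc + Cp * B + Cp * CWc)) *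
      (S + h + e') * s * sn := by
  have h1 : Cp * (CFc * ph * sm * smn) ≤ Cp * CFc * P * T2 * (S + h + e') * (s * sn) := by
    calc Cp * (CFc * ph * sm * smn) = Cp * CFc * ph * (sm * smn) := by ring
      _ = Cp * CFc * ph * (T2 * (s * sn)) := by rw [hsm]
      _ ≤ Cp * CFc * (P * S) * (T2 * (s * sn)) := by gcongr
      _ ≤ Cp * CFc * (P * (S + h + e')) * (T2 * (s * sn)) := by
          gcongr
          linarith
      _ = _ := by ring
  have h2 : s * (4 * h + 4 * (Cd * θ) * CWc + Cp * (B * S' + e * CWc)) * (ω2 * sn) ≤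
      ω2 * (4 + 4 * Cd * CWc + Cp * B + Cp * CWc) * (S + h + e') * (s * sn) := by
    have h3 : 4 * h + 4 * (Cd * θ) * CWc + Cp * (B * S' + e * CWc) ≤
        (4 + 4 * Cd * CWc + Cp * B + Cp * CWc) * (S + h + e') := by
      calc 4 * h + 4 * (Cd * θ) * CWc + Cp * (B * S' + e * CWc)
          ≤ 4 * (S + h + e') + 4 * (Cd * (S + h + e')) * CWc +
            Cp * (B * (S + h + e') + (S + h + e') * CWc) := by
            gcongr <;> linarith
        _ = _ := by ring
    calc s * (4 * h + 4 * (Cd * θ) * CWc + Cp * (B * S' + e * CWc)) * (ω2 * sn)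
        ≤ s * ((4 + 4 * Cd * CWc + Cp * B + Cp * CWc) * (S + h + e')) * (ω2 * sn) := by gcongr
      _ = _ := by ring
  calc E * (Cp * (CFc * ph * sm * smn) + s * (4 * h + 4 * (Cd * θ) * CWc +
        Cp * (B * S' + e * CWc)) * (ω2 * sn))
      ≤ E * (Cp * CFc * P * T2 * (S + h + e') * (s * sn) +
        ω2 * (4 + 4 * Cd * CWc + Cp * B + Cp * CWc) * (S + h + e') * (s * sn)) := by gcongr
    _ = _ := by ring

/-- **averaging**: from the pathwise bound to the integrated bound. -/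
theorem avg_main (hκ : 0 ≤ κ) (hκ1 : κ ≤ 1) (hδ : δ ≤ 1) (F : FarD c C x δ ph)
    {L : List (ℝ × ℝ)} (hL : Lev L) {kf : ℕ → ℕ → ℕ} (hkf1 : ∀ i j, i ≤ kf i j)
    (hkf2 : ∀ i j, i ≤ j → kf i j ≤ j) {a b b' c1 Cp K cN : ℝ} (hb' : 0 < b')
    (hba : b' ≤ a) (hbb : b' ≤ b / 2) (hc1 : 0 < c1) (hCp : 0 < Cp) (hK : 1 ≤ K) (hcN : 0 < cN)
    {m j j0 : ℕ} (hm : m + j0 = j) (hm4 : 4 ≤ m) (hθ : dy j ^ a ≤ 1 / 20) {p : X}
    (hp : dist p x < 1)
    (hpath : ∀ᵐ z ∂μ, dist x z < dy j → ∀ᵐ v ∂(Law508.Nu C x (lamj a j) (ann p 4 8)),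
        ∀ w : X, w = C.T x (lamj a j) v →
        ∃ Dw : ℝ, HasDerivWithinAt (fun t : ℝ => dist (C.T x t z) w) Dw (Iio 1) 1 ∧
          (v ∉ Ht F L c1 j → ENNReal.ofReal (Rw x z w Dw ^ 2) ≤ ENNReal.ofReal Cp *
              (Fst F m z w + BlkS F L kf b K cN j z w v + ENNReal.ofReal (dy j ^ 2 * dy j ^ b))))
    {Dw : X → X → ℝ} (hDm : Measurable (Function.uncurry Dw))
    (hRD : ∀ w, RD C x (fun z => dist z w) (fun z => Dw z w)) :
    ∫⁻ z in ball x (dy j), ∫⁻ w in ann p 4 8, ENNReal.ofReal (Rw x z w (Dw z w) ^ 2) ∂μ ∂μ ≤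
      ENNReal.ofReal (Afin n c L b b' Cp K cN j0 *
        (SJ b' ph j + (μ.restrict (ball x 12)).real (Ht F L c1 j) + dy j ^ b') *
          dy j ^ 2 * dy j ^ n) := by
  have hb : 0 < b := by linarith
  have hdj := dy_pos j
  have hdj1 := dy_le_one j
  have hθ0 : 0 < dy j ^ a := Real.rpow_pos_of_pos hdj a
  have hl := lamj_mem a j
  have hCL := CL_pos n
  have hB3 := c.B3_pos K cN
  have hK0 := K0_nonneg c L
  have hCW := CW_pos n c
  have hlog := Num824.one_le_logC hb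
  have hSJ := SJ_nonneg (b / 2) F.ph_nonneg j
  have hSJ' := SJ_nonneg b' F.ph_nonneg j
  have hCd := Law508.Cdef_pos n 1
  have hω := c.ω_pos
  have hCF := CF_pos n c
  have hWm : MeasurableSet (ann p 4 8) := FarAsm196.measurableSet_ann p 4 8
  set h : ℝ := (μ.restrict (ball x 12)).real (Ht F L c1 j) with hh
  have hh0 : 0 ≤ h := measureReal_nonneg
  set Q : ℝ := 4 * h + 4 * (Law508.Cdef n 1 * dy j ^ a) * CW n c +
    Cp * ((26 * CL n * c.B3 K cN * Num824.logC b + K0 c L) * SJ (b / 2) ph j +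
      dy j ^ b * CW n c) with hQ
  have hQ0 : 0 ≤ Q := by positivity
  have hslice : ∀ᵐ z ∂(μ.restrict (ball x (dy j))),
      ∫⁻ w in ann p 4 8, ENNReal.ofReal (Rw x z w (Dw z w) ^ 2) ∂μ ≤
      ENNReal.ofReal (Real.exp 50) * (ENNReal.ofReal Cp * ∫⁻ w in ann p 4 8, Fst F m z w ∂μ +
        ENNReal.ofReal (dy j ^ 2 * Q)) := by
    filter_upwards [ae_restrict_of_ae hpath, ae_restrict_of_ae (der_ident C x hDm hRD),
      ae_restrict_mem measurableSet_ball] with z hz1 hz2 hz3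
    have hz : dist x z < dy j := by rw [dist_comm]; exact mem_ball.1 hz3
    have hDz : Measurable (Dw z) := hDm.comp (measurable_const.prodMk measurable_id)
    refine slice hκ hκ1 hδ F hL hkf1 hkf2 hb hc1 hCp hK hcN m j hθ hp hz hDz
      (hz2.mono fun w hw => hw.1) ?_
    filter_upwards [hz1 hz, Law508.Nu_ae_of_ae C hκ x hl hWm hz2] with v hv1 hv2 hvH
    obtain ⟨D', hD', hbd⟩ := hv1 _ rfl
    rw [← hv2.2 D' hD']
    exact hbd hvH
  have hGm : Measurable fun z => ∫⁻ w in ann p 4 8, Fst F m z w ∂μ := by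
    have := measurable_Fst F m
    generalize Fst F m = f at this ⊢
    exact this.lintegral_prod_right'
  have hGm2 : Measurable fun z => ENNReal.ofReal Cp * ∫⁻ w in ann p 4 8, Fst F m z w ∂μ +
      ENNReal.ofReal (dy j ^ 2 * Q) := (hGm.const_mul _).add measurable_const
  have hF := Fst_avg F hκ1 hδ (lawFirst C hκ) hp hm4 (by omega : m ≤ j)
  have hV := ball_le F hδ hdj (by linarith : dy j ≤ 20)
  calc ∫⁻ z in ball x (dy j), ∫⁻ w in ann p 4 8, ENNReal.ofReal (Rw x z w (Dw z w) ^ 2) ∂μ ∂μ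
      ≤ ∫⁻ z in ball x (dy j), ENNReal.ofReal (Real.exp 50) *
          (ENNReal.ofReal Cp * ∫⁻ w in ann p 4 8, Fst F m z w ∂μ +
            ENNReal.ofReal (dy j ^ 2 * Q)) ∂μ := lintegral_mono_ae hslice
    _ = ENNReal.ofReal (Real.exp 50) * (ENNReal.ofReal Cp *
          ∫⁻ z in ball x (dy j), ∫⁻ w in ann p 4 8, Fst F m z w ∂μ ∂μ +
            ENNReal.ofReal (dy j ^ 2 * Q) * μ (ball x (dy j))) := by
        rw [lintegral_const_mul _ hGm2,
          lintegral_add_right _ measurable_const, lintegral_const_mul _ hGm, setLIntegral_const]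
    _ ≤ ENNReal.ofReal (Real.exp 50) * (ENNReal.ofReal Cp *
          ENNReal.ofReal (CF n c * ph m * dy m ^ 2 * dy m ^ n) +
            ENNReal.ofReal (dy j ^ 2 * Q) * ENNReal.ofReal (2 * c.ω * dy j ^ n)) := by
        gcongr
    _ = ENNReal.ofReal (Real.exp 50 * (Cp * (CF n c * ph m * dy m ^ 2 * dy m ^ n) +
          dy j ^ 2 * Q * (2 * c.ω * dy j ^ n))) := by
        have := F.ph_nonneg m
        have := dy_pos m
        rw [← ENNReal.ofReal_mul hCp.le, ← ENNReal.ofReal_mul (by positivity),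
          ← ENNReal.ofReal_add (by positivity) (by positivity),
          ← ENNReal.ofReal_mul (by positivity)]
    _ ≤ _ := by
        apply ENNReal.ofReal_le_ofReal
        have e1 : dy j ^ a ≤ dy j ^ b' := Real.rpow_le_rpow_of_exponent_ge hdj hdj1 hba
        have e2 : dy j ^ b ≤ dy j ^ b' := Real.rpow_le_rpow_of_exponent_ge hdj hdj1 (by linarith)
        have e3 : SJ (b / 2) ph j ≤ SJ b' ph j := SJ_anti hbb F.ph_nonneg j
        have e4 : ph m ≤ 2 ^ (b' * j0) * SJ b' ph j := by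
          have := term_le_SJ (b := b') F.ph_nonneg hm4 (by omega : m ≤ j)
          have e : (j : ℝ) - m = j0 := by
            rw [← hm]
            push_cast
            ring
          rwa [e] at this
        have e5 : dy m ^ 2 * dy m ^ n = (2 ^ j0) ^ (n + 2) * (dy j ^ 2 * dy j ^ n) := by
          rw [dy_add m j0, hm, ← pow_add, ← pow_add, add_comm 2 n, mul_pow]
        have hP : (0 : ℝ) ≤ 2 ^ (b' * j0) := by positivity
        have hT : (0 : ℝ) ≤ (2 ^ j0) ^ (n + 2) := by positivity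
        exact arith (Real.exp_pos 50).le hCp.le hCF.le hP hT (by positivity) hCW.le hCd.le
          (by positivity) hSJ' hh0 (by positivity) (by positivity) (by positivity) e3 e1 e2 e4 e5

end slice

/-- **The averaging of block (1)**: the pathwise bound gives the conclusion of block (1). -/
theorem farConcl_of_path {n : ℕ} {c : FarK} (h : PathP.{u} n c) : FarConcl.{u} n c := by
  obtain ⟨δ, a, b, c1, Cp, K, cN, L, kf, j0, jm, hδ0, hδ2, ha0, ha1, hb0, hc1, hc11, hCp, hK, hcN,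
    hL, hkf1, hkf2, hjm, hθ, H⟩ := h
  set b' := min (b / 2) a with hb'
  have hb'0 : 0 < b' := lt_min (by positivity) ha0
  obtain ⟨m, hm2, At, hAt, HT⟩ := Num824.tail_D' hb'0 hc1 hc11
  refine ⟨δ, hδ0, max (At * (1 + K0 c L)) (Afin n c L b b' Cp K cN j0),
    lt_max_of_lt_right (Afin_pos n c L hb0 hCp j0), b' / 2, by positivity, jm, by omega, ?_⟩
  intro j₁ hj₁
  refine ⟨m * j₁, by nlinarith, ?_⟩
  intro κ hκ hκδ X _ _ _ _ μ _ C x ph F hs p hp
  have hκ1 : κ ≤ 1 := by linarith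
  have hδ1 : δ ≤ 1 := by linarith
  have : IsFiniteMeasure (μ.restrict (ball x 12)) := ⟨by
    rw [Measure.restrict_apply_univ]
    exact (ball_le F hδ1 (by norm_num) (by norm_num)).trans_lt ENNReal.ofReal_lt_top⟩
  set D : ℕ → ℝ := fun j => SJ b' ph j + (μ.restrict (ball x 12)).real (Ht F L c1 j) + dy j ^ b'
    with hD
  have hD0 : ∀ j, 0 ≤ D j := by
    intro j
    have h1 := SJ_nonneg b' F.ph_nonneg j
    have h2 : 0 ≤ (μ.restrict (ball x 12)).real (Ht F L c1 j) := measureReal_nonneg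
    have h3 : 0 ≤ dy j ^ b' := (Real.rpow_pos_of_pos (dy_pos j) _).le
    simp only [hD]
    positivity
  obtain ⟨hS, hT⟩ := HT 1 (K0 c L) zero_le_one (K0_nonneg c L) (μ.restrict (ball x 12))
    (fun i => BdS F L i) (fun i => measurableSet_BdS F L i) (fun i hi => BdS_lt F L hi) ph
    F.ph_nonneg hs
    (fun i hi => (Measure.restrict_le_self _).trans (measure_BdS_le F hL hi)) D hD0
    (fun j _ => by rw [one_mul]; exact le_rfl)
  refine ⟨D, hD0, hS, ?_, ?_⟩
  · intro J hJ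
    refine (hT j₁ hj₁ J hJ).trans ?_
    rw [mul_one]
    have h1 : 0 ≤ ∑' j, ph (j₁ + j) := tsum_nonneg fun j => F.ph_nonneg _
    have h2 : 0 ≤ ∑' j, ph (4 + j) := tsum_nonneg fun j => F.ph_nonneg _
    have h3 : 0 ≤ dy (J - j₁) ^ (b' / 2) := (Real.rpow_pos_of_pos (dy_pos _) _).le
    exact mul_le_mul_of_nonneg_right (le_max_left _ _) (by positivity)
  · intro j hj Dw hDm hRD
    have h4 := avg_main hκ hκ1 hδ1 F hL hkf1 hkf2 hb'0 (min_le_right _ _) (min_le_left _ _)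
      hc1 hCp hK hcN (m := j - j0) (j := j) (j0 := j0) (by omega) (by omega) (hθ j hj) hp
      (H κ hκ hκδ X μ C x ph F p hp j hj) hDm hRD
    refine h4.trans (ENNReal.ofReal_le_ofReal ?_)
    have h5 := hD0 j
    have h6 := dy_pos j
    have h7 := mul_le_mul_of_nonneg_right (le_max_right (At * (1 + K0 c L))
      (Afin n c L b b' Cp K cN j0)) (by positivity : 0 ≤ D j * dy j ^ 2 * dy j ^ n)
    calc Afin n c L b b' Cp K cN j0 * (SJ b' ph j +
          (μ.restrict (ball x 12)).real (Ht F L c1 j) + dy j ^ b') * dy j ^ 2 * dy j ^ n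
        = Afin n c L b b' Cp K cN j0 * (D j * dy j ^ 2 * dy j ^ n) := by
          simp only [hD]
          ring
      _ ≤ _ := h7
      _ = _ := by ring

end Crest.Agent.R247.Fin508
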