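import Crest.Agent.R202.Ell1

-- ▼ part R202/Ell2
section

/-!
Row 202, interior elliptic regularity, file 2: Young's inequality for `MemLp _ 2`, the mollifiers,
weak derivatives.
(helper912)
-/

set_option autoImplicit false
open scoped ContDiff ENNReal Topology
open MeasureTheory Set Filter
open Crest.GeometryTopology.CoordMetric

namespace Crest.Agent.R202.Ell

noncomputable section

variable {n : ℕ}

theorem sq_lintegral_eLpNorm {g : EE n → ℝ} :
    eLpNorm g 2 volume ^ 2 = ∫⁻ x, ‖g x‖ₑ ^ 2 := by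
  rw [eLpNorm_eq_lintegral_rpow_enorm_toReal (by norm_num) (by norm_num)]
  rw [← ENNReal.rpow_natCast, ← ENNReal.rpow_mul]
  norm_num

/-- Young: `‖K * g‖₂ ≤ ‖K‖₁ ‖g‖₂`, for any function `h` dominated by the convolution of `|K|`
with `|g|`. -/
theorem eLpNorm_le_of_dom (K g : EE n → ℝ) (hK : Continuous K) (hg : AEStronglyMeasurable g)
    {h : EE n → ℝ} {c : ℝ≥0∞}
    (hd : ∀ x, ‖h x‖ₑ ≤ c * ∫⁻ t, ‖g t‖ₑ * ‖K (x - t)‖ₑ) :
    eLpNorm h 2 volume ≤ c * (∫⁻ x, ‖K x‖ₑ) * eLpNorm g 2 volume := by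
  have h1 : eLpNorm h 2 volume ^ 2 ≤ (c * (∫⁻ x, ‖K x‖ₑ) * eLpNorm g 2 volume) ^ 2 := by
    rw [sq_lintegral_eLpNorm, mul_pow, mul_pow, sq_lintegral_eLpNorm]
    calc ∫⁻ x, ‖h x‖ₑ ^ 2 ≤ ∫⁻ x, c ^ 2 * (∫⁻ t, ‖g t‖ₑ * ‖K (x - t)‖ₑ) ^ 2 := by
          apply lintegral_mono
          intro x
          calc ‖h x‖ₑ ^ 2 ≤ (c * ∫⁻ t, ‖g t‖ₑ * ‖K (x - t)‖ₑ) ^ 2 := by
                gcongr; exact hd x
            _ = _ := by ring
      _ = c ^ 2 * ∫⁻ x, (∫⁻ t, ‖g t‖ₑ * ‖K (x - t)‖ₑ) ^ 2 := by
          rw [lintegral_const_mul'']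
          apply AEMeasurable.pow_const
          exact AEMeasurable.lintegral_prod_right'
            (f := fun p : EE n × EE n => ‖g p.2‖ₑ * ‖K (p.1 - p.2)‖ₑ)
            ((hg.enorm.comp_snd).mul ((hK.comp (continuous_fst.sub continuous_snd)).enorm.aemeasurable))
      _ ≤ c ^ 2 * ((∫⁻ x, ‖K x‖ₑ) ^ 2 * ∫⁻ x, ‖g x‖ₑ ^ 2) := by
          gcongr
          exact lintegral_young (fun x => ‖K x‖ₑ) (fun x => ‖g x‖ₑ) hK.enorm.measurable hg.enorm
      _ = _ := by ring
  exact (ENNReal.pow_le_pow_left_iff two_ne_zero).1 h1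

theorem enorm_cv_le (K g : EE n → ℝ) (x : EE n) :
    ‖cv K g x‖ₑ ≤ ∫⁻ t, ‖g t‖ₑ * ‖K (x - t)‖ₑ := by
  rw [cv_apply]
  refine (enorm_integral_le_lintegral_enorm _).trans ?_
  apply lintegral_mono
  intro t
  simp [enorm_mul]

theorem eLpNorm_cv_le {K g : EE n → ℝ} (hK : Continuous K) (hg : AEStronglyMeasurable g) :
    eLpNorm (cv K g) 2 volume ≤ (∫⁻ x, ‖K x‖ₑ) * eLpNorm g 2 volume := by
  have := eLpNorm_le_of_dom K g hK hg (h := cv K g) (c := 1) (fun x => by
    simpa using enorm_cv_le K g x)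
  simpa using this

theorem MemLp.locInt {g : EE n → ℝ} (hg : MemLp g 2) : LocallyIntegrable g :=
  hg.locallyIntegrable (by norm_num)

theorem memLp_cv {K g : EE n → ℝ} (hK : IsTest K) (hg : MemLp g 2) : MemLp (cv K g) 2 := by
  refine ⟨(cv_smooth hK (MemLp.locInt hg)).continuous.aestronglyMeasurable, ?_⟩
  refine (eLpNorm_cv_le hK.continuous hg.1).trans_lt ?_
  exact ENNReal.mul_lt_top (hK.integrable.2) hg.2

/-- Weak derivative in direction `i`. -/
def WD (i : Fin n) (v g : EE n → ℝ) : Prop :=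
  ∀ φ : EE n → ℝ, IsTest φ → ∫ x, v x * pderiv i φ x = - ∫ x, g x * φ x

/-- The mollification of a function with a weak derivative. -/
theorem pderiv_cv_wd {K v g : EE n → ℝ} (hK : IsTest K) (hv : LocallyIntegrable v)
    {i : Fin n} (h : WD i v g) (x : EE n) : pderiv i (cv K v) x = cv K g x := by
  rw [pderiv_cv hK hv, cv_apply, cv_apply]
  have h1 := h (fun t => K (x - t)) (hK.comp_sub x)
  have h2 : ∀ t, v t * pderiv i (fun t => K (x - t)) t = - (v t * pderiv i K (x - t)) := by
    intro t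
    rw [pderiv_comp_sub i x t (hK.smooth.differentiable (by simp) _)]
    ring
  simp only [h2, integral_neg] at h1
  linarith


theorem int_mul {g φ : EE n → ℝ} (hg : LocallyIntegrable g) (hφ : IsTest φ) :
    Integrable (fun x => g x * φ x) := by
  have := hg.integrable_smul_right_of_hasCompactSupport (g := φ) hφ.continuous hφ.cpt
  simpa using this

theorem WD.add {i : Fin n} {v g v' g' : EE n → ℝ} (hv : LocallyIntegrable v)
    (hg : LocallyIntegrable g) (hv' : LocallyIntegrable v') (hg' : LocallyIntegrable g')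
    (h : WD i v g) (h' : WD i v' g') : WD i (fun x => v x + v' x) (fun x => g x + g' x) := by
  intro φ hφ
  have i1 := int_mul hv (hφ.pderiv i)
  have i2 := int_mul hv' (hφ.pderiv i)
  have i3 := int_mul hg hφ
  have i4 := int_mul hg' hφ
  simp only [add_mul]
  rw [integral_add i1 i2, integral_add i3 i4, h φ hφ, h' φ hφ]
  ring

theorem WD.const_mul {i : Fin n} {v g : EE n → ℝ} (h : WD i v g) (c : ℝ) :
    WD i (fun x => c * v x) (fun x => c * g x) := by
  intro φ hφ
  simp only [mul_assoc]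
  rw [integral_const_mul, integral_const_mul, h φ hφ]
  ring

theorem WD.zero {i : Fin n} : WD i (fun _ : EE n => (0 : ℝ)) (fun _ => 0) := by
  intro φ hφ; simp

theorem WD.congr {i : Fin n} {v g v' g' : EE n → ℝ} (h : WD i v g) (hv : v' =ᵐ[volume] v)
    (hg : g' =ᵐ[volume] g) : WD i v' g' := by
  intro φ hφ
  have h1 : ∫ x, v' x * pderiv i φ x = ∫ x, v x * pderiv i φ x := by
    apply integral_congr_ae; filter_upwards [hv] with x hx; rw [hx]
  have h2 : ∫ x, g' x * φ x = ∫ x, g x * φ x := by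
    apply integral_congr_ae; filter_upwards [hg] with x hx; rw [hx]
  rw [h1, h2, h φ hφ]

theorem WD.unique {i : Fin n} {v g g' : EE n → ℝ} (hg : LocallyIntegrable g)
    (hg' : LocallyIntegrable g') (h : WD i v g) (h' : WD i v g') : g =ᵐ[volume] g' := by
  apply ae_eq_of_integral_contDiff_smul_eq hg hg'
  intro φ h1 h2
  have e1 := h φ ⟨h1, h2⟩
  have e2 := h' φ ⟨h1, h2⟩
  simp only [smul_eq_mul]
  simp only [mul_comm (φ _)]
  linarith

/-- Product with a smooth function. -/
theorem WD.mul {i : Fin n} {v g ψ : EE n → ℝ} (hv : LocallyIntegrable v)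
    (hg : LocallyIntegrable g) (hψ : ContDiff ℝ ∞ ψ) (h : WD i v g) :
    WD i (fun x => ψ x * v x) (fun x => pderiv i ψ x * v x + ψ x * g x) := by
  intro φ hφ
  have h1 := h (fun x => ψ x * φ x) (hφ.mul_left hψ)
  have hd : ∀ x, pderiv i (fun x => ψ x * φ x) x = pderiv i ψ x * φ x + ψ x * pderiv i φ x :=
    fun x => pderiv_mul i x (hψ.differentiable (by simp) x) (hφ.smooth.differentiable (by simp) x)
  have hψ' : ContDiff ℝ ∞ (pderiv i ψ) := by
    have h1 : ContDiff ℝ ∞ (fderiv ℝ ψ) := hψ.fderiv_right (m := ∞) (by simp)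
    exact h1.clm_apply contDiff_const
  have i1 : Integrable (fun x => v x * (pderiv i ψ x * φ x)) := int_mul hv (hφ.mul_left hψ')
  have i2 : Integrable (fun x => v x * (ψ x * pderiv i φ x)) :=
    int_mul hv ((hφ.pderiv i).mul_left hψ)
  have i3 : Integrable (fun x => g x * (ψ x * φ x)) := int_mul hg (hφ.mul_left hψ)
  simp only [hd, mul_add] at h1
  rw [integral_add i1 i2] at h1
  have e1 : ∫ x, ψ x * v x * pderiv i φ x = ∫ x, v x * (ψ x * pderiv i φ x) := by
    congr 1; ext x; ring
  have e2 : ∫ x, (pderiv i ψ x * v x + ψ x * g x) * φ x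
      = (∫ x, v x * (pderiv i ψ x * φ x)) + ∫ x, g x * (ψ x * φ x) := by
    rw [← integral_add i1 i3]
    congr 1; ext x; ring
  rw [e1, e2]; linarith

/-- Smooth functions have their classical derivatives as weak derivatives. -/
theorem WD.of_smooth {i : Fin n} {f : EE n → ℝ} (hf : ContDiff ℝ 1 f) : WD i f (pderiv i f) := by
  intro φ hφ
  have hf' : Continuous (pderiv i f) :=
    (hf.continuous_fderiv one_ne_zero).clm_apply continuous_const
  exact integral_parts i (hf.differentiable one_ne_zero) (hφ.smooth.differentiable (by simp))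
    (int_mul (hf.continuous.locallyIntegrable) (hφ.pderiv i))
    (int_mul hf'.locallyIntegrable hφ)
    (int_mul (hf.continuous.locallyIntegrable) hφ)

/-- Symmetry of second weak derivatives. -/
theorem WD.symm {i j : Fin n} {v gi gj h : EE n → ℝ} (hi : WD i v gi) (hj : WD j v gj)
    (hij : WD i gj h) : WD j gi h := by
  intro φ hφ
  have h1 := hi _ (hφ.pderiv j)
  have h2 := hj _ (hφ.pderiv i)
  have h3 := hij φ hφ
  have hc : ∀ x, pderiv i (pderiv j φ) x = pderiv j (pderiv i φ) x := fun x =>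
    pderiv_comm i j x ((hφ.smooth.contDiffAt).of_le
      (show ((2 : ℕ∞) : WithTop ℕ∞) ≤ ((⊤ : ℕ∞) : WithTop ℕ∞) from WithTop.coe_le_coe.2 le_top))
  simp only [hc] at h1
  linarith

/-! ### Mollifiers -/

/-- The standard bump at scale `ε`. -/
def bmp (n : ℕ) (ε : ℝ) (hε : 0 < ε) : ContDiffBump (0 : EE n) :=
  ⟨ε / 2, ε, by positivity, by linarith⟩

/-- The mollifier at scale `1/(k+1)`. -/
def rho (n k : ℕ) : EE n → ℝ := (bmp n (1 / (k + 1)) (by positivity)).normed volume

theorem rho_test (k : ℕ) : IsTest (rho n k) :=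
  ⟨ContDiffBump.contDiff_normed _ (n := ⊤), ContDiffBump.hasCompactSupport_normed _⟩

theorem rho_nonneg (k : ℕ) (x : EE n) : 0 ≤ rho n k x := ContDiffBump.nonneg_normed _ x

theorem rho_integral (k : ℕ) : ∫ x, rho n k x = 1 := ContDiffBump.integral_normed _

theorem rho_neg (k : ℕ) (x : EE n) : rho n k (-x) = rho n k x := ContDiffBump.normed_neg _ x

theorem rho_lintegral (k : ℕ) : ∫⁻ x, ‖rho n k x‖ₑ = 1 := by
  have h1 : ∫⁻ x, ‖rho n k x‖ₑ = ENNReal.ofReal (∫ x, ‖rho n k x‖) :=
    (ofReal_integral_norm_eq_lintegral_enorm (rho_test k).integrable).symm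
  have h2 : ∀ x, ‖rho n k x‖ = rho n k x := fun x => Real.norm_of_nonneg (rho_nonneg k x)
  rw [h1]
  simp only [h2, rho_integral, ENNReal.ofReal_one]

theorem cv_rho_eq (k : ℕ) (g : EE n → ℝ) (x : EE n) :
    cv (rho n k) g x = convolution (rho n k) g (ContinuousLinearMap.lsmul ℝ ℝ) volume x := by
  rw [cv_apply, convolution_eq_swap]
  congr 1; ext t
  simp only [ContinuousLinearMap.lsmul_apply, smul_eq_mul]; ring

theorem cv_rho_ae {g : EE n → ℝ} (hg : LocallyIntegrable g) :
    ∀ᵐ x, Tendsto (fun k => cv (rho n k) g x) atTop (𝓝 (g x)) := by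
  have h0 : Tendsto (fun k : ℕ => (bmp n (1 / ((k : ℝ) + 1)) (by positivity)).rOut) atTop (𝓝 0) :=
    tendsto_one_div_add_atTop_nhds_zero_nat
  have h := ContDiffBump.ae_convolution_tendsto_right_of_locallyIntegrable (K := 2)
    (φ := fun k : ℕ => bmp n (1 / ((k : ℝ) + 1)) (by positivity)) (l := atTop) h0
    (Eventually.of_forall fun k => by simp [bmp]; linarith) hg
  filter_upwards [h] with x hx
  refine hx.congr fun k => ?_
  exact (cv_rho_eq k g x).symm

theorem eLpNorm_cv_rho_le {g : EE n → ℝ} (k : ℕ) (hg : AEStronglyMeasurable g) :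
    eLpNorm (cv (rho n k) g) 2 volume ≤ eLpNorm g 2 volume := by
  have := eLpNorm_cv_le (K := rho n k) (rho_test k).continuous hg
  rwa [rho_lintegral, one_mul] at this

end

end Crest.Agent.R202.Ell
end

-- ▼ part R202/Ell3
section

/-!
Row 202, interior elliptic regularity, file 3: weak convergence of mollifications, existence of weak
derivatives by Riesz representation.
(helper912)
-/

set_option autoImplicit false
open scoped ContDiff ENNReal Topology
open MeasureTheory Set Filter
open Crest.GeometryTopology.CoordMetric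

namespace Crest.Agent.R202.Ell

noncomputable section

variable {n : ℕ}

/-- duality for mollification -/
theorem integral_cv_mul {K g ψ : EE n → ℝ} (hK : IsTest K) (hKn : ∀ x, K (-x) = K x)
    (hg : LocallyIntegrable g) (hψ : IsTest ψ) :
    ∫ x, cv K g x * ψ x = ∫ x, g x * cv K ψ x := by
  obtain ⟨C1, hC1⟩ := hK.cpt.exists_bound_of_continuous hK.continuous
  obtain ⟨C2, hC2⟩ := hψ.cpt.exists_bound_of_continuous hψ.continuous
  have hC1' : 0 ≤ C1 := (norm_nonneg _).trans (hC1 0)
  have hC2' : 0 ≤ C2 := (norm_nonneg _).trans (hC2 0)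
  -- compact set containing the relevant `t`
  let S : Set (EE n) := (fun p : EE n × EE n => p.1 - p.2) '' (tsupport ψ ×ˢ tsupport K)
  have hS : IsCompact S :=
    ((show IsCompact (tsupport ψ) from hψ.cpt).prod
      (show IsCompact (tsupport K) from hK.cpt)).image (continuous_fst.sub continuous_snd)
  have hgS : Integrable (S.indicator g) := by
    rw [integrable_indicator_iff hS.measurableSet]
    exact hg.integrableOn_isCompact hS
  have h1 : Integrable (fun p : EE n × EE n => (tsupport ψ).indicator (fun _ => C1 * C2) p.1 *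
      ‖S.indicator g p.2‖) (volume.prod volume) := by
    refine Integrable.mul_prod (f := (tsupport ψ).indicator (fun _ => C1 * C2))
      (g := fun t => ‖S.indicator g t‖) ?_ hgS.norm
    rw [integrable_indicator_iff (isClosed_tsupport _).measurableSet]
    exact integrableOn_const (ne_of_lt (show IsCompact (tsupport ψ) from hψ.cpt).measure_lt_top)
  have hgm : AEStronglyMeasurable g volume := hg.aestronglyMeasurable
  have hint : Integrable (fun p : EE n × EE n => g p.2 * K (p.1 - p.2) * ψ p.1)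
      (volume.prod volume) := by
    refine h1.mono' ?_ (Eventually.of_forall ?_)
    · exact ((hgm.comp_snd).mul
        (hK.continuous.comp (continuous_fst.sub continuous_snd)).aestronglyMeasurable).mul
        (hψ.continuous.comp continuous_fst).aestronglyMeasurable
    · rintro ⟨x, t⟩
      simp only
      by_cases hx : x ∈ tsupport ψ
      · by_cases ht : x - t ∈ tsupport K
        · have htS : t ∈ S := ⟨(x, x - t), ⟨hx, ht⟩, by simp⟩
          rw [indicator_of_mem hx, indicator_of_mem htS, norm_mul, norm_mul]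
          calc ‖g t‖ * ‖K (x - t)‖ * ‖ψ x‖ ≤ ‖g t‖ * C1 * C2 := by
                gcongr
                · exact hC1 _
                · exact hC2 _
            _ = _ := by ring
        · rw [image_eq_zero_of_notMem_tsupport ht]
          simp only [mul_zero, zero_mul, norm_zero]
          apply mul_nonneg _ (norm_nonneg _)
          rw [indicator_of_mem hx]; positivity
      · rw [image_eq_zero_of_notMem_tsupport hx]
        simp [indicator_of_notMem hx]
  have e1 : ∫ x, cv K g x * ψ x = ∫ x, ∫ t, g t * K (x - t) * ψ x := by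
    congr 1; ext x
    rw [cv_apply, integral_mul_const]
  have e2 : ∫ x, g x * cv K ψ x = ∫ t, ∫ x, g t * K (x - t) * ψ x := by
    congr 1; ext t
    rw [cv_apply, ← integral_const_mul]
    congr 1; ext x
    rw [← hKn (t - x), neg_sub]; ring
  rw [e1, e2]
  exact integral_integral_swap hint

theorem cv_rho_dist {ψ : EE n → ℝ} (hψ : Continuous ψ) {δ : ℝ} (k : ℕ) (x : EE n)
    (h : ∀ y, dist y x < 1 / (k + 1) → dist (ψ y) (ψ x) ≤ δ) :
    dist (cv (rho n k) ψ x) (ψ x) ≤ δ := by
  rw [cv_rho_eq]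
  apply ContDiffBump.dist_normed_convolution_le
  · exact hψ.aestronglyMeasurable
  · intro y hy
    exact h y hy

theorem cv_rho_support {ψ : EE n → ℝ} {R : ℝ} (hψ : ∀ x, R ≤ ‖x‖ → ψ x = 0) (k : ℕ) (x : EE n)
    (hx : R + 1 ≤ ‖x‖) : cv (rho n k) ψ x = 0 := by
  rw [cv_apply]
  have : ∀ t, ψ t * rho n k (x - t) = 0 := by
    intro t
    by_cases ht : R ≤ ‖t‖
    · rw [hψ t ht, zero_mul]
    · push Not at ht
      have h1 : rho n k (x - t) = 0 := by
        have h2 : x - t ∉ Function.support (rho n k) := by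
          rw [rho, ContDiffBump.support_normed_eq]
          simp only [bmp, Metric.mem_ball, dist_zero_right, not_lt]
          have h3 : ‖x‖ ≤ ‖x - t‖ + ‖t‖ := by
            simpa using norm_add_le (x - t) t
          have h4 : (1 : ℝ) / (k + 1) ≤ 1 := by
            rw [div_le_one (by positivity)]; linarith [(Nat.cast_nonneg k : (0 : ℝ) ≤ k)]
          linarith
        simpa using h2
      rw [h1, mul_zero]
  simp [this]

/-- weak convergence of the mollification -/
theorem tendsto_integral_cv_mul {g ψ : EE n → ℝ} (hg : LocallyIntegrable g) (hψ : IsTest ψ) :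
    Tendsto (fun k => ∫ x, cv (rho n k) g x * ψ x) atTop (𝓝 (∫ x, g x * ψ x)) := by
  have e : ∀ k, ∫ x, cv (rho n k) g x * ψ x = ∫ x, g x * cv (rho n k) ψ x := fun k =>
    integral_cv_mul (rho_test k) (rho_neg k) hg hψ
  simp only [e]
  obtain ⟨C2, hC2⟩ := hψ.cpt.exists_bound_of_continuous hψ.continuous
  obtain ⟨R, hR⟩ : ∃ R : ℝ, ∀ x, R ≤ ‖x‖ → ψ x = 0 := by
    obtain ⟨R, hR⟩ := (show IsCompact (tsupport ψ) from hψ.cpt).isBounded.exists_norm_le
    refine ⟨R + 1, fun x hx => image_eq_zero_of_notMem_tsupport fun h => ?_⟩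
    have := hR x h
    linarith
  -- dominated convergence
  have hgi : Integrable ((Metric.closedBall (0 : EE n) (R + 1)).indicator g) := by
    rw [integrable_indicator_iff Metric.isClosed_closedBall.measurableSet]
    exact hg.integrableOn_isCompact (isCompact_closedBall _ _)
  refine tendsto_integral_of_dominated_convergence
    (fun x => ‖(Metric.closedBall (0 : EE n) (R + 1)).indicator g x‖ * (C2 + 1)) ?_ ?_ ?_ ?_
  · intro k
    exact hg.aestronglyMeasurable.mul
      (cv_smooth (rho_test k) hψ.continuous.locallyIntegrable).continuous.aestronglyMeasurable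
  · exact hgi.norm.mul_const _
  · intro k
    refine Eventually.of_forall fun x => ?_
    have hb : ‖cv (rho n k) ψ x‖ ≤ C2 := by
      rw [cv_apply]
      calc ‖∫ t, ψ t * rho n k (x - t)‖ ≤ ∫ t, C2 * rho n k (x - t) := by
            apply norm_integral_le_of_norm_le
            · exact ((rho_test k).comp_sub x).integrable.const_mul C2
            · refine Eventually.of_forall fun t => ?_
              rw [norm_mul, Real.norm_of_nonneg (rho_nonneg k _)]
              exact mul_le_mul_of_nonneg_right (hC2 t) (rho_nonneg k _)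
        _ = C2 := by
            rw [integral_const_mul, integral_sub_left_eq_self (rho n k) volume x, rho_integral,
              mul_one]
    by_cases hx : R + 1 ≤ ‖x‖
    · rw [cv_rho_support hR k x hx]
      simp only [mul_zero, norm_zero]
      have : 0 ≤ C2 := (norm_nonneg _).trans (hC2 0)
      positivity
    · push Not at hx
      rw [indicator_of_mem (by simpa using hx.le), norm_mul]
      gcongr
      linarith
  · refine Eventually.of_forall fun x => ?_
    apply Tendsto.const_mul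
    rw [Metric.tendsto_atTop]
    intro ε hε
    obtain ⟨δ, hδ, hd⟩ := Metric.continuous_iff.1 hψ.continuous x (ε / 2) (by positivity)
    obtain ⟨N, hN⟩ := exists_nat_one_div_lt hδ
    refine ⟨N, fun k hk => ?_⟩
    have h1 : dist (cv (rho n k) ψ x) (ψ x) ≤ ε / 2 := by
      apply cv_rho_dist hψ.continuous
      intro y hy
      have h2 : (1 : ℝ) / (k + 1) ≤ 1 / (N + 1) := by
        apply one_div_le_one_div_of_le (by positivity)
        have : (N : ℝ) ≤ k := by exact_mod_cast hk
        linarith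
      exact (hd y (by linarith)).le
    linarith

/-- Riesz: a functional bounded by the Hilbert norm of an embedding is represented. -/
theorem riesz_rep {V H : Type*} [AddCommGroup V] [Module ℝ V] [NormedAddCommGroup H]
    [InnerProductSpace ℝ H] [CompleteSpace H] (ι : V →ₗ[ℝ] H) (T : V →ₗ[ℝ] ℝ) {C : ℝ}
    (hC : 0 ≤ C) (hT : ∀ v, |T v| ≤ C * ‖ι v‖) :
    ∃ z : H, ‖z‖ ≤ C ∧ ∀ v, T v = inner ℝ z (ι v) := by
  classical
  -- define the functional on the range
  have hker : LinearMap.ker ι ≤ LinearMap.ker T := by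
    intro v hv
    rw [LinearMap.mem_ker] at hv ⊢
    have := hT v
    rw [hv, norm_zero, mul_zero] at this
    exact abs_nonpos_iff.1 this
  let e := ι.quotKerEquivRange
  let T' : LinearMap.range ι →ₗ[ℝ] ℝ := ((LinearMap.ker ι).liftQ T hker).comp e.symm.toLinearMap
  have hT' : ∀ v, T' ⟨ι v, LinearMap.mem_range_self ι v⟩ = T v := by
    intro v
    have h1 : e.symm ⟨ι v, LinearMap.mem_range_self ι v⟩ = (LinearMap.ker ι).mkQ v := by
      rw [LinearEquiv.symm_apply_eq]
      rfl
    simp only [T', LinearMap.comp_apply, LinearEquiv.coe_coe, h1]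
    rfl
  have hb : ∀ y : LinearMap.range ι, ‖T' y‖ ≤ C * ‖y‖ := by
    rintro ⟨y, v, rfl⟩
    rw [hT' v, Real.norm_eq_abs]
    exact hT v
  let f : StrongDual ℝ (LinearMap.range ι) := T'.mkContinuous C hb
  obtain ⟨g, hg1, hg2⟩ := _root_.exists_extension_norm_eq (LinearMap.range ι) f
  refine ⟨(InnerProductSpace.toDual ℝ H).symm g, ?_, ?_⟩
  · rw [LinearIsometryEquiv.norm_map, hg2]
    exact T'.mkContinuous_norm_le hC hb
  · intro v
    rw [InnerProductSpace.toDual_symm_apply]
    have := hg1 ⟨ι v, LinearMap.mem_range_self ι v⟩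
    rw [this]
    exact (hT' v).symm

/-- The test functions as a submodule. -/
def testSub (n : ℕ) : Submodule ℝ (EE n → ℝ) where
  carrier := {φ | IsTest φ}
  add_mem' := fun ha hb => IsTest.add ha hb
  zero_mem' := ⟨contDiff_const, HasCompactSupport.zero⟩
  smul_mem' := fun c _ hφ => IsTest.const_mul hφ c

/-- existence of the weak derivative -/
theorem exists_wd {v : EE n → ℝ} (hv : LocallyIntegrable v) (i : Fin n) {C : ℝ} (hC : 0 ≤ C)
    (h : ∀ φ, IsTest φ → |∫ x, v x * pderiv i φ x| ≤ C * (eLpNorm φ 2 volume).toReal) :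
    ∃ g : EE n → ℝ, MemLp g 2 ∧ eLpNorm g 2 volume ≤ ENNReal.ofReal C ∧ WD i v g := by
  let ι : testSub n →ₗ[ℝ] Lp ℝ 2 (volume : Measure (EE n)) :=
    { toFun := fun φ => (φ.2.memLp 2).toLp φ.1
      map_add' := fun a b => by
        exact MemLp.toLp_add (a.2.memLp 2) (b.2.memLp 2)
      map_smul' := fun c a => by
        exact MemLp.toLp_const_smul c (a.2.memLp 2) }
  let T : testSub n →ₗ[ℝ] ℝ :=
    { toFun := fun φ => - ∫ x, v x * pderiv i φ.1 x
      map_add' := fun a b => by
        have e : ∀ x, v x * pderiv i (a + b : testSub n).1 x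
            = v x * pderiv i a.1 x + v x * pderiv i b.1 x := by
          intro x
          have : pderiv i (a + b : testSub n).1 x = pderiv i a.1 x + pderiv i b.1 x :=
            pderiv_add i x (a.2.smooth.differentiable (by simp) x)
              (b.2.smooth.differentiable (by simp) x)
          rw [this]; ring
        simp only [e]
        rw [integral_add (int_mul hv (a.2.pderiv i)) (int_mul hv (b.2.pderiv i))]
        ring
      map_smul' := fun c a => by
        have e : ∀ x, v x * pderiv i (c • a : testSub n).1 x = c * (v x * pderiv i a.1 x) := by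
          intro x
          have : pderiv i (c • a : testSub n).1 x = c * pderiv i a.1 x :=
            pderiv_const_mul i x c (a.2.smooth.differentiable (by simp) x)
          rw [this]; ring
        simp only [e, integral_const_mul, RingHom.id_apply, smul_eq_mul]
        ring }
  obtain ⟨z, hz1, hz2⟩ := riesz_rep ι T hC (fun φ => by
    have h1 := h φ.1 φ.2
    have h2 : ‖ι φ‖ = (eLpNorm φ.1 2 volume).toReal := Lp.norm_toLp _ (φ.2.memLp 2)
    rw [h2]
    show |- ∫ x, v x * pderiv i φ.1 x| ≤ _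
    rw [abs_neg]; exact h1)
  refine ⟨z, Lp.memLp z, ?_, ?_⟩
  · rw [← ENNReal.ofReal_toReal (Lp.eLpNorm_ne_top z)]
    apply ENNReal.ofReal_le_ofReal
    rwa [Lp.norm_def] at hz1
  · intro φ hφ
    have h1 := hz2 ⟨φ, hφ⟩
    have h2 : T ⟨φ, hφ⟩ = - ∫ x, v x * pderiv i φ x := rfl
    rw [h2, L2.inner_def] at h1
    have h3 : ∫ x, inner ℝ ((z : EE n → ℝ) x) ((ι ⟨φ, hφ⟩ : EE n → ℝ) x) = ∫ x, z x * φ x := by
      apply integral_congr_ae
      have h4 : (ι ⟨φ, hφ⟩ : EE n → ℝ) =ᵐ[volume] φ := MemLp.coeFn_toLp (hφ.memLp 2)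
      filter_upwards [h4] with x hx
      rw [hx]
      simp [mul_comm]
    rw [h3] at h1
    linarith

end

end Crest.Agent.R202.Ell
end

-- ▼ part R202/Ell4
section

/-!
Row 202, interior elliptic regularity, file 4: scaling of the mollifiers, the `L²` norm calculus,
Friedrichs' commutator, the `H²` estimate.
(helper912)
-/

set_option autoImplicit false
open scoped ContDiff ENNReal Topology
open MeasureTheory Set Filter
open Crest.GeometryTopology.CoordMetric

namespace Crest.Agent.R202.Ell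

noncomputable section

variable {n : ℕ}

/-! ### scaling -/

theorem bmp_scale (k : ℕ) (z : EE n) :
    (bmp n (1 / ((k : ℝ) + 1)) (by positivity)) z = (bmp n (1 / (((0 : ℕ) : ℝ) + 1)) (by positivity))
      (((k : ℝ) + 1) • z) := by
  rw [ContDiffBump.apply, ContDiffBump.apply]
  have hk : ((k : ℝ) + 1) ≠ 0 := by positivity
  have h1 : (bmp n (1 / ((k : ℝ) + 1)) (by positivity)).rOut /
      (bmp n (1 / ((k : ℝ) + 1)) (by positivity)).rIn = 2 := by
    simp only [bmp]; field_simp
  have h2 : (bmp n (1 / (((0 : ℕ) : ℝ) + 1)) (by positivity)).rOut /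
      (bmp n (1 / (((0 : ℕ) : ℝ) + 1)) (by positivity)).rIn = 2 := by
    simp only [bmp]; norm_num
  have h3 : (bmp n (1 / ((k : ℝ) + 1)) (by positivity)).rIn⁻¹ • (z - 0)
      = (bmp n (1 / (((0 : ℕ) : ℝ) + 1)) (by positivity)).rIn⁻¹ • ((((k : ℝ) + 1) • z) - 0) := by
    rw [sub_zero, sub_zero, smul_smul]
    congr 1
    simp only [bmp]; field_simp; norm_num
  rw [h1, h2, h3]

theorem rho_scale (k : ℕ) (z : EE n) :
    rho n k z = ((k : ℝ) + 1) ^ n * rho n 0 (((k : ℝ) + 1) • z) := by
  have hk : (0 : ℝ) < (k : ℝ) + 1 := by positivity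
  rw [rho, rho, ContDiffBump.normed_def, ContDiffBump.normed_def]
  have h1 : ∫ x, (bmp n (1 / ((k : ℝ) + 1)) (by positivity)) x
      = (((k : ℝ) + 1) ^ n)⁻¹ * ∫ x, (bmp n (1 / (((0 : ℕ) : ℝ) + 1)) (by positivity)) x := by
    simp_rw [bmp_scale k]
    rw [Measure.integral_comp_smul_of_nonneg volume _ _ (hR := hk.le)]
    simp
  rw [h1, bmp_scale k z]
  have h2 : 0 < ∫ x, (bmp n (1 / (((0 : ℕ) : ℝ) + 1)) (by positivity)) x :=
    ContDiffBump.integral_pos _
  field_simp

theorem pderiv_rho_scale (k : ℕ) (l : Fin n) (z : EE n) :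
    pderiv l (rho n k) z = ((k : ℝ) + 1) ^ n * (((k : ℝ) + 1) *
      pderiv l (rho n 0) (((k : ℝ) + 1) • z)) := by
  have e : rho n k = fun z => ((k : ℝ) + 1) ^ n * rho n 0 (((k : ℝ) + 1) • z) := by
    ext z; exact rho_scale k z
  have hd : Differentiable ℝ (rho n 0) := (rho_test 0).smooth.differentiable (by simp)
  have h1 : HasFDerivAt (fun z : EE n => ((k : ℝ) + 1) • z)
      (((k : ℝ) + 1) • ContinuousLinearMap.id ℝ (EE n)) z := by
    exact (hasFDerivAt_id z).const_smul ((k : ℝ) + 1)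
  have h2 : HasFDerivAt (fun z => rho n 0 (((k : ℝ) + 1) • z)) _ z :=
    (hd (((k : ℝ) + 1) • z)).hasFDerivAt.comp z h1
  rw [e, pderiv_const_mul l z _ h2.differentiableAt]
  congr 1
  unfold Crest.GeometryTopology.CoordMetric.pderiv
  rw [h2.fderiv]
  simp

/-- The kernel of the commutator. -/
def kerK (n k : ℕ) (l : Fin n) (z : EE n) : ℝ := ‖z‖ * pderiv l (rho n k) z

theorem kerK_cont (k : ℕ) (l : Fin n) : Continuous (kerK n k l) :=
  continuous_norm.mul ((rho_test k).pderiv l).continuous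

/-- `L¹` norm of the kernel: independent of the scale. -/
def cK (n : ℕ) : ℝ := ∑ l : Fin n, ∫ z, ‖kerK n 0 l z‖

theorem kerK_int (k : ℕ) (l : Fin n) : Integrable (kerK n k l) := by
  apply (kerK_cont k l).integrable_of_hasCompactSupport
  exact ((rho_test k).pderiv l).cpt.mul_left

theorem cK_nonneg (n : ℕ) : 0 ≤ cK n :=
  Finset.sum_nonneg fun _ _ => integral_nonneg fun _ => norm_nonneg _

theorem kerK_lintegral (k : ℕ) (l : Fin n) :
    ∫⁻ z, ‖kerK n k l z‖ₑ ≤ ENNReal.ofReal (cK n) := by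
  rw [← ofReal_integral_norm_eq_lintegral_enorm (kerK_int k l)]
  apply ENNReal.ofReal_le_ofReal
  have hk : (0 : ℝ) < (k : ℝ) + 1 := by positivity
  have h1 : ∀ z, ‖kerK n k l z‖ = ((k : ℝ) + 1) ^ n * ‖kerK n 0 l (((k : ℝ) + 1) • z)‖ := by
    intro z
    rw [kerK, pderiv_rho_scale, kerK, norm_smul, Real.norm_of_nonneg hk.le]
    simp only [norm_mul, norm_pow, norm_norm, Real.norm_of_nonneg hk.le]
    ring
  simp only [h1]
  rw [integral_const_mul, Measure.integral_comp_smul_of_nonneg volume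
    (fun z => ‖kerK n 0 l z‖) ((k : ℝ) + 1) (hR := hk.le)]
  simp only [finrank_euclideanSpace, Fintype.card_fin, smul_eq_mul]
  rw [mul_inv_cancel_left₀ (by positivity)]
  exact Finset.single_le_sum (f := fun l : Fin n => ∫ z, ‖kerK n 0 l z‖)
    (fun _ _ => integral_nonneg fun _ => norm_nonneg _) (Finset.mem_univ l)

/-! ### `L²` calculus -/

/-- The `L²` norm. -/
def nm (f : EE n → ℝ) : ℝ := (eLpNorm f 2 volume).toReal

/-- `f ∈ L²` with norm at most `B`. -/
def N2 (B : ℝ) (f : EE n → ℝ) : Prop := MemLp f 2 ∧ eLpNorm f 2 volume ≤ ENNReal.ofReal B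

theorem nm_nonneg (f : EE n → ℝ) : 0 ≤ nm f := ENNReal.toReal_nonneg

theorem N2.nm_le {B : ℝ} {f : EE n → ℝ} (h : N2 B f) (hB : 0 ≤ B) : nm f ≤ B := by
  have := ENNReal.toReal_mono ENNReal.ofReal_ne_top h.2
  rwa [ENNReal.toReal_ofReal hB] at this

theorem N2.of_nm {B : ℝ} {f : EE n → ℝ} (hf : MemLp f 2) (h : nm f ≤ B) : N2 B f := by
  refine ⟨hf, ?_⟩
  rw [← ENNReal.ofReal_toReal hf.2.ne]
  exact ENNReal.ofReal_le_ofReal h

theorem N2.mono {B B' : ℝ} {f : EE n → ℝ} (h : N2 B f) (hB : B ≤ B') : N2 B' f :=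
  ⟨h.1, h.2.trans (ENNReal.ofReal_le_ofReal hB)⟩

theorem N2.add {B B' : ℝ} {f g : EE n → ℝ} (h : N2 B f) (h' : N2 B' g) (hB : 0 ≤ B)
    (hB' : 0 ≤ B') : N2 (B + B') (fun x => f x + g x) := by
  refine ⟨h.1.add h'.1, ?_⟩
  rw [ENNReal.ofReal_add hB hB']
  exact (eLpNorm_add_le h.1.1 h'.1.1 (by norm_num)).trans (add_le_add h.2 h'.2)

theorem N2.zero {B : ℝ} : N2 B (fun _ : EE n => (0 : ℝ)) := by
  refine ⟨MemLp.zero, ?_⟩
  have : eLpNorm (fun _ : EE n => (0 : ℝ)) 2 volume = 0 := eLpNorm_zero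
  rw [this]; exact bot_le

theorem N2.sum {ι : Type*} (s : Finset ι) {B : ι → ℝ} {f : ι → EE n → ℝ}
    (h : ∀ i ∈ s, N2 (B i) (f i)) (hB : ∀ i ∈ s, 0 ≤ B i) :
    N2 (∑ i ∈ s, B i) (fun x => ∑ i ∈ s, f i x) := by
  classical
  induction s using Finset.induction_on with
  | empty => simpa using N2.zero
  | insert a s ha ih =>
    simp only [Finset.sum_insert ha]
    exact (h a (by simp)).add (ih (fun i hi => h i (by simp [hi])) (fun i hi => hB i (by simp [hi])))
      (hB a (by simp)) (Finset.sum_nonneg fun i hi => hB i (by simp [hi]))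

theorem N2.of_dom {B c : ℝ} {f g : EE n → ℝ} (hf : N2 B f) (hg : AEStronglyMeasurable g)
    (hc : 0 ≤ c) (h : ∀ x, |g x| ≤ c * |f x|) : N2 (c * B) g := by
  have h1 : eLpNorm g 2 volume ≤ ENNReal.ofReal c * eLpNorm f 2 volume :=
    eLpNorm_le_mul_eLpNorm_of_ae_le_mul (Eventually.of_forall fun x => by
      simpa [Real.norm_eq_abs] using h x) 2
  have h2 : eLpNorm g 2 volume ≤ ENNReal.ofReal (c * B) := by
    rw [ENNReal.ofReal_mul hc]
    exact h1.trans (by gcongr; exact hf.2)
  exact ⟨⟨hg, h2.trans_lt ENNReal.ofReal_lt_top⟩, h2⟩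

theorem N2.mul_bdd {B c : ℝ} {f ψ : EE n → ℝ} (hf : N2 B f) (hψ : Continuous ψ)
    (hc : ∀ x, |ψ x| ≤ c) : N2 (c * B) (fun x => ψ x * f x) := by
  have hc0 : 0 ≤ c := (abs_nonneg _).trans (hc 0)
  refine hf.of_dom (hψ.aestronglyMeasurable.mul hf.1.1) hc0 fun x => ?_
  rw [abs_mul]
  exact mul_le_mul_of_nonneg_right (hc x) (abs_nonneg _)

theorem integrable_mul {f g : EE n → ℝ} (hf : MemLp f 2) (hg : MemLp g 2) :
    Integrable (fun x => f x * g x) := hf.integrable_mul hg

theorem abs_integral_mul_le {f g : EE n → ℝ} (hf : MemLp f 2) (hg : MemLp g 2) :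
    |∫ x, f x * g x| ≤ nm f * nm g := by
  have h1 : (∫ x, f x * g x) = inner ℝ (hg.toLp g) (hf.toLp f) := by
    rw [L2.inner_def]
    apply integral_congr_ae
    filter_upwards [hf.coeFn_toLp, hg.coeFn_toLp] with x h1 h2
    rw [h1, h2]; simp
  rw [h1]
  refine (abs_real_inner_le_norm _ _).trans ?_
  rw [Lp.norm_toLp, Lp.norm_toLp, mul_comm]
  exact le_rfl

theorem integral_sq {f : EE n → ℝ} (hf : MemLp f 2) : ∫ x, f x ^ 2 = nm f ^ 2 := by
  have h1 : (∫ x, f x ^ 2) = inner ℝ (hf.toLp f) (hf.toLp f) := by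
    rw [L2.inner_def]
    apply integral_congr_ae
    filter_upwards [hf.coeFn_toLp] with x h1
    rw [h1]; simp [sq]
  rw [h1, real_inner_self_eq_norm_sq, Lp.norm_toLp]
  rfl

/-! ### Friedrichs commutator -/

/-- data of the uniformly elliptic equation -/
structure Coef (n : ℕ) (lam M : ℝ) (A : Fin n → Fin n → EE n → ℝ) : Prop where
  lam_pos : 0 < lam
  cont : ∀ i j, Continuous (A i j)
  bdd : ∀ i j x, |A i j x| ≤ M
  lip : ∀ i j x y, |A i j x - A i j y| ≤ M * ‖x - y‖
  ell : ∀ x (ξ : Fin n → ℝ), lam * ∑ i, ξ i ^ 2 ≤ ∑ i, ∑ j, A i j x * ξ j * ξ i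

theorem Coef.M_nonneg {lam M : ℝ} {A : Fin n → Fin n → EE n → ℝ} (h : Coef n lam M A)
    (i : Fin n) : 0 ≤ M := (abs_nonneg _).trans (h.bdd i i 0)

theorem commutator {lam M B : ℝ} {A : Fin n → Fin n → EE n → ℝ} (h : Coef n lam M A)
    {g : EE n → ℝ} (hg : N2 B g) (i j l : Fin n) (k : ℕ) :
    N2 (M * cK n * B) (fun x => A i j x * cv (pderiv l (rho n k)) g x
      - cv (pderiv l (rho n k)) (fun x => A i j x * g x) x) := by
  have hM := h.M_nonneg i
  have hK : IsTest (pderiv l (rho n k)) := (rho_test k).pderiv l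
  have hgl := MemLp.locInt hg.1
  have hAg : MemLp (fun x => A i j x * g x) 2 := (hg.mul_bdd (h.cont i j) (h.bdd i j)).1
  have hd : ∀ x, ‖A i j x * cv (pderiv l (rho n k)) g x
      - cv (pderiv l (rho n k)) (fun x => A i j x * g x) x‖ₑ
      ≤ ENNReal.ofReal M * ∫⁻ t, ‖g t‖ₑ * ‖kerK n k l (x - t)‖ₑ := by
    intro x
    have e : A i j x * cv (pderiv l (rho n k)) g x
      - cv (pderiv l (rho n k)) (fun x => A i j x * g x) x
      = ∫ t, (A i j x - A i j t) * g t * pderiv l (rho n k) (x - t) := by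
      rw [cv_apply, cv_apply, ← integral_const_mul, ← integral_sub]
      · congr 1; ext t; ring
      · exact (cv_exists hK hgl x).const_mul _
      · exact cv_exists hK (MemLp.locInt hAg) x
    rw [e]
    refine (enorm_integral_le_lintegral_enorm _).trans ?_
    rw [← lintegral_const_mul']
    · apply lintegral_mono
      intro t
      simp only
      rw [enorm_mul, enorm_mul, kerK, enorm_mul]
      have h1 : ‖A i j x - A i j t‖ₑ ≤ ENNReal.ofReal M * ‖‖x - t‖‖ₑ := by
        rw [← ofReal_norm, ← ofReal_norm, ← ENNReal.ofReal_mul hM]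
        apply ENNReal.ofReal_le_ofReal
        rw [norm_norm]
        exact h.lip i j x t
      calc ‖A i j x - A i j t‖ₑ * ‖g t‖ₑ * ‖pderiv l (rho n k) (x - t)‖ₑ
          ≤ (ENNReal.ofReal M * ‖‖x - t‖‖ₑ) * ‖g t‖ₑ * ‖pderiv l (rho n k) (x - t)‖ₑ := by
            gcongr
        _ = _ := by ring
    · exact ENNReal.ofReal_ne_top
  have h2 := eLpNorm_le_of_dom (kerK n k l) g (kerK_cont k l) hg.1.1 hd
  have h3 : eLpNorm (fun x => A i j x * cv (pderiv l (rho n k)) g x
      - cv (pderiv l (rho n k)) (fun x => A i j x * g x) x) 2 volume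
      ≤ ENNReal.ofReal (M * cK n * B) := by
    refine h2.trans ?_
    rw [ENNReal.ofReal_mul (by have := cK_nonneg n; positivity), ENNReal.ofReal_mul hM]
    gcongr
    · exact kerK_lintegral k l
    · exact hg.2
  refine ⟨⟨?_, h3.trans_lt ENNReal.ofReal_lt_top⟩, h3⟩
  exact (((h.cont i j).mul (cv_smooth hK hgl).continuous).sub
    (cv_smooth hK (MemLp.locInt hAg)).continuous).aestronglyMeasurable

/-- **The `H²` estimate** : the weak gradient of a weak solution of `div (A ∇ v) = f` has weak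
derivatives, with a bound. -/
theorem h2_est {lam M B : ℝ} {A : Fin n → Fin n → EE n → ℝ} (h : Coef n lam M A) (hB : 0 ≤ B)
    {v f : EE n → ℝ} {G : Fin n → EE n → ℝ} (hv : LocallyIntegrable v) (hG : ∀ i, N2 B (G i))
    (hf : N2 B f) (hvG : ∀ i, WD i v (G i))
    (heq : ∀ φ, IsTest φ → ∫ x, ∑ i, ∑ j, A i j x * G j x * pderiv i φ x = - ∫ x, f x * φ x)
    (j l : Fin n) :
    ∃ g, N2 ((1 + n * (n * (M * cK n))) / lam * B) g ∧ WD l (G j) g := by
  classical
  have hM := h.M_nonneg j
  have hcK := cK_nonneg n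
  set C : ℝ := (1 + n * (n * (M * cK n))) / lam * B with hC
  have hC0 : 0 ≤ C := by
    have := h.lam_pos
    positivity
  have hfl := MemLp.locInt hf.1
  have hGl : ∀ i, LocallyIntegrable (G i) := fun i => MemLp.locInt (hG i).1
  -- the flux
  set F : Fin n → EE n → ℝ := fun i x => ∑ j, A i j x * G j x with hFdef
  have hF1 : ∀ i j, MemLp (fun x => A i j x * G j x) 2 := fun i j =>
    ((hG j).mul_bdd (h.cont i j) (h.bdd i j)).1
  have hF : ∀ i, MemLp (F i) 2 := fun i => by
    exact memLp_finsetSum _ (fun j _ => hF1 i j)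
  have hFl : ∀ i, LocallyIntegrable (F i) := fun i => MemLp.locInt (hF i)
  -- key bound at each scale
  have key : ∀ k : ℕ, nm (pderiv l (cv (rho n k) (G j))) ≤ C := by
    intro k
    have hρ := rho_test (n := n) k
    set w : EE n → ℝ := cv (rho n k) (G l) with hw
    have hws : ContDiff ℝ ∞ w := cv_smooth hρ (hGl l)
    have hwd : Differentiable ℝ w := hws.differentiable (by simp)
    set D : Fin n → EE n → ℝ := fun i => cv (pderiv i (rho n k)) (G l) with hD
    have hDw : ∀ i, pderiv i w = D i := fun i => by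
      ext x; exact pderiv_cv hρ (hGl l) i x
    have hDm : ∀ i, MemLp (D i) 2 := fun i => memLp_cv (hρ.pderiv i) (hG l).1
    have hDs : ∀ i, ContDiff ℝ ∞ (D i) := fun i => cv_smooth (hρ.pderiv i) (hGl l)
    have hDd : ∀ i, Differentiable ℝ (D i) := fun i => (hDs i).differentiable (by simp)
    have hwm : MemLp w 2 := memLp_cv hρ (hG l).1
    -- the mollified solution
    set u : EE n → ℝ := cv (rho n k) v with hu
    have hus : ContDiff ℝ ∞ u := cv_smooth hρ hv
    have hud : ∀ i, pderiv i u = cv (rho n k) (G i) := fun i => by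
      ext x; exact pderiv_cv_wd hρ hv (hvG i) x
    have hcomm : ∀ i, D i = cv (pderiv l (rho n k)) (G i) := by
      intro i
      ext x
      have h1 : pderiv i (pderiv l u) x = pderiv l (pderiv i u) x :=
        pderiv_comm i l x (hus.contDiffAt.of_le
          (show ((2 : ℕ∞) : WithTop ℕ∞) ≤ ((⊤ : ℕ∞) : WithTop ℕ∞) from WithTop.coe_le_coe.2 le_top))
      rw [hud l, hud i, pderiv_cv hρ (hGl l), pderiv_cv hρ (hGl i)] at h1
      exact h1
    -- the mollified flux
    set S : Fin n → EE n → ℝ := fun i => cv (rho n k) (F i) with hS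
    have hSs : ∀ i, ContDiff ℝ ∞ (S i) := fun i => cv_smooth hρ (hFl i)
    have hSd : ∀ i, Differentiable ℝ (S i) := fun i => (hSs i).differentiable (by simp)
    have hSm : ∀ i, MemLp (S i) 2 := fun i => memLp_cv hρ (hF i)
    have hdS : ∀ i m x, pderiv m (S i) x = cv (pderiv m (rho n k)) (F i) x := fun i m x =>
      pderiv_cv hρ (hFl i) m x
    have hdSm : ∀ i m, MemLp (pderiv m (S i)) 2 := fun i m => by
      have : pderiv m (S i) = cv (pderiv m (rho n k)) (F i) := by ext x; exact hdS i m x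
      rw [this]; exact memLp_cv (hρ.pderiv m) (hF i)
    -- divergence of the mollified flux
    have hdiv : ∀ x, ∑ i, pderiv i (S i) x = cv (rho n k) f x := by
      intro x
      have h1 := heq (fun t => rho n k (x - t)) (hρ.comp_sub x)
      have h2 : ∀ t, ∑ i, ∑ j, A i j t * G j t * pderiv i (fun t => rho n k (x - t)) t
          = - ∑ i, F i t * pderiv i (rho n k) (x - t) := by
        intro t
        rw [← Finset.sum_neg_distrib]
        apply Finset.sum_congr rfl
        intro i _
        rw [← Finset.sum_mul, pderiv_comp_sub i x t (hρ.smooth.differentiable (by simp) _)]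
        simp only [F]; ring
      simp only [h2, integral_neg] at h1
      rw [integral_finsetSum] at h1
      · simp only [hdS, cv_apply]
        linarith
      · intro i _
        exact cv_exists (hρ.pderiv i) (hFl i) x
    -- commutator
    set R : Fin n → EE n → ℝ := fun i x => ∑ j, (A i j x * cv (pderiv l (rho n k)) (G j) x
      - cv (pderiv l (rho n k)) (fun x => A i j x * G j x) x) with hR
    have hRn : ∀ i, N2 (n * (M * cK n * B)) (R i) := by
      intro i
      have := N2.sum Finset.univ (f := fun j x => (A i j x * cv (pderiv l (rho n k)) (G j) x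
        - cv (pderiv l (rho n k)) (fun x => A i j x * G j x) x)) (B := fun _ => M * cK n * B)
        (fun j _ => commutator h (hG j) i j l k) (fun _ _ => by positivity)
      rw [Finset.sum_const, Finset.card_univ, Fintype.card_fin, nsmul_eq_mul] at this
      exact this
    have hcvF : ∀ i x, cv (pderiv l (rho n k)) (F i) x
        = ∑ j, cv (pderiv l (rho n k)) (fun x => A i j x * G j x) x := by
      intro i x
      simp only [cv_apply, F]
      rw [← integral_finsetSum]
      · congr 1; ext t; rw [Finset.sum_mul]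
      · intro j _
        exact cv_exists (hρ.pderiv l) (MemLp.locInt (hF1 i j)) x
    have hAD : ∀ i x, ∑ j, A i j x * D j x = pderiv l (S i) x + R i x := by
      intro i x
      rw [hdS, hcvF]
      simp only [R, Finset.sum_sub_distrib]
      simp only [hcomm]
      ring
    -- energy
    have hE1 : ∀ i, ∫ x, D i x ^ 2 = nm (D i) ^ 2 := fun i => integral_sq (hDm i)
    have hDi2 : ∀ i, Integrable (fun x => D i x ^ 2) := fun i => by
      have := integrable_mul (hDm i) (hDm i)
      simpa [sq] using this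
    have hsd : ∀ i, Integrable (fun x => pderiv l (S i) x * D i x) := fun i =>
      integrable_mul (hdSm i l) (hDm i)
    have hrd : ∀ i, Integrable (fun x => R i x * D i x) := fun i =>
      integrable_mul (hRn i).1 (hDm i)
    have hE2 : lam * ∑ i, nm (D i) ^ 2 ≤ (∑ i, ∫ x, pderiv l (S i) x * D i x)
        + ∑ i, ∫ x, R i x * D i x := by
      have h1 : lam * ∑ i, nm (D i) ^ 2 = ∫ x, lam * ∑ i, D i x ^ 2 := by
        rw [integral_const_mul, integral_finsetSum _ (fun i _ => hDi2 i)]
        simp only [hE1]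
      rw [h1, ← integral_finsetSum _ (fun i _ => hsd i), ← integral_finsetSum _ (fun i _ => hrd i),
        ← integral_add (integrable_finsetSum _ fun i _ => hsd i)
          (integrable_finsetSum _ fun i _ => hrd i)]
      apply integral_mono
      · exact (integrable_finsetSum _ fun i _ => hDi2 i).const_mul lam
      · exact (integrable_finsetSum _ fun i _ => hsd i).add
          (integrable_finsetSum _ fun i _ => hrd i)
      · intro x
        simp only
        refine (h.ell x (fun i => D i x)).trans (le_of_eq ?_)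
        rw [← Finset.sum_add_distrib]
        apply Finset.sum_congr rfl
        intro i _
        rw [← add_mul, ← hAD i x, Finset.sum_mul]
    -- integration by parts twice
    have hIBP : ∑ i, ∫ x, pderiv l (S i) x * D i x = ∫ x, cv (rho n k) f x * D l x := by
      have hdDm : ∀ i m, MemLp (pderiv m (D i)) 2 := fun i m => by
        have : pderiv m (D i) = cv (pderiv m (pderiv i (rho n k))) (G l) := by
          ext x; exact pderiv_cv (hρ.pderiv i) (hGl l) m x
        rw [this]; exact memLp_cv ((hρ.pderiv i).pderiv m) (hG l).1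
      have h1 : ∀ i, ∫ x, pderiv l (S i) x * D i x = ∫ x, pderiv i (S i) x * D l x := by
        intro i
        have e1 := integral_parts (f := D i) (g := S i) l (hDd i) (hSd i)
          (integrable_mul (hDm i) (hdSm i l)) (integrable_mul (hdDm i l) (hSm i))
          (integrable_mul (hDm i) (hSm i))
        have e2 := integral_parts (f := S i) (g := D l) i (hSd i) (hDd l)
          (integrable_mul (hSm i) (hdDm l i)) (integrable_mul (hdSm i i) (hDm l))
          (integrable_mul (hSm i) (hDm l))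
        have e3 : ∀ x, pderiv l (D i) x = pderiv i (D l) x := by
          intro x
          rw [← hDw i, ← hDw l]
          exact pderiv_comm l i x (hws.contDiffAt.of_le
            (show ((2 : ℕ∞) : WithTop ℕ∞) ≤ ((⊤ : ℕ∞) : WithTop ℕ∞) from
              WithTop.coe_le_coe.2 le_top))
        have e4 : ∫ x, pderiv l (S i) x * D i x = ∫ x, D i x * pderiv l (S i) x := by
          congr 1; ext x; ring
        have e5 : ∫ x, pderiv l (D i) x * S i x = ∫ x, S i x * pderiv i (D l) x := by
          congr 1; ext x; rw [e3 x]; ring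
        rw [e4, e1, e5, e2]; ring
      simp only [h1]
      rw [← integral_finsetSum _ (fun i _ => integrable_mul (hdSm i i) (hDm l))]
      congr 1; ext x
      rw [← Finset.sum_mul, hdiv x]
    -- conclusion at scale `k`
    have hT0 : 0 ≤ ∑ i, nm (D i) ^ 2 := Finset.sum_nonneg fun i _ => by positivity
    set T : ℝ := Real.sqrt (∑ i, nm (D i) ^ 2) with hT
    have hTsq : T ^ 2 = ∑ i, nm (D i) ^ 2 := Real.sq_sqrt hT0
    have hTn : 0 ≤ T := Real.sqrt_nonneg _
    have hDT : ∀ i, nm (D i) ≤ T := fun i => by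
      apply Real.le_sqrt_of_sq_le
      exact Finset.single_le_sum (f := fun i => nm (D i) ^ 2) (fun i _ => by positivity)
        (Finset.mem_univ i)
    have hb1 : ∫ x, cv (rho n k) f x * D l x ≤ B * T := by
      have h1 : MemLp (cv (rho n k) f) 2 := memLp_cv hρ hf.1
      have h2 : nm (cv (rho n k) f) ≤ B := by
        refine le_trans ?_ (hf.nm_le hB)
        exact ENNReal.toReal_mono hf.1.2.ne (eLpNorm_cv_rho_le k hf.1.1)
      refine (le_abs_self _).trans ((abs_integral_mul_le h1 (hDm l)).trans ?_)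
      exact mul_le_mul h2 (hDT l) (nm_nonneg _) hB
    have hb2 : ∑ i, ∫ x, R i x * D i x ≤ n * (n * (M * cK n * B) * T) := by
      calc ∑ i, ∫ x, R i x * D i x ≤ ∑ _i : Fin n, n * (M * cK n * B) * T := by
            apply Finset.sum_le_sum
            intro i _
            refine (le_abs_self _).trans ((abs_integral_mul_le (hRn i).1 (hDm i)).trans ?_)
            exact mul_le_mul ((hRn i).nm_le (by positivity)) (hDT i) (nm_nonneg _) (by positivity)
        _ = _ := by simp
    have hlam := h.lam_pos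
    have hfinal : lam * T ^ 2 ≤ (1 + n * (n * (M * cK n))) * B * T := by
      rw [hTsq]
      calc lam * ∑ i, nm (D i) ^ 2 ≤ _ := hE2
        _ ≤ B * T + n * (n * (M * cK n * B) * T) := by rw [hIBP]; exact add_le_add hb1 hb2
        _ = _ := by ring
    have hTC : T ≤ C := by
      rcases hTn.eq_or_lt with h0 | h0
      · rw [← h0]; exact hC0
      · have h1 : lam * T ≤ (1 + n * (n * (M * cK n))) * B := by
          have h2 : (lam * T) * T ≤ ((1 + n * (n * (M * cK n))) * B) * T := by
            calc (lam * T) * T = lam * T ^ 2 := by ring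
              _ ≤ _ := hfinal
          exact le_of_mul_le_mul_right h2 h0
        rw [hC, div_mul_eq_mul_div, le_div_iff₀ hlam]
        linarith
    have hfin : pderiv l (cv (rho n k) (G j)) = D j := by
      rw [hcomm j]; ext x; exact pderiv_cv hρ (hGl j) l x
    rw [hfin]
    exact (hDT j).trans hTC
  -- conclusion
  have hfin : ∀ φ, IsTest φ → |∫ x, G j x * pderiv l φ x| ≤ C * (eLpNorm φ 2 volume).toReal := by
    intro φ hφ
    have h1 := tendsto_integral_cv_mul (hGl j) (hφ.pderiv l)
    refine le_of_tendsto h1.abs (Eventually.of_forall fun k => ?_)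
    have hρ := rho_test (n := n) k
    have hs : ContDiff ℝ ∞ (cv (rho n k) (G j)) := cv_smooth hρ (hGl j)
    have hs' : ContDiff ℝ 1 (cv (rho n k) (G j)) := hs.of_le (by exact_mod_cast le_top)
    have h2 := WD.of_smooth (i := l) hs' φ hφ
    rw [h2, abs_neg]
    have hm : MemLp (pderiv l (cv (rho n k) (G j))) 2 := by
      have : pderiv l (cv (rho n k) (G j)) = cv (pderiv l (rho n k)) (G j) := by
        ext x; exact pderiv_cv hρ (hGl j) l x
      rw [this]; exact memLp_cv (hρ.pderiv l) (hG j).1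
    refine (abs_integral_mul_le hm (hφ.memLp 2)).trans ?_
    exact mul_le_mul_of_nonneg_right (key k) (nm_nonneg φ)
  obtain ⟨g, h1, h2, h3⟩ := exists_wd (hGl j) l hC0 hfin
  exact ⟨g, ⟨h1, h2⟩, h3⟩

end

end Crest.Agent.R202.Ell
end

-- ▼ part R247/Frd1_657
section

/-!
R247, block (5), leaf (5-F): Friedrichs mollification, file 1:
`L²` convergence of mollifications, sup bound, supports, localised weak derivatives. (helper657)
-/

set_option autoImplicit false
open scoped ContDiff ENNReal Topology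
open MeasureTheory Set Filter
open Crest.GeometryTopology.CoordMetric
open Crest.Agent.R202.Ell

namespace Crest.Agent.R247.Frd657

noncomputable section

variable {n : ℕ}

/-! ### `L²` convergence of the mollification -/

/-- test functions are dense in `L²` -/
theorem exists_test_close {g : EE n → ℝ} (hg : MemLp g 2) {ε : ℝ} (hε : 0 < ε) :
    ∃ φ : EE n → ℝ, IsTest φ ∧ nm (fun x => g x - φ x) ≤ ε := by
  have hd := Lp.dense_hasCompactSupport_contDiff (F := ℝ) (E := EE n) (μ := volume) (p := 2)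
    (by norm_num)
  obtain ⟨f, ⟨φ, hφ, hφc, hφs⟩, hf⟩ := Metric.mem_closure_iff.1 (hd (hg.toLp g)) ε hε
  have hT : IsTest φ := ⟨hφs, hφc⟩
  refine ⟨φ, hT, ?_⟩
  have hm := hT.memLp (2 : ℝ≥0∞)
  have h1 : f = hm.toLp φ := by
    apply Lp.ext
    exact hφ.trans hm.coeFn_toLp.symm
  rw [h1, dist_eq_norm, ← MemLp.toLp_sub, Lp.norm_toLp] at hf
  exact hf.le

theorem memLp_sub' {f g : EE n → ℝ} (hf : MemLp f 2) (hg : MemLp g 2) :
    MemLp (fun x => f x - g x) 2 := hf.sub hg

/-- **`L²` convergence of mollifications** -/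
theorem tendsto_nm_cv {g : EE n → ℝ} (hg : MemLp g 2) :
    Tendsto (fun k => nm (fun x => cv (rho n k) g x - g x)) atTop (𝓝 0) := by
  have hJ : ∀ k, MemLp (cv (rho n k) g) 2 := fun k => memLp_cv (rho_test k) hg
  have hJn : ∀ k, nm (cv (rho n k) g) ≤ nm g := fun k =>
    ENNReal.toReal_mono hg.2.ne (eLpNorm_cv_rho_le k hg.1)
  -- pairing with `g`
  have hpair : Tendsto (fun k => ∫ x, cv (rho n k) g x * g x) atTop (𝓝 (nm g ^ 2)) := by
    rw [Metric.tendsto_atTop]
    intro ε hε
    set N : ℝ := nm g with hN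
    have hN0 : 0 ≤ N := nm_nonneg g
    obtain ⟨φ, hφ, hφε⟩ := exists_test_close hg (ε := ε / (4 * (N + 1))) (by positivity)
    have hgφ : MemLp (fun x => g x - φ x) 2 := hg.sub (hφ.memLp 2)
    have h1 := tendsto_integral_cv_mul (MemLp.locInt hg) hφ
    rw [Metric.tendsto_atTop] at h1
    obtain ⟨K, hK⟩ := h1 (ε / 4) (by positivity)
    refine ⟨K, fun k hk => ?_⟩
    have h2 := hK k hk
    rw [Real.dist_eq] at h2 ⊢
    have i1 : Integrable (fun x => cv (rho n k) g x * (g x - φ x)) := integrable_mul (hJ k) hgφ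
    have i2 : Integrable (fun x => cv (rho n k) g x * φ x) := integrable_mul (hJ k) (hφ.memLp 2)
    have i3 : Integrable (fun x => g x * (g x - φ x)) := integrable_mul hg hgφ
    have i4 : Integrable (fun x => g x * φ x) := integrable_mul hg (hφ.memLp 2)
    have e1 : ∫ x, cv (rho n k) g x * g x
        = (∫ x, cv (rho n k) g x * (g x - φ x)) + ∫ x, cv (rho n k) g x * φ x := by
      rw [← integral_add i1 i2]; congr 1; ext x; ring
    have e2 : nm g ^ 2 = (∫ x, g x * (g x - φ x)) + ∫ x, g x * φ x := by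
      rw [← integral_sq hg, ← integral_add i3 i4]; congr 1; ext x; ring
    have b1 : |∫ x, cv (rho n k) g x * (g x - φ x)| ≤ ε / 4 := by
      refine (abs_integral_mul_le (hJ k) hgφ).trans ?_
      calc nm (cv (rho n k) g) * nm (fun x => g x - φ x)
          ≤ N * (ε / (4 * (N + 1))) := by
            apply mul_le_mul (hJn k) hφε (nm_nonneg _) hN0
        _ ≤ (N + 1) * (ε / (4 * (N + 1))) := by
            apply mul_le_mul_of_nonneg_right (by linarith) (by positivity)
        _ = ε / 4 := by field_simp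
    have b2 : |∫ x, g x * (g x - φ x)| ≤ ε / 4 := by
      refine (abs_integral_mul_le hg hgφ).trans ?_
      calc nm g * nm (fun x => g x - φ x)
          ≤ N * (ε / (4 * (N + 1))) := by
            apply mul_le_mul le_rfl hφε (nm_nonneg _) hN0
        _ ≤ (N + 1) * (ε / (4 * (N + 1))) := by
            apply mul_le_mul_of_nonneg_right (by linarith) (by positivity)
        _ = ε / 4 := by field_simp
    rw [e1, e2]
    rw [abs_le] at b1 b2
    rw [abs_lt] at h2 ⊢
    constructor <;> linarith [b1.1, b1.2, b2.1, b2.2, h2.1, h2.2]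
  -- norm squared of the difference
  have hsq : ∀ k, nm (fun x => cv (rho n k) g x - g x) ^ 2
      ≤ 2 * nm g ^ 2 - 2 * ∫ x, cv (rho n k) g x * g x := by
    intro k
    have hd : MemLp (fun x => cv (rho n k) g x - g x) 2 := (hJ k).sub hg
    have j1 : Integrable (fun x => cv (rho n k) g x * cv (rho n k) g x) :=
      integrable_mul (hJ k) (hJ k)
    have j2 : Integrable (fun x => cv (rho n k) g x * g x) := integrable_mul (hJ k) hg
    have j3 : Integrable (fun x => g x * g x) := integrable_mul hg hg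
    have j12 : Integrable (fun x => cv (rho n k) g x * cv (rho n k) g x
        - 2 * (cv (rho n k) g x * g x)) := j1.sub (j2.const_mul 2)
    have e : ∫ x, (cv (rho n k) g x - g x) ^ 2
        = (∫ x, cv (rho n k) g x * cv (rho n k) g x) - 2 * (∫ x, cv (rho n k) g x * g x)
          + ∫ x, g x * g x := by
      rw [← integral_const_mul, ← integral_sub j1 (j2.const_mul 2), ← integral_add j12 j3]
      congr 1; ext x; ring
    rw [← integral_sq hd, e]
    have e1 : ∫ x, cv (rho n k) g x * cv (rho n k) g x = nm (cv (rho n k) g) ^ 2 := by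
      rw [← integral_sq (hJ k)]; congr 1; ext x; ring
    have e2 : ∫ x, g x * g x = nm g ^ 2 := by
      rw [← integral_sq hg]; congr 1; ext x; ring
    rw [e1, e2]
    have h3 : nm (cv (rho n k) g) ^ 2 ≤ nm g ^ 2 := pow_le_pow_left₀ (nm_nonneg _) (hJn k) 2
    linarith
  have hlim : Tendsto (fun k => 2 * nm g ^ 2 - 2 * ∫ x, cv (rho n k) g x * g x) atTop (𝓝 0) := by
    have := (hpair.const_mul 2).const_sub (2 * nm g ^ 2)
    simpa using this
  have hsq0 : Tendsto (fun k => nm (fun x => cv (rho n k) g x - g x) ^ 2) atTop (𝓝 0) :=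
    squeeze_zero (fun k => sq_nonneg _) hsq hlim
  have := hsq0.sqrt
  rw [Real.sqrt_zero] at this
  refine this.congr fun k => ?_
  exact Real.sqrt_sq (nm_nonneg _)

/-- sup bound of the mollification -/
theorem abs_cv_le {g : EE n → ℝ} {S : ℝ} (hg : ∀ᵐ x, |g x| ≤ S) (k : ℕ) (x : EE n) :
    |cv (rho n k) g x| ≤ S := by
  rw [cv_apply]
  have h1 : ‖∫ t, g t * rho n k (x - t)‖ ≤ ∫ t, S * rho n k (x - t) := by
    apply norm_integral_le_of_norm_le
    · exact ((rho_test k).comp_sub x).integrable.const_mul S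
    · filter_upwards [hg] with t ht
      rw [norm_mul, Real.norm_of_nonneg (rho_nonneg k _), Real.norm_eq_abs]
      exact mul_le_mul_of_nonneg_right ht (rho_nonneg k _)
  rw [integral_const_mul, integral_sub_left_eq_self (rho n k) volume x, rho_integral, mul_one] at h1
  simpa [Real.norm_eq_abs] using h1

/-- one-sided sup bounds of the mollification -/
theorem cv_le {g : EE n → ℝ} (hgl : LocallyIntegrable g) {S : ℝ} (hg : ∀ᵐ x, g x ≤ S) (k : ℕ)
    (x : EE n) : cv (rho n k) g x ≤ S := by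
  rw [cv_apply]
  have h1 : ∫ t, g t * rho n k (x - t) ≤ ∫ t, S * rho n k (x - t) := by
    apply integral_mono_ae (cv_exists (rho_test k) hgl x)
      (((rho_test k).comp_sub x).integrable.const_mul S)
    filter_upwards [hg] with t ht
    exact mul_le_mul_of_nonneg_right ht (rho_nonneg k _)
  rwa [integral_const_mul, integral_sub_left_eq_self (rho n k) volume x, rho_integral,
    mul_one] at h1

theorem le_cv {g : EE n → ℝ} (hgl : LocallyIntegrable g) {S : ℝ} (hg : ∀ᵐ x, S ≤ g x) (k : ℕ)
    (x : EE n) : S ≤ cv (rho n k) g x := by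
  rw [cv_apply]
  have h1 : ∫ t, S * rho n k (x - t) ≤ ∫ t, g t * rho n k (x - t) := by
    apply integral_mono_ae (((rho_test k).comp_sub x).integrable.const_mul S)
      (cv_exists (rho_test k) hgl x)
    filter_upwards [hg] with t ht
    exact mul_le_mul_of_nonneg_right ht (rho_nonneg k _)
  rwa [integral_const_mul, integral_sub_left_eq_self (rho n k) volume x, rho_integral,
    mul_one] at h1

/-- the mollification vanishes away from the support -/
theorem cv_eq_zero {g : EE n → ℝ} {S : Set (EE n)} (hg : ∀ x, x ∉ S → g x = 0) (k : ℕ) (x : EE n)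
    (hx : ∀ y ∈ S, 1 / ((k : ℝ) + 1) ≤ dist x y) : cv (rho n k) g x = 0 := by
  rw [cv_apply]
  have : ∀ t, g t * rho n k (x - t) = 0 := by
    intro t
    by_cases ht : t ∈ S
    · have h1 : rho n k (x - t) = 0 := by
        have h2 : x - t ∉ Function.support (rho n k) := by
          rw [rho, ContDiffBump.support_normed_eq]
          simp only [bmp, Metric.mem_ball, dist_zero_right, not_lt]
          have := hx t ht
          rwa [dist_eq_norm] at this
        simpa using h2
      rw [h1, mul_zero]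
    · rw [hg t ht, zero_mul]
  simp [this]

/-- the support of the mollification -/
theorem tsupport_cv_subset {g : EE n → ℝ} {S : Set (EE n)} (hg : ∀ x, x ∉ S → g x = 0) (k : ℕ) :
    tsupport (cv (rho n k) g) ⊆ Metric.cthickening (1 / ((k : ℝ) + 1)) S := by
  apply closure_minimal _ Metric.isClosed_cthickening
  intro x hx
  by_contra hne
  apply hx
  apply cv_eq_zero hg k x
  intro y hy
  by_contra hlt
  push Not at hlt
  exact hne (Metric.mem_cthickening_of_dist_le x y _ S hy hlt.le)

end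

end Crest.Agent.R247.Frd657
end

-- ▼ part R247/Frd2_657

/-!
R247, block (5), leaf (5-F): Friedrichs mollification, file 2: local `L²` functions, local weak
derivatives, cut-off, products with cut-offs, the localised weak equation. (helper657)
-/

set_option autoImplicit false
open scoped ContDiff ENNReal Topology Manifold
open MeasureTheory Set Filter
open Crest.GeometryTopology.CoordMetric
open Crest.Agent.R202.Ell

namespace Crest.Agent.R247.Frd657

noncomputable section

variable {n : ℕ}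

/-! ### cut-offs -/

/-- cut-off: `= 1` near `K`, supported in `Ω`. -/
theorem exists_cutoff {K Ω : Set (EE n)} (hK : IsCompact K) (hΩ : IsOpen Ω) (hKΩ : K ⊆ Ω) :
    ∃ θ : EE n → ℝ, IsTest θ ∧ tsupport θ ⊆ Ω ∧ (∀ᶠ y in 𝓝ˢ K, θ y = 1) ∧ (∀ y ∈ K, θ y = 1) ∧
      ∀ y, θ y ∈ Icc (0 : ℝ) 1 := by
  obtain ⟨V, hVo, hKV, hVΩ, hVc⟩ := exists_open_between_and_isCompact_closure hK hΩ hKΩ
  obtain ⟨f, hf1, hf0, hf⟩ := exists_contMDiffMap_one_nhds_of_subset_interior
    (modelWithCornersSelf ℝ (EE n)) (n := (⊤ : ℕ∞)) hK.isClosed (t := V)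
    (hKV.trans (interior_eq_iff_isOpen.mpr hVo).ge)
  have hsm : ContDiff ℝ ∞ (f : EE n → ℝ) := f.contMDiff.contDiff
  have hts : tsupport (f : EE n → ℝ) ⊆ closure V := by
    apply closure_mono
    intro x hx
    by_contra h
    exact hx (hf0 x h)
  have hcs : HasCompactSupport (f : EE n → ℝ) := hVc.of_isClosed_subset isClosed_closure hts
  exact ⟨f, ⟨hsm, hcs⟩, hts.trans hVΩ, hf1, fun y hy => hf1.self_of_nhdsSet y hy, hf⟩

/-- a smooth function on an open set, cut off -/
theorem test_mul_on {χ a : EE n → ℝ} {Ω : Set (EE n)} (hχ : IsTest χ) (hΩ : IsOpen Ω)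
    (hs : tsupport χ ⊆ Ω) (ha : ContDiffOn ℝ ∞ a Ω) : IsTest (fun x => a x * χ x) := by
  refine ⟨contDiff_iff_contDiffAt.2 fun y => ?_, hχ.cpt.mul_left⟩
  by_cases hy : y ∈ tsupport χ
  · exact (ha.contDiffAt (hΩ.mem_nhds (hs hy))).mul hχ.smooth.contDiffAt
  · have h : (fun y => a y * χ y) =ᶠ[𝓝 y] fun _ => 0 := by
      filter_upwards [(isClosed_tsupport χ).isOpen_compl.mem_nhds hy] with z hz
      rw [image_eq_zero_of_notMem_tsupport hz, mul_zero]
    exact contDiffAt_const.congr_of_eventuallyEq h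

theorem tsupport_mul_on (χ a : EE n → ℝ) : tsupport (fun x => a x * χ x) ⊆ tsupport χ :=
  tsupport_mul_subset_right

theorem tsupport_mul_left' (χ a : EE n → ℝ) : tsupport (fun x => χ x * a x) ⊆ tsupport χ :=
  tsupport_mul_subset_left

theorem tsupport_pderiv (χ : EE n → ℝ) (i : Fin n) : tsupport (pderiv i χ) ⊆ tsupport χ :=
  tsupport_fderiv_apply_subset ℝ (EuclideanSpace.single i 1)

/-! ### local `L²` functions -/

/-- `g ∈ L²_loc(Ω)` -/
def L2On (Ω : Set (EE n)) (g : EE n → ℝ) : Prop :=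
  ∀ K, K ⊆ Ω → IsCompact K → MemLp g 2 (volume.restrict K)

theorem L2On.of_memLp {Ω : Set (EE n)} {g : EE n → ℝ} (hg : MemLp g 2) : L2On Ω g :=
  fun _ _ _ => hg.restrict _

theorem L2On.mono {Ω Ω' : Set (EE n)} {g : EE n → ℝ} (hg : L2On Ω g) (h : Ω' ⊆ Ω) : L2On Ω' g :=
  fun K hK hc => hg K (hK.trans h) hc

theorem L2On.of_continuousOn {Ω : Set (EE n)} {g : EE n → ℝ} (hg : ContinuousOn g Ω) :
    L2On Ω g := by
  intro K hK hc
  obtain ⟨C, hC⟩ := hc.exists_bound_of_continuousOn (hg.mono hK)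
  have : IsFiniteMeasure (volume.restrict K : Measure (EE n)) :=
    ⟨by rw [Measure.restrict_apply_univ]; exact hc.measure_lt_top⟩
  refine MemLp.of_bound ((hg.mono hK).aestronglyMeasurable hc.measurableSet) C ?_
  rw [ae_restrict_iff' hc.measurableSet]
  exact Eventually.of_forall hC

theorem L2On.mul_test {Ω : Set (EE n)} {g χ : EE n → ℝ} (hg : L2On Ω g) (hχ : Continuous χ)
    (hc : HasCompactSupport χ) (hs : tsupport χ ⊆ Ω) : MemLp (fun x => χ x * g x) 2 := by
  have hK : IsCompact (tsupport χ) := hc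
  have h0 := hg _ hs hK
  obtain ⟨C, hC⟩ := hc.exists_bound_of_continuous hχ
  have h1 : MemLp (fun x => χ x * g x) 2 (volume.restrict (tsupport χ)) := by
    refine MemLp.of_le_mul (c := C) h0 (hχ.aestronglyMeasurable.mul h0.1) ?_
    refine Eventually.of_forall fun x => ?_
    rw [norm_mul]
    exact mul_le_mul_of_nonneg_right (hC x) (norm_nonneg _)
  have h2 : (fun x => χ x * g x) = (tsupport χ).indicator (fun x => χ x * g x) := by
    ext x
    by_cases hx : x ∈ tsupport χ
    · rw [indicator_of_mem hx]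
    · rw [indicator_of_notMem hx, image_eq_zero_of_notMem_tsupport hx, zero_mul]
  rw [h2, memLp_indicator_iff_restrict hK.measurableSet]
  exact h1

/-- product of a local `L²` function with a test function is integrable -/
theorem L2On.int_test {Ω : Set (EE n)} {g χ : EE n → ℝ} (hg : L2On Ω g) (hχ : Continuous χ)
    (hc : HasCompactSupport χ) (hs : tsupport χ ⊆ Ω) : Integrable (fun x => g x * χ x) := by
  obtain ⟨θ, hθ, hθΩ, -, hθ1, -⟩ := exists_cutoff (K := tsupport χ) hc isOpen_univ (subset_univ _)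
  have h1 := hg.mul_test hχ hc hs
  have h2 := integrable_mul h1 (hθ.memLp 2)
  refine h2.congr (Eventually.of_forall fun x => ?_)
  by_cases hx : x ∈ tsupport χ
  · simp only [hθ1 x hx]; ring
  · simp only [image_eq_zero_of_notMem_tsupport hx]; ring

/-! ### local weak derivatives -/

/-- `g` is a weak derivative of `u` in direction `i` on `Ω` -/
def WDOn (Ω : Set (EE n)) (i : Fin n) (u g : EE n → ℝ) : Prop :=
  ∀ φ : EE n → ℝ, IsTest φ → tsupport φ ⊆ Ω → ∫ x, u x * pderiv i φ x = - ∫ x, g x * φ x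

theorem WDOn.mono {Ω Ω' : Set (EE n)} {i : Fin n} {u g : EE n → ℝ} (h : WDOn Ω i u g)
    (h' : Ω' ⊆ Ω) : WDOn Ω' i u g := fun φ hφ hs => h φ hφ (hs.trans h')

theorem WDOn.of_wd {Ω : Set (EE n)} {i : Fin n} {u g : EE n → ℝ} (h : WD i u g) :
    WDOn Ω i u g := fun φ hφ _ => h φ hφ

/-- Product with a test function: the product is globally weakly differentiable. -/
theorem WDOn.mul_test {Ω : Set (EE n)} {i : Fin n} {u g χ : EE n → ℝ} (hu : L2On Ω u)
    (hg : L2On Ω g) (h : WDOn Ω i u g) (hχ : IsTest χ) (hs : tsupport χ ⊆ Ω) :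
    WD i (fun x => χ x * u x) (fun x => pderiv i χ x * u x + χ x * g x) := by
  intro φ hφ
  have hT : IsTest (fun x => χ x * φ x) := hφ.mul_left hχ.smooth
  have hTs : tsupport (fun x => χ x * φ x) ⊆ Ω := (tsupport_mul_left' χ φ).trans hs
  have h1 := h _ hT hTs
  have hd : ∀ x, pderiv i (fun x => χ x * φ x) x = pderiv i χ x * φ x + χ x * pderiv i φ x :=
    fun x => pderiv_mul i x (hχ.smooth.differentiable (by simp) x)
      (hφ.smooth.differentiable (by simp) x)
  have hT1 : IsTest (fun x => pderiv i χ x * φ x) := hφ.mul_left (hχ.pderiv i).smooth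
  have hT2 : IsTest (fun x => χ x * pderiv i φ x) := (hφ.pderiv i).mul_left hχ.smooth
  have s1 : tsupport (fun x => pderiv i χ x * φ x) ⊆ Ω :=
    (tsupport_mul_left' _ φ).trans ((tsupport_pderiv χ i).trans hs)
  have s2 : tsupport (fun x => χ x * pderiv i φ x) ⊆ Ω := (tsupport_mul_left' χ _).trans hs
  have i1 : Integrable (fun x => u x * (pderiv i χ x * φ x)) := hu.int_test hT1.continuous hT1.cpt s1
  have i2 : Integrable (fun x => u x * (χ x * pderiv i φ x)) := hu.int_test hT2.continuous hT2.cpt s2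
  have i3 : Integrable (fun x => g x * (χ x * φ x)) := hg.int_test hT.continuous hT.cpt hTs
  simp only [hd, mul_add] at h1
  rw [integral_add i1 i2] at h1
  have e1 : ∫ x, χ x * u x * pderiv i φ x = ∫ x, u x * (χ x * pderiv i φ x) := by
    congr 1; ext x; ring
  have e2 : ∫ x, (pderiv i χ x * u x + χ x * g x) * φ x
      = (∫ x, u x * (pderiv i χ x * φ x)) + ∫ x, g x * (χ x * φ x) := by
    rw [← integral_add i1 i3]
    congr 1; ext x; ring
  rw [e1, e2]; linarith

/-- integration by parts of `u` against `b · ∂φ`, `b` a test function in `Ω` -/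
theorem WDOn.parts {Ω : Set (EE n)} {i : Fin n} {u g b : EE n → ℝ} (hu : L2On Ω u)
    (hg : L2On Ω g) (h : WDOn Ω i u g) (hb : IsTest b) (hs : tsupport b ⊆ Ω) {φ : EE n → ℝ}
    (hφ : IsTest φ) :
    ∫ x, b x * u x * pderiv i φ x = - ∫ x, (pderiv i b x * u x + b x * g x) * φ x :=
  h.mul_test hu hg hb hs φ hφ

/-! ### coefficients -/

/-- smooth positive coefficients on an open set -/
structure CoefOn (Ω : Set (EE n)) (A : Fin n → Fin n → EE n → ℝ) : Prop where
  smooth : ∀ i j, ContDiffOn ℝ ∞ (A i j) Ω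
  pos : ∀ x ∈ Ω, ∀ ξ : Fin n → ℝ, ξ ≠ 0 → 0 < ∑ i, ∑ j, A i j x * ξ j * ξ i

/-- uniform ellipticity on compact sets -/
theorem exists_lam {K : Set (EE n)} (hK : IsCompact K) {A : Fin n → Fin n → EE n → ℝ}
    (hA : ∀ i j, ContinuousOn (A i j) K)
    (hpos : ∀ x ∈ K, ∀ ξ : Fin n → ℝ, ξ ≠ 0 → 0 < ∑ i, ∑ j, A i j x * ξ j * ξ i) :
    ∃ lam : ℝ, 0 < lam ∧ ∀ x ∈ K, ∀ ξ : Fin n → ℝ,
      lam * ∑ i, ξ i ^ 2 ≤ ∑ i, ∑ j, A i j x * ξ j * ξ i := by
  classical
  let S : Set (EE n) := Metric.sphere 0 1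
  have hS : IsCompact S := isCompact_sphere _ _
  let F : EE n × EE n → ℝ := fun p => ∑ i, ∑ j, A i j p.1 * p.2 j * p.2 i
  have hF : ContinuousOn F (K ×ˢ S) := by
    apply continuousOn_finsetSum; intro i _
    apply continuousOn_finsetSum; intro j _
    have h1 : ContinuousOn (fun p : EE n × EE n => A i j p.1) (K ×ˢ S) :=
      (hA i j).comp continuousOn_fst (fun p hp => hp.1)
    have h2 : ContinuousOn (fun p : EE n × EE n => p.2 j) (K ×ˢ S) := by fun_prop
    have h3 : ContinuousOn (fun p : EE n × EE n => p.2 i) (K ×ˢ S) := by fun_prop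
    exact (h1.mul h2).mul h3
  have main : ∃ lam : ℝ, 0 < lam ∧ ∀ x ∈ K, ∀ ξ ∈ S, lam ≤ F (x, ξ) := by
    rcases (K ×ˢ S).eq_empty_or_nonempty with h0 | hne
    · refine ⟨1, one_pos, fun x hx ξ hξ => ?_⟩
      have : (x, ξ) ∈ K ×ˢ S := ⟨hx, hξ⟩
      rw [h0] at this; exact absurd this (notMem_empty _)
    · obtain ⟨p, hp, hmin⟩ := (hK.prod hS).exists_isMinOn hne hF
      refine ⟨F p, ?_, fun x hx ξ hξ => hmin (show (x, ξ) ∈ K ×ˢ S from ⟨hx, hξ⟩)⟩
      apply hpos p.1 hp.1 (fun i => p.2 i)
      intro h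
      have h1 : p.2 = 0 := by
        ext i; exact congrFun h i
      have h2 : ‖p.2‖ = 1 := by simpa [S] using hp.2
      rw [h1, norm_zero] at h2
      exact zero_ne_one h2
  obtain ⟨lam, hlam, hl⟩ := main
  refine ⟨lam, hlam, fun x hx ξ => ?_⟩
  let ζ : EE n := WithLp.toLp 2 ξ
  have hζ : ∀ i, ζ i = ξ i := fun i => rfl
  have hn : ‖ζ‖ ^ 2 = ∑ i, ξ i ^ 2 := by
    rw [EuclideanSpace.real_norm_sq_eq]
  rcases eq_or_ne ζ 0 with h0 | h0
  · have h1 : ∀ i, ξ i = 0 := fun i => by rw [← hζ, h0]; rfl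
    simp [h1]
  · have hpos' : 0 < ‖ζ‖ := norm_pos_iff.mpr h0
    have hz : ‖ζ‖⁻¹ • ζ ∈ S := by
      simp only [S, mem_sphere_iff_norm, sub_zero, norm_smul, norm_inv, norm_norm]
      exact inv_mul_cancel₀ hpos'.ne'
    have h1 := hl x hx _ hz
    have h2 : F (x, ‖ζ‖⁻¹ • ζ) = (‖ζ‖⁻¹) ^ 2 * ∑ i, ∑ j, A i j x * ξ j * ξ i := by
      simp only [F, Finset.mul_sum]
      refine Finset.sum_congr rfl fun i _ => Finset.sum_congr rfl fun j _ => ?_
      simp only [PiLp.smul_apply, smul_eq_mul, hζ]
      ring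
    rw [h2] at h1
    rw [← hn]
    have h3 := mul_le_mul_of_nonneg_right h1 (sq_nonneg ‖ζ‖)
    have h4 : (‖ζ‖⁻¹) ^ 2 * (∑ i, ∑ j, A i j x * ξ j * ξ i) * ‖ζ‖ ^ 2 =
        ∑ i, ∑ j, A i j x * ξ j * ξ i := by
      field_simp
    rw [h4] at h3
    exact h3

/-- a test function is bounded and Lipschitz -/
theorem test_bdd_lip {φ : EE n → ℝ} (h : IsTest φ) :
    ∃ C : ℝ, 0 ≤ C ∧ (∀ x, |φ x| ≤ C) ∧ ∀ x y, |φ x - φ y| ≤ C * ‖x - y‖ := by
  obtain ⟨C1, hC1⟩ := h.cpt.exists_bound_of_continuous h.continuous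
  obtain ⟨C2, hC2⟩ := (h.cpt.fderiv (𝕜 := ℝ)).exists_bound_of_continuous
    (h.smooth.continuous_fderiv (by simp))
  have h1 : 0 ≤ C1 := (norm_nonneg _).trans (hC1 0)
  have h2 : 0 ≤ C2 := (norm_nonneg _).trans (hC2 0)
  refine ⟨C1 + C2, by positivity, fun x => ?_, fun x y => ?_⟩
  · have := hC1 x
    rw [Real.norm_eq_abs] at this
    linarith
  · have h3 := Convex.norm_image_sub_le_of_norm_fderiv_le (𝕜 := ℝ) (f := φ) (s := univ) (C := C2)
      (fun x _ => h.smooth.differentiable (by simp) x) (fun x _ => hC2 x) convex_univ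
      (mem_univ y) (mem_univ x)
    rw [Real.norm_eq_abs] at h3
    refine h3.trans ?_
    apply mul_le_mul_of_nonneg_right (by linarith) (norm_nonneg _)

/-- global extension of local coefficients, unchanged on a compact set -/
theorem exists_coef {Ω K : Set (EE n)} (hΩ : IsOpen Ω) (hK : IsCompact K) (hKΩ : K ⊆ Ω)
    {A : Fin n → Fin n → EE n → ℝ} (hA : CoefOn Ω A) :
    ∃ (B : Fin n → Fin n → EE n → ℝ) (lam M : ℝ), Coef n lam M B ∧ ∀ i j, ∀ x ∈ K,
      B i j x = A i j x := by
  classical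
  obtain ⟨θ, hθ, hθΩ, -, hθ1, hθ01⟩ := exists_cutoff hK hΩ hKΩ
  obtain ⟨lam, hlam, hl⟩ := exists_lam (K := tsupport θ) hθ.cpt
    (fun i j => ((hA.smooth i j).continuousOn).mono hθΩ) (fun x hx => hA.pos x (hθΩ hx))
  have hT : ∀ i j, IsTest (fun x => (A i j x - (if i = j then (1 : ℝ) else 0)) * θ x) := fun i j =>
    test_mul_on hθ hΩ hθΩ ((hA.smooth i j).sub contDiffOn_const)
  choose C hC0 hC1 hC2 using fun i j => test_bdd_lip (hT i j)
  set M0 : ℝ := ∑ i, ∑ j, C i j with hM0
  have hCM : ∀ i j, C i j ≤ M0 := by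
    intro i j
    refine le_trans ?_ (Finset.single_le_sum (f := fun i => ∑ j, C i j)
      (fun i _ => Finset.sum_nonneg fun j _ => hC0 i j) (Finset.mem_univ i))
    exact Finset.single_le_sum (f := fun j => C i j) (fun j _ => hC0 i j) (Finset.mem_univ j)
  have hid : ∀ i j x, θ x * A i j x + (1 - θ x) * (if i = j then (1 : ℝ) else 0)
      = (A i j x - (if i = j then (1 : ℝ) else 0)) * θ x + (if i = j then (1 : ℝ) else 0) := by
    intro i j x; ring
  refine ⟨fun i j x => θ x * A i j x + (1 - θ x) * (if i = j then 1 else 0), min lam 1, M0 + 1,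
    ⟨by positivity, ?_, ?_, ?_, ?_⟩, ?_⟩
  · intro i j
    simp only [hid]
    exact (hT i j).continuous.add continuous_const
  · intro i j x
    rw [hid]
    refine (abs_add_le _ _).trans ?_
    have h1 := (hC1 i j x).trans (hCM i j)
    have h2 : |(if i = j then (1 : ℝ) else 0)| ≤ 1 := by split_ifs <;> simp
    linarith
  · intro i j x y
    rw [hid, hid]
    have h1 := hC2 i j x y
    have h2 : (A i j x - (if i = j then (1 : ℝ) else 0)) * θ x + (if i = j then (1 : ℝ) else 0)
        - ((A i j y - (if i = j then (1 : ℝ) else 0)) * θ y + (if i = j then (1 : ℝ) else 0))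
        = (A i j x - (if i = j then (1 : ℝ) else 0)) * θ x
          - (A i j y - (if i = j then (1 : ℝ) else 0)) * θ y := by ring
    rw [h2]
    refine h1.trans (mul_le_mul_of_nonneg_right ?_ (norm_nonneg _))
    linarith [hCM i j]
  · intro x ξ
    have e1 : ∑ i, ∑ j, (θ x * A i j x + (1 - θ x) * (if i = j then 1 else 0)) * ξ j * ξ i =
        θ x * (∑ i, ∑ j, A i j x * ξ j * ξ i) + (1 - θ x) * ∑ i, ξ i ^ 2 := by
      rw [Finset.mul_sum, Finset.mul_sum, ← Finset.sum_add_distrib]
      refine Finset.sum_congr rfl fun i _ => ?_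
      have : ∑ j, (θ x * A i j x + (1 - θ x) * (if i = j then 1 else 0)) * ξ j * ξ i =
          ∑ j, (θ x * (A i j x * ξ j * ξ i)) +
          ∑ j, (if i = j then (1 - θ x) * ξ j * ξ i else 0) := by
        rw [← Finset.sum_add_distrib]
        refine Finset.sum_congr rfl fun j _ => ?_
        split_ifs <;> ring
      rw [this, Finset.sum_ite_eq, ← Finset.mul_sum]
      simp; ring
    rw [e1]
    have hs : 0 ≤ ∑ i, ξ i ^ 2 := Finset.sum_nonneg fun i _ => sq_nonneg _
    have h4 : min lam 1 * ∑ i, ξ i ^ 2 ≤ 1 * ∑ i, ξ i ^ 2 := by gcongr; exact min_le_right _ _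
    by_cases hx : x ∈ tsupport θ
    · have h2 := hl x hx ξ
      have h3 : min lam 1 * ∑ i, ξ i ^ 2 ≤ lam * ∑ i, ξ i ^ 2 := by gcongr; exact min_le_left _ _
      have h5 := (hθ01 x).1
      have h6 := (hθ01 x).2
      nlinarith [mul_le_mul_of_nonneg_left (h3.trans h2) h5,
        mul_le_mul_of_nonneg_left h4 (sub_nonneg.mpr h6)]
    · have : θ x = 0 := image_eq_zero_of_notMem_tsupport hx
      rw [this]
      linarith
  · intro i j x hx
    simp only [hθ1 x hx]; ring

end

end Crest.Agent.R247.Frd657
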