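import Crest.Agent.R247.Ker2_585

/-!
R247 block (2b), helper585: bounded kernels on finite measures are Hilbert-Schmidt, with bounds.
-/

set_option autoImplicit false
set_option linter.unusedSectionVars false

noncomputable section

namespace Crest.Agent.R247.Ker585

open MeasureTheory Filter Set
open scoped ENNReal InnerProductSpace

variable {X Y Z : Type*} [MeasurableSpace X] [MeasurableSpace Y] [MeasurableSpace Z]
  {μ : Measure X} {ν : Measure Y} {lam : Measure Z}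

theorem enorm_sq_le_ofReal {a B : ℝ} (h : |a| ≤ B) : ‖a‖ₑ ^ 2 ≤ ENNReal.ofReal (B ^ 2) := by
  have hB : 0 ≤ B := (abs_nonneg a).trans h
  rw [← ofReal_norm, ← ENNReal.ofReal_pow (norm_nonneg _), Real.norm_eq_abs]
  exact ENNReal.ofReal_le_ofReal (by gcongr)

/-- Hilbert-Schmidt norm of an a.e. bounded kernel. -/
theorem hs2_le_of_bdd [IsFiniteMeasure μ] [IsFiniteMeasure ν] {k : Y → X → ℝ} {B : ℝ}
    (hB : ∀ᵐ y ∂ν, ∀ᵐ x ∂μ, |k y x| ≤ B) :
    hs2 ν μ k ≤ ENNReal.ofReal (B ^ 2 * (ν.real univ * μ.real univ)) := by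
  unfold hs2
  calc ∫⁻ y, ∫⁻ x, ‖k y x‖ₑ ^ 2 ∂μ ∂ν
      ≤ ∫⁻ y, ∫⁻ x, ENNReal.ofReal (B ^ 2) ∂μ ∂ν := by
        refine lintegral_mono_ae ?_
        filter_upwards [hB] with y hy
        refine lintegral_mono_ae ?_
        filter_upwards [hy] with x hx
        exact enorm_sq_le_ofReal hx
    _ = ENNReal.ofReal (B ^ 2 * (ν.real univ * μ.real univ)) := by
        rw [lintegral_const, lintegral_const, ENNReal.ofReal_mul (by positivity),
          ENNReal.ofReal_mul (by positivity), measureReal_def, measureReal_def,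
          ENNReal.ofReal_toReal (measure_ne_top _ _), ENNReal.ofReal_toReal (measure_ne_top _ _)]
        ring

theorem HK.of_bdd [IsFiniteMeasure μ] [IsFiniteMeasure ν] {k : Y → X → ℝ} {B : ℝ}
    (hm : Measurable (Function.uncurry k)) (hB : ∀ᵐ y ∂ν, ∀ᵐ x ∂μ, |k y x| ≤ B) :
    HK ν μ k := HK.of_le hm ENNReal.ofReal_lt_top (hs2_le_of_bdd hB)

/-- Norm of the operator of an a.e. bounded kernel. -/
theorem norm_kop_le_of_bdd [IsFiniteMeasure μ] [IsFiniteMeasure ν] {k : Y → X → ℝ} {B : ℝ}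
    (hB0 : 0 ≤ B) (h : HK ν μ k) (hB : ∀ᵐ y ∂ν, ∀ᵐ x ∂μ, |k y x| ≤ B) :
    ‖kop h‖ ≤ B * √(ν.real univ * μ.real univ) := by
  refine norm_kop_le' h (by positivity) ((hs2_le_of_bdd hB).trans (le_of_eq ?_))
  rw [mul_pow, Real.sq_sqrt (by positivity)]





end Crest.Agent.R247.Ker585
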