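import Mathlib
import Crest.Agent.R247.Gap1_79

-- ▼ part R247/Pl4_661
section

/-!
R247 block (2b), helper661: the transport lemma.  Everything at unit scale; `m` is the volume
restricted to a bounded set.
-/

set_option autoImplicit false
set_option linter.unusedSectionVars false

noncomputable section

namespace Crest.Agent.R247.Pl4661

open MeasureTheory Set Filter Topology

variable {X : Type*} [MeasurableSpace X]

/-- the path of quadratic functions -/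
def Fp (fx fy : X → ℝ) (k : ℝ) (l : ℝ) (u : X) : ℝ :=
  l * (l - 1) * fy u + l * fx u - (l - 1) * k

/-- the linear factor -/
def Ap (φ : X → ℝ) (a0 a1 : ℝ) (l : ℝ) (u : X) : ℝ := l * (φ u - a0) - (a1 - a0)

/-- integrand -/
def Zp (η : ℝ → ℝ) (fx fy φ g : X → ℝ) (k a0 a1 b0 b1 : ℝ) (l : ℝ) (u : X) : ℝ :=
  Ap φ a0 a1 l u * Ap g b0 b1 l u * η (Fp fx fy k l u)

/-- the derivation applied to the integrand -/
def dZp (η η' : ℝ → ℝ) (fx fy φ g dφ dg p : X → ℝ) (k a0 a1 b0 b1 : ℝ) (l : ℝ) (u : X) : ℝ :=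
  l * dφ u * Ap g b0 b1 l u * η (Fp fx fy k l u)
    + Ap φ a0 a1 l u * (l * dg u) * η (Fp fx fy k l u)
    + Ap φ a0 a1 l u * Ap g b0 b1 l u * (η' (Fp fx fy k l u)
        * (l * (l - 1) * (2 * fy u) + l * p u))

/-- the function of `l` whose endpoints are compared -/
def Gp (n : ℕ) (η : ℝ → ℝ) (fx fy φ g : X → ℝ) (k a0 a1 b0 b1 : ℝ) (l : ℝ) (u : X) : ℝ :=
  l ^ n * Zp η fx fy φ g k a0 a1 b0 b1 l u

/-- its derivative -/
def Gp' (n : ℕ) (η η' : ℝ → ℝ) (fx fy φ g : X → ℝ) (k a0 a1 b0 b1 : ℝ) (l : ℝ) (u : X) : ℝ :=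
  n * l ^ (n - 1) * Zp η fx fy φ g k a0 a1 b0 b1 l u
    + l ^ n * ((φ u - a0) * Ap g b0 b1 l u * η (Fp fx fy k l u)
      + Ap φ a0 a1 l u * (g u - b0) * η (Fp fx fy k l u)
      + Ap φ a0 a1 l u * Ap g b0 b1 l u * (η' (Fp fx fy k l u)
        * ((2 * l - 1) * fy u + fx u - k)))

theorem hasDerivAt_Gp (n : ℕ) {η η' : ℝ → ℝ} (hη : ∀ t, HasDerivAt η (η' t) t)
    (fx fy φ g : X → ℝ) (k a0 a1 b0 b1 l : ℝ) (u : X) :
    HasDerivAt (fun l => Gp n η fx fy φ g k a0 a1 b0 b1 l u)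
      (Gp' n η η' fx fy φ g k a0 a1 b0 b1 l u) l := by
  have hA : HasDerivAt (fun l => Ap φ a0 a1 l u) (φ u - a0) l := by
    unfold Ap
    simpa using ((hasDerivAt_id l).mul_const (φ u - a0)).sub_const (a1 - a0)
  have hB : HasDerivAt (fun l => Ap g b0 b1 l u) (g u - b0) l := by
    unfold Ap
    simpa using ((hasDerivAt_id l).mul_const (g u - b0)).sub_const (b1 - b0)
  have hF : HasDerivAt (fun l => Fp fx fy k l u) ((2 * l - 1) * fy u + fx u - k) l := by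
    unfold Fp
    have h1 : HasDerivAt (fun l : ℝ => l * (l - 1) * fy u) ((1 * (l - 1) + l * 1) * fy u) l :=
      ((hasDerivAt_id l).mul ((hasDerivAt_id l).sub_const 1)).mul_const _
    have h2 : HasDerivAt (fun l : ℝ => l * fx u) (1 * fx u) l := (hasDerivAt_id l).mul_const _
    have h3 : HasDerivAt (fun l : ℝ => (l - 1) * k) (1 * k) l :=
      ((hasDerivAt_id l).sub_const 1).mul_const _
    refine ((h1.add h2).sub h3).congr_deriv ?_
    ring
  have hE : HasDerivAt (fun l => η (Fp fx fy k l u))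
      (η' (Fp fx fy k l u) * ((2 * l - 1) * fy u + fx u - k)) l :=
    (hη (Fp fx fy k l u)).comp l hF
  have hP : HasDerivAt (fun l : ℝ => l ^ n) (n * l ^ (n - 1)) l := hasDerivAt_pow n l
  unfold Gp Gp' Zp
  refine (hP.mul ((hA.mul hB).mul hE)).congr_deriv ?_
  simp only [Pi.mul_apply]
  ring

/-- the algebraic identity behind the transport lemma: `P - c` is
`p u - (fx u + fy u - k)` where `k = f_y(x) - c`. -/
theorem mul_Gp' {n : ℕ} (hn : 1 ≤ n) (η η' : ℝ → ℝ) (fx fy φ g dφ dg p : X → ℝ)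
    (k a0 a1 b0 b1 l : ℝ) (u : X) :
    Gp' n η η' fx fy φ g k a0 a1 b0 b1 l u
      = l ^ (n - 1) * (dZp η η' fx fy φ g dφ dg p k a0 a1 b0 b1 l u
        + n * Zp η fx fy φ g k a0 a1 b0 b1 l u
        - l * ((dφ u - (φ u - a0)) * (Ap g b0 b1 l u * η (Fp fx fy k l u)))
        - l * ((dg u - (g u - b0)) * (Ap φ a0 a1 l u * η (Fp fx fy k l u)))
        - l * ((p u - (fx u + fy u - k)) * (Ap φ a0 a1 l u * Ap g b0 b1 l u
            * η' (Fp fx fy k l u)))) := by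
  obtain ⟨m, rfl⟩ : ∃ m, n = m + 1 := ⟨n - 1, by omega⟩
  simp only [Gp', dZp, Zp, Nat.add_sub_cancel]
  ring

/-- the data of the transport lemma -/
structure TD (m : Measure X) (η η' : ℝ → ℝ) (fx fy φ g dφ dg p : X → ℝ)
    (k a0 a1 b0 b1 cη Sφ Sg : ℝ) : Prop where
  hη : ∀ t, HasDerivAt η (η' t) t
  hη' : Continuous η'
  bη : ∀ t, |η t| ≤ cη
  bη' : ∀ t, |η' t| ≤ cη
  mfx : Measurable fx
  mfy : Measurable fy
  mφ : Measurable φ
  mg : Measurable g
  mdφ : AEMeasurable dφ m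
  mdg : AEMeasurable dg m
  mp : AEMeasurable p m
  bd : ∃ R : ℝ, ∀ᵐ u ∂m, |fx u| ≤ R ∧ |fy u| ≤ R ∧ |dφ u| ≤ R ∧ |dg u| ≤ R ∧ |p u| ≤ R
  bφ : ∀ᵐ u ∂m, |φ u| ≤ Sφ
  bg : ∀ᵐ u ∂m, |g u| ≤ Sg
  ba0 : |a0| ≤ Sφ
  ba1 : |a1| ≤ Sφ
  bb0 : |b0| ≤ Sg
  bb1 : |b1| ≤ Sg

variable {m : Measure X} {η η' : ℝ → ℝ} {fx fy φ g dφ dg p : X → ℝ}
  {k a0 a1 b0 b1 cη Sφ Sg : ℝ}

theorem abs_Ap_le {φ : X → ℝ} {a0 a1 S l : ℝ} {u : X} (h : |φ u| ≤ S) (h0 : |a0| ≤ S)
    (h1 : |a1| ≤ S) (hl1 : 1 ≤ l) (hl2 : l ≤ 2) : |Ap φ a0 a1 l u| ≤ 4 * S := by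
  have e : Ap φ a0 a1 l u = l * φ u - (l - 1) * a0 - a1 := by unfold Ap; ring
  rw [e]
  have q1 : |l * φ u| ≤ 2 * S := by
    rw [abs_mul, abs_of_nonneg (by linarith : 0 ≤ l)]
    exact mul_le_mul hl2 h (abs_nonneg _) (by norm_num)
  have q2 : |(l - 1) * a0| ≤ 1 * S := by
    rw [abs_mul, abs_of_nonneg (by linarith : 0 ≤ l - 1)]
    exact mul_le_mul (by linarith) h0 (abs_nonneg _) (by norm_num)
  have := abs_sub (l * φ u - (l - 1) * a0) a1
  have := abs_sub (l * φ u) ((l - 1) * a0)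
  linarith


namespace TD

variable (T : TD m η η' fx fy φ g dφ dg p k a0 a1 b0 b1 cη Sφ Sg)

include T

theorem cη_nonneg : 0 ≤ cη := (abs_nonneg _).trans (T.bη 0)
theorem Sφ_nonneg : 0 ≤ Sφ := (abs_nonneg _).trans T.ba0
theorem Sg_nonneg : 0 ≤ Sg := (abs_nonneg _).trans T.bb0

theorem cont_η : Continuous η :=
  continuous_iff_continuousAt.2 fun t => (T.hη t).continuousAt

theorem meas_F (l : ℝ) : Measurable (Fp fx fy k l) := by
  unfold Fp
  exact ((T.mfy.const_mul _).add (T.mfx.const_mul _)).sub_const _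

theorem meas_A (l : ℝ) : Measurable (Ap φ a0 a1 l) := by
  unfold Ap
  exact ((T.mφ.sub_const _).const_mul _).sub_const _

theorem meas_B (l : ℝ) : Measurable (Ap g b0 b1 l) := by
  unfold Ap
  exact ((T.mg.sub_const _).const_mul _).sub_const _

theorem meas_ηF (l : ℝ) : Measurable fun u => η (Fp fx fy k l u) :=
  T.cont_η.measurable.comp (T.meas_F l)

theorem meas_η'F (l : ℝ) : Measurable fun u => η' (Fp fx fy k l u) :=
  T.hη'.measurable.comp (T.meas_F l)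

theorem meas_Z (l : ℝ) : Measurable (Zp η fx fy φ g k a0 a1 b0 b1 l) :=
  ((T.meas_A l).mul (T.meas_B l)).mul (T.meas_ηF l)

theorem meas_G (n : ℕ) (l : ℝ) : Measurable (Gp n η fx fy φ g k a0 a1 b0 b1 l) :=
  (T.meas_Z l).const_mul _

theorem meas_dZ (l : ℝ) : AEMeasurable (dZp η η' fx fy φ g dφ dg p k a0 a1 b0 b1 l) m :=
  ((((T.mdφ.const_mul l).mul (T.meas_B l).aemeasurable).mul (T.meas_ηF l).aemeasurable).add
    (((T.meas_A l).aemeasurable.mul (T.mdg.const_mul l)).mul (T.meas_ηF l).aemeasurable)).add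
    (((T.meas_A l).mul (T.meas_B l)).aemeasurable.mul ((T.meas_η'F l).aemeasurable.mul
      (((T.mfy.const_mul 2).const_mul _).aemeasurable.add (T.mp.const_mul l))))

theorem meas_G' (n : ℕ) (l : ℝ) : Measurable (Gp' n η η' fx fy φ g k a0 a1 b0 b1 l) :=
  ((T.meas_Z l).const_mul _).add
    ((((((T.mφ.sub_const _).mul (T.meas_B l)).mul (T.meas_ηF l)).add
      (((T.meas_A l).mul (T.mg.sub_const _)).mul (T.meas_ηF l))).add
      (((T.meas_A l).mul (T.meas_B l)).mul ((T.meas_η'F l).mul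
        (((T.mfy.const_mul _).add T.mfx).sub_const _)))).const_mul _)

/-- uniform bounds for continuous expressions of the data -/
theorem bdd_of_cont (Φ : ℝ × ℝ × ℝ × ℝ × ℝ × ℝ × ℝ × ℝ → ℝ) (hΦ : Continuous Φ) :
    ∃ R : ℝ, ∀ᵐ u ∂m, ∀ l : ℝ, |l| ≤ 3 →
      |Φ (l, fx u, fy u, φ u, g u, dφ u, dg u, p u)| ≤ R := by
  obtain ⟨R, hR⟩ := T.bd
  set K : ℝ := max 3 (max R (max Sφ Sg)) with hK
  have k1 : 3 ≤ K := le_max_left _ _
  have k2 : R ≤ K := (le_max_left _ _).trans (le_max_right _ _)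
  have k3 : Sφ ≤ K := (le_max_left _ _).trans ((le_max_right _ _).trans (le_max_right _ _))
  have k4 : Sg ≤ K := (le_max_right _ _).trans ((le_max_right _ _).trans (le_max_right _ _))
  obtain ⟨M, hM⟩ := (isCompact_closedBall (0 : ℝ × ℝ × ℝ × ℝ × ℝ × ℝ × ℝ × ℝ)
    K).exists_bound_of_continuousOn hΦ.continuousOn
  refine ⟨M, ?_⟩
  filter_upwards [hR, T.bφ, T.bg] with u hu hφ hg l hl
  obtain ⟨u1, u2, u3, u4, u5⟩ := hu
  refine hM _ ?_
  rw [mem_closedBall_zero_iff]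
  simp only [Prod.norm_def, Real.norm_eq_abs, sup_le_iff]
  exact ⟨hl.trans k1, u1.trans k2, u2.trans k2, hφ.trans k3, hg.trans k4, u3.trans k2,
    u4.trans k2, u5.trans k2⟩

theorem bdd_Z : ∃ R : ℝ, ∀ᵐ u ∂m, ∀ l : ℝ, |l| ≤ 3 →
    |Zp η fx fy φ g k a0 a1 b0 b1 l u| ≤ R := by
  have hc := T.cont_η
  obtain ⟨R, hR⟩ := T.bdd_of_cont (fun q => (q.1 * (q.2.2.2.1 - a0) - (a1 - a0))
    * (q.1 * (q.2.2.2.2.1 - b0) - (b1 - b0))
    * η (q.1 * (q.1 - 1) * q.2.2.1 + q.1 * q.2.1 - (q.1 - 1) * k)) (by fun_prop)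
  exact ⟨R, hR⟩

theorem bdd_G (n : ℕ) : ∃ R : ℝ, ∀ᵐ u ∂m, ∀ l : ℝ, |l| ≤ 3 →
    |Gp n η fx fy φ g k a0 a1 b0 b1 l u| ≤ R := by
  have hc := T.cont_η
  obtain ⟨R, hR⟩ := T.bdd_of_cont (fun q => q.1 ^ n * ((q.1 * (q.2.2.2.1 - a0) - (a1 - a0))
    * (q.1 * (q.2.2.2.2.1 - b0) - (b1 - b0))
    * η (q.1 * (q.1 - 1) * q.2.2.1 + q.1 * q.2.1 - (q.1 - 1) * k))) (by fun_prop)
  exact ⟨R, hR⟩

theorem bdd_dZ : ∃ R : ℝ, ∀ᵐ u ∂m, ∀ l : ℝ, |l| ≤ 3 →
    |dZp η η' fx fy φ g dφ dg p k a0 a1 b0 b1 l u| ≤ R := by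
  have hc := T.cont_η
  have hc' := T.hη'
  obtain ⟨R, hR⟩ := T.bdd_of_cont (fun q => q.1 * q.2.2.2.2.2.1
      * (q.1 * (q.2.2.2.2.1 - b0) - (b1 - b0))
      * η (q.1 * (q.1 - 1) * q.2.2.1 + q.1 * q.2.1 - (q.1 - 1) * k)
    + (q.1 * (q.2.2.2.1 - a0) - (a1 - a0)) * (q.1 * q.2.2.2.2.2.2.1)
      * η (q.1 * (q.1 - 1) * q.2.2.1 + q.1 * q.2.1 - (q.1 - 1) * k)
    + (q.1 * (q.2.2.2.1 - a0) - (a1 - a0)) * (q.1 * (q.2.2.2.2.1 - b0) - (b1 - b0))
      * (η' (q.1 * (q.1 - 1) * q.2.2.1 + q.1 * q.2.1 - (q.1 - 1) * k)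
      * (q.1 * (q.1 - 1) * (2 * q.2.2.1) + q.1 * q.2.2.2.2.2.2.2))) (by fun_prop)
  exact ⟨R, hR⟩

theorem bdd_G' (n : ℕ) : ∃ R : ℝ, ∀ᵐ u ∂m, ∀ l : ℝ, |l| ≤ 3 →
    |Gp' n η η' fx fy φ g k a0 a1 b0 b1 l u| ≤ R := by
  have hc := T.cont_η
  have hc' := T.hη'
  obtain ⟨R, hR⟩ := T.bdd_of_cont (fun q => n * q.1 ^ (n - 1)
      * ((q.1 * (q.2.2.2.1 - a0) - (a1 - a0)) * (q.1 * (q.2.2.2.2.1 - b0) - (b1 - b0))
      * η (q.1 * (q.1 - 1) * q.2.2.1 + q.1 * q.2.1 - (q.1 - 1) * k))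
    + q.1 ^ n * ((q.2.2.2.1 - a0) * (q.1 * (q.2.2.2.2.1 - b0) - (b1 - b0))
        * η (q.1 * (q.1 - 1) * q.2.2.1 + q.1 * q.2.1 - (q.1 - 1) * k)
      + (q.1 * (q.2.2.2.1 - a0) - (a1 - a0)) * (q.2.2.2.2.1 - b0)
        * η (q.1 * (q.1 - 1) * q.2.2.1 + q.1 * q.2.1 - (q.1 - 1) * k)
      + (q.1 * (q.2.2.2.1 - a0) - (a1 - a0)) * (q.1 * (q.2.2.2.2.1 - b0) - (b1 - b0))
        * (η' (q.1 * (q.1 - 1) * q.2.2.1 + q.1 * q.2.1 - (q.1 - 1) * k)
        * ((2 * q.1 - 1) * q.2.2.1 + q.2.1 - k)))) (by fun_prop)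
  exact ⟨R, hR⟩

variable [IsFiniteMeasure m]

omit T in
theorem integrable_of_bdd' {f : X → ℝ} (hf : AEMeasurable f m) {R : ℝ}
    (h : ∀ᵐ u ∂m, |f u| ≤ R) : Integrable f m :=
  Integrable.of_bound hf.aestronglyMeasurable R (by simpa using h)

theorem int_Z {l : ℝ} (hl : |l| ≤ 3) : Integrable (Zp η fx fy φ g k a0 a1 b0 b1 l) m := by
  obtain ⟨R, hR⟩ := T.bdd_Z
  exact integrable_of_bdd' (T.meas_Z l).aemeasurable (hR.mono fun u h => h l hl)

theorem int_G (n : ℕ) {l : ℝ} (hl : |l| ≤ 3) :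
    Integrable (Gp n η fx fy φ g k a0 a1 b0 b1 l) m := by
  obtain ⟨R, hR⟩ := T.bdd_G n
  exact integrable_of_bdd' (T.meas_G n l).aemeasurable (hR.mono fun u h => h l hl)

theorem int_dZ {l : ℝ} (hl : |l| ≤ 3) :
    Integrable (dZp η η' fx fy φ g dφ dg p k a0 a1 b0 b1 l) m := by
  obtain ⟨R, hR⟩ := T.bdd_dZ
  exact integrable_of_bdd' (T.meas_dZ l) (hR.mono fun u h => h l hl)

theorem hasDerivAt_int (n : ℕ) {l : ℝ} (hl : l ∈ Icc (1 : ℝ) 2) :
    HasDerivAt (fun l => ∫ u, Gp n η fx fy φ g k a0 a1 b0 b1 l u ∂m)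
      (∫ u, Gp' n η η' fx fy φ g k a0 a1 b0 b1 l u ∂m) l := by
  obtain ⟨R, hR⟩ := T.bdd_G' n
  have hs : Ioo (0 : ℝ) 3 ∈ 𝓝 l := Ioo_mem_nhds (by linarith [hl.1]) (by linarith [hl.2])
  have hab : ∀ x ∈ Ioo (0 : ℝ) 3, |x| ≤ 3 := fun x hx => by
    rw [abs_of_pos hx.1]; exact hx.2.le
  refine (hasDerivAt_integral_of_dominated_loc_of_deriv_le (bound := fun _ => R) hs ?_ ?_ ?_ ?_
    (integrable_const _) ?_).2
  · exact Eventually.of_forall fun l => (T.meas_G n l).aestronglyMeasurable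
  · exact T.int_G n (hab l (mem_of_mem_nhds hs))
  · exact (T.meas_G' n l).aestronglyMeasurable
  · filter_upwards [hR] with u hu x hx
    exact hu x (hab x hx)
  · exact Eventually.of_forall fun u x _ => hasDerivAt_Gp n T.hη fx fy φ g k a0 a1 b0 b1 x u

omit T in
theorem integral_five {A B C D E : X → ℝ} (hA : Integrable A m) (hB : Integrable B m)
    (hC : Integrable C m) (hD : Integrable D m) (hE : Integrable E m) (c l : ℝ) :
    ∫ u, (A u + c * B u - l * C u - l * D u - l * E u) ∂m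
      = (∫ u, A u ∂m) + c * (∫ u, B u ∂m) - l * (∫ u, C u ∂m) - l * (∫ u, D u ∂m)
        - l * (∫ u, E u ∂m) := by
  have k2 : Integrable (fun u => c * B u) m := hB.const_mul c
  have k3 : Integrable (fun u => l * C u) m := hC.const_mul l
  have k4 : Integrable (fun u => l * D u) m := hD.const_mul l
  have k5 : Integrable (fun u => l * E u) m := hE.const_mul l
  have s1 : Integrable (fun u => A u + c * B u) m := hA.add k2
  have s2 : Integrable (fun u => A u + c * B u - l * C u) m := s1.sub k3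
  have s3 : Integrable (fun u => A u + c * B u - l * C u - l * D u) m := s2.sub k4
  rw [integral_sub s3 k5, integral_sub s2 k4, integral_sub s1 k3, integral_add hA k2,
    integral_const_mul, integral_const_mul, integral_const_mul, integral_const_mul]

/-- **Transport lemma, one half.** -/
theorem transport {n : ℕ} (hn : 1 ≤ n) {M : ℝ}
    (hM : ∀ l ∈ Icc (1 : ℝ) 2, |(∫ u, dZp η η' fx fy φ g dφ dg p k a0 a1 b0 b1 l u ∂m)
      + n * ∫ u, Zp η fx fy φ g k a0 a1 b0 b1 l u ∂m| ≤ M) :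
    |(∫ u, Gp n η fx fy φ g k a0 a1 b0 b1 2 u ∂m)
        - ∫ u, (φ u - a1) * (g u - b1) * η (fx u) ∂m|
      ≤ 2 ^ n * (M + 8 * cη * Sg * (∫ u, |dφ u - (φ u - a0)| ∂m)
        + 8 * cη * Sφ * (∫ u, |dg u - (g u - b0)| ∂m)
        + 32 * cη * Sφ * Sg * (∫ u, |p u - (fx u + fy u - k)| ∂m)) := by
  have hS1 := T.Sφ_nonneg
  have hS2 := T.Sg_nonneg
  have hc := T.cη_nonneg
  obtain ⟨R, hR⟩ := T.bd
  -- integrability of the three error functions
  have i1 : Integrable (fun u => dφ u - (φ u - a0)) m := by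
    have e1 : Integrable dφ m := integrable_of_bdd' T.mdφ (hR.mono fun u h => h.2.2.1)
    have e2 : Integrable φ m := integrable_of_bdd' T.mφ.aemeasurable T.bφ
    exact e1.sub (e2.sub (integrable_const _))
  have i2 : Integrable (fun u => dg u - (g u - b0)) m := by
    have e1 : Integrable dg m := integrable_of_bdd' T.mdg (hR.mono fun u h => h.2.2.2.1)
    have e2 : Integrable g m := integrable_of_bdd' T.mg.aemeasurable T.bg
    exact e1.sub (e2.sub (integrable_const _))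
  have i3 : Integrable (fun u => p u - (fx u + fy u - k)) m := by
    have e1 : Integrable p m := integrable_of_bdd' T.mp (hR.mono fun u h => h.2.2.2.2)
    have e2 : Integrable fx m := integrable_of_bdd' T.mfx.aemeasurable (hR.mono fun u h => h.1)
    have e3 : Integrable fy m := integrable_of_bdd' T.mfy.aemeasurable (hR.mono fun u h => h.2.1)
    exact e1.sub ((e2.add e3).sub (integrable_const _))
  set Bd : ℝ := 2 ^ n * (M + 8 * cη * Sg * (∫ u, |dφ u - (φ u - a0)| ∂m)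
        + 8 * cη * Sφ * (∫ u, |dg u - (g u - b0)| ∂m)
        + 32 * cη * Sφ * Sg * (∫ u, |p u - (fx u + fy u - k)| ∂m)) with hBd
  -- derivative bound
  have key : ∀ l ∈ Icc (1 : ℝ) 2,
      ‖∫ u, Gp' n η η' fx fy φ g k a0 a1 b0 b1 l u ∂m‖ ≤ Bd := by
    intro l hl
    have hl1 := hl.1
    have hl2 := hl.2
    have hl3 : |l| ≤ 3 := by rw [abs_of_nonneg (by linarith)]; linarith
    have hl0 : 0 ≤ l := by linarith
    -- bounds of the multipliers
    have w1 : ∀ᵐ u ∂m, |Ap g b0 b1 l u * η (Fp fx fy k l u)| ≤ 4 * Sg * cη := by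
      filter_upwards [T.bg] with u hu
      rw [abs_mul]
      exact mul_le_mul (abs_Ap_le hu T.bb0 T.bb1 hl1 hl2) (T.bη _) (abs_nonneg _) (by positivity)
    have w2 : ∀ᵐ u ∂m, |Ap φ a0 a1 l u * η (Fp fx fy k l u)| ≤ 4 * Sφ * cη := by
      filter_upwards [T.bφ] with u hu
      rw [abs_mul]
      exact mul_le_mul (abs_Ap_le hu T.ba0 T.ba1 hl1 hl2) (T.bη _) (abs_nonneg _) (by positivity)
    have w3 : ∀ᵐ u ∂m, |Ap φ a0 a1 l u * Ap g b0 b1 l u * η' (Fp fx fy k l u)|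
        ≤ 16 * Sφ * Sg * cη := by
      filter_upwards [T.bφ, T.bg] with u hu hg
      rw [abs_mul, abs_mul]
      calc _ ≤ (4 * Sφ) * (4 * Sg) * cη := by
            gcongr
            · exact abs_Ap_le hu T.ba0 T.ba1 hl1 hl2
            · exact abs_Ap_le hg T.bb0 T.bb1 hl1 hl2
            · exact T.bη' _
        _ = _ := by ring
    have gen : ∀ (e w : X → ℝ) (W : ℝ), Integrable e m → Measurable w →
        (∀ᵐ u ∂m, |w u| ≤ W) → 0 ≤ W →
        Integrable (fun u => e u * w u) m ∧ |∫ u, e u * w u ∂m| ≤ W * ∫ u, |e u| ∂m := by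
      intro e w W he hw hW hW0
      have j1 : Integrable (fun u => e u * w u) m := by
        refine he.mul_bdd (c := W) hw.aestronglyMeasurable ?_
        simpa using hW
      refine ⟨j1, ?_⟩
      calc |∫ u, e u * w u ∂m| ≤ ∫ u, |e u * w u| ∂m := abs_integral_le_integral_abs
        _ ≤ ∫ u, W * |e u| ∂m := by
            refine integral_mono_ae j1.abs (he.abs.const_mul W) ?_
            filter_upwards [hW] with u hu
            show |e u * w u| ≤ W * |e u|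
            rw [abs_mul, mul_comm]
            exact mul_le_mul_of_nonneg_right hu (abs_nonneg _)
        _ = _ := integral_const_mul _ _
    obtain ⟨j1, b1'⟩ := gen (fun u => dφ u - (φ u - a0))
      (fun u => Ap g b0 b1 l u * η (Fp fx fy k l u)) _ i1 ((T.meas_B l).mul (T.meas_ηF l)) w1
      (by positivity)
    obtain ⟨j2, b2'⟩ := gen (fun u => dg u - (g u - b0))
      (fun u => Ap φ a0 a1 l u * η (Fp fx fy k l u)) _ i2 ((T.meas_A l).mul (T.meas_ηF l)) w2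
      (by positivity)
    obtain ⟨j3, b3'⟩ := gen (fun u => p u - (fx u + fy u - k))
      (fun u => Ap φ a0 a1 l u * Ap g b0 b1 l u * η' (Fp fx fy k l u)) _ i3
      (((T.meas_A l).mul (T.meas_B l)).mul (T.meas_η'F l)) w3 (by positivity)
    have hrep : ∫ u, Gp' n η η' fx fy φ g k a0 a1 b0 b1 l u ∂m
        = l ^ (n - 1) * (((∫ u, dZp η η' fx fy φ g dφ dg p k a0 a1 b0 b1 l u ∂m)
          + n * ∫ u, Zp η fx fy φ g k a0 a1 b0 b1 l u ∂m)
          - l * (∫ u, (dφ u - (φ u - a0)) * (Ap g b0 b1 l u * η (Fp fx fy k l u)) ∂m)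
          - l * (∫ u, (dg u - (g u - b0)) * (Ap φ a0 a1 l u * η (Fp fx fy k l u)) ∂m)
          - l * (∫ u, (p u - (fx u + fy u - k)) * (Ap φ a0 a1 l u * Ap g b0 b1 l u
            * η' (Fp fx fy k l u)) ∂m)) := by
      have e0 : ∀ u, Gp' n η η' fx fy φ g k a0 a1 b0 b1 l u = _ :=
        fun u => mul_Gp' hn η η' fx fy φ g dφ dg p k a0 a1 b0 b1 l u
      rw [integral_congr_ae (Eventually.of_forall e0), integral_const_mul]
      congr 1
      exact integral_five (T.int_dZ hl3) (T.int_Z hl3) j1 j2 j3 _ _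
    rw [hrep, Real.norm_eq_abs, abs_mul]
    have hpow : |l ^ (n - 1)| ≤ 2 ^ (n - 1) := by
      rw [abs_pow, abs_of_nonneg hl0]
      exact pow_le_pow_left₀ hl0 hl2 _
    have hM' := hM l hl
    have hM0 : 0 ≤ M := (abs_nonneg _).trans hM'
    have tot : |((∫ u, dZp η η' fx fy φ g dφ dg p k a0 a1 b0 b1 l u ∂m)
          + n * ∫ u, Zp η fx fy φ g k a0 a1 b0 b1 l u ∂m)
          - l * (∫ u, (dφ u - (φ u - a0)) * (Ap g b0 b1 l u * η (Fp fx fy k l u)) ∂m)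
          - l * (∫ u, (dg u - (g u - b0)) * (Ap φ a0 a1 l u * η (Fp fx fy k l u)) ∂m)
          - l * (∫ u, (p u - (fx u + fy u - k)) * (Ap φ a0 a1 l u * Ap g b0 b1 l u
            * η' (Fp fx fy k l u)) ∂m)|
        ≤ M + 8 * cη * Sg * (∫ u, |dφ u - (φ u - a0)| ∂m)
        + 8 * cη * Sφ * (∫ u, |dg u - (g u - b0)| ∂m)
        + 32 * cη * Sφ * Sg * (∫ u, |p u - (fx u + fy u - k)| ∂m) := by
      have lm : ∀ (a b : ℝ), |a| ≤ b → |l * a| ≤ 2 * b := fun a b h => by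
        rw [abs_mul, abs_of_nonneg hl0]
        exact mul_le_mul hl2 h (abs_nonneg _) (by norm_num)
      have c1 := lm _ _ b1'
      have c2 := lm _ _ b2'
      have c3 := lm _ _ b3'
      have gen4 : ∀ (a b c d B1 B2 B3 : ℝ), |a| ≤ M → |b| ≤ B1 → |c| ≤ B2 → |d| ≤ B3 →
          |a - b - c - d| ≤ M + B1 + B2 + B3 := by
        intro a b c d B1 B2 B3 h1 h2 h3 h4
        have q1 := abs_sub (a - b - c) d
        have q2 := abs_sub (a - b) c
        have q3 := abs_sub a b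
        linarith
      refine (gen4 _ _ _ _ _ _ _ hM' c1 c2 c3).trans (le_of_eq ?_)
      ring
    rw [hBd]
    refine mul_le_mul ?_ tot (abs_nonneg _) (by positivity)
    exact hpow.trans (pow_le_pow_right₀ (by norm_num) (by omega))
  have hmv := (convex_Icc (1 : ℝ) 2).norm_image_sub_le_of_norm_hasDerivWithin_le
    (f := fun l => ∫ u, Gp n η fx fy φ g k a0 a1 b0 b1 l u ∂m)
    (fun l hl => (T.hasDerivAt_int n hl).hasDerivWithinAt) key
    (left_mem_Icc.2 (by norm_num)) (right_mem_Icc.2 (by norm_num))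
  have h1 : (∫ u, Gp n η fx fy φ g k a0 a1 b0 b1 1 u ∂m)
      = ∫ u, (φ u - a1) * (g u - b1) * η (fx u) ∂m := by
    refine integral_congr_ae (Eventually.of_forall fun u => ?_)
    simp only [Gp, Zp, Ap, Fp]
    rw [show (1 : ℝ) * (1 - 1) * fy u + 1 * fx u - (1 - 1) * k = fx u by ring]
    ring
  rw [← h1]
  refine hmv.trans (le_of_eq ?_)
  norm_num

end TD

end Crest.Agent.R247.Pl4661
end
end

-- ▼ part R247/Pl5_661

/-!
R247 block (2b), helper661: the unit scale environment and the two-sided transport lemma.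
-/

set_option autoImplicit false
set_option linter.unusedSectionVars false

noncomputable section

namespace Crest.Agent.R247.Pl5661

open MeasureTheory Set Filter Topology Crest.Agent.R247.Pl4661
open Crest.Agent.R247.Gap79 (K P)

variable {X W : Type*} [MeasurableSpace X] [MeasurableSpace W]

/-- cut-off pair: `η = -φt'`. -/
structure Cut (η η' φt : ℝ → ℝ) (cη : ℝ) : Prop where
  hη : ∀ t, HasDerivAt η (η' t) t
  hη' : Continuous η'
  hφ : ∀ t, HasDerivAt φt (-η t) t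
  η0 : ∀ t, 0 ≤ η t
  bη : ∀ t, η t ≤ cη
  bη' : ∀ t, |η' t| ≤ cη
  φ0 : ∀ t, 0 ≤ φt t
  φ1 : ∀ t, φt t ≤ 1
  far : ∀ t, 2 ≤ t → η t = 0 ∧ η' t = 0 ∧ φt t = 0

namespace Cut
variable {η η' φt : ℝ → ℝ} {cη : ℝ} (c : Cut η η' φt cη)
include c

theorem cη0 : 0 ≤ cη := (abs_nonneg _).trans (c.bη' 0)
theorem abs_η (t : ℝ) : |η t| ≤ cη := by rw [abs_of_nonneg (c.η0 t)]; exact c.bη t
theorem cont_η : Continuous η := continuous_iff_continuousAt.2 fun t => (c.hη t).continuousAt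
theorem cont_φ : Continuous φt := continuous_iff_continuousAt.2 fun t => (c.hφ t).continuousAt

end Cut

/-- The unit scale environment on a bounded set `B`.  `f a u` is half the squared distance,
`G a b = Γ(f_a, f_b)`, `h w` a far distance function, `Gh a w = Γ(f_a, h_w)`;
`R a φ dφ` means that `φ` is locally Lipschitz with derivative `dφ = Γ(f_a, φ)` a.e. -/
structure Env (vol : Measure X) (R : X → (X → ℝ) → (X → ℝ) → Prop)
    (f : X → X → ℝ) (G : X → X → X → ℝ) (h : W → X → ℝ) (Gh : X → W → X → ℝ)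
    (B : Set X) (F : ℝ) : Prop where
  symm : ∀ a b, f a b = f b a
  self : ∀ a, f a a = 0
  nonneg : ∀ a b, 0 ≤ f a b
  mf : Measurable (fun p : X × X => f p.1 p.2)
  mh : Measurable (fun p : W × X => h p.1 p.2)
  mG : ∀ a b, AEMeasurable (G a b) vol
  mGh : ∀ a w, AEMeasurable (Gh a w) vol
  Gsymm : ∀ a b, ∀ᵐ u ∂vol, G a b u = G b a u
  Gself : ∀ a, ∀ᵐ u ∂vol, G a a u = 2 * f a u
  mB : MeasurableSet B
  fin : vol B ≠ ⊤
  F0 : 0 ≤ F
  fF : ∀ a ∈ B, ∀ u ∈ B, f a u ≤ F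
  GF : ∀ a ∈ B, ∀ b ∈ B, ∀ᵐ u ∂(vol.restrict B), |G a b u| ≤ F
  hF : ∀ w, ∀ a ∈ B, ∀ u ∈ B, |h w a - h w u| ≤ F
  GhF : ∀ a ∈ B, ∀ w, ∀ᵐ u ∂(vol.restrict B), |Gh a w u| ≤ F
  Rconst : ∀ a (c : ℝ), R a (fun _ => c) (fun _ => 0)
  Radd : ∀ a φ φ' ψ ψ', R a φ φ' → R a ψ ψ' → R a (fun u => φ u + ψ u) (fun u => φ' u + ψ' u)
  Rmul : ∀ a φ φ' ψ ψ', R a φ φ' → R a ψ ψ' →
    R a (fun u => φ u * ψ u) (fun u => φ' u * ψ u + φ u * ψ' u)
  Rcomp : ∀ a φ φ' (g g' : ℝ → ℝ), R a φ φ' → (∀ t, HasDerivAt g (g' t) t) → Continuous g' →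
    R a (fun u => g (φ u)) (fun u => g' (φ u) * φ' u)
  Rcongr : ∀ a φ φ' ψ', R a φ φ' → φ' =ᵐ[vol] ψ' → R a φ ψ'
  Rf : ∀ a b, R a (f b) (G a b)
  Rh : ∀ a w, R a (h w) (Gh a w)

/-- `(m)` at the centre `a`: the comparison functional is small. -/
def MB (vol : Measure X) (R : X → (X → ℝ) → (X → ℝ) → Prop) (n : ℕ) (B : Set X) (a : X)
    (β : ℝ) : Prop :=
  ∀ (ζ dζ : X → ℝ) (S : ℝ), R a ζ dζ → (∀ u, u ∉ B → ζ u = 0) → (∀ u, |ζ u| ≤ S) →
    |(∫ u, dζ u ∂vol) + n * ∫ u, ζ u ∂vol| ≤ S * β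

/-- outside `B` the functions `f_a` are large -/
def Far (f : X → X → ℝ) (B : Set X) (L : ℝ) (a : X) : Prop := ∀ u, u ∉ B → 2 + L ≤ f a u

section

variable {vol : Measure X} {R : X → (X → ℝ) → (X → ℝ) → Prop}
    {f : X → X → ℝ} {G : X → X → X → ℝ} {h : W → X → ℝ} {Gh : X → W → X → ℝ}
    {B : Set X} {F : ℝ} {η η' φt : ℝ → ℝ} {cη : ℝ} {n : ℕ}

namespace Env

variable (E : Env vol R f G h Gh B F)
include E

theorem Rlin (a : X) {φ φ' : X → ℝ} (hφ : R a φ φ') (l κ : ℝ) :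
    R a (fun u => l * φ u + κ) (fun u => l * φ' u) := by
  have h1 := E.Rmul a _ _ _ _ (E.Rconst a l) hφ
  have h2 := E.Radd a _ _ _ _ h1 (E.Rconst a κ)
  refine E.Rcongr a _ _ _ h2 (Eventually.of_forall fun u => ?_)
  show 0 * φ u + l * φ' u + 0 = l * φ' u
  ring

theorem mfa (a : X) : Measurable (f a) :=
  E.mf.comp (measurable_const.prodMk measurable_id)

theorem mha (w : W) : Measurable (h w) :=
  E.mh.comp (measurable_const.prodMk measurable_id)

theorem finB : IsFiniteMeasure (vol.restrict B) := ⟨by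
  rw [Measure.restrict_apply_univ]; exact lt_top_iff_ne_top.2 E.fin⟩

end Env

/-- one conical function -/
structure Con (vol : Measure X) (R : X → (X → ℝ) → (X → ℝ) → Prop) (B : Set X) (x y : X)
    (φ dφx dφy : X → ℝ) (vx vy S : ℝ) : Prop where
  m : Measurable φ
  mx : AEMeasurable dφx vol
  my : AEMeasurable dφy vol
  Rx : R x φ dφx
  Ry : R y φ dφy
  bφ : ∀ u ∈ B, |φ u| ≤ S
  bx : ∃ C : ℝ, ∀ᵐ u ∂(vol.restrict B), |dφx u| ≤ C
  by' : ∃ C : ℝ, ∀ᵐ u ∂(vol.restrict B), |dφy u| ≤ C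
  bvx : |vx| ≤ S
  bvy : |vy| ≤ S

theorem Con.symm {x y : X} {φ dφx dφy : X → ℝ} {vx vy S : ℝ}
    (c : Con vol R B x y φ dφx dφy vx vy S) : Con vol R B y x φ dφy dφx vy vx S :=
  ⟨c.m, c.my, c.mx, c.Ry, c.Rx, c.bφ, c.by', c.bx, c.bvy, c.bvx⟩

/-- the support of the path stays in `B` -/
theorem Fp_far {x y : X} {k L : ℝ} (E : Env vol R f G h Gh B F) (hk : |k| ≤ L)
    (hx : Far f B L x) {l : ℝ} (hl : l ∈ Icc (1 : ℝ) 2) {u : X} (hu : u ∉ B) :
    2 ≤ Fp (f x) (f y) k l u := by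
  have h1 := hx u hu
  have h2 := E.nonneg y u
  have h3 := E.nonneg x u
  have h4 := (abs_le.1 hk).2
  have h5 : 0 ≤ L := (abs_nonneg _).trans hk
  obtain ⟨l1, l2⟩ := hl
  unfold Fp
  have e1 : 0 ≤ l * (l - 1) * f y u := by
    have : 0 ≤ l * (l - 1) := mul_nonneg (by linarith) (by linarith)
    positivity
  have e2 : f x u ≤ l * f x u := by nlinarith
  have e3 : (l - 1) * k ≤ L := by nlinarith
  linarith

/-- half of the transport from `x` to the middle, derivatives taken along `y`. -/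
theorem half {x y : X} (E : Env vol R f G h Gh B F) (c : Cut η η' φt cη) (hn : 1 ≤ n)
    (hxB : x ∈ B) (hyB : y ∈ B) {k L β : ℝ} (hk : |k| ≤ L) (hfx : Far f B L x)
    (hm : MB vol R n B y β)
    {φ dφx dφy : X → ℝ} {vx vy S : ℝ} (cφ : Con vol R B x y φ dφx dφy vx vy S)
    {g dgx dgy : X → ℝ} {wx wy S' : ℝ} (cg : Con vol R B x y g dgx dgy wx wy S') :
    |(∫ u in B, Gp n η (f x) (f y) φ g k vy vx wy wx 2 u ∂vol)
        - ∫ u in B, (φ u - vx) * (g u - wx) * η (f x u) ∂vol|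
      ≤ 2 ^ n * (16 * S * S' * cη * β + 8 * cη * S' * (∫ u in B, |dφy u - (φ u - vy)| ∂vol)
        + 8 * cη * S * (∫ u in B, |dgy u - (g u - wy)| ∂vol)
        + 32 * cη * S * S' * (∫ u in B, |G y x u - (f x u + f y u - k)| ∂vol)) := by
  have := E.finB
  have hc0 := c.cη0
  have hS : 0 ≤ S := (abs_nonneg _).trans cφ.bvx
  have hS' : 0 ≤ S' := (abs_nonneg _).trans cg.bvx
  obtain ⟨C1, hC1⟩ := cφ.by'
  obtain ⟨C2, hC2⟩ := cg.by'
  have T : TD (vol.restrict B) η η' (f x) (f y) φ g dφy dgy (G y x) k vy vx wy wx cη S S' := by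
    refine ⟨c.hη, c.hη', c.abs_η, c.bη', E.mfa x, E.mfa y, cφ.m, cg.m, cφ.my.restrict,
      cg.my.restrict, (E.mG y x).restrict, ⟨max F (max C1 C2), ?_⟩, ?_, ?_, cφ.bvy, cφ.bvx,
      cg.bvy, cg.bvx⟩
    · filter_upwards [hC1, hC2, E.GF y hyB x hxB, ae_restrict_mem E.mB] with u h1 h2 h3 hu
      refine ⟨?_, ?_, h1.trans ?_, h2.trans ?_, h3.trans (le_max_left _ _)⟩
      · rw [abs_of_nonneg (E.nonneg x u)]
        exact (E.fF x hxB u hu).trans (le_max_left _ _)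
      · rw [abs_of_nonneg (E.nonneg y u)]
        exact (E.fF y hyB u hu).trans (le_max_left _ _)
      · exact (le_max_left _ _).trans (le_max_right _ _)
      · exact (le_max_right _ _).trans (le_max_right _ _)
    · filter_upwards [ae_restrict_mem E.mB] with u hu using cφ.bφ u hu
    · filter_upwards [ae_restrict_mem E.mB] with u hu using cg.bφ u hu
  refine T.transport hn (M := 16 * S * S' * cη * β) ?_
  intro l hl
  -- the test function
  have hfar : ∀ u, u ∉ B → 2 ≤ Fp (f x) (f y) k l u := fun u hu => Fp_far E hk hfx hl hu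
  have hZ0 : ∀ u, u ∉ B → Zp η (f x) (f y) φ g k vy vx wy wx l u = 0 := by
    intro u hu
    unfold Zp
    rw [(c.far _ (hfar u hu)).1, mul_zero]
  have hdZ0 : ∀ u, u ∉ B →
      dZp η η' (f x) (f y) φ g dφy dgy (G y x) k vy vx wy wx l u = 0 := by
    intro u hu
    unfold dZp
    rw [(c.far _ (hfar u hu)).1, (c.far _ (hfar u hu)).2.1]
    ring
  have hRA : R y (Ap φ vy vx l) (fun u => l * dφy u) := by
    have := E.Rlin y cφ.Ry l (-(l * vy) - (vx - vy))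
    have e : (fun u => l * φ u + (-(l * vy) - (vx - vy))) = Ap φ vy vx l := by
      funext u; unfold Ap; ring
    rwa [e] at this
  have hRB : R y (Ap g wy wx l) (fun u => l * dgy u) := by
    have := E.Rlin y cg.Ry l (-(l * wy) - (wx - wy))
    have e : (fun u => l * g u + (-(l * wy) - (wx - wy))) = Ap g wy wx l := by
      funext u; unfold Ap; ring
    rwa [e] at this
  have hRF : R y (Fp (f x) (f y) k l) (fun u => l * (l - 1) * (2 * f y u) + l * G y x u) := by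
    have h1 := E.Rlin y (E.Rf y y) (l * (l - 1)) 0
    have h2 := E.Rlin y (E.Rf y x) l (-((l - 1) * k))
    have h3 := E.Radd y _ _ _ _ h1 h2
    have e : (fun u => (l * (l - 1) * f y u + 0) + (l * f x u + -((l - 1) * k)))
        = Fp (f x) (f y) k l := by
      funext u; unfold Fp; ring
    rw [e] at h3
    refine E.Rcongr y _ _ _ h3 ?_
    filter_upwards [E.Gself y] with u hu
    rw [hu]
  have hRη : R y (fun u => η (Fp (f x) (f y) k l u))
      (fun u => η' (Fp (f x) (f y) k l u) * (l * (l - 1) * (2 * f y u) + l * G y x u)) :=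
    E.Rcomp y _ _ η η' hRF c.hη c.hη'
  have hRZ : R y (Zp η (f x) (f y) φ g k vy vx wy wx l)
      (dZp η η' (f x) (f y) φ g dφy dgy (G y x) k vy vx wy wx l) := by
    have h1 := E.Rmul y _ _ _ _ (E.Rmul y _ _ _ _ hRA hRB) hRη
    refine E.Rcongr y _ _ _ h1 (Eventually.of_forall fun u => ?_)
    simp only [dZp]
    ring
  have hZS : ∀ u, |Zp η (f x) (f y) φ g k vy vx wy wx l u| ≤ 16 * S * S' * cη := by
    intro u
    by_cases hu : u ∈ B
    · unfold Zp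
      rw [abs_mul, abs_mul]
      calc _ ≤ (4 * S) * (4 * S') * cη := by
            refine mul_le_mul (mul_le_mul ?_ ?_ (abs_nonneg _) (by linarith)) (c.abs_η _)
              (abs_nonneg _) (mul_nonneg (by linarith) (by linarith))
            · exact abs_Ap_le (cφ.bφ u hu) cφ.bvy cφ.bvx hl.1 hl.2
            · exact abs_Ap_le (cg.bφ u hu) cg.bvy cg.bvx hl.1 hl.2
        _ = _ := by ring
    · rw [hZ0 u hu, abs_zero]
      have := mul_nonneg (mul_nonneg hS hS') hc0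
      nlinarith
  have h1 := hm _ _ _ hRZ hZ0 hZS
  rw [← setIntegral_eq_integral_of_forall_compl_eq_zero (s := B) hZ0,
    ← setIntegral_eq_integral_of_forall_compl_eq_zero (s := B) hdZ0] at h1
  exact h1

/-- the middle expression is symmetric -/
theorem Gp_two_symm (x y : X) (φ g : X → ℝ) (k vx vy wx wy : ℝ) (u : X) :
    Gp n η (f x) (f y) φ g k vy vx wy wx 2 u = Gp n η (f y) (f x) φ g k vx vy wx wy 2 u := by
  unfold Gp Zp Ap Fp
  have e : (2 : ℝ) * (2 - 1) * f y u + 2 * f x u - (2 - 1) * k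
      = 2 * (2 - 1) * f x u + 2 * f y u - (2 - 1) * k := by ring
  rw [e]
  ring

/-- **two-sided transport** -/
theorem two_sided {x y : X} (E : Env vol R f G h Gh B F) (c : Cut η η' φt cη) (hn : 1 ≤ n)
    (hxB : x ∈ B) (hyB : y ∈ B) {k L βx βy : ℝ} (hk : |k| ≤ L) (hfx : Far f B L x)
    (hfy : Far f B L y) (hmx : MB vol R n B x βx) (hmy : MB vol R n B y βy)
    {φ dφx dφy : X → ℝ} {vx vy S : ℝ} (cφ : Con vol R B x y φ dφx dφy vx vy S)
    {g dgx dgy : X → ℝ} {wx wy S' : ℝ} (cg : Con vol R B x y g dgx dgy wx wy S') :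
    |(∫ u in B, (φ u - vy) * (g u - wy) * η (f y u) ∂vol)
        - ∫ u in B, (φ u - vx) * (g u - wx) * η (f x u) ∂vol|
      ≤ 2 ^ n * (16 * S * S' * cη * (βx + βy)
        + 8 * cη * S' * ((∫ u in B, |dφx u - (φ u - vx)| ∂vol)
          + ∫ u in B, |dφy u - (φ u - vy)| ∂vol)
        + 8 * cη * S * ((∫ u in B, |dgx u - (g u - wx)| ∂vol)
          + ∫ u in B, |dgy u - (g u - wy)| ∂vol)
        + 64 * cη * S * S' * (∫ u in B, |G y x u - (f x u + f y u - k)| ∂vol)) := by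
  have h1 := half E c hn hxB hyB hk hfx hmy cφ cg
  have h2 := half E c hn hyB hxB hk hfy hmx cφ.symm cg.symm
  have e1 : (∫ u in B, Gp n η (f x) (f y) φ g k vy vx wy wx 2 u ∂vol)
      = ∫ u in B, Gp n η (f y) (f x) φ g k vx vy wx wy 2 u ∂vol := by
    congr 1; funext u; exact Gp_two_symm x y φ g k vx vy wx wy u
  have e2 : (∫ u in B, |G x y u - (f y u + f x u - k)| ∂vol)
      = ∫ u in B, |G y x u - (f x u + f y u - k)| ∂vol := by
    refine integral_congr_ae ?_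
    filter_upwards [ae_restrict_of_ae (E.Gsymm x y)] with u hu
    rw [hu, add_comm (f y u)]
  rw [e1] at h1
  rw [e2] at h2
  have h3 := abs_sub_le (∫ u in B, (φ u - vy) * (g u - wy) * η (f y u) ∂vol)
    (∫ u in B, Gp n η (f y) (f x) φ g k vx vy wx wy 2 u ∂vol)
    (∫ u in B, (φ u - vx) * (g u - wx) * η (f x u) ∂vol)
  rw [abs_sub_comm] at h2
  calc _ ≤ _ := h3
    _ ≤ _ := add_le_add h2 h1
    _ = _ := by ring

end

end Crest.Agent.R247.Pl5661
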