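import Mathlib

-- ▼ part R247/Glu1_923
section

/-!
# R247, block (4): algebra of products of almost projections

Everything here lives in a normed ring (later `H →L[ℝ] H`).
-/

set_option autoImplicit false

namespace Crest.Agent.R247.Glu923

section Ring

variable {A : Type*} [NormedRing A]

theorem mul_one_sub_le {T T₁ : A} {a ε : ℝ} (hT : ‖T‖ ≤ 1) (hR : ‖T - T * T‖ ≤ a)
    (hε : ‖T₁ - T‖ ≤ ε) : ‖T * (1 - T₁)‖ ≤ a + ε := by
  have h : T * (1 - T₁) = (T - T * T) - T * (T₁ - T) := by noncomm_ring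
  rw [h]
  refine (norm_sub_le _ _).trans (add_le_add hR ?_)
  refine (norm_mul_le _ _).trans ?_
  calc ‖T‖ * ‖T₁ - T‖ ≤ 1 * ε := by
        exact mul_le_mul hT hε (norm_nonneg _) zero_le_one
    _ = ε := one_mul _

theorem one_sub_mul_le {T T₁ : A} {a ε : ℝ} (hT : ‖T‖ ≤ 1) (hR : ‖T - T * T‖ ≤ a)
    (hε : ‖T₁ - T‖ ≤ ε) : ‖(1 - T₁) * T‖ ≤ a + ε := by
  have h : (1 - T₁) * T = (T - T * T) - (T₁ - T) * T := by noncomm_ring
  rw [h]
  refine (norm_sub_le _ _).trans (add_le_add hR ?_)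
  refine (norm_mul_le _ _).trans ?_
  calc ‖T₁ - T‖ * ‖T‖ ≤ ε * 1 := by
        exact mul_le_mul hε hT (norm_nonneg _) ((norm_nonneg _).trans hε)
    _ = ε := mul_one _

theorem mul_one_sub_mul_le {T T₁ : A} {a a₁ ε : ℝ} (hT : ‖T‖ ≤ 1) (hR : ‖T - T * T‖ ≤ a)
    (hR₁ : ‖T₁ - T₁ * T₁‖ ≤ a₁) (hε : ‖T₁ - T‖ ≤ ε) :
    ‖T * (1 - T₁) * T‖ ≤ (a + ε) ^ 2 + a₁ := by
  have h : T * (1 - T₁) * T = (T * (1 - T₁)) * ((1 - T₁) * T) + T * (T₁ - T₁ * T₁) * T := by
    noncomm_ring
  have h1 := mul_one_sub_le hT hR hε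
  have h2 := one_sub_mul_le hT hR hε
  have h0 : (0:ℝ) ≤ a + ε := (norm_nonneg _).trans h1
  rw [h]
  refine (norm_add_le _ _).trans (add_le_add ?_ ?_)
  · refine (norm_mul_le _ _).trans ?_
    rw [sq]
    exact mul_le_mul h1 h2 (norm_nonneg _) h0
  · refine (norm_mul_le _ _).trans ?_
    have h3 : ‖T * (T₁ - T₁ * T₁)‖ ≤ 1 * a₁ :=
      (norm_mul_le _ _).trans (mul_le_mul hT hR₁ (norm_nonneg _) zero_le_one)
    have h4 : (0:ℝ) ≤ a₁ := (norm_nonneg _).trans hR₁
    calc ‖T * (T₁ - T₁ * T₁)‖ * ‖T‖ ≤ (1 * a₁) * 1 :=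
          mul_le_mul h3 hT (norm_nonneg _) (by linarith)
      _ = a₁ := by ring

/-- The tangential part of the difference of two almost projections is of second order. -/
theorem mul_sub_mul_le {T T' : A} {a b c : ℝ} (hT : ‖T‖ ≤ 1) (hR : ‖T - T * T‖ ≤ a)
    (hE : ‖T - T'‖ ≤ b) (hRR : ‖(T - T * T) - (T' - T' * T')‖ ≤ c) :
    ‖T * (T - T') * T‖ ≤ 2 * (a * b) + b ^ 2 + c := by
  set E := T - T' with hEdef
  set R := T - T * T with hRdef
  set R' := T' - T' * T' with hR'def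
  have ha : (0:ℝ) ≤ a := (norm_nonneg _).trans hR
  have hb : (0:ℝ) ≤ b := (norm_nonneg _).trans hE
  have hc : (0:ℝ) ≤ c := (norm_nonneg _).trans hRR
  have hT' : T' = T - E := by rw [hEdef]; abel
  have key : T * E * T = (R * E) * T + T * (E * R) + T * (E * E) * T - T * (R - R') * T := by
    rw [hR'def, hT', hRdef]
    noncomm_ring
  rw [key]
  have e1 : ‖(R * E) * T‖ ≤ a * b := by
    refine (norm_mul_le _ _).trans ?_
    have : ‖R * E‖ ≤ a * b := (norm_mul_le _ _).trans (mul_le_mul hR hE (norm_nonneg _) ha)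
    calc ‖R * E‖ * ‖T‖ ≤ (a * b) * 1 :=
          mul_le_mul this hT (norm_nonneg _) (mul_nonneg ha hb)
      _ = a * b := mul_one _
  have e2 : ‖T * (E * R)‖ ≤ a * b := by
    refine (norm_mul_le _ _).trans ?_
    have : ‖E * R‖ ≤ b * a := (norm_mul_le _ _).trans (mul_le_mul hE hR (norm_nonneg _) hb)
    calc ‖T‖ * ‖E * R‖ ≤ 1 * (b * a) :=
          mul_le_mul hT this (norm_nonneg _) zero_le_one
      _ = a * b := by ring
  have e3 : ‖T * (E * E) * T‖ ≤ b ^ 2 := by
    refine (norm_mul_le _ _).trans ?_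
    have : ‖E * E‖ ≤ b * b := (norm_mul_le _ _).trans (mul_le_mul hE hE (norm_nonneg _) hb)
    have h2 : ‖T * (E * E)‖ ≤ 1 * (b * b) :=
      (norm_mul_le _ _).trans (mul_le_mul hT this (norm_nonneg _) zero_le_one)
    calc ‖T * (E * E)‖ * ‖T‖ ≤ (1 * (b * b)) * 1 :=
          mul_le_mul h2 hT (norm_nonneg _) (by positivity)
      _ = b ^ 2 := by ring
  have e4 : ‖T * (R - R') * T‖ ≤ c := by
    refine (norm_mul_le _ _).trans ?_
    have h2 : ‖T * (R - R')‖ ≤ 1 * c :=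
      (norm_mul_le _ _).trans (mul_le_mul hT hRR (norm_nonneg _) zero_le_one)
    calc ‖T * (R - R')‖ * ‖T‖ ≤ (1 * c) * 1 :=
          mul_le_mul h2 hT (norm_nonneg _) (by positivity)
      _ = c := by ring
  calc ‖(R * E) * T + T * (E * R) + T * (E * E) * T - T * (R - R') * T‖
      ≤ ‖(R * E) * T + T * (E * R) + T * (E * E) * T‖ + ‖T * (R - R') * T‖ := norm_sub_le _ _
    _ ≤ (‖(R * E) * T + T * (E * R)‖ + ‖T * (E * E) * T‖) + ‖T * (R - R') * T‖ := by
        gcongr; exact norm_add_le _ _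
    _ ≤ ((‖(R * E) * T‖ + ‖T * (E * R)‖) + ‖T * (E * E) * T‖) + ‖T * (R - R') * T‖ := by
        gcongr; exact norm_add_le _ _
    _ ≤ ((a * b + a * b) + b ^ 2) + c := by gcongr
    _ = 2 * (a * b) + b ^ 2 + c := by ring

/-- The ordered product `T 0 * T 1 * ⋯ * T k`. -/
def chain (T : ℕ → A) : ℕ → A
  | 0 => T 0
  | k + 1 => chain T k * T (k + 1)

@[simp] theorem chain_zero (T : ℕ → A) : chain T 0 = T 0 := rfl

theorem chain_succ (T : ℕ → A) (k : ℕ) : chain T (k + 1) = chain T k * T (k + 1) := rfl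

theorem norm_chain_le {T : ℕ → A} (hT : ∀ k, ‖T k‖ ≤ 1) (k : ℕ) : ‖chain T k‖ ≤ 1 := by
  induction k with
  | zero => exact hT 0
  | succ k ih =>
    rw [chain_succ]
    refine (norm_mul_le _ _).trans ?_
    exact mul_le_one₀ ih (norm_nonneg _) (hT _)

theorem norm_chain_mul_le {T : ℕ → A} (hT : ∀ k, ‖T k‖ ≤ 1) (k : ℕ) (Y : A) :
    ‖chain T k * Y‖ ≤ ‖T k * Y‖ := by
  cases k with
  | zero => exact le_rfl
  | succ k =>
    rw [chain_succ, mul_assoc]
    refine (norm_mul_le _ _).trans ?_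
    calc ‖chain T k‖ * ‖T (k + 1) * Y‖ ≤ 1 * ‖T (k + 1) * Y‖ := by
          gcongr; exact norm_chain_le hT k
      _ = _ := one_mul _

theorem chain_succ_sub (T : ℕ → A) (k : ℕ) :
    chain T (k + 1) - chain T k = -(chain T k * (1 - T (k + 1))) := by
  rw [chain_succ]; noncomm_ring

theorem dchain_succ (T T' : ℕ → A) (k : ℕ) :
    chain T (k + 1) - chain T' (k + 1) =
      (chain T k - chain T' k) * T (k + 1) + chain T' k * (T (k + 1) - T' (k + 1)) := by
  rw [chain_succ, chain_succ]; noncomm_ring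

end Ring

end Crest.Agent.R247.Glu923
end

-- ▼ part R247/Glu2_923
section

/-!
# R247, block (4): two products of almost projections
-/

set_option autoImplicit false

namespace Crest.Agent.R247.Glu923

section Ring

variable {A : Type*} [NormedRing A]

/-- A sequence of almost projections `T k` with errors `e k`. -/
structure IsChain (T : ℕ → A) (e : ℕ → ℝ) : Prop where
  e_nonneg : ∀ k, 0 ≤ e k
  e_le : ∀ k, e k ≤ 1 / 10
  norm_le : ∀ k, ‖T k‖ ≤ 1
  norm_one_sub_le : ∀ k, ‖1 - T k‖ ≤ 1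
  sq : ∀ k, ‖T k - T k * T k‖ ≤ e k ^ 2
  step : ∀ k, ‖T (k + 1) - T k‖ ≤ e k + e (k + 1)

namespace IsChain

variable {T : ℕ → A} {e : ℕ → ℝ}

theorem mul_one_sub (h : IsChain T e) (k : ℕ) :
    ‖T k * (1 - T (k + 1))‖ ≤ 2 * (e k + e (k + 1)) := by
  have h1 := mul_one_sub_le (h.norm_le k) (h.sq k) (h.step k)
  have := h.e_nonneg k
  have := h.e_nonneg (k + 1)
  have := h.e_le k
  nlinarith

theorem one_sub_mul (h : IsChain T e) (k : ℕ) :
    ‖(1 - T (k + 1)) * T k‖ ≤ 2 * (e k + e (k + 1)) := by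
  have h1 := one_sub_mul_le (h.norm_le k) (h.sq k) (h.step k)
  have := h.e_nonneg k
  have := h.e_nonneg (k + 1)
  have := h.e_le k
  nlinarith

theorem one_sub_mul' (h : IsChain T e) (k : ℕ) :
    ‖(1 - T k) * T (k + 1)‖ ≤ 2 * (e k + e (k + 1)) := by
  have h0 : ‖T k - T (k + 1)‖ ≤ e k + e (k + 1) := by
    rw [norm_sub_rev]; exact h.step k
  have h1 := one_sub_mul_le (h.norm_le (k + 1)) (h.sq (k + 1)) h0
  have := h.e_nonneg k
  have := h.e_nonneg (k + 1)
  have := h.e_le (k + 1)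
  nlinarith

theorem mul_one_sub_mul (h : IsChain T e) (k : ℕ) :
    ‖T k * (1 - T (k + 1)) * T k‖ ≤ 5 * (e k + e (k + 1)) ^ 2 := by
  have h1 := mul_one_sub_mul_le (h.norm_le k) (h.sq k) (h.sq (k + 1)) (h.step k)
  have a := h.e_nonneg k
  have b := h.e_nonneg (k + 1)
  have c := h.e_le k
  have d : e k ^ 2 + (e k + e (k + 1)) ≤ 2 * (e k + e (k + 1)) := by nlinarith
  have d' : (e k ^ 2 + (e k + e (k + 1))) ^ 2 ≤ (2 * (e k + e (k + 1))) ^ 2 := by
    apply pow_le_pow_left₀ (by positivity) d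
  nlinarith

theorem mul_one_sub_mul' (h : IsChain T e) (k : ℕ) :
    ‖T (k + 1) * (1 - T k) * T (k + 1)‖ ≤ 5 * (e k + e (k + 1)) ^ 2 := by
  have h0 : ‖T k - T (k + 1)‖ ≤ e k + e (k + 1) := by
    rw [norm_sub_rev]; exact h.step k
  have h1 := mul_one_sub_mul_le (h.norm_le (k + 1)) (h.sq (k + 1)) (h.sq k) h0
  have a := h.e_nonneg k
  have b := h.e_nonneg (k + 1)
  have c := h.e_le (k + 1)
  have d : e (k + 1) ^ 2 + (e k + e (k + 1)) ≤ 2 * (e k + e (k + 1)) := by nlinarith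
  have d' : (e (k + 1) ^ 2 + (e k + e (k + 1))) ^ 2 ≤ (2 * (e k + e (k + 1))) ^ 2 := by
    apply pow_le_pow_left₀ (by positivity) d
  nlinarith

end IsChain

/-- The recursive bound for the tangential holonomy. -/
noncomputable def tau (e : ℕ → ℝ) : ℕ → ℝ
  | 0 => 0
  | k + 1 => tau e k / 2 + 10 * (e k ^ 2 + e (k + 1) ^ 2)

theorem tau_nonneg (e : ℕ → ℝ) (k : ℕ) : 0 ≤ tau e k := by
  induction k with
  | zero => exact le_rfl
  | succ k ih => simp only [tau]; positivity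

theorem sum_tau_add_le (e : ℕ → ℝ) (n : ℕ) :
    (∑ k ∈ Finset.range (n + 1), tau e k) + tau e n ≤
      20 * ∑ k ∈ Finset.range n, (e k ^ 2 + e (k + 1) ^ 2) := by
  induction n with
  | zero => simp [tau]
  | succ n ih =>
    rw [Finset.sum_range_succ, Finset.sum_range_succ (fun k => e k ^ 2 + e (k + 1) ^ 2)]
    have h1 : tau e (n + 1) = tau e n / 2 + 10 * (e n ^ 2 + e (n + 1) ^ 2) := rfl
    have : (∑ k ∈ Finset.range (n + 1), tau e k) + tau e (n + 1) + tau e (n + 1) =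
      ((∑ k ∈ Finset.range (n + 1), tau e k) + tau e n) + 20 * (e n ^ 2 + e (n + 1) ^ 2) := by
      rw [h1]; ring
    linarith

theorem sum_sq_pair_le {e : ℕ → ℝ} {δ : ℝ} (hδ : ∀ n, ∑ k ∈ Finset.range n, e k ^ 2 ≤ δ) (n : ℕ) :
    ∑ k ∈ Finset.range n, (e k ^ 2 + e (k + 1) ^ 2) ≤ 2 * δ := by
  rw [Finset.sum_add_distrib]
  have h1 := hδ n
  have h2 : ∑ k ∈ Finset.range n, e (k + 1) ^ 2 ≤ δ := by
    have h3 := hδ (n + 1)
    rw [Finset.sum_range_succ'] at h3
    have := sq_nonneg (e 0)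
    linarith
  linarith

theorem sum_tau_le {e : ℕ → ℝ} {δ : ℝ} (hδ : ∀ n, ∑ k ∈ Finset.range n, e k ^ 2 ≤ δ) (n : ℕ) :
    ∑ k ∈ Finset.range n, tau e k ≤ 40 * δ := by
  have hδ0 : 0 ≤ δ := by simpa using hδ 0
  cases n with
  | zero => simp; exact hδ0
  | succ n =>
    have h1 := sum_tau_add_le e n
    have h2 := sum_sq_pair_le hδ n
    have := tau_nonneg e n
    linarith

theorem tau_le {e : ℕ → ℝ} {δ : ℝ} (hδ : ∀ n, ∑ k ∈ Finset.range n, e k ^ 2 ≤ δ) (n : ℕ) :
    tau e n ≤ 20 * δ := by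
  have hδ0 : 0 ≤ δ := by simpa using hδ 0
  cases n with
  | zero => simp [tau]; exact hδ0
  | succ n =>
    have h1 := sum_tau_add_le e (n + 1)
    have h2 := sum_sq_pair_le hδ (n + 1)
    rw [Finset.sum_range_succ] at h1
    have h3 : 0 ≤ ∑ k ∈ Finset.range (n + 1), tau e k :=
      Finset.sum_nonneg fun k _ => tau_nonneg e k
    linarith

/-- Two chains at points whose distance is `s k` times the `k`-th scale. -/
structure IsPair (T T' : ℕ → A) (e s : ℕ → ℝ) (m : ℕ) : Prop where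
  norm_le' : ∀ k, ‖T' k‖ ≤ 1
  s_nonneg : ∀ k, 0 ≤ s k
  s_le : ∀ k, k ≤ m → s k ≤ 1
  s_succ : ∀ k, s (k + 1) = 2 * s k
  zero : T 0 = T' 0
  sub_le : ∀ k, k ≤ m → ‖T k - T' k‖ ≤ e k * s k
  sq_sub_le : ∀ k, k ≤ m →
    ‖(T k - T k * T k) - (T' k - T' k * T' k)‖ ≤ e k ^ 2 * s k

section pair

variable {T T' : ℕ → A} {e s : ℕ → ℝ} {m : ℕ}

theorem norm_dchain_le (T T' : ℕ → A) (k : ℕ) :
    ‖chain T k - chain T' k‖ ≤
      ‖(chain T k - chain T' k) * T k‖ + ‖(chain T k - chain T' k) * (1 - T k)‖ := by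
  have : chain T k - chain T' k =
      (chain T k - chain T' k) * T k + (chain T k - chain T' k) * (1 - T k) := by noncomm_ring
  calc ‖chain T k - chain T' k‖ = ‖(chain T k - chain T' k) * T k +
        (chain T k - chain T' k) * (1 - T k)‖ := by rw [← this]
    _ ≤ _ := norm_add_le _ _

theorem nstep (h : IsChain T e) (p : IsPair T T' e s m) {k : ℕ} (hk : k + 1 ≤ m) :
    ‖(chain T (k + 1) - chain T' (k + 1)) * (1 - T (k + 1))‖ ≤
      (‖(chain T k - chain T' k) * T k‖ + ‖(chain T k - chain T' k) * (1 - T k)‖) *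
        e (k + 1) ^ 2 + e (k + 1) * s (k + 1) := by
  have key : (chain T (k + 1) - chain T' (k + 1)) * (1 - T (k + 1)) =
      (chain T k - chain T' k) * (T (k + 1) - T (k + 1) * T (k + 1)) +
        chain T' k * ((T (k + 1) - T' (k + 1)) * (1 - T (k + 1))) := by
    rw [dchain_succ]; noncomm_ring
  rw [key]
  refine (norm_add_le _ _).trans (add_le_add ?_ ?_)
  · refine (norm_mul_le _ _).trans ?_
    exact mul_le_mul (norm_dchain_le T T' k) (h.sq (k + 1)) (norm_nonneg _) (by positivity)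
  · refine (norm_mul_le _ _).trans ?_
    have h1 : ‖(T (k + 1) - T' (k + 1)) * (1 - T (k + 1))‖ ≤ (e (k + 1) * s (k + 1)) * 1 :=
      (norm_mul_le _ _).trans (mul_le_mul (p.sub_le _ hk) (h.norm_one_sub_le _) (norm_nonneg _)
        (mul_nonneg (h.e_nonneg _) (p.s_nonneg _)))
    calc ‖chain T' k‖ * ‖(T (k + 1) - T' (k + 1)) * (1 - T (k + 1))‖
        ≤ 1 * ((e (k + 1) * s (k + 1)) * 1) :=
          mul_le_mul (norm_chain_le p.norm_le' k) h1 (norm_nonneg _) zero_le_one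
      _ = _ := by ring

theorem tstep (h : IsChain T e) (p : IsPair T T' e s m) {k : ℕ} (hk : k + 1 ≤ m) :
    ‖(chain T (k + 1) - chain T' (k + 1)) * T (k + 1)‖ ≤
      ‖(chain T k - chain T' k) * T k‖ +
      2 * (e k + e (k + 1)) * ‖(chain T k - chain T' k) * (1 - T k)‖ +
      e k ^ 2 * (‖(chain T k - chain T' k) * T k‖ + ‖(chain T k - chain T' k) * (1 - T k)‖) +
      (4 * e (k + 1) ^ 2 * s (k + 1) + 3 * (e k + e (k + 1)) * (e (k + 1) * s (k + 1))) := by
  set δ := chain T k - chain T' k with hδ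
  have hk' : k ≤ m := by omega
  have a0 := h.e_nonneg k
  have a1 := h.e_nonneg (k + 1)
  have b0 := h.e_le k
  have b1 := h.e_le (k + 1)
  have s0 := p.s_nonneg k
  have s1 := p.s_nonneg (k + 1)
  have sl0 := p.s_le k hk'
  have sl1 := p.s_le (k + 1) hk
  have key : (chain T (k + 1) - chain T' (k + 1)) * T (k + 1) =
      (((δ * T k) * T (k + 1) + (δ * (1 - T k)) * ((1 - T k) * T (k + 1)) +
        (δ * (T k - T k * T k)) * T (k + 1)) * T (k + 1)) +
      (chain T' k * (T (k + 1) * (T (k + 1) - T' (k + 1)) * T (k + 1)) +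
        (chain T' k * (1 - T (k + 1))) * ((T (k + 1) - T' (k + 1)) * T (k + 1))) := by
    rw [dchain_succ, ← hδ]; noncomm_ring
  have hT1 := h.norm_le (k + 1)
  have e1 : ‖(δ * T k) * T (k + 1)‖ ≤ ‖δ * T k‖ := by
    refine (norm_mul_le _ _).trans ?_
    calc ‖δ * T k‖ * ‖T (k + 1)‖ ≤ ‖δ * T k‖ * 1 := by gcongr
      _ = _ := mul_one _
  have e2 : ‖(δ * (1 - T k)) * ((1 - T k) * T (k + 1))‖ ≤
      2 * (e k + e (k + 1)) * ‖δ * (1 - T k)‖ := by
    refine (norm_mul_le _ _).trans ?_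
    calc ‖δ * (1 - T k)‖ * ‖(1 - T k) * T (k + 1)‖
        ≤ ‖δ * (1 - T k)‖ * (2 * (e k + e (k + 1))) := by gcongr; exact h.one_sub_mul' k
      _ = _ := by ring
  have e3 : ‖(δ * (T k - T k * T k)) * T (k + 1)‖ ≤
      e k ^ 2 * (‖δ * T k‖ + ‖δ * (1 - T k)‖) := by
    refine (norm_mul_le _ _).trans ?_
    have h1 : ‖δ * (T k - T k * T k)‖ ≤ (‖δ * T k‖ + ‖δ * (1 - T k)‖) * e k ^ 2 := by
      refine (norm_mul_le _ _).trans ?_
      exact mul_le_mul (norm_dchain_le T T' k) (h.sq k) (norm_nonneg _) (by positivity)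
    calc ‖δ * (T k - T k * T k)‖ * ‖T (k + 1)‖
        ≤ ((‖δ * T k‖ + ‖δ * (1 - T k)‖) * e k ^ 2) * 1 :=
          mul_le_mul h1 hT1 (norm_nonneg _) (by positivity)
      _ = _ := by ring
  have e4 : ‖chain T' k * (T (k + 1) * (T (k + 1) - T' (k + 1)) * T (k + 1))‖ ≤
      4 * e (k + 1) ^ 2 * s (k + 1) := by
    refine (norm_mul_le _ _).trans ?_
    have h1 := mul_sub_mul_le (h.norm_le (k + 1)) (h.sq (k + 1)) (p.sub_le (k + 1) hk)
      (p.sq_sub_le (k + 1) hk)
    have h2 : 2 * (e (k + 1) ^ 2 * (e (k + 1) * s (k + 1))) + (e (k + 1) * s (k + 1)) ^ 2 +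
        e (k + 1) ^ 2 * s (k + 1) ≤ 4 * e (k + 1) ^ 2 * s (k + 1) := by
      have c1 : e (k + 1) ^ 2 * (e (k + 1) * s (k + 1)) ≤ e (k + 1) ^ 2 * s (k + 1) := by
        have : e (k + 1) * s (k + 1) ≤ 1 * s (k + 1) := by
          apply mul_le_mul_of_nonneg_right _ s1; linarith
        have h3 := mul_le_mul_of_nonneg_left this (sq_nonneg (e (k + 1)))
        linarith
      have c2 : (e (k + 1) * s (k + 1)) ^ 2 ≤ e (k + 1) ^ 2 * s (k + 1) := by
        have : s (k + 1) ^ 2 ≤ s (k + 1) := by nlinarith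
        have h3 := mul_le_mul_of_nonneg_left this (sq_nonneg (e (k + 1)))
        calc (e (k + 1) * s (k + 1)) ^ 2 = e (k + 1) ^ 2 * s (k + 1) ^ 2 := by ring
          _ ≤ _ := h3
      linarith
    calc ‖chain T' k‖ * ‖T (k + 1) * (T (k + 1) - T' (k + 1)) * T (k + 1)‖
        ≤ 1 * (4 * e (k + 1) ^ 2 * s (k + 1)) :=
          mul_le_mul (norm_chain_le p.norm_le' k) (h1.trans h2) (norm_nonneg _) zero_le_one
      _ = _ := one_mul _
  have e5 : ‖(chain T' k * (1 - T (k + 1))) * ((T (k + 1) - T' (k + 1)) * T (k + 1))‖ ≤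
      3 * (e k + e (k + 1)) * (e (k + 1) * s (k + 1)) := by
    refine (norm_mul_le _ _).trans ?_
    have h1 : ‖chain T' k * (1 - T (k + 1))‖ ≤ 3 * (e k + e (k + 1)) := by
      refine (norm_chain_mul_le p.norm_le' k _).trans ?_
      have h2 : T' k * (1 - T (k + 1)) = T k * (1 - T (k + 1)) -
          (T k - T' k) * (1 - T (k + 1)) := by noncomm_ring
      rw [h2]
      refine (norm_sub_le _ _).trans ?_
      have h3 := h.mul_one_sub k
      have h4 : ‖(T k - T' k) * (1 - T (k + 1))‖ ≤ (e k * s k) * 1 :=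
        (norm_mul_le _ _).trans (mul_le_mul (p.sub_le _ hk') (h.norm_one_sub_le _)
          (norm_nonneg _) (mul_nonneg a0 s0))
      have h5 : e k * s k ≤ e k := by nlinarith
      linarith
    have h2 : ‖(T (k + 1) - T' (k + 1)) * T (k + 1)‖ ≤ e (k + 1) * s (k + 1) := by
      refine (norm_mul_le _ _).trans ?_
      calc ‖T (k + 1) - T' (k + 1)‖ * ‖T (k + 1)‖ ≤ (e (k + 1) * s (k + 1)) * 1 :=
            mul_le_mul (p.sub_le _ hk) hT1 (norm_nonneg _) (mul_nonneg a1 s1)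
        _ = _ := mul_one _
    exact mul_le_mul h1 h2 (norm_nonneg _) (by positivity)
  have e6 : ‖((δ * T k) * T (k + 1) + (δ * (1 - T k)) * ((1 - T k) * T (k + 1)) +
        (δ * (T k - T k * T k)) * T (k + 1)) * T (k + 1)‖ ≤
      ‖δ * T k‖ + 2 * (e k + e (k + 1)) * ‖δ * (1 - T k)‖ +
      e k ^ 2 * (‖δ * T k‖ + ‖δ * (1 - T k)‖) := by
    refine (norm_mul_le _ _).trans ?_
    have h1 : ‖(δ * T k) * T (k + 1) + (δ * (1 - T k)) * ((1 - T k) * T (k + 1)) +
        (δ * (T k - T k * T k)) * T (k + 1)‖ ≤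
        ‖δ * T k‖ + 2 * (e k + e (k + 1)) * ‖δ * (1 - T k)‖ +
          e k ^ 2 * (‖δ * T k‖ + ‖δ * (1 - T k)‖) :=
      (norm_add₃_le).trans (add_le_add (add_le_add e1 e2) e3)
    calc _ ≤ (‖δ * T k‖ + 2 * (e k + e (k + 1)) * ‖δ * (1 - T k)‖ +
          e k ^ 2 * (‖δ * T k‖ + ‖δ * (1 - T k)‖)) * 1 :=
          mul_le_mul h1 hT1 (norm_nonneg _) (by positivity)
      _ = _ := mul_one _
  rw [key]
  refine (norm_add_le _ _).trans (add_le_add e6 ?_)
  exact (norm_add_le _ _).trans (add_le_add e4 e5)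

/-- Holonomy bounds. -/
theorem holonomy (h : IsChain T e) (p : IsPair T T' e s m) (hτ : ∀ k, tau e k ≤ 1) :
    ∀ k, k ≤ m → ‖(chain T k - chain T' k) * T k‖ ≤ tau e k * s k ∧
      ‖(chain T k - chain T' k) * (1 - T k)‖ ≤ 2 * e k * s k := by
  intro k
  induction k with
  | zero =>
    intro _
    have h0 : chain T 0 - chain T' 0 = 0 := by simp [p.zero]
    rw [h0]
    simp only [zero_mul, norm_zero]
    exact ⟨mul_nonneg (tau_nonneg _ _) (p.s_nonneg _),
      mul_nonneg (mul_nonneg zero_le_two (h.e_nonneg _)) (p.s_nonneg _)⟩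
  | succ k ih =>
    intro hk
    obtain ⟨ih1, ih2⟩ := ih (by omega)
    have a0 := h.e_nonneg k
    have a1 := h.e_nonneg (k + 1)
    have b0 := h.e_le k
    have b1 := h.e_le (k + 1)
    have s0 := p.s_nonneg k
    have t0 := tau_nonneg e k
    have t1 := hτ k
    have hs := p.s_succ k
    have N := nstep h p hk
    have M := tstep h p hk
    set t := ‖(chain T k - chain T' k) * T k‖
    set n := ‖(chain T k - chain T' k) * (1 - T k)‖
    have htn : t + n ≤ (tau e k + 2 * e k) * s k := by linarith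
    have h0t : 0 ≤ t := norm_nonneg _
    have h0n : 0 ≤ n := norm_nonneg _
    constructor
    · refine M.trans ?_
      have c1 : 2 * (e k + e (k + 1)) * n ≤ 2 * (e k + e (k + 1)) * (2 * e k * s k) := by
        gcongr
      have c2 : e k ^ 2 * (t + n) ≤ e k ^ 2 * ((tau e k + 2 * e k) * s k) := by gcongr
      have c3 : e k ^ 2 * ((tau e k + 2 * e k) * s k) ≤ e k ^ 2 * (2 * s k) := by
        gcongr; linarith
      have hτs : tau e (k + 1) = tau e k / 2 + 10 * (e k ^ 2 + e (k + 1) ^ 2) := rfl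
      rw [hτs, hs]
      have c4 : t + 2 * (e k + e (k + 1)) * (2 * e k * s k) + e k ^ 2 * (2 * s k) +
          (4 * e (k + 1) ^ 2 * (2 * s k) + 3 * (e k + e (k + 1)) * (e (k + 1) * (2 * s k))) ≤
          (tau e k / 2 + 10 * (e k ^ 2 + e (k + 1) ^ 2)) * (2 * s k) := by
        have c5 : 2 * (e k + e (k + 1)) * (2 * e k) + e k ^ 2 * 2 +
          (4 * e (k + 1) ^ 2 * 2 + 3 * (e k + e (k + 1)) * (e (k + 1) * 2)) ≤
          20 * (e k ^ 2 + e (k + 1) ^ 2) := by nlinarith [sq_nonneg (e k - e (k + 1))]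
        have c6 := mul_le_mul_of_nonneg_right c5 s0
        nlinarith
      linarith
    · refine N.trans ?_
      rw [hs]
      have c1 : (t + n) * e (k + 1) ^ 2 ≤ ((tau e k + 2 * e k) * s k) * e (k + 1) ^ 2 := by
        gcongr
      have c2 : (tau e k + 2 * e k) * e (k + 1) ≤ 2 := by nlinarith
      have c3 : ((tau e k + 2 * e k) * s k) * e (k + 1) ^ 2 ≤ 2 * (s k * e (k + 1)) := by
        have := mul_le_mul_of_nonneg_right c2 (mul_nonneg s0 a1)
        nlinarith
      nlinarith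

end pair

end Ring

end Crest.Agent.R247.Glu923
end

-- ▼ part R247/Glu3_923
section

/-!
# R247, block (4): the glued map and its differences
-/

set_option autoImplicit false

namespace Crest.Agent.R247.Glu923

open scoped RealInnerProductSpace

variable {H : Type*} [NormedAddCommGroup H] [InnerProductSpace ℝ H]

/-- `‖(A (k+1) - A k) v‖` is of second order. -/
theorem norm_chain_step_apply_le {T : ℕ → H →L[ℝ] H} {e : ℕ → ℝ} (h : IsChain T e) (k : ℕ)
    (v : H) :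
    ‖(chain T (k + 1) - chain T k) v‖ ≤
      5 * (e k + e (k + 1)) ^ 2 * ‖v‖ + 2 * (e k + e (k + 1)) * ‖(1 - T k) v‖ := by
  have h1 : ‖(chain T (k + 1) - chain T k) v‖ ≤ ‖(T k * (1 - T (k + 1))) v‖ := by
    rw [chain_succ_sub]
    have : (-(chain T k * (1 - T (k + 1)))) v = -((chain T k) ((1 - T (k + 1)) v)) := rfl
    rw [this, norm_neg]
    have h2 : ∀ w : H, ‖(chain T k) w‖ ≤ ‖T k w‖ := by
      intro w
      cases k with
      | zero => exact le_rfl
      | succ k =>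
        rw [chain_succ]
        have : (chain T k * T (k + 1)) w = chain T k (T (k + 1) w) := rfl
        rw [this]
        calc ‖chain T k (T (k + 1) w)‖ ≤ ‖chain T k‖ * ‖T (k + 1) w‖ :=
              ContinuousLinearMap.le_opNorm _ _
          _ ≤ 1 * ‖T (k + 1) w‖ := by gcongr; exact norm_chain_le h.norm_le k
          _ = _ := one_mul _
    exact h2 _
  have h2 : (T k * (1 - T (k + 1))) v =
      (T k * (1 - T (k + 1)) * T k) v + (T k * (1 - T (k + 1))) ((1 - T k) v) := by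
    have : T k * (1 - T (k + 1)) = T k * (1 - T (k + 1)) * T k +
        (T k * (1 - T (k + 1))) * (1 - T k) := by noncomm_ring
    calc (T k * (1 - T (k + 1))) v = (T k * (1 - T (k + 1)) * T k +
        (T k * (1 - T (k + 1))) * (1 - T k)) v := by rw [← this]
      _ = _ := rfl
  refine h1.trans ?_
  rw [h2]
  refine (norm_add_le _ _).trans (add_le_add ?_ ?_)
  · refine (ContinuousLinearMap.le_opNorm _ _).trans ?_
    gcongr
    exact h.mul_one_sub_mul k
  · refine (ContinuousLinearMap.le_opNorm _ _).trans ?_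
    gcongr
    exact h.mul_one_sub k

theorem norm_dchain_apply_le {T T' : ℕ → H →L[ℝ] H} {e : ℕ → ℝ} (h : IsChain T e) (k : ℕ)
    {t n : ℝ} (ht : ‖(chain T k - chain T' k) * T k‖ ≤ t)
    (hn : ‖(chain T k - chain T' k) * (1 - T k)‖ ≤ n) (w : H) :
    ‖(chain T k - chain T' k) w‖ ≤
      t * ‖w‖ + n * ‖(1 - T k) w‖ + (t + n) * e k ^ 2 * ‖w‖ := by
  set δ := chain T k - chain T' k
  have key : δ w = (δ * T k) w + (δ * (1 - T k)) ((1 - T k) w) +
      (δ * (T k - T k * T k)) w := by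
    have : δ = δ * T k + (δ * (1 - T k)) * (1 - T k) + δ * (T k - T k * T k) := by
      noncomm_ring
    calc δ w = (δ * T k + (δ * (1 - T k)) * (1 - T k) + δ * (T k - T k * T k)) w := by
          rw [← this]
      _ = _ := rfl
  rw [key]
  have hδ : ‖δ‖ ≤ t + n := (norm_dchain_le T T' k).trans (add_le_add ht hn)
  refine norm_add₃_le.trans (add_le_add (add_le_add ?_ ?_) ?_)
  · exact (ContinuousLinearMap.le_opNorm _ _).trans (by gcongr)
  · exact (ContinuousLinearMap.le_opNorm _ _).trans (by gcongr)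
  · refine (ContinuousLinearMap.le_opNorm _ _).trans ?_
    have : ‖δ * (T k - T k * T k)‖ ≤ (t + n) * e k ^ 2 :=
      (norm_mul_le _ _).trans (mul_le_mul hδ (h.sq k) (norm_nonneg _)
        ((norm_nonneg _).trans hδ))
    gcongr

/-- Lower bound for the norm of a product of almost projections. -/
theorem norm_sq_chain_apply_ge {T : ℕ → H →L[ℝ] H} {e : ℕ → ℝ} (h : IsChain T e)
    (hs : ∀ k u v, ⟪T k u, v⟫ = ⟪u, T k v⟫) (k : ℕ) (v : H) :
    ‖v‖ ^ 2 - 2 * ⟪(1 - T k) v, v⟫ -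
      10 * (∑ j ∈ Finset.range k, (e j + e (j + 1)) ^ 2) * ‖v‖ ^ 2 ≤ ‖chain T k v‖ ^ 2 := by
  have base : ∀ (j : ℕ) (v : H), ‖v‖ ^ 2 - 2 * ⟪(1 - T j) v, v⟫ ≤ ‖T j v‖ ^ 2 := by
    intro j v
    have h1 : T j v = v - (1 - T j) v := by
      simp
    calc ‖v‖ ^ 2 - 2 * ⟪(1 - T j) v, v⟫ ≤ ‖v‖ ^ 2 - 2 * ⟪(1 - T j) v, v⟫ +
          ‖(1 - T j) v‖ ^ 2 := by
          have := sq_nonneg ‖(1 - T j) v‖
          linarith
      _ = ‖v - (1 - T j) v‖ ^ 2 := by
          rw [@norm_sub_sq ℝ, real_inner_comm]; simp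
      _ = ‖T j v‖ ^ 2 := by rw [← h1]
  induction k generalizing v with
  | zero => simpa using base 0 v
  | succ k ih =>
    have e1 : chain T (k + 1) v = chain T k (T (k + 1) v) := rfl
    rw [e1, Finset.sum_range_succ]
    set w := T (k + 1) v with hw
    have h1 := ih w
    have h2 := base (k + 1) v
    rw [← hw] at h2
    have h3 : ‖w‖ ≤ ‖v‖ := by
      calc ‖w‖ ≤ ‖T (k + 1)‖ * ‖v‖ := ContinuousLinearMap.le_opNorm _ _
        _ ≤ 1 * ‖v‖ := by gcongr; exact h.norm_le _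
        _ = _ := one_mul _
    have h3' : ‖w‖ ^ 2 ≤ ‖v‖ ^ 2 := by gcongr
    have h4 : ⟪(1 - T k) w, w⟫ ≤ 5 * (e k + e (k + 1)) ^ 2 * ‖v‖ ^ 2 := by
      have : ⟪(1 - T k) w, w⟫ = ⟪(T (k + 1) * (1 - T k) * T (k + 1)) v, v⟫ := by
        have e2 : (T (k + 1) * (1 - T k) * T (k + 1)) v = T (k + 1) ((1 - T k) w) := rfl
        rw [e2, hs]
      rw [this]
      calc ⟪(T (k + 1) * (1 - T k) * T (k + 1)) v, v⟫
          ≤ ‖(T (k + 1) * (1 - T k) * T (k + 1)) v‖ * ‖v‖ := real_inner_le_norm _ _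
        _ ≤ (‖T (k + 1) * (1 - T k) * T (k + 1)‖ * ‖v‖) * ‖v‖ := by
            gcongr; exact ContinuousLinearMap.le_opNorm _ _
        _ ≤ (5 * (e k + e (k + 1)) ^ 2 * ‖v‖) * ‖v‖ := by
            gcongr; exact h.mul_one_sub_mul' k
        _ = _ := by ring
    have h5 : 10 * (∑ j ∈ Finset.range k, (e j + e (j + 1)) ^ 2) * ‖w‖ ^ 2 ≤
        10 * (∑ j ∈ Finset.range k, (e j + e (j + 1)) ^ 2) * ‖v‖ ^ 2 := by
      have : 0 ≤ ∑ j ∈ Finset.range k, (e j + e (j + 1)) ^ 2 :=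
        Finset.sum_nonneg fun _ _ => sq_nonneg _
      gcongr
    have h6 : 10 * ((∑ j ∈ Finset.range k, (e j + e (j + 1)) ^ 2) + (e k + e (k + 1)) ^ 2) *
        ‖v‖ ^ 2 = 10 * (∑ j ∈ Finset.range k, (e j + e (j + 1)) ^ 2) * ‖v‖ ^ 2 +
        2 * (5 * (e k + e (k + 1)) ^ 2 * ‖v‖ ^ 2) := by ring
    rw [h6]
    linarith

variable {X : Type*} [MetricSpace X]

/-- Input of the gluing construction. `T k x` are almost projections, `c k x` are the
interpolated centres at scale `R / 2 ^ k`. -/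
structure IsGlue (Ψ : X → H) (T : ℕ → X → H →L[ℝ] H) (c : ℕ → X → H) (e : ℕ → X → ℝ)
    (R B δ : ℝ) : Prop where
  R_pos : 0 < R
  B_ge : 1 ≤ B
  δ_le : δ ≤ 1 / 100
  chain : ∀ x, IsChain (fun k => T k x) (fun k => e k x)
  zero : ∀ x x', T 0 x = T 0 x'
  sum_le : ∀ x n, ∑ k ∈ Finset.range n, (e k x) ^ 2 ≤ δ
  sub_le : ∀ k x x', dist x x' ≤ R / 2 ^ k → ‖T k x - T k x'‖ ≤ e k x * (dist x x' / (R / 2 ^ k))
  sq_sub_le : ∀ k x x', dist x x' ≤ R / 2 ^ k →
    ‖(T k x - T k x * T k x) - (T k x' - T k x' * T k x')‖ ≤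
      e k x ^ 2 * (dist x x' / (R / 2 ^ k))
  u_le : ∀ k x, ‖Ψ x - c k x‖ ≤ B * (R / 2 ^ k)
  un_le : ∀ k x, ‖(1 - T k x) (Ψ x - c k x)‖ ≤ e k x * (R / 2 ^ k)
  c_le : ∀ k x x', dist x x' ≤ R / 2 ^ k → ‖c k x - c k x'‖ ≤ B * dist x x'
  cn_le : ∀ k x x', dist x x' ≤ R / 2 ^ k → ‖(1 - T k x) (c k x - c k x')‖ ≤ e k x * dist x x'
  Ψ_le : ∀ x x', ‖Ψ x - Ψ x'‖ ≤ dist x x'
  Ψn_le : ∀ k x x', dist x x' ≤ R / 2 ^ k →
    ‖(1 - T k x) (Ψ x - Ψ x')‖ ≤ (e k x + e k x') * (R / 2 ^ k)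
  symm : ∀ k x u v, ⟪T k x u, v⟫ = ⟪u, T k x v⟫
  diam : ∀ x x' : X, dist x x' ≤ R

namespace IsGlue

variable {Ψ : X → H} {T : ℕ → X → H →L[ℝ] H} {c : ℕ → X → H} {e : ℕ → X → ℝ} {R B δ : ℝ}

/-- The `k`-th term of the series defining the glued map. -/
noncomputable def term (Ψ : X → H) (T : ℕ → X → H →L[ℝ] H) (c : ℕ → X → H) (k : ℕ) (x : X) : H :=
  (Glu923.chain (fun k => T k x) (k + 1) - Glu923.chain (fun k => T k x) k) (Ψ x - c k x)

theorem norm_term_le (h : IsGlue Ψ T c e R B δ) (k : ℕ) (x : X) :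
    ‖term Ψ T c k x‖ ≤ 7 * B * (e k x + e (k + 1) x) ^ 2 * (R / 2 ^ k) := by
  have hR := h.R_pos
  have hB := h.B_ge
  have h1 := norm_chain_step_apply_le (h.chain x) k (Ψ x - c k x)
  have h2 := h.u_le k x
  have h3 := h.un_le k x
  have a0 := (h.chain x).e_nonneg k
  have a1 := (h.chain x).e_nonneg (k + 1)
  have hr : 0 < R / 2 ^ k := by positivity
  refine h1.trans ?_
  calc 5 * (e k x + e (k + 1) x) ^ 2 * ‖Ψ x - c k x‖ +
        2 * (e k x + e (k + 1) x) * ‖(1 - T k x) (Ψ x - c k x)‖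
      ≤ 5 * (e k x + e (k + 1) x) ^ 2 * (B * (R / 2 ^ k)) +
        2 * (e k x + e (k + 1) x) * (e k x * (R / 2 ^ k)) := by gcongr
    _ ≤ 5 * (e k x + e (k + 1) x) ^ 2 * (B * (R / 2 ^ k)) +
        2 * (e k x + e (k + 1) x) ^ 2 * (B * (R / 2 ^ k)) := by
        have : 2 * (e k x + e (k + 1) x) * (e k x * (R / 2 ^ k)) ≤
            2 * (e k x + e (k + 1) x) ^ 2 * (B * (R / 2 ^ k)) := by
          have e1 : e k x * (R / 2 ^ k) ≤ (e k x + e (k + 1) x) * (B * (R / 2 ^ k)) := by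
            have : e k x * (R / 2 ^ k) ≤ (e k x + e (k + 1) x) * (1 * (R / 2 ^ k)) := by
              have := mul_nonneg a1 hr.le
              linarith
            refine this.trans ?_
            gcongr
          have e2 := mul_le_mul_of_nonneg_left e1 (show 0 ≤ 2 * (e k x + e (k + 1) x) by positivity)
          calc _ ≤ _ := e2
            _ = _ := by ring
        linarith
    _ = _ := by ring

theorem tau_le_one (h : IsGlue Ψ T c e R B δ) (x : X) (k : ℕ) :
    tau (fun k => e k x) k ≤ 1 := by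
  have h1 := tau_le (h.sum_le x) k
  have := h.δ_le
  linarith

theorem isPair (h : IsGlue Ψ T c e R B δ) (x x' : X) {m : ℕ} (hm : dist x x' ≤ R / 2 ^ m) :
    IsPair (fun k => T k x) (fun k => T k x') (fun k => e k x)
      (fun k => dist x x' / (R / 2 ^ k)) m := by
  have hR := h.R_pos
  have hmono : ∀ k, k ≤ m → dist x x' ≤ R / 2 ^ k := by
    intro k hk
    refine hm.trans ?_
    apply div_le_div_of_nonneg_left hR.le (by positivity)
    exact pow_le_pow_right₀ (by norm_num) hk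
  refine ⟨(h.chain x').norm_le, fun k => by positivity, ?_, ?_, h.zero x x', ?_, ?_⟩
  · intro k hk
    exact (div_le_one (by positivity)).2 (hmono k hk)
  · intro k
    field_simp
    ring
  · intro k hk
    exact h.sub_le k x x' (hmono k hk)
  · intro k hk
    exact h.sq_sub_le k x x' (hmono k hk)

/-- The main difference estimate for one scale. -/
theorem norm_diff_le (h : IsGlue Ψ T c e R B δ) (x x' : X) {m : ℕ} (hm : dist x x' ≤ R / 2 ^ m)
    {k : ℕ} (hk : k + 1 ≤ m) :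
    ‖term Ψ T c k x - term Ψ T c k x' -
        (Glu923.chain (fun k => T k x) (k + 1) - Glu923.chain (fun k => T k x) k) (Ψ x - Ψ x')‖ ≤
      dist x x' * B * (tau (fun k => e k x) k + 2 * tau (fun k => e k x) (k + 1) +
        28 * ((e k x) ^ 2 + (e (k + 1) x) ^ 2) + 3 * (e k x') ^ 2) := by
  have hR := h.R_pos
  have hB := h.B_ge
  have p := h.isPair x x' hm
  obtain ⟨t0, n0⟩ := holonomy (h.chain x) p (h.tau_le_one x) k (by omega)
  obtain ⟨t1, n1⟩ := holonomy (h.chain x) p (h.tau_le_one x) (k + 1) hk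
  have hdk : dist x x' ≤ R / 2 ^ k := by
    refine hm.trans ?_
    apply div_le_div_of_nonneg_left hR.le (by positivity)
    exact pow_le_pow_right₀ (by norm_num) (by omega)
  have a0 := (h.chain x).e_nonneg k
  have a1 := (h.chain x).e_nonneg (k + 1)
  have a0' := (h.chain x').e_nonneg k
  have b0 := (h.chain x).e_le k
  have b1 := (h.chain x).e_le (k + 1)
  have τ0 := tau_nonneg (fun k => e k x) k
  have τ1 := tau_nonneg (fun k => e k x) (k + 1)
  have τ0' := h.tau_le_one x k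
  have τ1' := h.tau_le_one x (k + 1)
  have hr : 0 < R / 2 ^ k := by positivity
  have hd : 0 ≤ dist x x' := dist_nonneg
  set r := R / 2 ^ k with hrdef
  set d := dist x x' with hddef
  have hr1 : R / 2 ^ (k + 1) = r / 2 := by rw [hrdef, pow_succ]; field_simp
  rw [hr1] at t1 n1
  set τk := tau (fun k => e k x) k
  set τk1 := tau (fun k => e k x) (k + 1)
  set A := Glu923.chain (fun k => T k x)
  set A' := Glu923.chain (fun k => T k x')
  set u' := Ψ x' - c k x' with hu'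
  have hu : ‖u'‖ ≤ B * r := h.u_le k x'
  have hsr : d / r * r = d := by field_simp
  -- the algebraic identity
  have key : term Ψ T c k x - term Ψ T c k x' - (A (k + 1) - A k) (Ψ x - Ψ x') =
      -((A (k + 1) - A k) (c k x - c k x')) + ((A (k + 1) - A' (k + 1)) u' - (A k - A' k) u') := by
    have e1 : term Ψ T c k x = (A (k + 1) - A k) (Ψ x - c k x) := rfl
    have e2 : term Ψ T c k x' = (A' (k + 1) - A' k) (Ψ x' - c k x') := rfl
    rw [e1, e2, hu']
    simp only [sub_apply, map_sub]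
    abel
  rw [key]
  -- first piece
  have f1 : ‖(A (k + 1) - A k) (c k x - c k x')‖ ≤ 7 * B * (e k x + e (k + 1) x) ^ 2 * d := by
    have h1 := norm_chain_step_apply_le (h.chain x) k (c k x - c k x')
    refine h1.trans ?_
    have h2 := h.c_le k x x' hdk
    have h3 := h.cn_le k x x' hdk
    calc 5 * (e k x + e (k + 1) x) ^ 2 * ‖c k x - c k x'‖ +
          2 * (e k x + e (k + 1) x) * ‖(1 - T k x) (c k x - c k x')‖
        ≤ 5 * (e k x + e (k + 1) x) ^ 2 * (B * d) +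
          2 * (e k x + e (k + 1) x) * (e k x * d) := by gcongr
      _ ≤ 5 * (e k x + e (k + 1) x) ^ 2 * (B * d) +
          2 * (e k x + e (k + 1) x) ^ 2 * (B * d) := by
          have e1 : e k x * d ≤ (e k x + e (k + 1) x) * (B * d) := by
            have : e k x * d ≤ (e k x + e (k + 1) x) * (1 * d) := by
              have := mul_nonneg a1 hd
              linarith
            refine this.trans ?_
            gcongr
          have e2 := mul_le_mul_of_nonneg_left e1 (show 0 ≤ 2 * (e k x + e (k + 1) x) by positivity)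
          have e3 : 2 * (e k x + e (k + 1) x) * ((e k x + e (k + 1) x) * (B * d)) =
            2 * (e k x + e (k + 1) x) ^ 2 * (B * d) := by ring
          linarith
      _ = _ := by ring
  -- normal component of `u'`
  have g0 : ‖(1 - T k x) u'‖ ≤ (e k x' + B * e k x) * r := by
    have e1 : (1 - T k x) u' = (1 - T k x') u' - (T k x - T k x') u' := by
      simp only [sub_apply]; abel
    rw [e1]
    refine (norm_sub_le _ _).trans ?_
    have e2 : ‖(1 - T k x') u'‖ ≤ e k x' * r := h.un_le k x'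
    have e3 : ‖(T k x - T k x') u'‖ ≤ (e k x * (d / r)) * (B * r) :=
      (ContinuousLinearMap.le_opNorm _ _).trans (by
        gcongr; exact h.sub_le k x x' hdk)
    have e4 : (e k x * (d / r)) * (B * r) ≤ B * e k x * r := by
      have : d / r ≤ 1 := (div_le_one hr).2 hdk
      have e5 : e k x * (d / r) ≤ e k x * 1 := by gcongr
      calc (e k x * (d / r)) * (B * r) ≤ (e k x * 1) * (B * r) := by gcongr
        _ = _ := by ring
    linarith
  have g1 : ‖(1 - T (k + 1) x) u'‖ ≤ (e k x' + 2 * B * e k x + B * e (k + 1) x) * r := by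
    have e1 : (1 - T (k + 1) x) u' = (1 - T k x) u' - (T (k + 1) x - T k x) u' := by
      simp only [sub_apply]; abel
    rw [e1]
    refine (norm_sub_le _ _).trans ?_
    have e3 : ‖(T (k + 1) x - T k x) u'‖ ≤ (e k x + e (k + 1) x) * (B * r) :=
      (ContinuousLinearMap.le_opNorm _ _).trans (by
        gcongr; exact (h.chain x).step k)
    have e5 : (e k x' + 2 * B * e k x + B * e (k + 1) x) * r =
      (e k x' + B * e k x) * r + (e k x + e (k + 1) x) * (B * r) := by ring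
    linarith
  have f2 : ‖(A k - A' k) u'‖ ≤ d * B * (τk + 5 * (e k x) ^ 2 + (e k x') ^ 2) := by
    have h1 := norm_dchain_apply_le (h.chain x) k t0 n0 u'
    refine h1.trans ?_
    have q1 : τk * (d / r) * ‖u'‖ ≤ τk * B * d := by
      calc τk * (d / r) * ‖u'‖ ≤ τk * (d / r) * (B * r) := by gcongr
        _ = τk * B * (d / r * r) := by ring
        _ = _ := by rw [hsr]
    have q2 : 2 * e k x * (d / r) * ‖(1 - T k x) u'‖ ≤ 2 * e k x * (e k x' + B * e k x) * d := by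
      calc 2 * e k x * (d / r) * ‖(1 - T k x) u'‖
          ≤ 2 * e k x * (d / r) * ((e k x' + B * e k x) * r) := by gcongr
        _ = 2 * e k x * (e k x' + B * e k x) * (d / r * r) := by ring
        _ = _ := by rw [hsr]
    have q3 : (τk * (d / r) + 2 * e k x * (d / r)) * e k x ^ 2 * ‖u'‖ ≤
        2 * e k x ^ 2 * B * d := by
      calc (τk * (d / r) + 2 * e k x * (d / r)) * e k x ^ 2 * ‖u'‖
          ≤ (τk * (d / r) + 2 * e k x * (d / r)) * e k x ^ 2 * (B * r) := by gcongr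
        _ = (τk + 2 * e k x) * (e k x ^ 2 * B * (d / r * r)) := by ring
        _ = (τk + 2 * e k x) * (e k x ^ 2 * B * d) := by rw [hsr]
        _ ≤ 2 * (e k x ^ 2 * B * d) := by gcongr; linarith
        _ = _ := by ring
    have q4 : 2 * e k x * (e k x' + B * e k x) ≤ B * (e k x ^ 2 + e k x' ^ 2 + 2 * e k x ^ 2) := by
      nlinarith [sq_nonneg (e k x - e k x'), mul_nonneg (sub_nonneg.2 hB) (add_nonneg (sq_nonneg (e k x)) (sq_nonneg (e k x')))]
    have q5 := mul_le_mul_of_nonneg_right q4 hd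
    have q6 : d * B * (τk + 5 * (e k x) ^ 2 + (e k x') ^ 2) = τk * B * d +
        B * (e k x ^ 2 + e k x' ^ 2 + 2 * e k x ^ 2) * d + 2 * e k x ^ 2 * B * d := by ring
    beta_reduce at q3 ⊢
    rw [q6]
    linarith
  have f3 : ‖(A (k + 1) - A' (k + 1)) u'‖ ≤
      2 * (d * B * (τk1 + 7 * (e (k + 1) x) ^ 2 + 2 * (e k x) ^ 2 + (e k x') ^ 2)) := by
    have h1 := norm_dchain_apply_le (h.chain x) (k + 1) t1 n1 u'
    refine h1.trans ?_
    have hsr2 : d / (r / 2) * r = 2 * d := by field_simp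
    have hs0 : 0 ≤ d / (r / 2) := by positivity
    have q1 : τk1 * (d / (r / 2)) * ‖u'‖ ≤ 2 * (τk1 * B * d) := by
      calc τk1 * (d / (r / 2)) * ‖u'‖ ≤ τk1 * (d / (r / 2)) * (B * r) := by gcongr
        _ = τk1 * B * (d / (r / 2) * r) := by ring
        _ = _ := by rw [hsr2]; ring
    have q2 : 2 * e (k + 1) x * (d / (r / 2)) * ‖(1 - T (k + 1) x) u'‖ ≤
        2 * (2 * e (k + 1) x * (e k x' + 2 * B * e k x + B * e (k + 1) x) * d) := by
      calc 2 * e (k + 1) x * (d / (r / 2)) * ‖(1 - T (k + 1) x) u'‖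
          ≤ 2 * e (k + 1) x * (d / (r / 2)) *
            ((e k x' + 2 * B * e k x + B * e (k + 1) x) * r) := by gcongr
        _ = 2 * e (k + 1) x * (e k x' + 2 * B * e k x + B * e (k + 1) x) *
            (d / (r / 2) * r) := by ring
        _ = _ := by rw [hsr2]; ring
    have q3 : (τk1 * (d / (r / 2)) + 2 * e (k + 1) x * (d / (r / 2))) * e (k + 1) x ^ 2 * ‖u'‖ ≤
        2 * (2 * e (k + 1) x ^ 2 * B * d) := by
      calc (τk1 * (d / (r / 2)) + 2 * e (k + 1) x * (d / (r / 2))) * e (k + 1) x ^ 2 * ‖u'‖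
          ≤ (τk1 * (d / (r / 2)) + 2 * e (k + 1) x * (d / (r / 2))) * e (k + 1) x ^ 2 *
            (B * r) := by gcongr
        _ = (τk1 + 2 * e (k + 1) x) * (e (k + 1) x ^ 2 * B * (d / (r / 2) * r)) := by ring
        _ = (τk1 + 2 * e (k + 1) x) * (e (k + 1) x ^ 2 * B * (2 * d)) := by rw [hsr2]
        _ ≤ 2 * (e (k + 1) x ^ 2 * B * (2 * d)) := by gcongr; linarith
        _ = _ := by ring
    have q4 : 2 * e (k + 1) x * (e k x' + 2 * B * e k x + B * e (k + 1) x) ≤
        B * (5 * e (k + 1) x ^ 2 + e k x' ^ 2 + 2 * e k x ^ 2) := by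
      have w1 : 2 * e (k + 1) x * e k x' ≤ B * (e (k + 1) x ^ 2 + e k x' ^ 2) := by
        nlinarith [sq_nonneg (e (k + 1) x - e k x'), mul_nonneg (sub_nonneg.2 hB)
          (add_nonneg (sq_nonneg (e (k + 1) x)) (sq_nonneg (e k x')))]
      have w2 : 2 * e (k + 1) x * (2 * B * e k x) ≤ B * (2 * e (k + 1) x ^ 2 + 2 * e k x ^ 2) := by
        nlinarith [mul_nonneg (show (0:ℝ) ≤ B by linarith) (sq_nonneg (e (k + 1) x - e k x))]
      have w3 : 2 * e (k + 1) x * (B * e (k + 1) x) = B * (2 * e (k + 1) x ^ 2) := by ring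
      nlinarith
    have q5 := mul_le_mul_of_nonneg_right q4 hd
    have q6 : 2 * (d * B * (τk1 + 7 * (e (k + 1) x) ^ 2 + 2 * (e k x) ^ 2 + (e k x') ^ 2)) =
        2 * (τk1 * B * d) + 2 * (B * (5 * e (k + 1) x ^ 2 + e k x' ^ 2 + 2 * e k x ^ 2) * d) +
        2 * (2 * e (k + 1) x ^ 2 * B * d) := by ring
    beta_reduce at q3 ⊢
    rw [q6]
    linarith
  have f4 : ‖-((A (k + 1) - A k) (c k x - c k x')) +
      ((A (k + 1) - A' (k + 1)) u' - (A k - A' k) u')‖ ≤
      ‖(A (k + 1) - A k) (c k x - c k x')‖ +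
        (‖(A (k + 1) - A' (k + 1)) u'‖ + ‖(A k - A' k) u'‖) := by
    refine (norm_add_le _ _).trans ?_
    rw [norm_neg]
    gcongr
    exact norm_sub_le _ _
  refine f4.trans ?_
  have f5 : 7 * B * (e k x + e (k + 1) x) ^ 2 * d ≤
      d * B * (14 * (e k x ^ 2 + e (k + 1) x ^ 2)) := by
    have : (e k x + e (k + 1) x) ^ 2 ≤ 2 * (e k x ^ 2 + e (k + 1) x ^ 2) := by
      nlinarith [sq_nonneg (e k x - e (k + 1) x)]
    calc 7 * B * (e k x + e (k + 1) x) ^ 2 * d ≤
        7 * B * (2 * (e k x ^ 2 + e (k + 1) x ^ 2)) * d := by gcongr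
      _ = _ := by ring
  have f6 : d * B * (14 * (e k x ^ 2 + e (k + 1) x ^ 2)) +
      (2 * (d * B * (τk1 + 7 * (e (k + 1) x) ^ 2 + 2 * (e k x) ^ 2 + (e k x') ^ 2)) +
        d * B * (τk + 5 * (e k x) ^ 2 + (e k x') ^ 2)) =
      d * B * (τk + 2 * τk1 + 23 * e k x ^ 2 + 28 * e (k + 1) x ^ 2 + 3 * e k x' ^ 2) := by ring
  have f7 : d * B * (τk + 2 * τk1 + 23 * e k x ^ 2 + 28 * e (k + 1) x ^ 2 + 3 * e k x' ^ 2) ≤
      d * B * (τk + 2 * τk1 + 28 * (e k x ^ 2 + e (k + 1) x ^ 2) + 3 * e k x' ^ 2) := by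
    have h5 : 0 ≤ e k x ^ 2 := sq_nonneg _
    exact mul_le_mul_of_nonneg_left (by linarith) (by positivity)
  linarith

end IsGlue

end Crest.Agent.R247.Glu923
end

-- ▼ part R247/Glu4_923
section

/-!
# R247, block (4): the glued map is almost isometric to `Ψ`
-/

set_option autoImplicit false

namespace Crest.Agent.R247.Glu923

open scoped RealInnerProductSpace

variable {H : Type*} [NormedAddCommGroup H] [InnerProductSpace ℝ H]
variable {X : Type*} [MetricSpace X]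

namespace IsGlue

variable {Ψ : X → H} {T : ℕ → X → H →L[ℝ] H} {c : ℕ → X → H} {e : ℕ → X → ℝ} {R B δ : ℝ}

theorem δ_nonneg (h : IsGlue Ψ T c e R B δ) (x : X) : 0 ≤ δ := by
  simpa using h.sum_le x 0

theorem sum_pair_le (h : IsGlue Ψ T c e R B δ) (x : X) (n : ℕ) :
    ∑ k ∈ Finset.range n, (e k x + e (k + 1) x) ^ 2 ≤ 4 * δ := by
  have h1 := sum_sq_pair_le (h.sum_le x) n
  have h2 : ∑ k ∈ Finset.range n, (e k x + e (k + 1) x) ^ 2 ≤
      2 * ∑ k ∈ Finset.range n, ((e k x) ^ 2 + (e (k + 1) x) ^ 2) := by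
    rw [Finset.mul_sum]
    apply Finset.sum_le_sum
    intro k _
    nlinarith [sq_nonneg (e k x - e (k + 1) x)]
  linarith

theorem summable_pair (h : IsGlue Ψ T c e R B δ) (x : X) :
    Summable fun k => (e k x + e (k + 1) x) ^ 2 :=
  summable_of_sum_range_le (fun _ => sq_nonneg _) (h.sum_pair_le x)

theorem tsum_pair_tail_le (h : IsGlue Ψ T c e R B δ) (x : X) (m : ℕ) :
    ∑' k, (e (k + m) x + e (k + m + 1) x) ^ 2 ≤ 4 * δ := by
  have hs := h.summable_pair x
  have h1 : Summable fun k => (e (k + m) x + e (k + m + 1) x) ^ 2 :=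
    (summable_nat_add_iff (f := fun k => (e k x + e (k + 1) x) ^ 2) m).2 hs
  apply Real.tsum_le_of_sum_range_le (fun _ => sq_nonneg _)
  intro n
  have h2 := h.sum_pair_le x (n + m)
  rw [Finset.range_eq_Ico] at h2
  rw [← Finset.sum_Ico_consecutive _ (Nat.zero_le m) (Nat.le_add_left m n)] at h2
  have h3 : ∑ k ∈ Finset.range n, (e (k + m) x + e (k + m + 1) x) ^ 2 =
      ∑ k ∈ Finset.Ico m (n + m), (e k x + e (k + 1) x) ^ 2 := by
    rw [Finset.sum_Ico_eq_sum_range]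
    simp only [Nat.add_sub_cancel]
    apply Finset.sum_congr rfl
    intro k _
    rw [add_comm k m]
  rw [h3]
  have h4 : 0 ≤ ∑ k ∈ Finset.Ico 0 m, (e k x + e (k + 1) x) ^ 2 :=
    Finset.sum_nonneg fun _ _ => sq_nonneg _
  linarith

theorem norm_term_tail_le (h : IsGlue Ψ T c e R B δ) (x : X) (m k : ℕ) :
    ‖term Ψ T c (k + m) x‖ ≤
      7 * B * (R / 2 ^ m) * (e (k + m) x + e (k + m + 1) x) ^ 2 := by
  have hR := h.R_pos
  have hB := h.B_ge
  have h1 := h.norm_term_le (k + m) x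
  have h2 : R / 2 ^ (k + m) ≤ R / 2 ^ m := by
    apply div_le_div_of_nonneg_left hR.le (by positivity)
    exact pow_le_pow_right₀ (by norm_num) (by omega)
  calc ‖term Ψ T c (k + m) x‖ ≤
        7 * B * (e (k + m) x + e (k + m + 1) x) ^ 2 * (R / 2 ^ (k + m)) := h1
    _ ≤ 7 * B * (e (k + m) x + e (k + m + 1) x) ^ 2 * (R / 2 ^ m) := by gcongr
    _ = _ := by ring

theorem summable_norm_term_tail (h : IsGlue Ψ T c e R B δ) (x : X) (m : ℕ) :
    Summable fun k => ‖term Ψ T c (k + m) x‖ := by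
  have h1 : Summable fun k => (e (k + m) x + e (k + m + 1) x) ^ 2 :=
    (summable_nat_add_iff (f := fun k => (e k x + e (k + 1) x) ^ 2) m).2 (h.summable_pair x)
  exact Summable.of_nonneg_of_le (fun _ => norm_nonneg _) (h.norm_term_tail_le x m)
    (h1.mul_left _)

theorem norm_tail_le (h : IsGlue Ψ T c e R B δ) (x : X) (m : ℕ) :
    ‖∑' k, term Ψ T c (k + m) x‖ ≤ 28 * B * δ * (R / 2 ^ m) := by
  have hR := h.R_pos
  have hB := h.B_ge
  have h1 : Summable fun k => (e (k + m) x + e (k + m + 1) x) ^ 2 :=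
    (summable_nat_add_iff (f := fun k => (e k x + e (k + 1) x) ^ 2) m).2 (h.summable_pair x)
  calc ‖∑' k, term Ψ T c (k + m) x‖ ≤ ∑' k, ‖term Ψ T c (k + m) x‖ :=
        norm_tsum_le_tsum_norm (h.summable_norm_term_tail x m)
    _ ≤ ∑' k, 7 * B * (R / 2 ^ m) * (e (k + m) x + e (k + m + 1) x) ^ 2 :=
        (h.summable_norm_term_tail x m).tsum_le_tsum (h.norm_term_tail_le x m) (h1.mul_left _)
    _ = 7 * B * (R / 2 ^ m) * ∑' k, (e (k + m) x + e (k + m + 1) x) ^ 2 := tsum_mul_left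
    _ ≤ 7 * B * (R / 2 ^ m) * (4 * δ) := by
        gcongr; exact h.tsum_pair_tail_le x m
    _ = _ := by ring

/-- The glued map, with values in `H`. -/
noncomputable def map (Ψ : X → H) (T : ℕ → X → H →L[ℝ] H) (c : ℕ → X → H) (x : X) : H :=
  T 0 x (Ψ x) + ∑' k, term Ψ T c k x

theorem exists_scale {R d : ℝ} (hd : 0 < d) (hdR : d ≤ R) :
    ∃ m : ℕ, d ≤ R / 2 ^ m ∧ R / 2 ^ m ≤ 2 * d := by
  have hR : 0 < R := lt_of_lt_of_le hd hdR
  have h1 : ∃ n : ℕ, R / 2 ^ n < d := by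
    obtain ⟨n, hn⟩ := exists_pow_lt_of_lt_one (show 0 < d / R by positivity)
      (show (1 / 2 : ℝ) < 1 by norm_num)
    refine ⟨n, ?_⟩
    rw [one_div, inv_pow] at hn
    rw [div_eq_mul_inv]
    calc R * (2 ^ n)⁻¹ < R * (d / R) := by gcongr
      _ = d := by field_simp
  classical
  set n := Nat.find h1 with hn
  have hn1 : R / 2 ^ n < d := Nat.find_spec h1
  have hn0 : n ≠ 0 := by
    intro h0
    rw [h0] at hn1
    simp at hn1
    linarith
  obtain ⟨m, hm⟩ := Nat.exists_eq_succ_of_ne_zero hn0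
  refine ⟨m, ?_, ?_⟩
  · by_contra hlt
    push Not at hlt
    have := Nat.find_min' h1 hlt
    omega
  · rw [hm, Nat.succ_eq_add_one, pow_succ] at hn1
    have e1 : R / (2 ^ m * 2) = R / 2 ^ m / 2 := by field_simp
    rw [e1] at hn1
    linarith

/-- First order comparison of the glued map with the chain at the right scale. -/
theorem norm_map_sub_sub_le [CompleteSpace H] (h : IsGlue Ψ T c e R B δ) (x x' : X) {m : ℕ}
    (hm : dist x x' ≤ R / 2 ^ m) (hm2 : R / 2 ^ m ≤ 2 * dist x x') :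
    ‖map Ψ T c x - map Ψ T c x' - Glu923.chain (fun k => T k x) m (Ψ x - Ψ x')‖ ≤
      300 * B * δ * dist x x' := by
  have hR := h.R_pos
  have hB := h.B_ge
  have hδ := h.δ_nonneg x
  have hd : 0 ≤ dist x x' := dist_nonneg
  set d := dist x x' with hddef
  set A := Glu923.chain (fun k => T k x) with hA
  have sx : Summable fun k => term Ψ T c k x := by
    have := (h.summable_norm_term_tail x 0).of_norm
    simpa using this
  have sx' : Summable fun k => term Ψ T c k x' := by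
    have := (h.summable_norm_term_tail x' 0).of_norm
    simpa using this
  have ex := sx.sum_add_tsum_nat_add m
  have ex' := sx'.sum_add_tsum_nat_add m
  have tel : ∑ k ∈ Finset.range m, (A (k + 1) - A k) (Ψ x - Ψ x') = A m (Ψ x - Ψ x') -
      A 0 (Ψ x - Ψ x') := by
    have := Finset.sum_range_sub (fun k => A k (Ψ x - Ψ x')) m
    rw [← this]
    apply Finset.sum_congr rfl
    intro k _
    rfl
  have hA0 : A 0 = T 0 x := rfl
  have key : map Ψ T c x - map Ψ T c x' - A m (Ψ x - Ψ x') =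
      (∑ k ∈ Finset.range m, (term Ψ T c k x - term Ψ T c k x' -
        (A (k + 1) - A k) (Ψ x - Ψ x'))) +
      ((∑' k, term Ψ T c (k + m) x) - (∑' k, term Ψ T c (k + m) x')) := by
    unfold map
    rw [← ex, ← ex', Finset.sum_sub_distrib, Finset.sum_sub_distrib, tel, hA0, ← h.zero x x',
      map_sub (T 0 x)]
    abel
  rw [key]
  have b1 : ‖∑ k ∈ Finset.range m, (term Ψ T c k x - term Ψ T c k x' -
        (A (k + 1) - A k) (Ψ x - Ψ x'))‖ ≤ d * B * (179 * δ) := by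
    calc ‖∑ k ∈ Finset.range m, (term Ψ T c k x - term Ψ T c k x' -
        (A (k + 1) - A k) (Ψ x - Ψ x'))‖
        ≤ ∑ k ∈ Finset.range m, ‖term Ψ T c k x - term Ψ T c k x' -
        (A (k + 1) - A k) (Ψ x - Ψ x')‖ := norm_sum_le _ _
      _ ≤ ∑ k ∈ Finset.range m, d * B * (tau (fun k => e k x) k +
          2 * tau (fun k => e k x) (k + 1) +
          28 * ((e k x) ^ 2 + (e (k + 1) x) ^ 2) + 3 * (e k x') ^ 2) := by
          apply Finset.sum_le_sum
          intro k hk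
          exact h.norm_diff_le x x' hm (by have := Finset.mem_range.1 hk; omega)
      _ = d * B * ((∑ k ∈ Finset.range m, tau (fun k => e k x) k) +
          2 * (∑ k ∈ Finset.range m, tau (fun k => e k x) (k + 1)) +
          28 * (∑ k ∈ Finset.range m, ((e k x) ^ 2 + (e (k + 1) x) ^ 2)) +
          3 * (∑ k ∈ Finset.range m, (e k x') ^ 2)) := by
          rw [← Finset.mul_sum, Finset.sum_add_distrib, Finset.sum_add_distrib,
            Finset.sum_add_distrib, Finset.mul_sum, Finset.mul_sum, Finset.mul_sum]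
      _ ≤ d * B * (40 * δ + 2 * (40 * δ) + 28 * (2 * δ) + 3 * δ) := by
          have t1 := sum_tau_le (h.sum_le x) m
          have t2 : ∑ k ∈ Finset.range m, tau (fun k => e k x) (k + 1) ≤ 40 * δ := by
            have t3 := sum_tau_le (h.sum_le x) (m + 1)
            rw [Finset.sum_range_succ'] at t3
            have := tau_nonneg (fun k => e k x) 0
            linarith
          have t3 := sum_sq_pair_le (h.sum_le x) m
          have t4 := h.sum_le x' m
          gcongr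
      _ = _ := by ring
  have b2 := h.norm_tail_le x m
  have b3 := h.norm_tail_le x' m
  have b4 : 28 * B * δ * (R / 2 ^ m) ≤ 28 * B * δ * (2 * d) := by gcongr
  calc _ ≤ ‖∑ k ∈ Finset.range m, (term Ψ T c k x - term Ψ T c k x' -
        (A (k + 1) - A k) (Ψ x - Ψ x'))‖ +
        (‖∑' k, term Ψ T c (k + m) x‖ + ‖∑' k, term Ψ T c (k + m) x'‖) := by
        refine (norm_add_le _ _).trans ?_
        gcongr
        exact norm_sub_le _ _
    _ ≤ d * B * (179 * δ) + (28 * B * δ * (2 * d) + 28 * B * δ * (2 * d)) := by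
        linarith
    _ ≤ 300 * B * δ * d := by
        have : 0 ≤ B * δ * d := by positivity
        nlinarith

/-- Zeroth order: the chain almost preserves the norm of `Ψ x - Ψ x'`. -/
theorem norm_sub_norm_chain_le (h : IsGlue Ψ T c e R B δ) (x x' : X) {m : ℕ}
    (hm : dist x x' ≤ R / 2 ^ m) (hm2 : R / 2 ^ m ≤ 2 * dist x x') :
    ‖Ψ x - Ψ x'‖ - ‖Glu923.chain (fun k => T k x) m (Ψ x - Ψ x')‖ ≤
      9 * Real.sqrt δ * dist x x' := by
  have hR := h.R_pos
  have hδ := h.δ_nonneg x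
  have hd : 0 ≤ dist x x' := dist_nonneg
  have hΔ := h.Ψ_le x x'
  set d := dist x x' with hddef
  set Δ := Ψ x - Ψ x' with hΔdef
  set A := Glu923.chain (fun k => T k x) with hA
  have h1 := norm_sq_chain_apply_ge (h.chain x) (fun k u v => h.symm k x u v) m Δ
  have hr : 0 < R / 2 ^ m := by positivity
  have a0 := (h.chain x).e_nonneg m
  have a0' := (h.chain x').e_nonneg m
  have hem : (e m x) ^ 2 ≤ δ := by
    have h2 := h.sum_le x (m + 1)
    rw [Finset.sum_range_succ] at h2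
    have h3 : 0 ≤ ∑ k ∈ Finset.range m, (e k x) ^ 2 := Finset.sum_nonneg fun _ _ => sq_nonneg _
    linarith
  have hem' : (e m x') ^ 2 ≤ δ := by
    have h2 := h.sum_le x' (m + 1)
    rw [Finset.sum_range_succ] at h2
    have h3 : 0 ≤ ∑ k ∈ Finset.range m, (e k x') ^ 2 := Finset.sum_nonneg fun _ _ => sq_nonneg _
    linarith
  have hin : ⟪(1 - T m x) Δ, Δ⟫ ≤ 17 * δ * d ^ 2 := by
    have e1 : ⟪(1 - T m x) Δ, Δ⟫ = ‖(1 - T m x) Δ‖ ^ 2 + ⟪(T m x - T m x * T m x) Δ, Δ⟫ := by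
      have s1 : ⟪T m x Δ, Δ⟫ = ⟪Δ, T m x Δ⟫ := h.symm m x Δ Δ
      have s2 : ⟪T m x (T m x Δ), Δ⟫ = ⟪T m x Δ, T m x Δ⟫ := h.symm m x (T m x Δ) Δ
      have s3 : (1 - T m x) Δ = Δ - T m x Δ := by simp
      have s4 : (T m x - T m x * T m x) Δ = T m x Δ - T m x (T m x Δ) := by simp
      rw [s3, s4, ← real_inner_self_eq_norm_sq]
      simp only [inner_sub_left, inner_sub_right]
      rw [s2, ← s1]
      ring
    rw [e1]
    have e2 : ‖(1 - T m x) Δ‖ ≤ (e m x + e m x') * (2 * d) := by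
      refine (h.Ψn_le m x x' hm).trans ?_
      gcongr
    have e3 : ‖(1 - T m x) Δ‖ ^ 2 ≤ ((e m x + e m x') * (2 * d)) ^ 2 := by gcongr
    have e4 : ((e m x + e m x') * (2 * d)) ^ 2 ≤ 16 * δ * d ^ 2 := by
      have : (e m x + e m x') ^ 2 ≤ 4 * δ := by nlinarith [sq_nonneg (e m x - e m x')]
      calc ((e m x + e m x') * (2 * d)) ^ 2 = (e m x + e m x') ^ 2 * (4 * d ^ 2) := by ring
        _ ≤ (4 * δ) * (4 * d ^ 2) := by gcongr
        _ = _ := by ring
    have e5 : ⟪(T m x - T m x * T m x) Δ, Δ⟫ ≤ δ * d ^ 2 := by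
      calc ⟪(T m x - T m x * T m x) Δ, Δ⟫ ≤ ‖(T m x - T m x * T m x) Δ‖ * ‖Δ‖ :=
            real_inner_le_norm _ _
        _ ≤ (‖T m x - T m x * T m x‖ * ‖Δ‖) * ‖Δ‖ := by
            gcongr; exact ContinuousLinearMap.le_opNorm _ _
        _ ≤ (δ * d) * d := by
            gcongr
            exact ((h.chain x).sq m).trans hem
        _ = _ := by ring
    linarith
  have hsum := h.sum_pair_le x m
  have hΔ2 : ‖Δ‖ ^ 2 ≤ d ^ 2 := by gcongr
  have h2 : 10 * (∑ j ∈ Finset.range m, (e j x + e (j + 1) x) ^ 2) * ‖Δ‖ ^ 2 ≤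
      10 * (4 * δ) * d ^ 2 := by
    have : 0 ≤ ∑ j ∈ Finset.range m, (e j x + e (j + 1) x) ^ 2 :=
      Finset.sum_nonneg fun _ _ => sq_nonneg _
    gcongr
  have h3 : ‖Δ‖ ^ 2 - ‖A m Δ‖ ^ 2 ≤ 74 * δ * d ^ 2 := by
    have h1' : ‖Δ‖ ^ 2 - 2 * ⟪(1 - T m x) Δ, Δ⟫ -
      10 * (∑ j ∈ Finset.range m, (e j x + e (j + 1) x) ^ 2) * ‖Δ‖ ^ 2 ≤ ‖A m Δ‖ ^ 2 := h1
    nlinarith
  have hAle : ‖A m Δ‖ ≤ ‖Δ‖ := by
    calc ‖A m Δ‖ ≤ ‖A m‖ * ‖Δ‖ := ContinuousLinearMap.le_opNorm _ _
      _ ≤ 1 * ‖Δ‖ := by gcongr; exact norm_chain_le (h.chain x).norm_le m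
      _ = _ := one_mul _
  have h4 : (‖Δ‖ - ‖A m Δ‖) ^ 2 ≤ (9 * Real.sqrt δ * d) ^ 2 := by
    have e1 : (9 * Real.sqrt δ * d) ^ 2 = 81 * δ * d ^ 2 := by
      have := Real.sq_sqrt hδ
      calc (9 * Real.sqrt δ * d) ^ 2 = 81 * (Real.sqrt δ) ^ 2 * d ^ 2 := by ring
        _ = _ := by rw [this]
    rw [e1]
    have e2 : (‖Δ‖ - ‖A m Δ‖) ^ 2 ≤ ‖Δ‖ ^ 2 - ‖A m Δ‖ ^ 2 := by
      nlinarith [norm_nonneg (A m Δ)]
    have e3 : 0 ≤ δ * d ^ 2 := by positivity
    linarith
  exact le_of_sq_le_sq' h4 (by positivity)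
where
  le_of_sq_le_sq' {a b : ℝ} (h : a ^ 2 ≤ b ^ 2) (hb : 0 ≤ b) : a ≤ b := by
    exact le_of_not_gt fun hlt => by nlinarith

/-- **Gluing, core form.** -/
theorem abs_norm_map_sub_le [CompleteSpace H] (h : IsGlue Ψ T c e R B δ) (x x' : X) :
    |‖map Ψ T c x - map Ψ T c x'‖ - ‖Ψ x - Ψ x'‖| ≤
      (300 * B * δ + 9 * Real.sqrt δ) * dist x x' := by
  have hδ := h.δ_nonneg x
  have hB := h.B_ge
  rcases eq_or_ne x x' with rfl | hne
  · simp
  have hd : 0 < dist x x' := dist_pos.2 hne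
  obtain ⟨m, hm, hm2⟩ := exists_scale hd (h.diam x x')
  have h1 := h.norm_map_sub_sub_le x x' hm hm2
  have h2 := h.norm_sub_norm_chain_le x x' hm hm2
  set A := Glu923.chain (fun k => T k x) with hA
  have hAle : ‖A m (Ψ x - Ψ x')‖ ≤ ‖Ψ x - Ψ x'‖ := by
    calc ‖A m (Ψ x - Ψ x')‖ ≤ ‖A m‖ * ‖Ψ x - Ψ x'‖ := ContinuousLinearMap.le_opNorm _ _
      _ ≤ 1 * ‖Ψ x - Ψ x'‖ := by gcongr; exact norm_chain_le (h.chain x).norm_le m
      _ = _ := one_mul _
  have h3 : |‖map Ψ T c x - map Ψ T c x'‖ - ‖A m (Ψ x - Ψ x')‖| ≤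
      300 * B * δ * dist x x' := (abs_norm_sub_norm_le _ _).trans h1
  have h4 := abs_le.1 h3
  have h5 : 0 ≤ 9 * Real.sqrt δ * dist x x' := by positivity
  have h6 : 0 ≤ 300 * B * δ * dist x x' := by positivity
  rw [abs_le]
  constructor <;> nlinarith [h4.1, h4.2]

/-- Values of the glued map are fixed by the base projection. -/
theorem proj_map [CompleteSpace H] (h : IsGlue Ψ T c e R B δ) (x₀ : X)
    (h0 : T 0 x₀ * T 0 x₀ = T 0 x₀) (x : X) : T 0 x₀ (map Ψ T c x) = map Ψ T c x := by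
  have sx : Summable fun k => term Ψ T c k x := by
    have := (h.summable_norm_term_tail x 0).of_norm
    simpa using this
  have hx : T 0 x = T 0 x₀ := h.zero x x₀
  have hc : ∀ k, T 0 x₀ * Glu923.chain (fun k => T k x) k = Glu923.chain (fun k => T k x) k := by
    intro k
    induction k with
    | zero => simp [hx, h0]
    | succ k ih => rw [chain_succ, ← mul_assoc, ih]
  have ht : ∀ k, T 0 x₀ (term Ψ T c k x) = term Ψ T c k x := by
    intro k
    have : T 0 x₀ (term Ψ T c k x) = (T 0 x₀ * (Glu923.chain (fun k => T k x) (k + 1) -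
      Glu923.chain (fun k => T k x) k)) (Ψ x - c k x) := rfl
    rw [this, mul_sub, hc, hc]
    rfl
  unfold map
  rw [map_add, hx, ContinuousLinearMap.map_tsum _ sx]
  congr 1
  · have : T 0 x₀ (T 0 x₀ (Ψ x)) = (T 0 x₀ * T 0 x₀) (Ψ x) := rfl
    rw [this, h0]
  · exact tsum_congr ht

end IsGlue

end Crest.Agent.R247.Glu923
end

-- ▼ part R247/Glu5_923
section

/-!
# R247, block (4): averages of projections, and the passage from planes to `IsGlue`
-/

set_option autoImplicit false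

namespace Crest.Agent.R247.Glu923

open scoped RealInnerProductSpace

variable {H : Type*} [NormedAddCommGroup H] [InnerProductSpace ℝ H]

/-! ### Orthogonal projections given as symmetric idempotents -/

/-- A symmetric idempotent operator. -/
structure IsProj (P : H →L[ℝ] H) : Prop where
  idem : P * P = P
  symm : ∀ u v, ⟪P u, v⟫ = ⟪u, P v⟫

namespace IsProj

variable {P : H →L[ℝ] H}

theorem one_sub (h : IsProj P) : IsProj (1 - P) := by
  refine ⟨?_, ?_⟩
  · have := h.idem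
    calc (1 - P) * (1 - P) = 1 - P - P + P * P := by noncomm_ring
      _ = 1 - P := by rw [this]; abel
  · intro u v
    have := h.symm u v
    simp only [sub_apply, ContinuousLinearMap.one_apply, inner_sub_left, inner_sub_right, this]

theorem norm_apply_le (h : IsProj P) (v : H) : ‖P v‖ ≤ ‖v‖ := by
  have h1 : ‖P v‖ ^ 2 = ⟪P v, v⟫ := by
    rw [← real_inner_self_eq_norm_sq, h.symm (P v) v |>.symm.trans ?_]
    have : P (P v) = (P * P) v := rfl
    rw [this, h.idem]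
  rcases eq_or_ne (P v) 0 with h0 | h0
  · rw [h0, norm_zero]; exact norm_nonneg _
  have h2 : ‖P v‖ ^ 2 ≤ ‖P v‖ * ‖v‖ := by rw [h1]; exact real_inner_le_norm _ _
  have h3 : 0 < ‖P v‖ := norm_pos_iff.2 h0
  nlinarith

theorem norm_le (h : IsProj P) : ‖P‖ ≤ 1 :=
  ContinuousLinearMap.opNorm_le_bound _ zero_le_one fun v => by
    rw [one_mul]; exact h.norm_apply_le v

end IsProj

/-! ### Averages -/

section avg

variable {ι : Type*} (s : Finset ι)

theorem sum_smul_sub_eq {V : Type*} [AddCommGroup V] [Module ℝ V] (θ : ι → ℝ) (f : ι → V) (a : V)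
    (h1 : ∑ i ∈ s, θ i = 1) : ∑ i ∈ s, θ i • f i - a = ∑ i ∈ s, θ i • (f i - a) := by
  simp only [smul_sub, Finset.sum_sub_distrib, ← Finset.sum_smul, h1, one_smul]

theorem sum_smul_diff_eq {V : Type*} [AddCommGroup V] [Module ℝ V] (θ θ' : ι → ℝ) (f : ι → V)
    (a : V) (h1 : ∑ i ∈ s, θ i = 1) (h2 : ∑ i ∈ s, θ' i = 1) :
    ∑ i ∈ s, θ i • f i - ∑ i ∈ s, θ' i • f i = ∑ i ∈ s, (θ i - θ' i) • (f i - a) := by
  have e1 : ∑ i ∈ s, (θ i - θ' i) • (f i - a) =
      ∑ i ∈ s, (θ i • f i - θ' i • f i - (θ i • a - θ' i • a)) := by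
    apply Finset.sum_congr rfl
    intro i _
    rw [smul_sub, sub_smul, sub_smul]
  rw [e1, Finset.sum_sub_distrib, Finset.sum_sub_distrib, Finset.sum_sub_distrib,
    ← Finset.sum_smul, ← Finset.sum_smul, h1, h2]
  simp

theorem norm_sum_smul_le {V : Type*} [SeminormedAddCommGroup V] [NormedSpace ℝ V] (w : ι → ℝ)
    (f : ι → V) {K : ℝ} (hf : ∀ i ∈ s, w i ≠ 0 → ‖f i‖ ≤ K) :
    ‖∑ i ∈ s, w i • f i‖ ≤ (∑ i ∈ s, |w i|) * K := by
  rw [Finset.sum_mul]
  refine (norm_sum_le _ _).trans (Finset.sum_le_sum fun i hi => ?_)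
  rw [norm_smul, Real.norm_eq_abs]
  by_cases h0 : w i = 0
  · simp [h0]
  · gcongr
    exact hf i hi h0

/-- `∑ θ i • P i`. -/
noncomputable def avg (θ : ι → ℝ) (P : ι → H →L[ℝ] H) : H →L[ℝ] H := ∑ i ∈ s, θ i • P i

theorem avg_symm {θ : ι → ℝ} {P : ι → H →L[ℝ] H} (hP : ∀ i ∈ s, IsProj (P i)) (u v : H) :
    ⟪avg s θ P u, v⟫ = ⟪u, avg s θ P v⟫ := by
  unfold avg
  simp only [ContinuousLinearMap.sum_apply, ContinuousLinearMap.smul_apply, sum_inner, inner_sum,
    real_inner_smul_left, real_inner_smul_right]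
  apply Finset.sum_congr rfl
  intro i hi
  rw [(hP i hi).symm]

theorem avg_norm_le {θ : ι → ℝ} {P : ι → H →L[ℝ] H} (hθ : ∀ i ∈ s, 0 ≤ θ i)
    (h1 : ∑ i ∈ s, θ i = 1) (hP : ∀ i ∈ s, IsProj (P i)) : ‖avg s θ P‖ ≤ 1 := by
  have h2 := norm_sum_smul_le s θ P (K := 1) (fun i hi _ => (hP i hi).norm_le)
  have h3 : ∑ i ∈ s, |θ i| = 1 := by
    rw [← h1]; exact Finset.sum_congr rfl fun i hi => abs_of_nonneg (hθ i hi)
  rw [h3, one_mul] at h2
  exact h2

theorem one_sub_avg {θ : ι → ℝ} {P : ι → H →L[ℝ] H} (h1 : ∑ i ∈ s, θ i = 1) :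
    1 - avg s θ P = avg s θ (fun i => 1 - P i) := by
  unfold avg
  simp only [smul_sub, Finset.sum_sub_distrib, ← Finset.sum_smul, h1, one_smul]

theorem one_sub_avg_norm_le {θ : ι → ℝ} {P : ι → H →L[ℝ] H} (hθ : ∀ i ∈ s, 0 ≤ θ i)
    (h1 : ∑ i ∈ s, θ i = 1) (hP : ∀ i ∈ s, IsProj (P i)) : ‖1 - avg s θ P‖ ≤ 1 := by
  rw [one_sub_avg s h1]
  exact avg_norm_le s hθ h1 fun i hi => (hP i hi).one_sub

theorem avg_sub_sq {θ : ι → ℝ} {P : ι → H →L[ℝ] H} (h1 : ∑ i ∈ s, θ i = 1)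
    (hP : ∀ i ∈ s, IsProj (P i)) :
    avg s θ P - avg s θ P * avg s θ P =
      ∑ p ∈ s ×ˢ s, (θ p.1 * θ p.2) • ((1 / 2 : ℝ) • ((P p.1 - P p.2) * (P p.1 - P p.2))) := by
  have e0 : avg s θ P * avg s θ P = ∑ i ∈ s, ∑ j ∈ s, (θ i * θ j) • (P i * P j) := by
    unfold avg
    rw [Finset.sum_mul_sum]
    refine Finset.sum_congr rfl fun i _ => Finset.sum_congr rfl fun j _ => ?_
    rw [smul_mul_smul_comm]
  have e0' : avg s θ P * avg s θ P = ∑ i ∈ s, ∑ j ∈ s, (θ i * θ j) • (P j * P i) := by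
    rw [e0, Finset.sum_comm]
    refine Finset.sum_congr rfl fun i _ => Finset.sum_congr rfl fun j _ => ?_
    rw [mul_comm]
  have e1 : avg s θ P = ∑ i ∈ s, ∑ j ∈ s, (θ i * θ j) • P i := by
    unfold avg
    refine Finset.sum_congr rfl fun i _ => ?_
    rw [← Finset.sum_smul, ← Finset.mul_sum, h1, mul_one]
  have e1' : avg s θ P = ∑ i ∈ s, ∑ j ∈ s, (θ i * θ j) • P j := by
    rw [e1, Finset.sum_comm]
    refine Finset.sum_congr rfl fun i _ => Finset.sum_congr rfl fun j _ => ?_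
    rw [mul_comm]
  have e2 : ∑ p ∈ s ×ˢ s, (θ p.1 * θ p.2) • ((1 / 2 : ℝ) • ((P p.1 - P p.2) * (P p.1 - P p.2))) =
      (1 / 2 : ℝ) • (∑ i ∈ s, ∑ j ∈ s, (θ i * θ j) • P i + ∑ i ∈ s, ∑ j ∈ s, (θ i * θ j) • P j -
        ∑ i ∈ s, ∑ j ∈ s, (θ i * θ j) • (P i * P j) -
        ∑ i ∈ s, ∑ j ∈ s, (θ i * θ j) • (P j * P i)) := by
    rw [Finset.sum_product]
    simp only [← Finset.sum_add_distrib, ← Finset.sum_sub_distrib, Finset.smul_sum]
    refine Finset.sum_congr rfl fun i hi => Finset.sum_congr rfl fun j hj => ?_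
    have : (P i - P j) * (P i - P j) = P i + P j - P i * P j - P j * P i := by
      have a := (hP i hi).idem
      have b := (hP j hj).idem
      calc (P i - P j) * (P i - P j) = P i * P i + P j * P j - P i * P j - P j * P i := by
            noncomm_ring
        _ = _ := by rw [a, b]
    rw [this, smul_comm]
    simp only [smul_sub, smul_add]
  rw [e2, ← e0, ← e0', ← e1, ← e1']
  have : avg s θ P + avg s θ P - avg s θ P * avg s θ P - avg s θ P * avg s θ P =
      (2 : ℝ) • (avg s θ P - avg s θ P * avg s θ P) := by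
    rw [two_smul]; abel
  rw [this, smul_smul]
  norm_num

theorem norm_half_sq_le {P Q : H →L[ℝ] H} {a : ℝ} (h : ‖P - Q‖ ≤ 2 * a) :
    ‖(1 / 2 : ℝ) • ((P - Q) * (P - Q))‖ ≤ 2 * a ^ 2 := by
  rw [norm_smul]
  have h0 : 0 ≤ 2 * a := (norm_nonneg _).trans h
  have h1 : ‖(P - Q) * (P - Q)‖ ≤ (2 * a) * (2 * a) :=
    (norm_mul_le _ _).trans (mul_le_mul h h (norm_nonneg _) h0)
  have h2 : ‖(1 / 2 : ℝ)‖ = 1 / 2 := by norm_num
  rw [h2]
  nlinarith

end avg

/-- The data of one scale. -/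
structure IsPart {X ι : Type*} [MetricSpace X] (s : Finset ι) (θ : ι → X → ℝ) (y : ι → X)
    (D : X → ℝ) (Dt : X → ℝ) (r L : ℝ) : Prop where
  r_pos : 0 < r
  L_ge : 1 ≤ L
  nonneg : ∀ i ∈ s, ∀ x, 0 ≤ θ i x
  sum_one : ∀ x, ∑ i ∈ s, θ i x = 1
  rel : ∀ i ∈ s, ∀ x x', dist x x' ≤ r → θ i x' ≠ 0 → D (y i) ≤ Dt x ∧ dist x (y i) ≤ 6 * r
  lip : ∀ x x', dist x x' ≤ r → ∑ i ∈ s, |θ i x - θ i x'| ≤ L * (dist x x' / r)

section scale

variable {X ι : Type*} [MetricSpace X] {s : Finset ι} {θ : ι → X → ℝ} {y : ι → X}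
  {D Dt : X → ℝ} {r L C : ℝ} {P : X → H →L[ℝ] H} {Ψ : X → H}

/-- The planes at one scale. -/
structure IsPlane (P : X → H →L[ℝ] H) (Ψ : X → H) (D : X → ℝ) (r C : ℝ) : Prop where
  C_ge : 1 ≤ C
  proj : ∀ x, IsProj (P x)
  D_nonneg : ∀ x, 0 ≤ D x
  Ψ_le : ∀ x x', ‖Ψ x - Ψ x'‖ ≤ dist x x'
  A1 : ∀ x x', dist x x' ≤ 8 * r →
    ‖(1 - P x) (Ψ x' - Ψ x)‖ ≤ C * (Real.sqrt (D x) + Real.sqrt (D x')) * r
  A2 : ∀ x x', dist x x' ≤ 8 * r → ‖P x - P x'‖ ≤ C * (Real.sqrt (D x) + Real.sqrt (D x'))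

/-- the averaged operator -/
noncomputable def Tav (s : Finset ι) (θ : ι → X → ℝ) (y : ι → X) (P : X → H →L[ℝ] H) (x : X) :
    H →L[ℝ] H := avg s (fun i => θ i x) (fun i => P (y i))

/-- the averaged centre -/
noncomputable def cav (s : Finset ι) (θ : ι → X → ℝ) (y : ι → X) (Ψ : X → H) (x : X) : H :=
  ∑ i ∈ s, θ i x • Ψ (y i)

variable (hpart : IsPart s θ y D Dt r L) (hpl : IsPlane P Ψ D r C) (hDt : ∀ x, D x ≤ Dt x)

include hpart hpl hDt in
theorem rel_P {x x' : X} (hxx : dist x x' ≤ r) {i : ι} (hi : i ∈ s) (h0 : θ i x' ≠ 0) :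
    ‖P (y i) - P x‖ ≤ 2 * C * Real.sqrt (Dt x) := by
  obtain ⟨h1, h2⟩ := hpart.rel i hi x x' hxx h0
  have hr := hpart.r_pos
  have hC := hpl.C_ge
  have h3 := hpl.A2 x (y i) (by linarith)
  rw [norm_sub_rev]
  refine h3.trans ?_
  have e1 := Real.sqrt_le_sqrt (hDt x)
  have e2 := Real.sqrt_le_sqrt h1
  nlinarith

include hpart hpl hDt in
theorem rel_P' {x x' : X} (hxx : dist x x' ≤ r) {i : ι} (hi : i ∈ s)
    (h0 : θ i x - θ i x' ≠ 0) : ‖P (y i) - P x‖ ≤ 2 * C * Real.sqrt (Dt x) := by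
  by_cases h1 : θ i x = 0
  · exact rel_P hpart hpl hDt hxx hi (fun h2 => h0 (by rw [h1, h2, sub_zero]))
  · exact rel_P hpart hpl hDt (x := x) (x' := x) (by simpa using hpart.r_pos.le) hi h1

include hpart hpl hDt in
theorem rel_PP {x x' x'' : X} (hxx : dist x x' ≤ r) (hxx' : dist x x'' ≤ r) {i j : ι}
    (hi : i ∈ s) (hj : j ∈ s) (h0 : θ i x' ≠ 0) (h1 : θ j x'' ≠ 0) :
    ‖P (y i) - P (y j)‖ ≤ 2 * (2 * C * Real.sqrt (Dt x)) := by
  have e1 := rel_P hpart hpl hDt hxx hi h0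
  have e2 := rel_P hpart hpl hDt hxx' hj h1
  calc ‖P (y i) - P (y j)‖ = ‖(P (y i) - P x) - (P (y j) - P x)‖ := by congr 1; abel
    _ ≤ ‖P (y i) - P x‖ + ‖P (y j) - P x‖ := norm_sub_le _ _
    _ ≤ _ := by linarith

include hpart hpl hDt in
theorem Tav_sub_P (x : X) : ‖Tav s θ y P x - P x‖ ≤ 2 * C * Real.sqrt (Dt x) := by
  unfold Tav avg
  rw [sum_smul_sub_eq s _ _ _ (hpart.sum_one x)]
  have h1 := norm_sum_smul_le s (fun i => θ i x) (fun i => P (y i) - P x)
    (K := 2 * C * Real.sqrt (Dt x)) (fun i hi h0 =>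
      rel_P hpart hpl hDt (x := x) (x' := x) (by simpa using hpart.r_pos.le) hi h0)
  have h3 : ∑ i ∈ s, |θ i x| = 1 := by
    rw [← hpart.sum_one x]
    exact Finset.sum_congr rfl fun i hi => abs_of_nonneg (hpart.nonneg i hi x)
  rw [h3, one_mul] at h1
  exact h1

include hpart hpl hDt in
theorem Tav_sub_sq (x : X) :
    ‖Tav s θ y P x - Tav s θ y P x * Tav s θ y P x‖ ≤ (4 * C * Real.sqrt (Dt x)) ^ 2 := by
  unfold Tav
  rw [avg_sub_sq s (hpart.sum_one x) (fun i _ => hpl.proj _)]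
  have hxx : dist x x ≤ r := by simpa using hpart.r_pos.le
  have h1 := norm_sum_smul_le (s ×ˢ s) (fun p : ι × ι => θ p.1 x * θ p.2 x)
    (fun p => (1 / 2 : ℝ) • ((P (y p.1) - P (y p.2)) * (P (y p.1) - P (y p.2))))
    (K := 2 * (2 * C * Real.sqrt (Dt x)) ^ 2) (by
      intro p hp h0
      rw [Finset.mem_product] at hp
      exact norm_half_sq_le (rel_PP hpart hpl hDt hxx hxx hp.1 hp.2 (left_ne_zero_of_mul h0)
        (right_ne_zero_of_mul h0)))
  have h3 : ∑ p ∈ s ×ˢ s, |θ p.1 x * θ p.2 x| = 1 := by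
    rw [Finset.sum_product]
    have : ∀ i ∈ s, ∑ j ∈ s, |θ i x * θ j x| = θ i x := by
      intro i hi
      have : ∑ j ∈ s, |θ i x * θ j x| = ∑ j ∈ s, θ i x * θ j x :=
        Finset.sum_congr rfl fun j hj =>
          abs_of_nonneg (mul_nonneg (hpart.nonneg i hi x) (hpart.nonneg j hj x))
      rw [this, ← Finset.mul_sum, hpart.sum_one x, mul_one]
    rw [Finset.sum_congr rfl this, hpart.sum_one x]
  rw [h3, one_mul] at h1
  refine h1.trans ?_
  have : 0 ≤ (C * Real.sqrt (Dt x)) ^ 2 := sq_nonneg _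
  nlinarith

include hpart hpl hDt in
theorem Tav_sub (x x' : X) (hxx : dist x x' ≤ r) :
    ‖Tav s θ y P x - Tav s θ y P x'‖ ≤ 2 * L * C * Real.sqrt (Dt x) * (dist x x' / r) := by
  unfold Tav avg
  rw [sum_smul_diff_eq s _ _ _ (P x) (hpart.sum_one x) (hpart.sum_one x')]
  have h1 := norm_sum_smul_le s (fun i => θ i x - θ i x') (fun i => P (y i) - P x)
    (K := 2 * C * Real.sqrt (Dt x)) (fun i hi h0 => rel_P' hpart hpl hDt hxx hi h0)
  have h2 := hpart.lip x x' hxx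
  have hC := hpl.C_ge
  calc _ ≤ (∑ i ∈ s, |θ i x - θ i x'|) * (2 * C * Real.sqrt (Dt x)) := h1
    _ ≤ (L * (dist x x' / r)) * (2 * C * Real.sqrt (Dt x)) := by gcongr
    _ = _ := by ring

include hpart hpl hDt in
theorem Tav_sq_sub (x x' : X) (hxx : dist x x' ≤ r) :
    ‖(Tav s θ y P x - Tav s θ y P x * Tav s θ y P x) -
      (Tav s θ y P x' - Tav s θ y P x' * Tav s θ y P x')‖ ≤
      (4 * L * C * Real.sqrt (Dt x)) ^ 2 * (dist x x' / r) := by
  unfold Tav
  rw [avg_sub_sq s (hpart.sum_one x) (fun i _ => hpl.proj _),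
    avg_sub_sq s (hpart.sum_one x') (fun i _ => hpl.proj _), ← Finset.sum_sub_distrib]
  have hx0 : dist x x ≤ r := by simpa using hpart.r_pos.le
  have e1 : ∑ p ∈ s ×ˢ s, ((θ p.1 x * θ p.2 x) • ((1 / 2 : ℝ) •
        ((P (y p.1) - P (y p.2)) * (P (y p.1) - P (y p.2)))) -
      (θ p.1 x' * θ p.2 x') • ((1 / 2 : ℝ) •
        ((P (y p.1) - P (y p.2)) * (P (y p.1) - P (y p.2))))) =
      ∑ p ∈ s ×ˢ s, (θ p.1 x * θ p.2 x - θ p.1 x' * θ p.2 x') • ((1 / 2 : ℝ) •
        ((P (y p.1) - P (y p.2)) * (P (y p.1) - P (y p.2)))) :=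
    Finset.sum_congr rfl fun p _ => by rw [sub_smul]
  rw [e1]
  have h1 := norm_sum_smul_le (s ×ˢ s)
    (fun p : ι × ι => θ p.1 x * θ p.2 x - θ p.1 x' * θ p.2 x')
    (fun p => (1 / 2 : ℝ) • ((P (y p.1) - P (y p.2)) * (P (y p.1) - P (y p.2))))
    (K := 2 * (2 * C * Real.sqrt (Dt x)) ^ 2) (by
      intro p hp h0
      rw [Finset.mem_product] at hp
      by_cases h2 : θ p.1 x * θ p.2 x = 0
      · have h3 : θ p.1 x' * θ p.2 x' ≠ 0 := fun h4 => h0 (by rw [h2, h4, sub_zero])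
        exact norm_half_sq_le (rel_PP hpart hpl hDt hxx hxx hp.1 hp.2 (left_ne_zero_of_mul h3)
          (right_ne_zero_of_mul h3))
      · exact norm_half_sq_le (rel_PP hpart hpl hDt hx0 hx0 hp.1 hp.2 (left_ne_zero_of_mul h2)
          (right_ne_zero_of_mul h2)))
  have h3 : ∑ p ∈ s ×ˢ s, |θ p.1 x * θ p.2 x - θ p.1 x' * θ p.2 x'| ≤
      2 * (L * (dist x x' / r)) := by
    have e2 : ∑ p ∈ s ×ˢ s, |θ p.1 x * θ p.2 x - θ p.1 x' * θ p.2 x'| ≤
        ∑ p ∈ s ×ˢ s, (|θ p.1 x - θ p.1 x'| * θ p.2 x + θ p.1 x' * |θ p.2 x - θ p.2 x'|) := by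
      apply Finset.sum_le_sum
      intro p hp
      rw [Finset.mem_product] at hp
      have a1 := hpart.nonneg _ hp.2 x
      have a2 := hpart.nonneg _ hp.1 x'
      have : θ p.1 x * θ p.2 x - θ p.1 x' * θ p.2 x' =
        (θ p.1 x - θ p.1 x') * θ p.2 x + θ p.1 x' * (θ p.2 x - θ p.2 x') := by ring
      rw [this]
      refine (abs_add_le _ _).trans ?_
      rw [abs_mul, abs_mul, abs_of_nonneg a1, abs_of_nonneg a2]
    refine e2.trans ?_
    rw [Finset.sum_add_distrib, Finset.sum_product, Finset.sum_product]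
    have e3 : ∑ i ∈ s, ∑ j ∈ s, |θ i x - θ i x'| * θ j x = ∑ i ∈ s, |θ i x - θ i x'| := by
      refine Finset.sum_congr rfl fun i _ => ?_
      rw [← Finset.mul_sum, hpart.sum_one x, mul_one]
    have e4 : ∑ i ∈ s, ∑ j ∈ s, θ i x' * |θ j x - θ j x'| = ∑ j ∈ s, |θ j x - θ j x'| := by
      rw [Finset.sum_comm]
      refine Finset.sum_congr rfl fun i _ => ?_
      rw [← Finset.sum_mul, hpart.sum_one x', one_mul]
    simp only [] at e3 e4 ⊢
    rw [e3, e4]
    have := hpart.lip x x' hxx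
    linarith
  have hL := hpart.L_ge
  have hC := hpl.C_ge
  have hr := hpart.r_pos
  have hq : 0 ≤ dist x x' / r := by positivity
  have h4 : (0:ℝ) ≤ 2 * (2 * C * Real.sqrt (Dt x)) ^ 2 := by positivity
  calc _ ≤ (∑ p ∈ s ×ˢ s, |θ p.1 x * θ p.2 x - θ p.1 x' * θ p.2 x'|) *
        (2 * (2 * C * Real.sqrt (Dt x)) ^ 2) := h1
    _ ≤ (2 * (L * (dist x x' / r))) * (2 * (2 * C * Real.sqrt (Dt x)) ^ 2) := by gcongr
    _ = 16 * L * (C * Real.sqrt (Dt x)) ^ 2 * (dist x x' / r) := by ring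
    _ ≤ 16 * L ^ 2 * (C * Real.sqrt (Dt x)) ^ 2 * (dist x x' / r) := by
        have : L ≤ L ^ 2 := by nlinarith
        gcongr
    _ = _ := by ring

include hpart hpl hDt in
theorem rel_normal {x x' : X} (hxx : dist x x' ≤ r) {i : ι} (hi : i ∈ s) (h0 : θ i x' ≠ 0) :
    ‖(1 - Tav s θ y P x) (Ψ (y i) - Ψ x)‖ ≤ 14 * C * Real.sqrt (Dt x) * r := by
  obtain ⟨h1, h2⟩ := hpart.rel i hi x x' hxx h0
  have hr := hpart.r_pos
  have hC := hpl.C_ge
  have e0 : (1 - Tav s θ y P x) (Ψ (y i) - Ψ x) = (1 - P x) (Ψ (y i) - Ψ x) -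
      (Tav s θ y P x - P x) (Ψ (y i) - Ψ x) := by
    simp only [sub_apply]; abel
  rw [e0]
  refine (norm_sub_le _ _).trans ?_
  have e1 := hpl.A1 x (y i) (by linarith)
  have e2 : ‖(Tav s θ y P x - P x) (Ψ (y i) - Ψ x)‖ ≤ (2 * C * Real.sqrt (Dt x)) * (6 * r) := by
    refine (ContinuousLinearMap.le_opNorm _ _).trans ?_
    have := hpl.Ψ_le (y i) x
    rw [dist_comm] at this
    have h5 := Tav_sub_P hpart hpl hDt x
    exact mul_le_mul h5 (this.trans h2) (norm_nonneg _) (by positivity)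
  have e3 := Real.sqrt_le_sqrt (hDt x)
  have e4 := Real.sqrt_le_sqrt h1
  have e5 : C * (Real.sqrt (D x) + Real.sqrt (D (y i))) * r ≤
      C * (Real.sqrt (Dt x) + Real.sqrt (Dt x)) * r := by gcongr
  linarith

include hpart hpl hDt in
theorem cav_u_le (x : X) : ‖Ψ x - cav s θ y Ψ x‖ ≤ 6 * r := by
  unfold cav
  rw [norm_sub_rev, sum_smul_sub_eq s _ _ _ (hpart.sum_one x)]
  have h1 := norm_sum_smul_le s (fun i => θ i x) (fun i => Ψ (y i) - Ψ x)
    (K := 6 * r) (fun i hi h0 => by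
      have := (hpart.rel i hi x x (by simpa using hpart.r_pos.le) h0).2
      have h2 := hpl.Ψ_le (y i) x
      rw [dist_comm] at h2
      exact h2.trans this)
  have h3 : ∑ i ∈ s, |θ i x| = 1 := by
    rw [← hpart.sum_one x]
    exact Finset.sum_congr rfl fun i hi => abs_of_nonneg (hpart.nonneg i hi x)
  rw [h3, one_mul] at h1
  exact h1

include hpart hpl hDt in
theorem cav_un_le (x : X) :
    ‖(1 - Tav s θ y P x) (Ψ x - cav s θ y Ψ x)‖ ≤ 14 * C * Real.sqrt (Dt x) * r := by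
  have e0 : (1 - Tav s θ y P x) (Ψ x - cav s θ y Ψ x) =
      -(∑ i ∈ s, θ i x • (1 - Tav s θ y P x) (Ψ (y i) - Ψ x)) := by
    have : Ψ x - cav s θ y Ψ x = -(∑ i ∈ s, θ i x • (Ψ (y i) - Ψ x)) := by
      unfold cav
      rw [← sum_smul_sub_eq s _ _ _ (hpart.sum_one x)]; abel
    rw [this, map_neg, map_sum]
    simp only [map_smul]
  rw [e0, norm_neg]
  have h1 := norm_sum_smul_le s (fun i => θ i x)
    (fun i => (1 - Tav s θ y P x) (Ψ (y i) - Ψ x))
    (K := 14 * C * Real.sqrt (Dt x) * r) (fun i hi h0 =>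
      rel_normal hpart hpl hDt (x' := x) (by simpa using hpart.r_pos.le) hi h0)
  have h3 : ∑ i ∈ s, |θ i x| = 1 := by
    rw [← hpart.sum_one x]
    exact Finset.sum_congr rfl fun i hi => abs_of_nonneg (hpart.nonneg i hi x)
  rw [h3, one_mul] at h1
  exact h1

include hpart hpl hDt in
theorem cav_sub_le (x x' : X) (hxx : dist x x' ≤ r) :
    ‖cav s θ y Ψ x - cav s θ y Ψ x'‖ ≤ 6 * L * dist x x' := by
  unfold cav
  rw [sum_smul_diff_eq s _ _ _ (Ψ x) (hpart.sum_one x) (hpart.sum_one x')]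
  have hr := hpart.r_pos
  have h1 := norm_sum_smul_le s (fun i => θ i x - θ i x') (fun i => Ψ (y i) - Ψ x)
    (K := 6 * r) (fun i hi h0 => by
      have h2 := hpl.Ψ_le (y i) x
      rw [dist_comm] at h2
      refine h2.trans ?_
      by_cases h3 : θ i x = 0
      · exact (hpart.rel i hi x x' hxx (fun h4 => h0 (by simp only [h3, h4, sub_zero]))).2
      · exact (hpart.rel i hi x x (by simpa using hr.le) h3).2)
  have h2 := hpart.lip x x' hxx
  calc _ ≤ (∑ i ∈ s, |θ i x - θ i x'|) * (6 * r) := h1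
    _ ≤ (L * (dist x x' / r)) * (6 * r) := by gcongr
    _ = _ := by field_simp

include hpart hpl hDt in
theorem cav_n_le (x x' : X) (hxx : dist x x' ≤ r) :
    ‖(1 - Tav s θ y P x) (cav s θ y Ψ x - cav s θ y Ψ x')‖ ≤
      14 * L * C * Real.sqrt (Dt x) * dist x x' := by
  have hr := hpart.r_pos
  have hC := hpl.C_ge
  have e0 : (1 - Tav s θ y P x) (cav s θ y Ψ x - cav s θ y Ψ x') =
      ∑ i ∈ s, (θ i x - θ i x') • (1 - Tav s θ y P x) (Ψ (y i) - Ψ x) := by
    unfold cav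
    rw [sum_smul_diff_eq s _ _ _ (Ψ x) (hpart.sum_one x) (hpart.sum_one x'), map_sum]
    simp only [map_smul]
  rw [e0]
  have h1 := norm_sum_smul_le s (fun i => θ i x - θ i x')
    (fun i => (1 - Tav s θ y P x) (Ψ (y i) - Ψ x))
    (K := 14 * C * Real.sqrt (Dt x) * r) (fun i hi h0 => by
      by_cases h3 : θ i x = 0
      · exact rel_normal hpart hpl hDt hxx hi (fun h4 => h0 (by simp only [h3, h4, sub_zero]))
      · exact rel_normal hpart hpl hDt (x' := x) (by simpa using hr.le) hi h3)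
  have h2 := hpart.lip x x' hxx
  calc _ ≤ (∑ i ∈ s, |θ i x - θ i x'|) * (14 * C * Real.sqrt (Dt x) * r) := h1
    _ ≤ (L * (dist x x' / r)) * (14 * C * Real.sqrt (Dt x) * r) := by gcongr
    _ = _ := by field_simp

include hpart hpl hDt in
theorem Ψ_n_le (x x' : X) (hxx : dist x x' ≤ r) :
    ‖(1 - Tav s θ y P x) (Ψ x - Ψ x')‖ ≤
      (3 * C * Real.sqrt (Dt x) + C * Real.sqrt (Dt x')) * r := by
  have hr := hpart.r_pos
  have hC := hpl.C_ge
  have e0 : (1 - Tav s θ y P x) (Ψ x - Ψ x') = -((1 - P x) (Ψ x' - Ψ x)) -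
      (Tav s θ y P x - P x) (Ψ x - Ψ x') := by
    simp only [sub_apply, map_sub]; abel
  rw [e0]
  refine (norm_sub_le _ _).trans ?_
  rw [norm_neg]
  have e1 := hpl.A1 x x' (by linarith)
  have e2 : ‖(Tav s θ y P x - P x) (Ψ x - Ψ x')‖ ≤ (2 * C * Real.sqrt (Dt x)) * r := by
    refine (ContinuousLinearMap.le_opNorm _ _).trans ?_
    have h5 := Tav_sub_P hpart hpl hDt x
    exact mul_le_mul h5 ((hpl.Ψ_le x x').trans hxx) (norm_nonneg _) (by positivity)
  have e3 := Real.sqrt_le_sqrt (hDt x)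
  have e4 := Real.sqrt_le_sqrt (hDt x')
  have e5 : C * (Real.sqrt (D x) + Real.sqrt (D x')) * r ≤
      C * (Real.sqrt (Dt x) + Real.sqrt (Dt x')) * r := by gcongr
  linarith

end scale

end Crest.Agent.R247.Glu923
end

-- ▼ part R247/Glu6_923

/-!
# R247, block (4): nets, best centres, partition of unity, and the gluing theorem
-/

set_option autoImplicit false

namespace Crest.Agent.R247.Glu923

open scoped RealInnerProductSpace

/-! ### Nets -/

/-- Maximal separated finite sets in a totally bounded metric space. -/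
theorem exists_net {X : Type*} [MetricSpace X] (hX : TotallyBounded (Set.univ : Set X)) {r : ℝ}
    (hr : 0 < r) : ∃ t : Finset X, (∀ a ∈ t, ∀ b ∈ t, a ≠ b → r ≤ dist a b) ∧
      ∀ x, ∃ a ∈ t, dist x a ≤ r := by
  classical
  obtain ⟨F, hF, hcov⟩ := Metric.totallyBounded_iff.1 hX (r / 2) (by positivity)
  set sep : Finset X → Prop := fun t => ∀ a ∈ t, ∀ b ∈ t, a ≠ b → r ≤ dist a b with hsep
  have hbd : ∀ t, sep t → t.card ≤ hF.toFinset.card := by
    intro t ht
    have hch : ∀ a : X, ∃ c ∈ F, dist a c < r / 2 := by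
      intro a
      have := hcov (Set.mem_univ a)
      simpa using this
    choose f hf1 hf2 using hch
    apply Finset.card_le_card_of_injOn f
    · intro a _
      simpa using hf1 a
    · intro a ha b hb hab
      by_contra hne
      have h1 := ht a ha b hb hne
      have h2 := hf2 a
      have h3 := hf2 b
      rw [← hab] at h3
      have := dist_triangle_right a b (f a)
      linarith
  have hne : (Set.Nonempty {m : ℕ | ∃ t, sep t ∧ t.card = m}) :=
    ⟨0, ∅, by simp [hsep], rfl⟩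
  have hbdd : BddAbove {m : ℕ | ∃ t, sep t ∧ t.card = m} :=
    ⟨hF.toFinset.card, by rintro m ⟨t, ht, rfl⟩; exact hbd t ht⟩
  obtain ⟨t, ht, htc⟩ := Nat.sSup_mem hne hbdd
  refine ⟨t, ht, ?_⟩
  intro x
  by_contra hcon
  push Not at hcon
  have hx : x ∉ t := fun hxt => by
    have := hcon x hxt
    rw [dist_self] at this
    linarith
  have hsep' : sep (insert x t) := by
    intro a ha b hb hab
    rcases Finset.mem_insert.1 ha with ha' | ha'
    · rcases Finset.mem_insert.1 hb with hb' | hb'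
      · exact absurd (ha'.trans hb'.symm) hab
      · rw [ha']; exact (hcon b hb').le
    · rcases Finset.mem_insert.1 hb with hb' | hb'
      · rw [hb', dist_comm]; exact (hcon a ha').le
      · exact ht a ha' b hb' hab
  have h1 : (insert x t).card ≤ sSup {m : ℕ | ∃ t, sep t ∧ t.card = m} :=
    le_csSup hbdd ⟨_, hsep', rfl⟩
  rw [Finset.card_insert_of_notMem hx, htc] at h1
  omega

/-! ### Best centres -/

theorem exists_best {X : Type*} [MetricSpace X] (D : X → ℝ) (hD : ∀ x, 0 ≤ D x) {η r : ℝ}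
    (hη : 0 < η) (hr : 0 < r) (a : X) :
    ∃ y, dist y a ≤ 3 * r ∧ ∀ z, dist z a ≤ 3 * r → D y ≤ D z + η := by
  set S : Set ℝ := D '' {z | dist z a ≤ 3 * r} with hS
  have hne : S.Nonempty := ⟨D a, a, by simp; positivity, rfl⟩
  have hbd : BddBelow S := ⟨0, by rintro _ ⟨z, _, rfl⟩; exact hD z⟩
  obtain ⟨_, ⟨y, hy, rfl⟩, hy2⟩ := exists_lt_of_csInf_lt hne (show sInf S < sInf S + η by linarith)
  refine ⟨y, hy, fun z hz => ?_⟩
  have : sInf S ≤ D z := csInf_le hbd ⟨z, hz, rfl⟩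
  linarith

/-! ### Partition of unity -/

section pou

variable {X : Type*} [MetricSpace X]

/-- Unnormalised bump. -/
noncomputable def bump (r : ℝ) (a x : X) : ℝ := max 0 (2 - dist x a / r)

theorem bump_nonneg (r : ℝ) (a x : X) : 0 ≤ bump r a x := le_max_left _ _

theorem bump_ne_zero {r : ℝ} (hr : 0 < r) {a x : X} (h : bump r a x ≠ 0) : dist x a < 2 * r := by
  by_contra hlt
  push Not at hlt
  apply h
  unfold bump
  apply max_eq_left
  have : 2 ≤ dist x a / r := by rw [le_div_iff₀ hr]; exact hlt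
  linarith

theorem bump_ge_one {r : ℝ} (hr : 0 < r) {a x : X} (h : dist x a ≤ r) : 1 ≤ bump r a x := by
  unfold bump
  apply le_max_of_le_right
  have : dist x a / r ≤ 1 := by rw [div_le_one hr]; exact h
  linarith

theorem abs_bump_sub_le {r : ℝ} (hr : 0 < r) (a x x' : X) :
    |bump r a x - bump r a x'| ≤ dist x x' / r := by
  unfold bump
  refine (abs_max_sub_max_le_max _ _ _ _).trans (max_le (by simp; positivity) ?_)
  have : 2 - dist x a / r - (2 - dist x' a / r) = (dist x' a - dist x a) / r := by ring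
  rw [this, abs_div, abs_of_pos hr]
  gcongr
  rw [abs_sub_comm]
  exact abs_dist_sub_le x x' a

/-- The partition of unity subordinate to a finite net. -/
noncomputable def pou (t : Finset X) (r : ℝ) (a x : X) : ℝ := bump r a x / ∑ b ∈ t, bump r b x

theorem isPart_pou {t : Finset X} {r η : ℝ} {N : ℕ} (hr : 0 < r) (hN : 1 ≤ N)
    (hcov : ∀ x, ∃ a ∈ t, dist x a ≤ r)
    (hcard : ∀ x, (t.filter fun a => dist x a ≤ 3 * r).card ≤ N) {D : X → ℝ} {y : X → X}
    (hy1 : ∀ a, dist (y a) a ≤ 3 * r) (hy2 : ∀ a z, dist z a ≤ 3 * r → D (y a) ≤ D z + η) :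
    IsPart t (fun a x => pou t r a x) y D (fun x => D x + η) r (2 * N) := by
  have hZ : ∀ x, 1 ≤ ∑ b ∈ t, bump r b x := by
    intro x
    obtain ⟨a, ha, hxa⟩ := hcov x
    exact (bump_ge_one hr hxa).trans
      (Finset.single_le_sum (f := fun b => bump r b x) (fun b _ => bump_nonneg r b x) ha)
  have hZ0 : ∀ x, 0 < ∑ b ∈ t, bump r b x := fun x => lt_of_lt_of_le one_pos (hZ x)
  have hN' : (1:ℝ) ≤ N := by exact_mod_cast hN
  refine ⟨hr, by linarith, ?_, ?_, ?_, ?_⟩
  · intro a _ x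
    exact div_nonneg (bump_nonneg _ _ _) (hZ0 x).le
  · intro x
    unfold pou
    rw [← Finset.sum_div]
    exact div_self (hZ0 x).ne'
  · intro a _ x x' hxx h0
    have h1 : bump r a x' ≠ 0 := fun h => h0 (by simp [pou, h])
    have h2 := bump_ne_zero hr h1
    have h3 : dist x a ≤ 3 * r := by
      have := dist_triangle x x' a
      linarith
    refine ⟨hy2 a x h3, ?_⟩
    have := dist_triangle_right x (y a) a
    have := hy1 a
    linarith
  · intro x x' hxx
    set Z := ∑ b ∈ t, bump r b x with hZdef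
    set Z' := ∑ b ∈ t, bump r b x' with hZ'def
    have hZp : 0 < Z := hZ0 x
    have hZp' : 0 < Z' := hZ0 x'
    have hZ1 : 1 ≤ Z := hZ x
    have e1 : ∀ a ∈ t, |pou t r a x - pou t r a x'| ≤
        |bump r a x - bump r a x'| / Z + bump r a x' * (|Z' - Z| / (Z * Z')) := by
      intro a _
      have : pou t r a x - pou t r a x' = (bump r a x - bump r a x') / Z +
          bump r a x' * ((Z' - Z) / (Z * Z')) := by
        unfold pou
        rw [← hZdef, ← hZ'def]
        field_simp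
        ring
      rw [this]
      refine (abs_add_le _ _).trans ?_
      rw [abs_mul, abs_div, abs_div, abs_of_pos hZp, abs_of_nonneg (bump_nonneg _ _ _),
        abs_of_pos (mul_pos hZp hZp')]
    have e2 : |Z' - Z| ≤ ∑ a ∈ t, |bump r a x - bump r a x'| := by
      rw [hZdef, hZ'def, ← Finset.sum_sub_distrib]
      refine (Finset.abs_sum_le_sum_abs _ _).trans (le_of_eq ?_)
      exact Finset.sum_congr rfl fun a _ => abs_sub_comm _ _
    have e3 : ∑ a ∈ t, |bump r a x - bump r a x'| ≤ N * (dist x x' / r) := by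
      have f1 : ∑ a ∈ t, |bump r a x - bump r a x'| =
          ∑ a ∈ t.filter (fun a => dist x a ≤ 3 * r), |bump r a x - bump r a x'| := by
        symm
        apply Finset.sum_filter_of_ne
        intro a _ h0
        by_contra hlt
        push Not at hlt
        apply h0
        have g1 : bump r a x = 0 := by
          by_contra h; have := bump_ne_zero hr h; linarith
        have g2 : bump r a x' = 0 := by
          by_contra h
          have := bump_ne_zero hr h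
          have := dist_triangle x x' a
          linarith
        rw [g1, g2]; simp
      rw [f1]
      refine (Finset.sum_le_card_nsmul _ _ _ fun a _ => abs_bump_sub_le hr a x x').trans ?_
      rw [nsmul_eq_mul]
      have : ((t.filter fun a => dist x a ≤ 3 * r).card : ℝ) ≤ N := by exact_mod_cast hcard x
      gcongr
    calc ∑ a ∈ t, |pou t r a x - pou t r a x'|
        ≤ ∑ a ∈ t, (|bump r a x - bump r a x'| / Z + bump r a x' * (|Z' - Z| / (Z * Z'))) :=
          Finset.sum_le_sum e1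
      _ = (∑ a ∈ t, |bump r a x - bump r a x'|) / Z + |Z' - Z| / Z := by
          rw [Finset.sum_add_distrib, ← Finset.sum_div, ← Finset.sum_mul, ← hZ'def]
          congr 1
          field_simp
      _ ≤ (∑ a ∈ t, |bump r a x - bump r a x'|) / Z +
          (∑ a ∈ t, |bump r a x - bump r a x'|) / Z := by gcongr
      _ ≤ (∑ a ∈ t, |bump r a x - bump r a x'|) / 1 +
          (∑ a ∈ t, |bump r a x - bump r a x'|) / 1 := by
          have : 0 ≤ ∑ a ∈ t, |bump r a x - bump r a x'| :=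
            Finset.sum_nonneg fun _ _ => abs_nonneg _
          gcongr
      _ ≤ 2 * N * (dist x x' / r) := by rw [div_one]; linarith

end pou

/-! ### The gluing theorem -/

section final

variable {H : Type*} [NormedAddCommGroup H] [InnerProductSpace ℝ H] [CompleteSpace H]

/-- All the hypotheses of the gluing theorem, on a metric space. -/
structure GlueHyp {X : Type*} [MetricSpace X] (n : ℕ) (Ψ : X → H) (P : ℕ → X → H →L[ℝ] H)
    (D : ℕ → X → ℝ) (R C δ : ℝ) (N : ℕ) : Prop where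
  R_pos : 0 < R
  C_ge : 1 ≤ C
  N_ge : 1 ≤ N
  δ_pos : 0 < δ
  δ_le : 10 * (32 * N * C) ^ 2 * δ ≤ 1 / 100
  tb : TotallyBounded (Set.univ : Set X)
  diam : ∀ x x' : X, dist x x' ≤ R
  packing : ∀ k : ℕ, 1 ≤ k → ∀ (x : X) (t : Finset X), (∀ a ∈ t, dist x a ≤ 3 * (R / 2 ^ k)) →
    (∀ a ∈ t, ∀ b ∈ t, a ≠ b → R / 2 ^ k ≤ dist a b) → t.card ≤ N
  Ψ_le : ∀ x x', ‖Ψ x - Ψ x'‖ ≤ dist x x'
  D_nonneg : ∀ k x, 0 ≤ D k x
  D_sum : ∀ x m, ∑ k ∈ Finset.range m, D k x ≤ δ
  proj : ∀ k, 1 ≤ k → ∀ x, IsProj (P k x)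
  rank : ∀ x, ∃ V : Submodule ℝ H, FiniteDimensional ℝ V ∧ Module.finrank ℝ V = n ∧
    ∀ v, P 1 x v ∈ V
  A1 : ∀ k, 1 ≤ k → ∀ x x', dist x x' ≤ 8 * (R / 2 ^ k) →
    ‖(1 - P k x) (Ψ x' - Ψ x)‖ ≤ C * (Real.sqrt (D k x) + Real.sqrt (D k x')) * (R / 2 ^ k)
  A2 : ∀ k, 1 ≤ k → ∀ x x', dist x x' ≤ 8 * (R / 2 ^ k) →
    ‖P k x - P k x'‖ ≤ C * (Real.sqrt (D k x) + Real.sqrt (D k x'))
  A3 : ∀ k, 1 ≤ k → ∀ x,
    ‖P k x - P (k + 1) x‖ ≤ C * (Real.sqrt (D k x) + Real.sqrt (D (k + 1) x))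


namespace GlueHyp

variable {X : Type*} [MetricSpace X] {n : ℕ} {Ψ : X → H} {P : ℕ → X → H →L[ℝ] H}
  {D : ℕ → X → ℝ} {R C δ : ℝ} {N : ℕ}

theorem D_le (h : GlueHyp n Ψ P D R C δ N) (k : ℕ) (x : X) : D k x ≤ δ := by
  have h1 := h.D_sum x (k + 1)
  rw [Finset.sum_range_succ] at h1
  have : 0 ≤ ∑ j ∈ Finset.range k, D j x := Finset.sum_nonneg fun j _ => h.D_nonneg j x
  linarith

theorem isPlane (h : GlueHyp n Ψ P D R C δ N) {k : ℕ} (hk : 1 ≤ k) :
    IsPlane (P k) Ψ (D k) (R / 2 ^ k) C :=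
  ⟨h.C_ge, h.proj k hk, h.D_nonneg k, h.Ψ_le, h.A1 k hk, h.A2 k hk⟩

theorem exists_part (h : GlueHyp n Ψ P D R C δ N) (k : ℕ) (hk : 1 ≤ k) :
    ∃ (t : Finset X) (θ : X → X → ℝ) (y : X → X),
      IsPart t θ y (D k) (fun x => D k x + δ / 2 ^ k) (R / 2 ^ k) (2 * N) := by
  have hR := h.R_pos
  have hr : 0 < R / 2 ^ k := by positivity
  obtain ⟨t, ht1, ht2⟩ := exists_net h.tb hr
  have hη : 0 < δ / 2 ^ k := by have := h.δ_pos; positivity
  choose y hy1 hy2 using fun a => exists_best (D k) (h.D_nonneg k) hη hr a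
  refine ⟨t, _, y, isPart_pou hr h.N_ge ht2 ?_ hy1 hy2⟩
  intro x
  apply h.packing k hk x
  · intro a ha
    exact (Finset.mem_filter.1 ha).2
  · intro a ha b hb hab
    exact ht1 a (Finset.mem_filter.1 ha).1 b (Finset.mem_filter.1 hb).1 hab

theorem sqrt_Dt_sq (h : GlueHyp n Ψ P D R C δ N) (k : ℕ) (x : X) :
    Real.sqrt (D k x + δ / 2 ^ k) ^ 2 = D k x + δ / 2 ^ k := by
  apply Real.sq_sqrt
  have := h.D_nonneg k x
  have := h.δ_pos
  positivity

/-- **Gluing theorem**, type version. -/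
theorem exists_map (h : GlueHyp n Ψ P D R C δ N) (x₀ : X) :
    ∃ F : X → EuclideanSpace ℝ (Fin n), ∀ x x',
      |dist (F x) (F x') - ‖Ψ x - Ψ x'‖| ≤
        40000 * (32 * N * C) ^ 2 * N * Real.sqrt δ * dist x x' := by
  classical
  have hR := h.R_pos
  have hC := h.C_ge
  have hN : (1:ℝ) ≤ N := by exact_mod_cast h.N_ge
  have hδ := h.δ_pos
  have hδs := h.δ_le
  set K : ℝ := 32 * N * C with hK
  have hK1 : 32 ≤ K := by
    have : 1 ≤ N * C := one_le_mul_of_one_le_of_one_le hN hC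
    rw [hK]; nlinarith
  have hKC : 32 * C ≤ K := by
    rw [hK]; nlinarith
  -- choose partitions for all scales `k + 1`
  choose t θ y hpart using fun k : ℕ => h.exists_part (k + 1) (by omega)
  set Dt : ℕ → X → ℝ := fun k x => D k x + δ / 2 ^ k with hDt
  have hDDt : ∀ k x, D k x ≤ Dt k x := fun k x => by
    have : 0 ≤ δ / 2 ^ k := by positivity
    simp only [hDt]; linarith
  have hDt0 : ∀ k x, 0 ≤ Dt k x := fun k x => (h.D_nonneg k x).trans (hDDt k x)
  have hsq : ∀ k x, Real.sqrt (Dt k x) ^ 2 = Dt k x := fun k x => Real.sq_sqrt (hDt0 k x)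
  have hs0 : ∀ k x, 0 ≤ Real.sqrt (Dt k x) := fun k x => Real.sqrt_nonneg _
  have hsD : ∀ k x, Real.sqrt (D k x) ≤ Real.sqrt (Dt k x) := fun k x =>
    Real.sqrt_le_sqrt (hDDt k x)
  have hpl : ∀ k, IsPlane (P (k + 1)) Ψ (D (k + 1)) (R / 2 ^ (k + 1)) C := fun k =>
    h.isPlane (by omega)
  -- operators, centres and errors
  set T : ℕ → X → H →L[ℝ] H := fun k => Nat.casesOn k (fun _ => P 1 x₀)
    (fun j x => Tav (t j) (θ j) (y j) (P (j + 1)) x) with hT
  set c : ℕ → X → H := fun k => Nat.casesOn k (fun _ => Ψ x₀)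
    (fun j x => cav (t j) (θ j) (y j) Ψ x) with hc
  set e : ℕ → X → ℝ := fun k => Nat.casesOn k
    (fun x => K * (Real.sqrt (Dt 1 x₀) + Real.sqrt (Dt 1 x)))
    (fun j x => K * Real.sqrt (Dt (j + 1) x)) with he
  have T0 : ∀ x, T 0 x = P 1 x₀ := fun _ => rfl
  have TS : ∀ j x, T (j + 1) x = Tav (t j) (θ j) (y j) (P (j + 1)) x := fun _ _ => rfl
  have c0 : ∀ x, c 0 x = Ψ x₀ := fun _ => rfl
  have cS : ∀ j x, c (j + 1) x = cav (t j) (θ j) (y j) Ψ x := fun _ _ => rfl
  have e0 : ∀ x, e 0 x = K * (Real.sqrt (Dt 1 x₀) + Real.sqrt (Dt 1 x)) := fun _ => rfl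
  have eS : ∀ j x, e (j + 1) x = K * Real.sqrt (Dt (j + 1) x) := fun _ _ => rfl
  have e1' : ∀ x, e 1 x = K * Real.sqrt (Dt 1 x) := fun _ => rfl
  have hK0 : 0 ≤ K := by linarith
  have e_nonneg : ∀ k x, 0 ≤ e k x := by
    intro k x
    cases k with
    | zero => rw [e0]; have := hs0 1 x₀; have := hs0 1 x; positivity
    | succ j => rw [eS]; have := hs0 (j + 1) x; positivity
  -- sum of the squares of the errors
  set δ' : ℝ := 10 * K ^ 2 * δ with hδ'
  have hsum : ∀ x m, ∑ k ∈ Finset.range m, e k x ^ 2 ≤ δ' := by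
    intro x m
    have hfull : ∀ m, ∑ k ∈ Finset.range (m + 1), e k x ^ 2 ≤ δ' := by
      intro m
      rw [Finset.sum_range_succ']
      have a1 : ∑ k ∈ Finset.range m, e (k + 1) x ^ 2 ≤ K ^ 2 * (2 * δ) := by
        have : ∀ k ∈ Finset.range m, e (k + 1) x ^ 2 =
            K ^ 2 * (D (k + 1) x + δ / 2 ^ (k + 1)) := by
          intro k _
          rw [eS, mul_pow, hsq]
        rw [Finset.sum_congr rfl this, ← Finset.mul_sum, Finset.sum_add_distrib]
        have b1 : ∑ k ∈ Finset.range m, D (k + 1) x ≤ δ := by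
          have := h.D_sum x (m + 1)
          rw [Finset.sum_range_succ'] at this
          have := h.D_nonneg 0 x
          linarith
        have b2 : ∑ k ∈ Finset.range m, δ / 2 ^ (k + 1) ≤ δ := by
          have b3 : ∀ m : ℕ, ∑ k ∈ Finset.range m, δ / 2 ^ (k + 1) = δ - δ / 2 ^ m := by
            intro m
            induction m with
            | zero => simp
            | succ m ih => rw [Finset.sum_range_succ, ih, pow_succ]; field_simp; ring
          rw [b3]
          have : 0 ≤ δ / 2 ^ m := by positivity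
          linarith
        have : 0 ≤ K ^ 2 := sq_nonneg _
        nlinarith
      have a2 : e 0 x ^ 2 ≤ K ^ 2 * (8 * δ) := by
        rw [e0, mul_pow]
        have b1 : (Real.sqrt (Dt 1 x₀) + Real.sqrt (Dt 1 x)) ^ 2 ≤ 8 * δ := by
          have c1 : Dt 1 x₀ ≤ 2 * δ := by
            have := h.D_le 1 x₀; simp only [hDt]; linarith
          have c2 : Dt 1 x ≤ 2 * δ := by
            have := h.D_le 1 x; simp only [hDt]; linarith
          have d1 := hsq 1 x₀
          have d2 := hsq 1 x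
          nlinarith [sq_nonneg (Real.sqrt (Dt 1 x₀) - Real.sqrt (Dt 1 x))]
        gcongr
      have : δ' = K ^ 2 * (2 * δ) + K ^ 2 * (8 * δ) := by rw [hδ']; ring
      linarith
    cases m with
    | zero => simp; positivity
    | succ m => exact hfull m
  have hδ'le : δ' ≤ 1 / 100 := hδs
  have e_le : ∀ k x, e k x ≤ 1 / 10 := by
    intro k x
    have h1 := hsum x (k + 1)
    rw [Finset.sum_range_succ] at h1
    have h2 : 0 ≤ ∑ j ∈ Finset.range k, e j x ^ 2 := Finset.sum_nonneg fun _ _ => sq_nonneg _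
    have h3 := e_nonneg k x
    nlinarith
  have hxx₀ : ∀ x, dist x x₀ ≤ 8 * (R / 2 ^ 1) := by
    intro x
    have := h.diam x x₀
    linarith
  have hP1 := h.proj 1 le_rfl x₀
  have hbase : ∀ x, ‖(1 - P 1 x₀) (Ψ x - Ψ x₀)‖ ≤ e 0 x * R / 2 := by
    intro x
    have h1 := h.A1 1 le_rfl x₀ x (by rw [dist_comm]; exact hxx₀ x)
    refine h1.trans ?_
    rw [e0]
    have a1 := hsD 1 x₀
    have a2 := hsD 1 x
    have a3 := hs0 1 x₀
    have a4 := hs0 1 x
    have b1 : C * (Real.sqrt (D 1 x₀) + Real.sqrt (D 1 x)) ≤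
        K * (Real.sqrt (Dt 1 x₀) + Real.sqrt (Dt 1 x)) := by
      apply mul_le_mul (by linarith) (by linarith) (by positivity) hK0
    have := mul_le_mul_of_nonneg_right b1 hR.le
    linarith
  have hchain : ∀ x, IsChain (fun k => T k x) (fun k => e k x) := by
    intro x
    refine ⟨fun k => e_nonneg k x, fun k => e_le k x, ?_, ?_, ?_, ?_⟩
    · intro k
      cases k with
      | zero => exact hP1.norm_le
      | succ j =>
        exact avg_norm_le _ (fun i hi => (hpart j).nonneg i hi x) ((hpart j).sum_one x)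
          (fun i _ => (hpl j).proj _)
    · intro k
      cases k with
      | zero => exact hP1.one_sub.norm_le
      | succ j =>
        exact one_sub_avg_norm_le _ (fun i hi => (hpart j).nonneg i hi x)
          ((hpart j).sum_one x) (fun i _ => (hpl j).proj _)
    · intro k
      cases k with
      | zero =>
        have : T 0 x - T 0 x * T 0 x = 0 := by rw [T0, hP1.idem, sub_self]
        show ‖T 0 x - T 0 x * T 0 x‖ ≤ _
        rw [this, norm_zero]; exact sq_nonneg _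
      | succ j =>
        refine (Tav_sub_sq (hpart j) (hpl j) (hDDt (j + 1)) x).trans ?_
        show _ ≤ e (j + 1) x ^ 2
        rw [eS]
        have := hs0 (j + 1) x
        apply pow_le_pow_left₀ (by positivity)
        gcongr
        linarith
    · intro k
      cases k with
      | zero =>
        show ‖T 1 x - T 0 x‖ ≤ e 0 x + e 1 x
        have h1 := Tav_sub_P (hpart 0) (hpl 0) (hDDt 1) x
        have h2 := h.A2 1 le_rfl x x₀ (hxx₀ x)
        have h3 : T 1 x - T 0 x = (T 1 x - P 1 x) + (P 1 x - P 1 x₀) := by rw [T0]; abel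
        rw [h3]
        refine (norm_add_le _ _).trans ?_
        have h1' : ‖T 1 x - P 1 x‖ ≤ 2 * C * Real.sqrt (Dt 1 x) := h1
        rw [e0, e1']
        have a1 := hsD 1 x₀
        have a2 := hsD 1 x
        have a3 := hs0 1 x₀
        have a4 := hs0 1 x
        have b1 : C * (Real.sqrt (D 1 x) + Real.sqrt (D 1 x₀)) ≤
            C * (Real.sqrt (Dt 1 x) + Real.sqrt (Dt 1 x₀)) := by gcongr
        have b2 : C * Real.sqrt (Dt 1 x) ≤ K * Real.sqrt (Dt 1 x) := by gcongr; linarith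
        have b3 : C * Real.sqrt (Dt 1 x₀) ≤ K * Real.sqrt (Dt 1 x₀) := by gcongr; linarith
        have b4 : 2 * C * Real.sqrt (Dt 1 x) ≤ K * Real.sqrt (Dt 1 x) := by gcongr; linarith
        nlinarith
      | succ j =>
        show ‖T (j + 2) x - T (j + 1) x‖ ≤ e (j + 1) x + e (j + 2) x
        have h1 := Tav_sub_P (hpart j) (hpl j) (hDDt (j + 1)) x
        have h2 := Tav_sub_P (hpart (j + 1)) (hpl (j + 1)) (hDDt (j + 2)) x
        have h3 := h.A3 (j + 1) (by omega) x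
        have h4 : T (j + 2) x - T (j + 1) x = (T (j + 2) x - P (j + 2) x) -
            (T (j + 1) x - P (j + 1) x) - (P (j + 1) x - P (j + 2) x) := by abel
        rw [h4]
        have h1' : ‖T (j + 1) x - P (j + 1) x‖ ≤ 2 * C * Real.sqrt (Dt (j + 1) x) := h1
        have h2' : ‖T (j + 2) x - P (j + 2) x‖ ≤ 2 * C * Real.sqrt (Dt (j + 2) x) := h2
        have h5 := norm_sub_le ((T (j + 2) x - P (j + 2) x) - (T (j + 1) x - P (j + 1) x))
          (P (j + 1) x - P (j + 2) x)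
        have h6 := norm_sub_le (T (j + 2) x - P (j + 2) x) (T (j + 1) x - P (j + 1) x)
        have eS2 : e (j + 2) x = K * Real.sqrt (Dt (j + 2) x) := rfl
        rw [eS, eS2]
        have a1 := hsD (j + 1) x
        have a2 := hsD (j + 2) x
        have a3 := hs0 (j + 1) x
        have a4 := hs0 (j + 2) x
        have b1 : C * (Real.sqrt (D (j + 1) x) + Real.sqrt (D (j + 2) x)) ≤
            C * (Real.sqrt (Dt (j + 1) x) + Real.sqrt (Dt (j + 2) x)) := by gcongr
        have b2 : 3 * C * Real.sqrt (Dt (j + 1) x) ≤ K * Real.sqrt (Dt (j + 1) x) := by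
          gcongr; linarith
        have b3 : 3 * C * Real.sqrt (Dt (j + 2) x) ≤ K * Real.sqrt (Dt (j + 2) x) := by
          gcongr; linarith
        have h3' : ‖P (j + 1) x - P (j + 2) x‖ ≤
          C * (Real.sqrt (D (j + 1) x) + Real.sqrt (D (j + 2) x)) := h3
        nlinarith
  have hglue : IsGlue Ψ T c e R (12 * N) δ' := by
    refine ⟨hR, by linarith, hδ'le, hchain, fun _ _ => rfl, hsum, ?_, ?_, ?_, ?_, ?_, ?_,
      h.Ψ_le, ?_, ?_, h.diam⟩
    · -- sub_le
      intro k x x' hd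
      cases k with
      | zero =>
        rw [T0, T0, sub_self, norm_zero]
        have := e_nonneg 0 x
        positivity
      | succ j =>
        refine (Tav_sub (hpart j) (hpl j) (hDDt (j + 1)) x x' hd).trans ?_
        rw [eS]
        have := hs0 (j + 1) x
        gcongr
        rw [hK]
        nlinarith [mul_nonneg (show (0:ℝ) ≤ N by linarith) (show (0:ℝ) ≤ C by linarith)]
    · -- sq_sub_le
      intro k x x' hd
      cases k with
      | zero =>
        rw [T0, T0, sub_self, norm_zero]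
        positivity
      | succ j =>
        refine (Tav_sq_sub (hpart j) (hpl j) (hDDt (j + 1)) x x' hd).trans ?_
        rw [eS]
        have := hs0 (j + 1) x
        have h1 : 4 * (2 * (N:ℝ)) * C ≤ K := by
          rw [hK]
          nlinarith [mul_nonneg (show (0:ℝ) ≤ N by linarith) (show (0:ℝ) ≤ C by linarith)]
        gcongr
    · -- u_le
      intro k x
      cases k with
      | zero =>
        rw [c0]
        refine (h.Ψ_le x x₀).trans ((h.diam x x₀).trans ?_)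
        rw [pow_zero, div_one]
        nlinarith
      | succ j =>
        refine (cav_u_le (hpart j) (hpl j) (hDDt (j + 1)) x).trans ?_
        gcongr
        linarith
    · -- un_le
      intro k x
      cases k with
      | zero =>
        rw [c0, T0]
        refine (hbase x).trans ?_
        rw [pow_zero, div_one]
        have := mul_nonneg (e_nonneg 0 x) hR.le
        linarith
      | succ j =>
        refine (cav_un_le (hpart j) (hpl j) (hDDt (j + 1)) x).trans ?_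
        rw [eS]
        have := hs0 (j + 1) x
        gcongr
        linarith
    · -- c_le
      intro k x x' hd
      cases k with
      | zero =>
        rw [c0, c0, sub_self, norm_zero]
        positivity
      | succ j =>
        refine (cav_sub_le (hpart j) (hpl j) (hDDt (j + 1)) x x' hd).trans ?_
        apply le_of_eq
        ring
    · -- cn_le
      intro k x x' hd
      cases k with
      | zero =>
        rw [c0, c0, sub_self, map_zero, norm_zero]
        have := e_nonneg 0 x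
        positivity
      | succ j =>
        refine (cav_n_le (hpart j) (hpl j) (hDDt (j + 1)) x x' hd).trans ?_
        rw [eS]
        have := hs0 (j + 1) x
        gcongr
        rw [hK]
        nlinarith [mul_nonneg (show (0:ℝ) ≤ N by linarith) (show (0:ℝ) ≤ C by linarith)]
    · -- Ψn_le
      intro k x x' hd
      cases k with
      | zero =>
        rw [T0]
        have h1 : (1 - P 1 x₀) (Ψ x - Ψ x') = (1 - P 1 x₀) (Ψ x - Ψ x₀) -
            (1 - P 1 x₀) (Ψ x' - Ψ x₀) := by rw [← map_sub]; congr 1; abel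
        rw [h1]
        refine (norm_sub_le _ _).trans ?_
        have h2 := hbase x
        have h3 := hbase x'
        have h4 := mul_nonneg (e_nonneg 0 x) hR.le
        have h5 := mul_nonneg (e_nonneg 0 x') hR.le
        rw [pow_zero, div_one]
        linarith
      | succ j =>
        refine (Ψ_n_le (hpart j) (hpl j) (hDDt (j + 1)) x x' hd).trans ?_
        rw [eS, eS]
        have := hs0 (j + 1) x
        have := hs0 (j + 1) x'
        gcongr
        · linarith
        · linarith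
    · -- symm
      intro k x u v
      cases k with
      | zero => exact hP1.symm u v
      | succ j => exact avg_symm _ (fun i _ => (hpl j).proj _) u v
  -- the target
  obtain ⟨V, hVf, hVn, hV⟩ := h.rank x₀
  have hmem : ∀ x, IsGlue.map Ψ T c x ∈ V := by
    intro x
    rw [← hglue.proj_map x₀ (by rw [T0]; exact hP1.idem) x, T0]
    exact hV _
  subst hVn
  refine ⟨fun x => (stdOrthonormalBasis ℝ V).repr ⟨IsGlue.map Ψ T c x, hmem x⟩, ?_⟩
  intro x x'
  have h1 := hglue.abs_norm_map_sub_le x x'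
  have h2 : dist ((stdOrthonormalBasis ℝ V).repr ⟨IsGlue.map Ψ T c x, hmem x⟩)
      ((stdOrthonormalBasis ℝ V).repr ⟨IsGlue.map Ψ T c x', hmem x'⟩) =
      ‖IsGlue.map Ψ T c x - IsGlue.map Ψ T c x'‖ := by
    rw [LinearIsometryEquiv.dist_map, Subtype.dist_eq, dist_eq_norm]
  rw [h2]
  refine h1.trans ?_
  have hsδ : 0 ≤ Real.sqrt δ := Real.sqrt_nonneg _
  have hδ1 : δ ≤ 1 := by
    have : (1:ℝ) ≤ 10 * K ^ 2 := by nlinarith
    nlinarith
  have a1 : δ ≤ Real.sqrt δ := by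
    have h3 := Real.sq_sqrt hδ.le
    have h4 : Real.sqrt δ ≤ 1 := by
      have := Real.sqrt_le_sqrt hδ1
      rwa [Real.sqrt_one] at this
    nlinarith
  have a2 : Real.sqrt δ' ≤ 4 * K * Real.sqrt δ := by
    rw [hδ']
    apply Real.sqrt_le_iff.2
    refine ⟨by positivity, ?_⟩
    have h3 := Real.sq_sqrt hδ.le
    calc 10 * K ^ 2 * δ ≤ 16 * K ^ 2 * δ := by
          have : 0 ≤ K ^ 2 * δ := by positivity
          nlinarith
      _ = 16 * K ^ 2 * Real.sqrt δ ^ 2 := by rw [h3]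
      _ = (4 * K * Real.sqrt δ) ^ 2 := by ring
  have hd : 0 ≤ dist x x' := dist_nonneg
  have key : 300 * (12 * (N:ℝ)) * δ' + 9 * Real.sqrt δ' ≤
      40000 * (32 * N * C) ^ 2 * N * Real.sqrt δ := by
    rw [← hK]
    have b1 : 300 * (12 * (N:ℝ)) * δ' = 36000 * K ^ 2 * N * δ := by rw [hδ']; ring
    have b2 : 36000 * K ^ 2 * N * δ ≤ 36000 * K ^ 2 * N * Real.sqrt δ := by gcongr
    have b3 : 9 * Real.sqrt δ' ≤ 36 * K * Real.sqrt δ := by linarith
    have b4 : 36 * K * Real.sqrt δ ≤ 4000 * K ^ 2 * N * Real.sqrt δ := by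
      have : 36 * K ≤ 4000 * K ^ 2 * N := by
        have c1 : K ≤ K ^ 2 := by nlinarith
        have c2 : K ^ 2 * 1 ≤ K ^ 2 * N := by gcongr
        nlinarith
      gcongr
    calc 300 * (12 * (N:ℝ)) * δ' + 9 * Real.sqrt δ' ≤
        36000 * K ^ 2 * N * Real.sqrt δ + 4000 * K ^ 2 * N * Real.sqrt δ := by linarith
      _ = _ := by ring
  exact mul_le_mul_of_nonneg_right key hd

end GlueHyp

end final

end Crest.Agent.R247.Glu923
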