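import Crest.Agent.R247.Ker2_585
import Crest.Agent.R247.Pl2_661
import Crest.Agent.R247.Glu6_923

-- ▼ part R247/Pln1_923
section

/-!
# R247, block (2b), Pl5' part 1 (helper923): planes from kernels, abstract form

Two nodes: `(m, k, j)` and `(m', k', j')` (finite measures, symmetric kernels, kernels to `L²(ν)`), and a
transition kernel `M`.  Hilbert–Schmidt estimates for the commutators give closeness of the planes.
-/

set_option autoImplicit false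
set_option linter.unusedSectionVars false

noncomputable section

namespace Crest.Agent.R247.Pln923

open MeasureTheory Filter Set
open scoped ENNReal InnerProductSpace
open Crest.Agent.R247.Ker585 Crest.Agent.R247.Pl2661

variable {X Y Ω : Type*} [MeasurableSpace X] [MeasurableSpace Y] [MeasurableSpace Ω]
  {m : Measure X} {m' : Measure Y} {ν : Measure Ω} [SFinite m] [SFinite m'] [SFinite ν]

/-- norm of `a • (S ∘ T) - b • (S' ∘ T')` from the kernels -/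
theorem norm_comp_sub_le {Z : Type*} [MeasurableSpace Z] {p : Measure Z} [SFinite p]
    {X' : Type*} [MeasurableSpace X'] {l : Measure X'} [SFinite l]
    {k₁ : Z → Y → ℝ} {k₂ : Y → X → ℝ} {k₃ : Z → X' → ℝ} {k₄ : X' → X → ℝ}
    (h₁ : HK p m' k₁) (h₂ : HK m' m k₂) (h₃ : HK p l k₃) (h₄ : HK l m k₄) (a b : ℝ) {B : ℝ}
    (hB : 0 ≤ B)
    (h : hs2 p m (fun z x => a * kcomp m' k₁ k₂ z x - b * kcomp l k₃ k₄ z x) ≤
      ENNReal.ofReal (B ^ 2)) :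
    ‖a • (kop h₁ ∘L kop h₂) - b • (kop h₃ ∘L kop h₄)‖ ≤ B := by
  rw [kop_comp, kop_comp, ← kop_const_mul, ← kop_const_mul, ← kop_sub]
  exact norm_kop_le' _ hB h

/-- **Closeness of planes of two nodes.** -/
theorem two_nodes {k : X → X → ℝ} {k' : Y → Y → ℝ} {M : Y → X → ℝ} {j : Ω → X → ℝ}
    {j' : Ω → Y → ℝ}
    (hk : HK m m k) (hk' : HK m' m' k') (hM : HK m' m M) (hj : HK ν m j) (hj' : HK ν m' j')
    (sk : ∀ x y, k x y = k y x) (sk' : ∀ x y, k' x y = k' y x)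
    {E : Lp ℝ 2 m →L[ℝ] Lp ℝ 2 m} {E' : Lp ℝ 2 m' →L[ℝ] Lp ℝ 2 m'} {e : ℝ}
    {Λ Λ' a a' ρ ρ' : ℝ} (hΛ : 0 < Λ) (hΛ' : 0 < Λ') (ha : 0 < a) (ha' : 0 < a')
    (hρ : 0 < ρ) (hρ' : 0 < ρ')
    (hR : Rnd (Λ⁻¹ • kop hk) E e) (hR' : Rnd (Λ'⁻¹ • kop hk') E' e) (he : e ≤ 1 / 2)
    {cJ c τ3 τ4 τ4' τ t2 : ℝ}
    (hJ : ‖kop hj‖ ≤ cJ) (hJ' : ‖kop hj'‖ ≤ cJ) (hc : 0 < c)
    (hlow : ∀ v, E v = v → c * ‖v‖ ≤ ‖kop hj v‖)
    (hlow' : ∀ v, E' v = v → c * ‖v‖ ≤ ‖kop hj' v‖)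
    (g1 : e * (ρ * Λ + ρ' * Λ') ≤ ρ * Λ / 2) (g2 : e * (ρ * Λ + ρ' * Λ') ≤ ρ' * Λ' / 2)
    (h3 : 0 ≤ τ3) (h4 : 0 ≤ τ4) (h4' : 0 ≤ τ4')
    (t3 : hs2 m' m (fun w z => ρ' * kcomp m' k' M w z - ρ * kcomp m M k w z) ≤
      ENNReal.ofReal (τ3 ^ 2))
    (t4 : hs2 ν m (fun w z => a * kcomp m' j' M w z - 1 * kcomp m j k w z) ≤
      ENNReal.ofReal (τ4 ^ 2))
    (t4' : hs2 ν m' (fun w z => a' * kcomp m j (fun x y => M y x) w z -
      1 * kcomp m' j' k' w z) ≤ ENNReal.ofReal (τ4' ^ 2))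
    (b1 : a * τ3 ≤ ρ * Λ ^ 2 * τ) (b2 : a' * τ3 ≤ ρ' * Λ' ^ 2 * τ)
    (b3 : τ4 ≤ Λ * t2) (b4 : τ4' ≤ Λ' * t2) :
    ‖plane (kop hj) E - plane (kop hj') E'‖ ≤ 4 * (2 * cJ * τ + t2) / c := by
  have p1 : 0 < ρ * Λ := mul_pos hρ hΛ
  have p2 : 0 < ρ' * Λ' := mul_pos hρ' hΛ'
  refine norm_plane_sub_le (lam1 := ρ * Λ) (lam1' := ρ' * Λ') (lam2 := ρ' * Λ') (lam2' := ρ * Λ)
    hR hR' he (kop hj) (kop hj') ((a / Λ) • kop hM)
    ((a' / Λ') • kop hM.swap) hJ hJ' hc hlow hlow' p1 p2.le p2 p1.le g1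
    (by linarith) ?_ ?_ ?_ ?_
  · have e1 : (ρ' * Λ') • ((Λ'⁻¹ • kop hk') ∘L ((a / Λ) • kop hM)) -
        (ρ * Λ) • (((a / Λ) • kop hM) ∘L (Λ⁻¹ • kop hk)) =
        (a / Λ) • (ρ' • (kop hk' ∘L kop hM) - ρ • (kop hM ∘L kop hk)) := by
      simp only [ContinuousLinearMap.smul_comp, ContinuousLinearMap.comp_smul, smul_smul, smul_sub]
      congr 2
      · field_simp
      · field_simp
    rw [e1, norm_smul, Real.norm_of_nonneg (by positivity)]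
    have e2 := norm_comp_sub_le hk' hM hM hk ρ' ρ h3 t3
    calc a / Λ * ‖ρ' • (kop hk' ∘L kop hM) - ρ • (kop hM ∘L kop hk)‖
        ≤ a / Λ * τ3 := by gcongr
      _ = (a * τ3) / Λ := by ring
      _ ≤ (ρ * Λ ^ 2 * τ) / Λ := by gcongr
      _ = ρ * Λ * τ := by field_simp
  · have e1 : (ρ * Λ) • ((Λ⁻¹ • kop hk) ∘L ((a' / Λ') • kop hM.swap)) -
        (ρ' * Λ') • (((a' / Λ') • kop hM.swap) ∘L (Λ'⁻¹ • kop hk')) =
        (a' / Λ') • (ρ • (kop hk ∘L kop hM.swap) - ρ' • (kop hM.swap ∘L kop hk')) := by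
      simp only [ContinuousLinearMap.smul_comp, ContinuousLinearMap.comp_smul, smul_smul, smul_sub]
      congr 2
      · field_simp
      · field_simp
    rw [e1, norm_smul, Real.norm_of_nonneg (by positivity)]
    have e2 := norm_comp_sub_le hk' hM hM hk ρ' ρ h3 t3
    have e3 : ‖ρ • (kop hk ∘L kop hM.swap) - ρ' • (kop hM.swap ∘L kop hk')‖ =
        ‖ρ' • (kop hk' ∘L kop hM) - ρ • (kop hM ∘L kop hk)‖ := by
      rw [← LinearIsometryEquiv.norm_map ContinuousLinearMap.adjoint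
        (ρ' • (kop hk' ∘L kop hM) - ρ • (kop hM ∘L kop hk))]
      have a1 : ContinuousLinearMap.adjoint (kop hk) = kop hk :=
        ContinuousLinearMap.isSelfAdjoint_iff'.1 (isSelfAdjoint_kop hk sk)
      have a2 : ContinuousLinearMap.adjoint (kop hk') = kop hk' :=
        ContinuousLinearMap.isSelfAdjoint_iff'.1 (isSelfAdjoint_kop hk' sk')
      rw [map_sub, map_smulₛₗ, map_smulₛₗ, ContinuousLinearMap.adjoint_comp,
        ContinuousLinearMap.adjoint_comp, a1, a2, adjoint_kop]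
      simp only [starRingEnd_apply, star_trivial]
      rw [← norm_neg]
      congr 1
      abel
    rw [e3]
    calc a' / Λ' * ‖ρ' • (kop hk' ∘L kop hM) - ρ • (kop hM ∘L kop hk)‖
        ≤ a' / Λ' * τ3 := by gcongr
      _ = (a' * τ3) / Λ' := by ring
      _ ≤ (ρ' * Λ' ^ 2 * τ) / Λ' := by gcongr
      _ = ρ' * Λ' * τ := by field_simp
  · have e1 : kop hj' ∘L ((a / Λ) • kop hM) - kop hj ∘L (Λ⁻¹ • kop hk) =
        Λ⁻¹ • (a • (kop hj' ∘L kop hM) - (1:ℝ) • (kop hj ∘L kop hk)) := by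
      simp only [ContinuousLinearMap.comp_smul, smul_smul, smul_sub]
      congr 2
      · field_simp
      · field_simp
    rw [e1, norm_smul, Real.norm_of_nonneg (by positivity)]
    have e2 := norm_comp_sub_le hj' hM hj hk a 1 h4 t4
    calc Λ⁻¹ * ‖a • (kop hj' ∘L kop hM) - (1:ℝ) • (kop hj ∘L kop hk)‖
        ≤ Λ⁻¹ * τ4 := by gcongr
      _ ≤ Λ⁻¹ * (Λ * t2) := by gcongr
      _ = t2 := by field_simp
  · have e1 : kop hj ∘L ((a' / Λ') • kop hM.swap) - kop hj' ∘L (Λ'⁻¹ • kop hk') =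
        Λ'⁻¹ • (a' • (kop hj ∘L kop hM.swap) - (1:ℝ) • (kop hj' ∘L kop hk')) := by
      simp only [ContinuousLinearMap.comp_smul, smul_smul, smul_sub]
      congr 2
      · field_simp
      · field_simp
    rw [e1, norm_smul, Real.norm_of_nonneg (by positivity)]
    have e2 := norm_comp_sub_le hj hM.swap hj' hk' a' 1 h4' t4'
    calc Λ'⁻¹ * ‖a' • (kop hj ∘L kop hM.swap) - (1:ℝ) • (kop hj' ∘L kop hk')‖
        ≤ Λ'⁻¹ * τ4' := by gcongr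
      _ ≤ Λ'⁻¹ * (Λ' * t2) := by gcongr
      _ = t2 := by field_simp

/-- **(4c) lower bound of `J` on the plane.** -/
theorem low_of_near {k : X → X → ℝ} {j : Ω → X → ℝ} (hk : HK m m k) (hj : HK ν m j)
    {E : Lp ℝ 2 m →L[ℝ] Lp ℝ 2 m} {e Λ a β : ℝ} (hΛ : 0 < Λ) (ha : 0 < a) (hβ : 0 ≤ β)
    (hR : Rnd (Λ⁻¹ • kop hk) E e)
    (hn : hs2 m m (fun u v => a * kcomp ν (fun u w => j w u) j u v - 1 * k u v) ≤
      ENNReal.ofReal (β ^ 2)) (v : Lp ℝ 2 m) (hv : E v = v) :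
    ((1 - e) * Λ - β) * ‖v‖ ^ 2 ≤ a * ‖kop hj v‖ ^ 2 := by
  have h1 : ‖a • (kop hj.swap ∘L kop hj) - (1:ℝ) • kop hk‖ ≤ β := by
    rw [kop_comp, ← kop_const_mul, ← kop_const_mul, ← kop_sub]
    exact norm_kop_le' _ hβ hn
  have h2 : ⟪v, (kop hj.swap ∘L kop hj) v⟫_ℝ = ‖kop hj v‖ ^ 2 := by
    rw [ContinuousLinearMap.comp_apply, ← adjoint_kop, ContinuousLinearMap.adjoint_inner_right,
      real_inner_self_eq_norm_sq]
  have h3 := hR.inner_A_ge hv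
  have h4 : ⟪v, (Λ⁻¹ • kop hk) v⟫_ℝ = Λ⁻¹ * ⟪v, kop hk v⟫_ℝ := by
    rw [smul_apply, real_inner_smul_right]
  rw [h4] at h3
  have h5 : (1 - e) * Λ * ‖v‖ ^ 2 ≤ ⟪v, kop hk v⟫_ℝ := by
    have := mul_le_mul_of_nonneg_left h3 hΛ.le
    calc (1 - e) * Λ * ‖v‖ ^ 2 = Λ * ((1 - e) * ‖v‖ ^ 2) := by ring
      _ ≤ Λ * (Λ⁻¹ * ⟪v, kop hk v⟫_ℝ) := this
      _ = _ := by field_simp
  have h6 : |⟪v, (a • (kop hj.swap ∘L kop hj) - (1:ℝ) • kop hk) v⟫_ℝ| ≤ β * ‖v‖ ^ 2 := by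
    refine (abs_real_inner_le_norm _ _).trans ?_
    have := (a • (kop hj.swap ∘L kop hj) - (1:ℝ) • kop hk).le_opNorm v
    calc ‖v‖ * ‖(a • (kop hj.swap ∘L kop hj) - (1:ℝ) • kop hk) v‖
        ≤ ‖v‖ * (‖a • (kop hj.swap ∘L kop hj) - (1:ℝ) • kop hk‖ * ‖v‖) := by gcongr
      _ ≤ ‖v‖ * (β * ‖v‖) := by gcongr
      _ = _ := by ring
  have h7 : ⟪v, (a • (kop hj.swap ∘L kop hj) - (1:ℝ) • kop hk) v⟫_ℝ =
      a * ‖kop hj v‖ ^ 2 - ⟪v, kop hk v⟫_ℝ := by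
    rw [sub_apply, inner_sub_right, smul_apply, smul_apply, one_smul, real_inner_smul_right, h2]
  rw [h7] at h6
  have := (abs_le.1 h6).1
  linarith

/-- lower bound in the form consumed by `two_nodes`. -/
theorem low_of_near' {k : X → X → ℝ} {j : Ω → X → ℝ} (hk : HK m m k) (hj : HK ν m j)
    {E : Lp ℝ 2 m →L[ℝ] Lp ℝ 2 m} {e Λ a β : ℝ} (hΛ : 0 < Λ) (ha : 0 < a) (hβ : 0 ≤ β)
    (hR : Rnd (Λ⁻¹ • kop hk) E e) (he : e ≤ 1 / 4) (hβΛ : β ≤ Λ / 4)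
    (hn : hs2 m m (fun u v => a * kcomp ν (fun u w => j w u) j u v - 1 * k u v) ≤
      ENNReal.ofReal (β ^ 2)) (v : Lp ℝ 2 m) (hv : E v = v) :
    Real.sqrt (Λ / (2 * a)) * ‖v‖ ≤ ‖kop hj v‖ := by
  have h1 := low_of_near hk hj hΛ ha hβ hR hn v hv
  have h2 : Λ / 2 * ‖v‖ ^ 2 ≤ a * ‖kop hj v‖ ^ 2 := by
    refine le_trans ?_ h1
    have : Λ / 2 ≤ (1 - e) * Λ - β := by nlinarith
    gcongr
  apply le_of_sq_le_sq _ (norm_nonneg _)
  rw [mul_pow, Real.sq_sqrt (by positivity)]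
  rw [div_mul_eq_mul_div, div_le_iff₀ (by positivity)]
  linarith
where
  le_of_sq_le_sq {a b : ℝ} (h : a ^ 2 ≤ b ^ 2) (hb : 0 ≤ b) : a ≤ b :=
    (le_abs_self a).trans (abs_le_of_sq_le_sq h hb)

/-- norm of an `L²` class from a bound of the integral of the square -/
theorem norm_le_of_lintegral {Z : Type*} [MeasurableSpace Z] {p : Measure Z} (f : Lp ℝ 2 p)
    {g : Z → ℝ} (hfg : f =ᵐ[p] g) {B : ℝ} (hB : 0 ≤ B)
    (h : ∫⁻ z, ‖g z‖ₑ ^ 2 ∂p ≤ ENNReal.ofReal (B ^ 2)) : ‖f‖ ≤ B := by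
  rw [Lp.norm_def]
  apply ENNReal.toReal_le_of_le_ofReal hB
  have h1 : eLpNorm f 2 p ^ 2 ≤ ENNReal.ofReal B ^ 2 := by
    rw [eLpNorm_congr_ae hfg, eLpNorm_two_sq, ← ENNReal.ofReal_pow hB]
    exact h
  exact (ENNReal.pow_le_pow_left_iff (by norm_num)).1 h1

/-- **(A1) from kernels.** -/
theorem a1_of_kernels {k : X → X → ℝ} {j : Ω → X → ℝ} (hk : HK m m k) (hj : HK ν m j)
    {E : Lp ℝ 2 m →L[ℝ] Lp ℝ 2 m} {e Λ cJ ta tb : ℝ} (hΛ : 0 < Λ) (he : e ≤ 1 / 2)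
    (hR : Rnd (Λ⁻¹ • kop hk) E e) (hJ : ‖kop hj‖ ≤ cJ) (hta : 0 ≤ ta) (htb : 0 ≤ tb)
    {f : X → ℝ} (hf : MemLp f 2 m) (v : Lp ℝ 2 ν) {g : Ω → ℝ} (hv : v =ᵐ[ν] g)
    (h1 : ∫⁻ w, ‖Λ * g w - ∫ u, j w u * f u ∂m‖ₑ ^ 2 ∂ν ≤ ENNReal.ofReal (ta ^ 2))
    (h2 : ∫⁻ z, ‖∫ u, k z u * f u ∂m - Λ * f z‖ₑ ^ 2 ∂m ≤ ENNReal.ofReal ((Λ * tb) ^ 2)) :
    ‖v - plane (kop hj) E v‖ ≤ (ta + 2 * cJ * tb) / Λ := by
  refine norm_sub_plane_of_approx hR he (kop hj) hJ v (hf.toLp f) hΛ ?_ ?_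
  · refine norm_le_of_lintegral _ (g := fun w => Λ * g w - ∫ u, j w u * f u ∂m) ?_ hta h1
    filter_upwards [Lp.coeFn_sub (Λ • v) (kop hj (hf.toLp f)), Lp.coeFn_smul Λ v, hv,
      kop_toLp hj hf] with w h3 h4 h5 h6
    rw [h3, Pi.sub_apply, h4, Pi.smul_apply, h5, h6, smul_eq_mul]
  · have h3 : (Λ⁻¹ • kop hk) (hf.toLp f) - hf.toLp f =
        Λ⁻¹ • (kop hk (hf.toLp f) - Λ • hf.toLp f) := by
      rw [smul_apply, smul_sub, smul_smul, inv_mul_cancel₀ hΛ.ne', one_smul]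
    rw [h3, norm_smul, Real.norm_of_nonneg (by positivity)]
    have h4 : ‖kop hk (hf.toLp f) - Λ • hf.toLp f‖ ≤ Λ * tb := by
      refine norm_le_of_lintegral _ (g := fun z => ∫ u, k z u * f u ∂m - Λ * f z) ?_
        (by positivity) h2
      filter_upwards [Lp.coeFn_sub (kop hk (hf.toLp f)) (Λ • hf.toLp f),
        Lp.coeFn_smul Λ (hf.toLp f), hf.coeFn_toLp, kop_toLp hk hf] with w h3 h4 h5 h6
      rw [h3, Pi.sub_apply, h4, Pi.smul_apply, h5, h6, smul_eq_mul]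
    calc Λ⁻¹ * ‖kop hk (hf.toLp f) - Λ • hf.toLp f‖ ≤ Λ⁻¹ * (Λ * tb) := by gcongr
      _ = tb := by field_simp

end Crest.Agent.R247.Pln923
end
end

-- ▼ part R247/Pln2_923

/-!
# R247, block (2b), Pl5' part 2 (helper923): nodes

A `Node` is a finite measure with a symmetric kernel, a kernel to `L²(ν)` and a round-off projection
of rank `n`.  `Node.P` is the plane (projection of `L²(ν)` of rank `n`).
-/

set_option autoImplicit false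
set_option linter.unusedSectionVars false

noncomputable section

namespace Crest.Agent.R247.Pln923

open MeasureTheory Filter Set
open scoped ENNReal InnerProductSpace
open Crest.Agent.R247.Ker585 Crest.Agent.R247.Pl2661

section rank

variable {V H : Type*} [NormedAddCommGroup V] [InnerProductSpace ℝ V] [CompleteSpace V]
  [NormedAddCommGroup H] [InnerProductSpace ℝ H] [CompleteSpace H]

/-- the plane has the rank of `E`. -/
theorem planeSub_rank {J : V →L[ℝ] H} {E : V →L[ℝ] V} (hEE : ∀ v, E (E v) = E v) {c : ℝ}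
    (hc : 0 < c) (hlow : ∀ v, E v = v → c * ‖v‖ ≤ ‖J v‖) {n : ℕ}
    (hf : FiniteDimensional ℝ (LinearMap.range E.toLinearMap))
    (hn : Module.finrank ℝ (LinearMap.range E.toLinearMap) = n) :
    FiniteDimensional ℝ (planeSub J E) ∧ Module.finrank ℝ (planeSub J E) = n := by
  set W := LinearMap.range E.toLinearMap with hW
  have hE : ∀ v ∈ W, E v = v := by
    rintro _ ⟨u, rfl⟩
    exact hEE u
  have h1 : LinearMap.range (J ∘L E : V →L[ℝ] H).toLinearMap = W.map J.toLinearMap := by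
    ext y
    constructor
    · rintro ⟨v, rfl⟩
      exact ⟨E v, ⟨v, rfl⟩, rfl⟩
    · rintro ⟨_, ⟨v, rfl⟩, rfl⟩
      exact ⟨v, rfl⟩
  have h2 : FiniteDimensional ℝ (W.map J.toLinearMap) := by infer_instance
  have h3 : planeSub J E = W.map J.toLinearMap := by
    unfold planeSub
    rw [h1]
    exact (Submodule.closed_of_finiteDimensional _).submodule_topologicalClosure_eq
  rw [h3]
  refine ⟨h2, ?_⟩
  rw [← hn]
  have hinj : Function.Injective (J.toLinearMap.domRestrict W) := by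
    rw [← LinearMap.ker_eq_bot, LinearMap.ker_eq_bot']
    intro v hv
    have h4 := hlow v (hE v v.2)
    have h5 : J v = 0 := hv
    rw [h5, norm_zero] at h4
    have h6 : ‖(v : V)‖ = 0 := by
      have := norm_nonneg (v : V)
      nlinarith
    exact Subtype.ext (norm_eq_zero.1 h6)
  have h7 : W.map J.toLinearMap = LinearMap.range (J.toLinearMap.domRestrict W) := by
    ext y
    constructor
    · rintro ⟨v, hv, rfl⟩
      exact ⟨⟨v, hv⟩, rfl⟩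
    · rintro ⟨v, rfl⟩
      exact ⟨v, v.2, rfl⟩
  rw [h7]
  exact LinearMap.finrank_range_of_inj hinj

end rank

variable {X Y Ω : Type*} [MeasurableSpace X] [MeasurableSpace Y] [MeasurableSpace Ω]
  {m : Measure X} {m' : Measure Y} {ν : Measure Ω} [SFinite m] [SFinite m'] [SFinite ν]

/-- A node; `s` is the size of the mass (`s = rⁿ` at scale `r`). -/
structure Node (m : Measure X) (ν : Measure Ω) [SFinite m] [SFinite ν] (k : X → X → ℝ)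
    (j : Ω → X → ℝ) (Λ e Q s : ℝ) (n : ℕ) where
  hk : HK m m k
  sk : ∀ x y, k x y = k y x
  hj : HK ν m j
  E : Lp ℝ 2 m →L[ℝ] Lp ℝ 2 m
  R : Rnd (Λ⁻¹ • kop hk) E e
  fin : FiniteDimensional ℝ (LinearMap.range E.toLinearMap)
  rank : Module.finrank ℝ (LinearMap.range E.toLinearMap) = n
  low : ∀ v, E v = v → Q⁻¹ * Real.sqrt s * ‖v‖ ≤ ‖kop hj v‖
  up : ‖kop hj‖ ≤ Q * Real.sqrt s
  s_pos : 0 < s
  Q_ge : 1 ≤ Q
  Λ_ge : Q⁻¹ * s ≤ Λ
  Λ_le : Λ ≤ Q * s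
  e_half : e ≤ 1 / 4

namespace Node

variable {k : X → X → ℝ} {k' : Y → Y → ℝ} {j : Ω → X → ℝ} {j' : Ω → Y → ℝ}
  {Λ Λ' e Q s : ℝ} {n : ℕ}

/-- the plane of a node -/
def P (N : Node m ν k j Λ e Q s n) : Lp ℝ 2 ν →L[ℝ] Lp ℝ 2 ν := plane (kop N.hj) N.E

theorem isProj (N : Node m ν k j Λ e Q s n) : Glu923.IsProj N.P := by
  refine ⟨plane_idem _ _, fun u v => ?_⟩
  have h := plane_isSelfAdjoint (kop N.hj) N.E
  have h1 : ContinuousLinearMap.adjoint N.P = N.P := by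
    rwa [ContinuousLinearMap.isSelfAdjoint_iff'] at h
  conv_lhs => rw [← h1]
  exact ContinuousLinearMap.adjoint_inner_left _ _ _

theorem Q_pos (N : Node m ν k j Λ e Q s n) : 0 < Q := by
  have := N.Q_ge
  linarith

theorem Λ_pos (N : Node m ν k j Λ e Q s n) : 0 < Λ :=
  (mul_pos (inv_pos.2 N.Q_pos) N.s_pos).trans_le N.Λ_ge

theorem s_le_QΛ (N : Node m ν k j Λ e Q s n) : s ≤ Q * Λ := by
  have h := mul_le_mul_of_nonneg_left N.Λ_ge N.Q_pos.le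
  rwa [← mul_assoc, mul_inv_cancel₀ N.Q_pos.ne', one_mul] at h

theorem e_nonneg (N : Node m ν k j Λ e Q s n) : 0 ≤ e := N.R.e_nonneg

theorem exists_range (N : Node m ν k j Λ e Q s n) : ∃ V : Submodule ℝ (Lp ℝ 2 ν),
    FiniteDimensional ℝ V ∧ Module.finrank ℝ V = n ∧ ∀ v, N.P v ∈ V := by
  have h := planeSub_rank (J := kop N.hj) N.R.EE
    (mul_pos (inv_pos.2 N.Q_pos) (Real.sqrt_pos.2 N.s_pos)) N.low N.fin N.rank
  exact ⟨planeSub (kop N.hj) N.E, h.1, h.2, fun v => plane_apply_mem _ _ v⟩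

/-- change of the constants -/
def weaken (N : Node m ν k j Λ e Q s n) {Q' s' : ℝ} (hs' : 0 < s') (hQ : Q ≤ Q')
    (h1 : Q * s ≤ Q' * s') (h2 : Q * s' ≤ Q' * s) : Node m ν k j Λ e Q' s' n where
  hk := N.hk
  sk := N.sk
  hj := N.hj
  E := N.E
  R := N.R
  fin := N.fin
  rank := N.rank
  s_pos := hs'
  Q_ge := N.Q_ge.trans hQ
  e_half := N.e_half
  Λ_le := N.Λ_le.trans h1
  Λ_ge := by
    refine le_trans ?_ N.Λ_ge
    have hQ0 := N.Q_pos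
    have hQ' : 0 < Q' := hQ0.trans_le hQ
    rw [inv_mul_le_iff₀ hQ', ← mul_assoc, mul_comm Q' Q⁻¹, mul_assoc, le_inv_mul_iff₀ hQ0]
    exact h2
  up := by
    refine N.up.trans ?_
    have hQ0 := N.Q_pos
    have hQ' : 0 < Q' := hQ0.trans_le hQ
    have h3 : Q * Real.sqrt s = Real.sqrt (Q * (Q * s)) := by
      rw [← mul_assoc, Real.sqrt_mul (by positivity), Real.sqrt_mul_self hQ0.le]
    have h4 : Q' * Real.sqrt s' = Real.sqrt (Q' * (Q' * s')) := by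
      rw [← mul_assoc, Real.sqrt_mul (by positivity), Real.sqrt_mul_self hQ'.le]
    rw [h3, h4]
    apply Real.sqrt_le_sqrt
    have := N.s_pos
    exact mul_le_mul hQ h1 (by positivity) hQ'.le
  low := fun v hv => by
    refine le_trans ?_ (N.low v hv)
    have hQ0 := N.Q_pos
    have hQ' : 0 < Q' := hQ0.trans_le hQ
    refine mul_le_mul_of_nonneg_right ?_ (norm_nonneg _)
    have h3 : Q⁻¹ * Real.sqrt s = Real.sqrt (Q⁻¹ * (Q⁻¹ * s)) := by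
      rw [← mul_assoc, Real.sqrt_mul (by positivity), Real.sqrt_mul_self (by positivity)]
    have h4 : Q'⁻¹ * Real.sqrt s' = Real.sqrt (Q'⁻¹ * (Q'⁻¹ * s')) := by
      rw [← mul_assoc, Real.sqrt_mul (by positivity), Real.sqrt_mul_self (by positivity)]
    rw [h3, h4]
    apply Real.sqrt_le_sqrt
    have := N.s_pos
    have h5 : Q'⁻¹ ≤ Q⁻¹ := inv_anti₀ hQ0 hQ
    refine mul_le_mul h5 ?_ (by positivity) (by positivity)
    rw [inv_mul_le_iff₀ hQ', ← mul_assoc, mul_comm Q' Q⁻¹, mul_assoc, le_inv_mul_iff₀ hQ0]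
    exact h2

@[simp] theorem weaken_P (N : Node m ν k j Λ e Q s n) {Q' s' : ℝ} (hs' : 0 < s') (hQ : Q ≤ Q')
    (h1 : Q * s ≤ Q' * s') (h2 : Q * s' ≤ Q' * s) : (N.weaken hs' hQ h1 h2).P = N.P := rfl

/-- **Closeness of the planes of two nodes.** -/
theorem norm_sub_le (N : Node m ν k j Λ e Q s n) (N' : Node m' ν k' j' Λ' e Q s n)
    (he : 4 * Q ^ 4 * e ≤ 1)
    {M : Y → X → ℝ} (hM : HK m' m M) {a a' ρ ρ' τ3 τ4 : ℝ} (ha : 0 < a) (ha' : 0 < a')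
    (ha2 : a ≤ Q) (ha2' : a' ≤ Q) (hρ : Q⁻¹ ≤ ρ) (hρ2 : ρ ≤ Q) (hρ' : Q⁻¹ ≤ ρ') (hρ2' : ρ' ≤ Q)
    (h3 : 0 ≤ τ3) (h4 : 0 ≤ τ4)
    (t3 : hs2 m' m (fun w z => ρ' * kcomp m' k' M w z - ρ * kcomp m M k w z) ≤
      ENNReal.ofReal ((s ^ 2 * τ3) ^ 2))
    (t4 : hs2 ν m (fun w z => a * kcomp m' j' M w z - 1 * kcomp m j k w z) ≤
      ENNReal.ofReal ((s * Real.sqrt s * τ4) ^ 2))
    (t4' : hs2 ν m' (fun w z => a' * kcomp m j (fun x y => M y x) w z -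
      1 * kcomp m' j' k' w z) ≤ ENNReal.ofReal ((s * Real.sqrt s * τ4) ^ 2)) :
    ‖N.P - N'.P‖ ≤ 8 * Q ^ 6 * τ3 + 4 * Q ^ 2 * τ4 := by
  have hQ := N.Q_ge
  have hQ0 := N.Q_pos
  have hs := N.s_pos
  have hΛ := N.Λ_pos
  have hΛ' := N'.Λ_pos
  have he0 := N.e_nonneg
  have h5 := N.s_le_QΛ
  have h6 := N'.s_le_QΛ
  have hss : 0 < Real.sqrt s := Real.sqrt_pos.2 hs
  have hi : 0 < Q⁻¹ := inv_pos.2 hQ0
  have hρ0 : 0 < ρ := hi.trans_le hρ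
  have hρ0' : 0 < ρ' := hi.trans_le hρ'
  have g : ∀ {L σ : ℝ}, s ≤ Q * L → 0 < L → Q⁻¹ ≤ σ → e * (ρ * Λ + ρ' * Λ') ≤ σ * L / 2 := by
    intro L σ hL hL0 hσ
    have h7 : e * (ρ * Λ + ρ' * Λ') ≤ e * (2 * Q ^ 2 * s) := by
      have h8 : ρ * Λ ≤ Q * (Q * s) := mul_le_mul hρ2 N.Λ_le hΛ.le hQ0.le
      have h9 : ρ' * Λ' ≤ Q * (Q * s) := mul_le_mul hρ2' N'.Λ_le hΛ'.le hQ0.le
      refine mul_le_mul_of_nonneg_left ?_ he0
      nlinarith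
    have h8 : e * (2 * Q ^ 2 * s) ≤ e * (2 * Q ^ 2 * (Q * L)) := by gcongr
    have h9 : e * (2 * Q ^ 2 * (Q * L)) = (4 * Q ^ 4 * e) * (Q⁻¹ * L / 2) := by
      field_simp
      ring
    have h10 : (4 * Q ^ 4 * e) * (Q⁻¹ * L / 2) ≤ 1 * (Q⁻¹ * L / 2) := by gcongr
    have h11 : Q⁻¹ * L ≤ σ * L := by gcongr
    linarith
  have hbs : ∀ {b t L σ : ℝ}, s ≤ Q * L → 0 < L → 0 < b → b ≤ Q → 0 ≤ t → Q⁻¹ ≤ σ →
      b * (s ^ 2 * t) ≤ σ * L ^ 2 * (Q ^ 4 * t) := by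
    intro b t L σ hL hL0 hb hb2 ht hσ
    have h7 : s ^ 2 ≤ (Q * L) ^ 2 := by gcongr
    calc b * (s ^ 2 * t) ≤ Q * ((Q * L) ^ 2 * t) := by gcongr
      _ = Q⁻¹ * L ^ 2 * (Q ^ 4 * t) := by field_simp
      _ ≤ _ := by gcongr
  have hbt : ∀ {t L : ℝ}, s ≤ Q * L → 0 ≤ t → s * Real.sqrt s * t ≤ L * (Q * Real.sqrt s * t) := by
    intro t L hL ht
    calc s * Real.sqrt s * t ≤ (Q * L) * Real.sqrt s * t := by gcongr
      _ = _ := by ring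
  have := two_nodes N.hk N'.hk hM N.hj N'.hj N.sk N'.sk hΛ hΛ' ha ha' hρ0 hρ0' N.R N'.R
    (by linarith [N.e_half]) N.up N'.up (mul_pos (inv_pos.2 hQ0) hss) N.low N'.low (g h5 hΛ hρ)
    (g h6 hΛ' hρ') (by positivity) (by positivity) (by positivity) t3 t4 t4'
    (hbs h5 hΛ ha ha2 h3 hρ)
    (hbs h6 hΛ' ha' ha2' h3 hρ') (hbt h5 h4) (hbt h6 h4)
  refine this.trans (le_of_eq ?_)
  field_simp
  ring

/-- **(A1) for a node.** -/
theorem norm_sub_P_le (N : Node m ν k j Λ e Q s n) {ta tb : ℝ} (hta : 0 ≤ ta) (htb : 0 ≤ tb)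
    {f : X → ℝ} (hf : MemLp f 2 m) (v : Lp ℝ 2 ν) {g : Ω → ℝ} (hv : v =ᵐ[ν] g)
    (h1 : ∫⁻ w, ‖Λ * g w - ∫ u, j w u * f u ∂m‖ₑ ^ 2 ∂ν ≤ ENNReal.ofReal ((s * ta) ^ 2))
    (h2 : ∫⁻ z, ‖∫ u, k z u * f u ∂m - Λ * f z‖ₑ ^ 2 ∂m ≤
      ENNReal.ofReal ((s * Real.sqrt s * tb) ^ 2)) :
    ‖v - N.P v‖ ≤ Q * ta + 2 * Q ^ 3 * tb := by
  have hQ := N.Q_ge
  have hQ0 := N.Q_pos
  have hs := N.s_pos
  have hss : 0 < Real.sqrt s := Real.sqrt_pos.2 hs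
  have hΛ := N.Λ_pos
  have h5 := N.s_le_QΛ
  have h3 := a1_of_kernels N.hk N.hj hΛ (by linarith [N.e_half]) N.R N.up
    (ta := s * ta) (by positivity)
    (tb := s * Real.sqrt s * tb / Λ) (by positivity) hf v hv h1 (by
      rw [mul_div_cancel₀ _ hΛ.ne']
      exact h2)
  refine h3.trans ?_
  have h6 : s * Λ⁻¹ ≤ Q := by
    rw [← div_eq_mul_inv, div_le_iff₀ hΛ]
    exact h5
  have h7 : (s * ta + 2 * (Q * Real.sqrt s) * (s * Real.sqrt s * tb / Λ)) / Λ =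
      ta * (s * Λ⁻¹) + 2 * Q * tb * (s * Λ⁻¹) ^ 2 := by
    have : Real.sqrt s * Real.sqrt s = s := Real.mul_self_sqrt hs.le
    calc (s * ta + 2 * (Q * Real.sqrt s) * (s * Real.sqrt s * tb / Λ)) / Λ =
        (s * ta + 2 * Q * (Real.sqrt s * Real.sqrt s) * (s * tb / Λ)) / Λ := by ring
      _ = _ := by
        rw [this]
        field_simp
  rw [h7]
  have hi : 0 ≤ s * Λ⁻¹ := by positivity
  calc ta * (s * Λ⁻¹) + 2 * Q * tb * (s * Λ⁻¹) ^ 2 ≤ ta * Q + 2 * Q * tb * Q ^ 2 := by gcongr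
    _ = _ := by ring

end Node

/-! ### Hilbert–Schmidt bounds from pointwise bounds -/

theorem two_mul_le' (a b : ℝ≥0∞) : a * b + a * b ≤ a ^ 2 + b ^ 2 := by
  rcases le_total a b with h | h
  · obtain ⟨c, rfl⟩ := exists_add_of_le h
    calc a * (a + c) + a * (a + c) ≤ (a * (a + c) + a * (a + c)) + c ^ 2 := le_self_add
      _ = _ := by ring
  · obtain ⟨c, rfl⟩ := exists_add_of_le h
    calc (b + c) * b + (b + c) * b ≤ ((b + c) * b + (b + c) * b) + c ^ 2 := le_self_add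
      _ = _ := by ring

theorem add3_sq_le (a b c : ℝ≥0∞) : (a + b + c) ^ 2 ≤ 3 * (a ^ 2 + b ^ 2 + c ^ 2) := by
  calc (a + b + c) ^ 2 = a ^ 2 + b ^ 2 + c ^ 2 + (a * b + a * b) + (a * c + a * c)
        + (b * c + b * c) := by ring
    _ ≤ a ^ 2 + b ^ 2 + c ^ 2 + (a ^ 2 + b ^ 2) + (a ^ 2 + c ^ 2) + (b ^ 2 + c ^ 2) :=
        add_le_add (add_le_add (add_le_add le_rfl (two_mul_le' a b)) (two_mul_le' a c))
          (two_mul_le' b c)
    _ = _ := by ring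

/-- Hilbert–Schmidt bound from a pointwise bound `c₀ + b w + a z`. -/
theorem hs2_le_of_bound {κ : Y → X → ℝ} {c₀ : ℝ≥0∞} {b : Y → ℝ≥0∞} {a : X → ℝ≥0∞}
    (ha : AEMeasurable a m) (hb : AEMeasurable b m')
    (h : ∀ᵐ w ∂m', ∀ᵐ z ∂m, ‖κ w z‖ₑ ≤ c₀ + b w + a z) :
    hs2 m' m κ ≤ 3 * (c₀ ^ 2 * (m univ * m' univ) + m univ * ∫⁻ w, b w ^ 2 ∂m'
      + m' univ * ∫⁻ z, a z ^ 2 ∂m) := by
  unfold hs2
  have ha2 : AEMeasurable (fun z => a z ^ 2) m := ha.pow_const 2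
  have hb2 : AEMeasurable (fun w => b w ^ 2) m' := hb.pow_const 2
  calc ∫⁻ w, ∫⁻ z, ‖κ w z‖ₑ ^ 2 ∂m ∂m'
      ≤ ∫⁻ w, 3 * (c₀ ^ 2 * m univ + m univ * b w ^ 2 + ∫⁻ z, a z ^ 2 ∂m) ∂m' := by
        refine lintegral_mono_ae ?_
        filter_upwards [h] with w hw
        calc ∫⁻ z, ‖κ w z‖ₑ ^ 2 ∂m ≤ ∫⁻ z, (3 * (c₀ ^ 2 + b w ^ 2) + 3 * a z ^ 2) ∂m := by
              refine lintegral_mono_ae ?_
              filter_upwards [hw] with z hz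
              calc ‖κ w z‖ₑ ^ 2 ≤ (c₀ + b w + a z) ^ 2 := by gcongr
                _ ≤ 3 * (c₀ ^ 2 + b w ^ 2 + a z ^ 2) := add3_sq_le _ _ _
                _ = _ := by ring
          _ = _ := by
              rw [lintegral_add_left measurable_const, lintegral_const,
                lintegral_const_mul'' _ ha2]
              ring
    _ = _ := by
        rw [lintegral_const_mul' _ _ (by simp), lintegral_add_right _ measurable_const,
          lintegral_add_left measurable_const, lintegral_const, lintegral_const,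
          lintegral_const_mul'' _ hb2]
        ring

end Crest.Agent.R247.Pln923
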