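import Crest.Agent.R247.Pl6_661
import Crest.Agent.R247.Pln2_923
import Crest.Agent.R247.Ker4_585

-- ▼ part R247/Pl7_661
section

/-!
R247 block (2b), helper661: the pointwise kernel estimates (T1)-(T6) in `ℝ≥0∞` form
(interface of helper923, msg 6892).
-/

set_option autoImplicit false
set_option linter.unusedSectionVars false

noncomputable section

namespace Crest.Agent.R247.Pl7661

open MeasureTheory Set Filter Topology Crest.Agent.R247.Pl4661 Crest.Agent.R247.Pl5661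
  Crest.Agent.R247.Pl6661
open scoped ENNReal
open Crest.Agent.R247.Gap79 (K P)

variable {X W : Type*} [MeasurableSpace X] [MeasurableSpace W]
variable {vol : Measure X} {R : X → (X → ℝ) → (X → ℝ) → Prop}
    {f : X → X → ℝ} {G : X → X → X → ℝ} {h : W → X → ℝ} {Gh : X → W → X → ℝ}
    {B : Set X} {F : ℝ} {η η' φt : ℝ → ℝ} {cη : ℝ} {n : ℕ}

theorem MB.nonneg (E : Env vol R f G h Gh B F) {x : X} {β : ℝ} (hm : MB vol R n B x β) :
    0 ≤ β := by
  have h1 := hm _ _ 1 (E.Rconst x 0) (fun _ _ => rfl) (fun _ => by simp)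
  have h2 := (abs_nonneg _).trans h1
  linarith

/-- half of the constant -/
def Dc (F cη : ℝ) : ℝ := (1 + cη) * (1000 * (1 + F) ^ 2)

theorem C1_eq (n : ℕ) (F cη : ℝ) : C1 n F cη = 2 ^ n * Dc F cη := by
  unfold C1 Dc; ring

theorem Dc_facts {F cη : ℝ} (hF : 0 ≤ F) (hc : 0 ≤ cη) :
    1 ≤ Dc F cη ∧ 2 * F ≤ Dc F cη ∧ F * cη ≤ Dc F cη ∧ 6 * F ≤ Dc F cη ∧
    (1 + 3 * F * cη) ≤ Dc F cη ∧ 16 * (3 * F) * (3 * F) * cη * 2 ≤ Dc F cη ∧
    8 * cη * (3 * F) ≤ Dc F cη ∧ 8 * cη * F ≤ Dc F cη ∧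
    8 * cη * (3 * F) + 8 * cη * (3 * F) + 64 * cη * (3 * F) * (3 * F) ≤ Dc F cη ∧
    16 * (3 * F) * F * cη * 2 ≤ Dc F cη ∧
    8 * cη * F + 64 * cη * (3 * F) * F ≤ Dc F cη ∧
    16 * (3 * F) * (3 * F) * cη ≤ Dc F cη ∧ 16 * F * (3 * F) * cη ≤ Dc F cη := by
  have e : Dc F cη = 1000 * (1 + 2 * F + F ^ 2 + cη + 2 * (F * cη) + F ^ 2 * cη) := by
    unfold Dc; ring
  have p1 : 0 ≤ F * cη := mul_nonneg hF hc
  have p2 : 0 ≤ F ^ 2 := by positivity
  have p3 : 0 ≤ F ^ 2 * cη := mul_nonneg p2 hc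
  rw [e]
  refine ⟨?_, ?_, ?_, ?_, ?_, ?_, ?_, ?_, ?_, ?_, ?_, ?_, ?_⟩ <;> nlinarith

theorem one_le_two_pow' (n : ℕ) : (1 : ℝ) ≤ 2 ^ n := one_le_pow₀ (by norm_num)

theorem two_pow_nn (n : ℕ) : (0 : ℝ) ≤ 2 ^ n := by positivity

theorem Dc_le_C1 {F cη : ℝ} (hF : 0 ≤ F) (hc : 0 ≤ cη) (n : ℕ) : Dc F cη ≤ C1 n F cη := by
  rw [C1_eq]
  have h1 := (Dc_facts hF hc).1
  have h2 := one_le_two_pow' n
  nlinarith

/-- conversion to `ℝ≥0∞` -/
theorem ofReal_int {m : Measure X} {g : X → ℝ} (hg : Integrable g m) :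
    ENNReal.ofReal (∫ u, |g u| ∂m) = ∫⁻ u, ‖g u‖ₑ ∂m := by
  have := ofReal_integral_norm_eq_lintegral_enorm hg
  simpa [Real.norm_eq_abs] using this

theorem enorm_le_of (a C : ℝ) (hC : 0 ≤ C) {S : ℝ} (h : |a| ≤ C * S) :
    ‖a‖ₑ ≤ ENNReal.ofReal C * ENNReal.ofReal S := by
  rw [← ofReal_norm, Real.norm_eq_abs, ← ENNReal.ofReal_mul hC]
  exact ENNReal.ofReal_le_ofReal h

section T

variable {x y : X} (E : Env vol R f G h Gh B F) (c : Cut η η' φt cη) (hn : 1 ≤ n)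
  (hxB : x ∈ B) (hyB : y ∈ B) {L β : ℝ} (hfx : Far f B L x) (hfy : Far f B L y)
  (hmx : MB vol R n B x β) (hmy : MB vol R n B y β) {c0 : ℝ}
  (hL : |f y x - c0| ≤ L)

include E c hxB hyB hfx hmx hmy hL

theorem T1 (w : W) :
    ‖(∫ u, φt (f x u) ∂vol) * (h w y - h w x)
        - ∫ u, (h w u - h w x) * (K f x u y - c0) * η (f x u) ∂vol‖ₑ
      ≤ ENNReal.ofReal (C1 n F cη) * (ENNReal.ofReal β + (∫⁻ u in B, ‖EE h Gh x u w‖ₑ ∂vol)
        + (∫⁻ u in B, ‖EE h Gh y u w‖ₑ ∂vol) + ∫⁻ u in B, ‖P f G x y u - c0‖ₑ ∂vol) := by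
  have hF := E.F0
  have hc := c.cη0
  have hβ := MB.nonneg E hmx
  have h1 := T1_real E c hxB hyB hfx hmx hmy hL (c0 := c0) w
  have d := Dc_facts hF hc
  have dC := Dc_le_C1 hF hc n
  have n1 : 0 ≤ ∫ u in B, |EE h Gh x u w| ∂vol := integral_nonneg fun _ => abs_nonneg _
  have n2 : 0 ≤ ∫ u in B, |EE h Gh y u w| ∂vol := integral_nonneg fun _ => abs_nonneg _
  have n3 : 0 ≤ ∫ u in B, |P f G x y u - c0| ∂vol := integral_nonneg fun _ => abs_nonneg _
  rw [← ofReal_int (int_EE E hxB w), ← ofReal_int (int_EE E hyB w),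
    ← ofReal_int (int_Pc E hxB hyB c0), ← ENNReal.ofReal_add hβ n1,
    ← ENNReal.ofReal_add (add_nonneg hβ n1) n2,
    ← ENNReal.ofReal_add (add_nonneg (add_nonneg hβ n1) n2) n3]
  refine enorm_le_of _ _ (by linarith [d.1]) (h1.trans ?_)
  have q0 := mul_le_mul_of_nonneg_right (d.2.1.trans dC) hβ
  have q1 := mul_le_mul_of_nonneg_right (d.1.trans dC) n1
  have q2 := mul_le_mul_of_nonneg_right (d.1.trans dC) n2
  have q3 := mul_le_mul_of_nonneg_right (d.2.2.1.trans dC) n3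
  linarith

theorem T2 {z : X} (hz : z ∈ B) (hc0 : |c0| ≤ F) :
    ‖(∫ u, K f x z u * (K f x u y - c0) * η (f x u) ∂vol)
        - (∫ u, φt (f x u) ∂vol) * (K f x z y - c0)‖ₑ
      ≤ ENNReal.ofReal (C1 n F cη) * (ENNReal.ofReal β + (∫⁻ u in B, ‖P f G x z u‖ₑ ∂vol)
        + (∫⁻ u in B, ‖P f G y z u‖ₑ ∂vol) + ∫⁻ u in B, ‖P f G x y u - c0‖ₑ ∂vol) := by
  have hF := E.F0
  have hc := c.cη0
  have hβ := MB.nonneg E hmx
  have h1 := T2_real E c hxB hyB hfx hmx hmy hL hz hc0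
  have d := Dc_facts hF hc
  have dC := Dc_le_C1 hF hc n
  have n1 : 0 ≤ ∫ u in B, |P f G x z u| ∂vol := integral_nonneg fun _ => abs_nonneg _
  have n2 : 0 ≤ ∫ u in B, |P f G y z u| ∂vol := integral_nonneg fun _ => abs_nonneg _
  have n3 : 0 ≤ ∫ u in B, |P f G x y u - c0| ∂vol := integral_nonneg fun _ => abs_nonneg _
  rw [← ofReal_int (int_P E hxB hz), ← ofReal_int (int_P E hyB hz),
    ← ofReal_int (int_Pc E hxB hyB c0), ← ENNReal.ofReal_add hβ n1,
    ← ENNReal.ofReal_add (add_nonneg hβ n1) n2,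
    ← ENNReal.ofReal_add (add_nonneg (add_nonneg hβ n1) n2) n3]
  refine enorm_le_of _ _ (by linarith [d.1]) (h1.trans ?_)
  have q0 := mul_le_mul_of_nonneg_right (d.2.2.2.1.trans dC) hβ
  have q1 := mul_le_mul_of_nonneg_right (d.1.trans dC) n1
  have q2 := mul_le_mul_of_nonneg_right (d.1.trans dC) n2
  have q3 := mul_le_mul_of_nonneg_right (d.2.2.2.2.1.trans dC) n3
  linarith

include hn hfy

theorem T3 {z w : X} (hz : z ∈ B) (hw : w ∈ B) (hc0 : |c0| ≤ F) :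
    ‖(∫ v, K f y w v * (K f x z v - K f x z y + c0) * η (f y v) ∂vol)
        - ∫ u, (K f y w u - K f y w x + c0) * K f x z u * η (f x u) ∂vol‖ₑ
      ≤ ENNReal.ofReal (C1 n F cη) * (ENNReal.ofReal β + (∫⁻ u in B, ‖P f G x z u‖ₑ ∂vol)
        + (∫⁻ u in B, ‖P f G y z u‖ₑ ∂vol) + (∫⁻ u in B, ‖P f G x w u‖ₑ ∂vol)
        + (∫⁻ u in B, ‖P f G y w u‖ₑ ∂vol) + ∫⁻ u in B, ‖P f G x y u - c0‖ₑ ∂vol) := by
  have hF := E.F0
  have hc := c.cη0
  have hβ := MB.nonneg E hmx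
  have h1 := T3_real E c hn hxB hyB hfx hfy hmx hmy hL hz hw hc0
  have d := Dc_facts hF hc
  have dC := Dc_le_C1 hF hc n
  have n1 : 0 ≤ ∫ u in B, |P f G x z u| ∂vol := integral_nonneg fun _ => abs_nonneg _
  have n2 : 0 ≤ ∫ u in B, |P f G y z u| ∂vol := integral_nonneg fun _ => abs_nonneg _
  have n3 : 0 ≤ ∫ u in B, |P f G x w u| ∂vol := integral_nonneg fun _ => abs_nonneg _
  have n4 : 0 ≤ ∫ u in B, |P f G y w u| ∂vol := integral_nonneg fun _ => abs_nonneg _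
  have n5 : 0 ≤ ∫ u in B, |P f G x y u - c0| ∂vol := integral_nonneg fun _ => abs_nonneg _
  rw [← ofReal_int (int_P E hxB hz), ← ofReal_int (int_P E hyB hz),
    ← ofReal_int (int_P E hxB hw), ← ofReal_int (int_P E hyB hw),
    ← ofReal_int (int_Pc E hxB hyB c0), ← ENNReal.ofReal_add hβ n1,
    ← ENNReal.ofReal_add (add_nonneg hβ n1) n2,
    ← ENNReal.ofReal_add (add_nonneg (add_nonneg hβ n1) n2) n3,
    ← ENNReal.ofReal_add (add_nonneg (add_nonneg (add_nonneg hβ n1) n2) n3) n4,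
    ← ENNReal.ofReal_add (add_nonneg (add_nonneg (add_nonneg (add_nonneg hβ n1) n2) n3) n4) n5]
  refine enorm_le_of _ _ (by linarith [d.1]) (h1.trans ?_)
  rw [C1_eq, mul_assoc (2 ^ n) (Dc F cη)]
  refine mul_le_mul_of_nonneg_left ?_ (two_pow_nn n)
  have q0 := mul_le_mul_of_nonneg_right d.2.2.2.2.2.1 hβ
  have q1 := mul_le_mul_of_nonneg_right d.2.2.2.2.2.2.1 n1
  have q2 := mul_le_mul_of_nonneg_right d.2.2.2.2.2.2.1 n2
  have q3 := mul_le_mul_of_nonneg_right d.2.2.2.2.2.2.1 n3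
  have q4 := mul_le_mul_of_nonneg_right d.2.2.2.2.2.2.1 n4
  have q5 := mul_le_mul_of_nonneg_right d.2.2.2.2.2.2.2.2.1 n5
  linarith

theorem T4 {z : X} (hz : z ∈ B) (w : W) (hc0 : |c0| ≤ F) :
    ‖(∫ v, (h w v - h w y) * (K f x z v - K f x z y + c0) * η (f y v) ∂vol)
        - ∫ u, (h w u - h w x) * K f x z u * η (f x u) ∂vol‖ₑ
      ≤ ENNReal.ofReal (C1 n F cη) * (ENNReal.ofReal β + (∫⁻ u in B, ‖P f G x z u‖ₑ ∂vol)
        + (∫⁻ u in B, ‖P f G y z u‖ₑ ∂vol) + (∫⁻ u in B, ‖EE h Gh x u w‖ₑ ∂vol)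
        + (∫⁻ u in B, ‖EE h Gh y u w‖ₑ ∂vol) + ∫⁻ u in B, ‖P f G x y u - c0‖ₑ ∂vol) := by
  have hF := E.F0
  have hc := c.cη0
  have hβ := MB.nonneg E hmx
  have h1 := T4_real E c hn hxB hyB hfx hfy hmx hmy hL hz w hc0
  have d := Dc_facts hF hc
  have dC := Dc_le_C1 hF hc n
  have n1 : 0 ≤ ∫ u in B, |P f G x z u| ∂vol := integral_nonneg fun _ => abs_nonneg _
  have n2 : 0 ≤ ∫ u in B, |P f G y z u| ∂vol := integral_nonneg fun _ => abs_nonneg _
  have n3 : 0 ≤ ∫ u in B, |EE h Gh x u w| ∂vol := integral_nonneg fun _ => abs_nonneg _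
  have n4 : 0 ≤ ∫ u in B, |EE h Gh y u w| ∂vol := integral_nonneg fun _ => abs_nonneg _
  have n5 : 0 ≤ ∫ u in B, |P f G x y u - c0| ∂vol := integral_nonneg fun _ => abs_nonneg _
  rw [← ofReal_int (int_P E hxB hz), ← ofReal_int (int_P E hyB hz),
    ← ofReal_int (int_EE E hxB w), ← ofReal_int (int_EE E hyB w),
    ← ofReal_int (int_Pc E hxB hyB c0), ← ENNReal.ofReal_add hβ n1,
    ← ENNReal.ofReal_add (add_nonneg hβ n1) n2,
    ← ENNReal.ofReal_add (add_nonneg (add_nonneg hβ n1) n2) n3,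
    ← ENNReal.ofReal_add (add_nonneg (add_nonneg (add_nonneg hβ n1) n2) n3) n4,
    ← ENNReal.ofReal_add (add_nonneg (add_nonneg (add_nonneg (add_nonneg hβ n1) n2) n3) n4) n5]
  refine enorm_le_of _ _ (by linarith [d.1]) (h1.trans ?_)
  rw [C1_eq, mul_assoc (2 ^ n) (Dc F cη)]
  refine mul_le_mul_of_nonneg_left ?_ (two_pow_nn n)
  have q0 := mul_le_mul_of_nonneg_right d.2.2.2.2.2.2.2.2.2.1 hβ
  have q1 := mul_le_mul_of_nonneg_right d.2.2.2.2.2.2.2.1 n1
  have q2 := mul_le_mul_of_nonneg_right d.2.2.2.2.2.2.2.1 n2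
  have q3 := mul_le_mul_of_nonneg_right d.2.2.2.2.2.2.1 n3
  have q4 := mul_le_mul_of_nonneg_right d.2.2.2.2.2.2.1 n4
  have q5 := mul_le_mul_of_nonneg_right d.2.2.2.2.2.2.2.2.2.2.1 n5
  linarith

end T

section S

variable {x : X} (E : Env vol R f G h Gh B F) (c : Cut η η' φt cη) (hn : 1 ≤ n)
  (hxB : x ∈ B) {L β : ℝ} (hfx : Far f B L x)
  (hmx : MB vol R n B x β) (hL : 0 ≤ L)

include E c hn hxB hfx hmx hL

theorem T5 {z w : X} (hz : z ∈ B) (hw : w ∈ B) :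
    ‖2 ^ (n + 2) * (∫ v, K f x w v * K f x z v * η (4 * f x v) ∂vol)
        - ∫ u, K f x w u * K f x z u * η (f x u) ∂vol‖ₑ
      ≤ ENNReal.ofReal (C1 n F cη) * (ENNReal.ofReal β + (∫⁻ u in B, ‖P f G x z u‖ₑ ∂vol)
        + ∫⁻ u in B, ‖P f G x w u‖ₑ ∂vol) := by
  have hF := E.F0
  have hc := c.cη0
  have hβ := MB.nonneg E hmx
  have h1 := T5_real E c hn hxB hfx hmx hL hz hw
  have d := Dc_facts hF hc
  have dC := Dc_le_C1 hF hc n
  have n1 : 0 ≤ ∫ u in B, |P f G x z u| ∂vol := integral_nonneg fun _ => abs_nonneg _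
  have n2 : 0 ≤ ∫ u in B, |P f G x w u| ∂vol := integral_nonneg fun _ => abs_nonneg _
  rw [← ofReal_int (int_P E hxB hz), ← ofReal_int (int_P E hxB hw),
    ← ENNReal.ofReal_add hβ n1, ← ENNReal.ofReal_add (add_nonneg hβ n1) n2]
  refine enorm_le_of _ _ (by linarith [d.1]) (h1.trans ?_)
  rw [C1_eq, mul_assoc (2 ^ n) (Dc F cη)]
  refine mul_le_mul_of_nonneg_left ?_ (two_pow_nn n)
  have q0 := mul_le_mul_of_nonneg_right d.2.2.2.2.2.2.2.2.2.2.2.1 hβ
  have q1 := mul_le_mul_of_nonneg_right d.2.2.2.2.2.2.1 n1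
  have q2 := mul_le_mul_of_nonneg_right d.2.2.2.2.2.2.1 n2
  linarith

theorem T6 {z : X} (hz : z ∈ B) (w : W) :
    ‖2 ^ (n + 2) * (∫ v, (h w v - h w x) * K f x z v * η (4 * f x v) ∂vol)
        - ∫ u, (h w u - h w x) * K f x z u * η (f x u) ∂vol‖ₑ
      ≤ ENNReal.ofReal (C1 n F cη) * (ENNReal.ofReal β + (∫⁻ u in B, ‖P f G x z u‖ₑ ∂vol)
        + ∫⁻ u in B, ‖EE h Gh x u w‖ₑ ∂vol) := by
  have hF := E.F0
  have hc := c.cη0
  have hβ := MB.nonneg E hmx
  have h1 := T6_real E c hn hxB hfx hmx hL hz w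
  have d := Dc_facts hF hc
  have dC := Dc_le_C1 hF hc n
  have n1 : 0 ≤ ∫ u in B, |P f G x z u| ∂vol := integral_nonneg fun _ => abs_nonneg _
  have n2 : 0 ≤ ∫ u in B, |EE h Gh x u w| ∂vol := integral_nonneg fun _ => abs_nonneg _
  rw [← ofReal_int (int_P E hxB hz), ← ofReal_int (int_EE E hxB w),
    ← ENNReal.ofReal_add hβ n1, ← ENNReal.ofReal_add (add_nonneg hβ n1) n2]
  refine enorm_le_of _ _ (by linarith [d.1]) (h1.trans ?_)
  rw [C1_eq, mul_assoc (2 ^ n) (Dc F cη)]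
  refine mul_le_mul_of_nonneg_left ?_ (two_pow_nn n)
  have q0 := mul_le_mul_of_nonneg_right d.2.2.2.2.2.2.2.2.2.2.2.2 hβ
  have q1 := mul_le_mul_of_nonneg_right d.2.2.2.2.2.2.2.1 n1
  have q2 := mul_le_mul_of_nonneg_right d.2.2.2.2.2.2.1 n2
  linarith

end S

end Crest.Agent.R247.Pl7661
end
end

-- ▼ part R247/Pln4_923
section

/-!
# R247, block (2b), Pl5' part 4 (helper923): Hilbert–Schmidt integration of (T1)–(T6)
-/

set_option autoImplicit false
set_option linter.unusedSectionVars false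

noncomputable section

namespace Crest.Agent.R247.Pln923

open MeasureTheory Filter Set
open scoped ENNReal InnerProductSpace
open Crest.Agent.R247.Ker585 Crest.Agent.R247.Pl2661
open Crest.Agent.R247.Gap79 (K P)
open Crest.Agent.R247.Pl6661 (EE)

variable {X W : Type*} [MeasurableSpace X] [MeasurableSpace W]

/-- the measure with density `η (f x ·)` -/
def mm (vol : Measure X) (f : X → X → ℝ) (η : ℝ → ℝ) (x : X) : Measure X :=
  vol.withDensity (fun u => ENNReal.ofReal (η (f x u)))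

instance (vol : Measure X) [SFinite vol] (f : X → X → ℝ) (η : ℝ → ℝ) (x : X) :
    SFinite (mm vol f η x) := by
  unfold mm; infer_instance

/-- hypotheses on the density at `x` -/
structure Den (vol : Measure X) (f : X → X → ℝ) (η : ℝ → ℝ) (B : Set X) (Q s : ℝ) (x : X) :
    Prop where
  mf : Measurable (f x)
  mη : Measurable η
  η0 : ∀ t, 0 ≤ η t
  ηQ : ∀ t, η t ≤ Q
  out : ∀ u, u ∉ B → η (f x u) = 0
  mB : MeasurableSet B
  volB : vol B ≤ ENNReal.ofReal (Q * s)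
  Q1 : 1 ≤ Q
  s0 : 0 < s

namespace Den

variable {vol : Measure X} {f : X → X → ℝ} {η : ℝ → ℝ} {B : Set X} {Q s : ℝ} {x : X}
  (d : Den vol f η B Q s x)
include d

theorem mden : Measurable (fun u => ENNReal.ofReal (η (f x u))) :=
  (d.mη.comp d.mf).ennreal_ofReal

theorem lintegral_le (g : X → ℝ≥0∞) :
    ∫⁻ u, g u ∂(mm vol f η x) ≤ ENNReal.ofReal Q * ∫⁻ u in B, g u ∂vol := by
  have h1 : ∫⁻ u, g u ∂(mm vol f η x) ≤ ∫⁻ u, ENNReal.ofReal (η (f x u)) * g u ∂vol := by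
    unfold mm
    exact lintegral_withDensity_le_lintegral_mul vol d.mden g
  refine h1.trans ?_
  rw [← lintegral_const_mul' _ _ ENNReal.ofReal_ne_top, ← lintegral_indicator d.mB]
  refine lintegral_mono fun u => ?_
  by_cases hu : u ∈ B
  · simp only [indicator_of_mem hu]
    gcongr
    exact d.ηQ _
  · simp only [indicator_of_notMem hu]
    rw [d.out _ hu, ENNReal.ofReal_zero, zero_mul]

theorem integral_eq (g : X → ℝ) :
    ∫ u, g u ∂(mm vol f η x) = ∫ u, g u * η (f x u) ∂vol := by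
  unfold mm
  rw [integral_withDensity_eq_integral_toReal_smul d.mden
    (Eventually.of_forall fun u => ENNReal.ofReal_lt_top)]
  refine integral_congr_ae (Eventually.of_forall fun u => ?_)
  simp only [smul_eq_mul]
  rw [ENNReal.toReal_ofReal (d.η0 _), mul_comm]

theorem univ_le : mm vol f η x univ ≤ ENNReal.ofReal (Q ^ 2 * s) := by
  have h := d.lintegral_le (fun _ => 1)
  rw [lintegral_one, lintegral_one, Measure.restrict_apply_univ] at h
  refine h.trans ?_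
  have hQ := d.Q1
  calc ENNReal.ofReal Q * vol B ≤ ENNReal.ofReal Q * ENNReal.ofReal (Q * s) := by
        gcongr
        exact d.volB
    _ = ENNReal.ofReal (Q ^ 2 * s) := by
        rw [← ENNReal.ofReal_mul (by linarith)]
        congr 1
        ring

theorem finite : IsFiniteMeasure (mm vol f η x) :=
  ⟨d.univ_le.trans_lt ENNReal.ofReal_lt_top⟩

theorem ae_mem : ∀ᵐ u ∂(mm vol f η x), u ∈ B := by
  rw [ae_iff]
  have h := d.lintegral_le (fun u => {u | ¬ u ∈ B}.indicator (fun _ => 1) u)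
  have hm : MeasurableSet {u | ¬ u ∈ B} := d.mB.compl
  rw [lintegral_indicator_const hm, one_mul] at h
  have h2 : ∫⁻ u in B, {u | ¬ u ∈ B}.indicator (fun _ => (1:ℝ≥0∞)) u ∂vol = 0 := by
    rw [lintegral_eq_zero_iff' ((measurable_const.indicator hm).aemeasurable)]
    filter_upwards [ae_restrict_mem d.mB] with u hu
    simp [hu]
  rw [h2, mul_zero] at h
  exact le_antisymm h (zero_le)

end Den

/-! ### numerical form of the Hilbert–Schmidt bound -/

theorem three_bound {c₀ p p' ib ia : ℝ≥0∞} {c r r' jb ja : ℝ} (hc : 0 ≤ c) (hr : 0 ≤ r)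
    (hr' : 0 ≤ r') (hjb : 0 ≤ jb) (hja : 0 ≤ ja) (h1 : c₀ ≤ ENNReal.ofReal c)
    (h2 : p ≤ ENNReal.ofReal r) (h3 : p' ≤ ENNReal.ofReal r') (h4 : ib ≤ ENNReal.ofReal jb)
    (h5 : ia ≤ ENNReal.ofReal ja) :
    3 * (c₀ ^ 2 * (p * p') + p * ib + p' * ia) ≤
      ENNReal.ofReal (3 * (c ^ 2 * (r * r') + r * jb + r' * ja)) := by
  have e : ENNReal.ofReal (3 * (c ^ 2 * (r * r') + r * jb + r' * ja)) =
      3 * (ENNReal.ofReal c ^ 2 * (ENNReal.ofReal r * ENNReal.ofReal r') +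
        ENNReal.ofReal r * ENNReal.ofReal jb + ENNReal.ofReal r' * ENNReal.ofReal ja) := by
    rw [ENNReal.ofReal_mul (by norm_num), ENNReal.ofReal_add (by positivity) (by positivity),
      ENNReal.ofReal_add (by positivity) (by positivity), ENNReal.ofReal_mul (by positivity),
      ENNReal.ofReal_mul hr, ENNReal.ofReal_mul hr, ENNReal.ofReal_mul hr', ENNReal.ofReal_pow hc]
    norm_num
  rw [e]
  gcongr

section HS

variable {m m' : Measure X} {ν : Measure W} [SFinite m] [SFinite m'] [SFinite ν]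
  {Q s ε : ℝ} {C : ℝ}

/-- (T3), (T5) integrated. -/
theorem hs_T3 {κ : X → X → ℝ} {A : X → ℝ≥0∞} {g₀ : ℝ≥0∞} (hQ : 1 ≤ Q) (hs : 0 < s) (hε : 0 ≤ ε)
    (hC : 0 ≤ C) (hCQ : C ≤ Q)
    (hm : m univ ≤ ENNReal.ofReal (Q ^ 2 * s)) (hm' : m' univ ≤ ENNReal.ofReal (Q ^ 2 * s))
    (mA : AEMeasurable A m) (mA' : AEMeasurable A m')
    (hA : ∫⁻ z, A z ^ 2 ∂m ≤ ENNReal.ofReal (4 * Q ^ 3 * s ^ 3 * ε ^ 2))
    (hA' : ∫⁻ z, A z ^ 2 ∂m' ≤ ENNReal.ofReal (4 * Q ^ 3 * s ^ 3 * ε ^ 2))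
    (hg : g₀ ≤ ENNReal.ofReal (2 * Q * s * ε))
    (h : ∀ᵐ w ∂m', ∀ᵐ z ∂m, ‖κ w z‖ₑ ≤ ENNReal.ofReal C * (g₀ + A w + A z)) :
    hs2 m' m κ ≤ ENNReal.ofReal ((s ^ 2 * (6 * Q ^ 4 * ε)) ^ 2) := by
  have h1 := hs2_le_of_bound (κ := κ) (c₀ := ENNReal.ofReal C * g₀)
    (b := fun w => ENNReal.ofReal C * A w) (a := fun z => ENNReal.ofReal C * A z)
    (mA.const_mul _) (mA'.const_mul _) (by
      filter_upwards [h] with w hw
      filter_upwards [hw] with z hz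
      refine hz.trans (le_of_eq ?_)
      ring)
  refine h1.trans ?_
  have e1 : ∀ p : Measure X, ∀ mp : AEMeasurable A p,
      ∫⁻ z, (ENNReal.ofReal C * A z) ^ 2 ∂p = ENNReal.ofReal C ^ 2 * ∫⁻ z, A z ^ 2 ∂p := by
    intro p mp
    simp_rw [mul_pow]
    exact lintegral_const_mul'' _ (mp.pow_const 2)
  rw [e1 m mA, e1 m' mA']
  have h2 : ENNReal.ofReal C * g₀ ≤ ENNReal.ofReal (C * (2 * Q * s * ε)) := by
    rw [ENNReal.ofReal_mul hC]
    gcongr
  have h3 : ∀ {I : ℝ≥0∞}, I ≤ ENNReal.ofReal (4 * Q ^ 3 * s ^ 3 * ε ^ 2) →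
      ENNReal.ofReal C ^ 2 * I ≤ ENNReal.ofReal (C ^ 2 * (4 * Q ^ 3 * s ^ 3 * ε ^ 2)) := by
    intro I hI
    rw [ENNReal.ofReal_mul (by positivity), ENNReal.ofReal_pow hC]
    gcongr
  have hQ0 : 0 < Q := by linarith
  refine (three_bound (by positivity) (by positivity) (by positivity) (by positivity)
    (by positivity) h2 hm hm' (h3 hA') (h3 hA)).trans (ENNReal.ofReal_le_ofReal ?_)
  have hC2 : C ^ 2 ≤ Q ^ 2 := by gcongr
  calc 3 * ((C * (2 * Q * s * ε)) ^ 2 * (Q ^ 2 * s * (Q ^ 2 * s)) +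
        Q ^ 2 * s * (C ^ 2 * (4 * Q ^ 3 * s ^ 3 * ε ^ 2)) +
        Q ^ 2 * s * (C ^ 2 * (4 * Q ^ 3 * s ^ 3 * ε ^ 2)))
      = C ^ 2 * ((12 * Q ^ 6 + 24 * Q ^ 5) * (s ^ 4 * ε ^ 2)) := by ring
    _ ≤ Q ^ 2 * ((12 * Q ^ 6 + 24 * Q ^ 6) * (s ^ 4 * ε ^ 2)) := by
        have h9 : Q ^ 5 ≤ Q ^ 6 := pow_le_pow_right₀ hQ (by norm_num)
        gcongr
    _ = _ := by ring

/-- (T4), (T6) integrated. -/
theorem hs_T4 {κ : W → X → ℝ} {A : X → ℝ≥0∞} {D : W → ℝ≥0∞} {g₀ : ℝ≥0∞} (hQ : 1 ≤ Q)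
    (hs : 0 < s) (hε : 0 ≤ ε) (hC : 0 ≤ C) (hCQ : C ≤ Q)
    (hm : m univ ≤ ENNReal.ofReal (Q ^ 2 * s)) (hν : ν univ ≤ 1)
    (mA : AEMeasurable A m) (mD : AEMeasurable D ν)
    (hA : ∫⁻ z, A z ^ 2 ∂m ≤ ENNReal.ofReal (4 * Q ^ 3 * s ^ 3 * ε ^ 2))
    (hD : ∫⁻ w, D w ^ 2 ∂ν ≤ ENNReal.ofReal (4 * Q ^ 2 * s ^ 2 * ε ^ 2))
    (hg : g₀ ≤ ENNReal.ofReal (2 * Q * s * ε))
    (h : ∀ᵐ w ∂ν, ∀ᵐ z ∂m, ‖κ w z‖ₑ ≤ ENNReal.ofReal C * (g₀ + D w + A z)) :
    hs2 ν m κ ≤ ENNReal.ofReal ((s * Real.sqrt s * (6 * Q ^ 3 * ε)) ^ 2) := by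
  have h1 := hs2_le_of_bound (κ := κ) (c₀ := ENNReal.ofReal C * g₀)
    (b := fun w => ENNReal.ofReal C * D w) (a := fun z => ENNReal.ofReal C * A z)
    (mA.const_mul _) (mD.const_mul _) (by
      filter_upwards [h] with w hw
      filter_upwards [hw] with z hz
      refine hz.trans (le_of_eq ?_)
      ring)
  refine h1.trans ?_
  have e1 : ∫⁻ z, (ENNReal.ofReal C * A z) ^ 2 ∂m = ENNReal.ofReal C ^ 2 * ∫⁻ z, A z ^ 2 ∂m := by
    simp_rw [mul_pow]
    exact lintegral_const_mul'' _ (mA.pow_const 2)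
  have e2 : ∫⁻ z, (ENNReal.ofReal C * D z) ^ 2 ∂ν = ENNReal.ofReal C ^ 2 * ∫⁻ z, D z ^ 2 ∂ν := by
    simp_rw [mul_pow]
    exact lintegral_const_mul'' _ (mD.pow_const 2)
  rw [e1, e2]
  have h2 : ENNReal.ofReal C * g₀ ≤ ENNReal.ofReal (C * (2 * Q * s * ε)) := by
    rw [ENNReal.ofReal_mul hC]
    gcongr
  have h3 : ENNReal.ofReal C ^ 2 * (∫⁻ z, A z ^ 2 ∂m) ≤
      ENNReal.ofReal (C ^ 2 * (4 * Q ^ 3 * s ^ 3 * ε ^ 2)) := by
    rw [ENNReal.ofReal_mul (by positivity), ENNReal.ofReal_pow hC]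
    gcongr
  have h4 : ENNReal.ofReal C ^ 2 * (∫⁻ z, D z ^ 2 ∂ν) ≤
      ENNReal.ofReal (C ^ 2 * (4 * Q ^ 2 * s ^ 2 * ε ^ 2)) := by
    rw [ENNReal.ofReal_mul (by positivity), ENNReal.ofReal_pow hC]
    gcongr
  have hν' : ν univ ≤ ENNReal.ofReal 1 := by rwa [ENNReal.ofReal_one]
  have hQ0 : 0 < Q := by linarith
  refine (three_bound (by positivity) (by positivity) zero_le_one (by positivity)
    (by positivity) h2 hm hν' h4 h3).trans (ENNReal.ofReal_le_ofReal ?_)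
  have hC2 : C ^ 2 ≤ Q ^ 2 := by gcongr
  calc 3 * ((C * (2 * Q * s * ε)) ^ 2 * (Q ^ 2 * s * 1) +
        Q ^ 2 * s * (C ^ 2 * (4 * Q ^ 2 * s ^ 2 * ε ^ 2)) +
        1 * (C ^ 2 * (4 * Q ^ 3 * s ^ 3 * ε ^ 2)))
      = C ^ 2 * ((12 * Q ^ 4 + 12 * Q ^ 4 + 12 * Q ^ 3) * (s ^ 3 * ε ^ 2)) := by ring
    _ ≤ Q ^ 2 * ((12 * Q ^ 4 + 12 * Q ^ 4 + 12 * Q ^ 4) * (s ^ 3 * ε ^ 2)) := by
        have h9 : Q ^ 3 ≤ Q ^ 4 := pow_le_pow_right₀ hQ (by norm_num)
        gcongr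
    _ = s ^ 2 * s * (6 * Q ^ 3 * ε) ^ 2 := by ring
    _ = _ := by
        have : Real.sqrt s ^ 2 = s := Real.sq_sqrt hs.le
        calc s ^ 2 * s * (6 * Q ^ 3 * ε) ^ 2 = s ^ 2 * Real.sqrt s ^ 2 * (6 * Q ^ 3 * ε) ^ 2 := by
              rw [this]
          _ = _ := by ring

/-- (T1) integrated. -/
theorem hs_T1 {g : W → ℝ} {D : W → ℝ≥0∞} {g₀ : ℝ≥0∞} (hQ : 1 ≤ Q)
    (hs : 0 < s) (hε : 0 ≤ ε) (hC : 0 ≤ C) (hCQ : C ≤ Q) (hν : ν univ ≤ 1)
    (mD : AEMeasurable D ν)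
    (hD : ∫⁻ w, D w ^ 2 ∂ν ≤ ENNReal.ofReal (4 * Q ^ 2 * s ^ 2 * ε ^ 2))
    (hg : g₀ ≤ ENNReal.ofReal (2 * Q * s * ε))
    (h : ∀ᵐ w ∂ν, ‖g w‖ₑ ≤ ENNReal.ofReal C * (g₀ + D w)) :
    ∫⁻ w, ‖g w‖ₑ ^ 2 ∂ν ≤ ENNReal.ofReal ((s * (5 * Q ^ 2 * ε)) ^ 2) := by
  have h2 : ∀ a b : ℝ≥0∞, (a + b) ^ 2 ≤ 2 * (a ^ 2 + b ^ 2) := fun a b => by
    calc (a + b) ^ 2 = a ^ 2 + b ^ 2 + (a * b + a * b) := by ring
      _ ≤ a ^ 2 + b ^ 2 + (a ^ 2 + b ^ 2) := by
          refine add_le_add le_rfl ?_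
          have := two_mul_le' a b
          calc a * b + a * b = 2 * (a * b) := by ring
            _ = 2 * a * b := by ring
            _ ≤ _ := by first | exact this | (refine le_trans (le_of_eq ?_) this; ring)
      _ = _ := by ring
  have hQ0 : 0 < Q := by linarith
  calc ∫⁻ w, ‖g w‖ₑ ^ 2 ∂ν
      ≤ ∫⁻ w, (2 * (ENNReal.ofReal C * g₀) ^ 2 + 2 * ENNReal.ofReal C ^ 2 * D w ^ 2) ∂ν := by
        refine lintegral_mono_ae ?_
        filter_upwards [h] with w hw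
        calc ‖g w‖ₑ ^ 2 ≤ (ENNReal.ofReal C * g₀ + ENNReal.ofReal C * D w) ^ 2 := by
              gcongr
              exact hw.trans (le_of_eq (mul_add _ _ _))
          _ ≤ _ := h2 _ _
          _ = _ := by ring
    _ = 2 * (ENNReal.ofReal C * g₀) ^ 2 * ν univ +
        2 * ENNReal.ofReal C ^ 2 * ∫⁻ w, D w ^ 2 ∂ν := by
        rw [lintegral_add_left measurable_const, lintegral_const,
          lintegral_const_mul'' _ (mD.pow_const 2)]
    _ ≤ 2 * (ENNReal.ofReal Q * ENNReal.ofReal (2 * Q * s * ε)) ^ 2 * 1 +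
        2 * ENNReal.ofReal Q ^ 2 * ENNReal.ofReal (4 * Q ^ 2 * s ^ 2 * ε ^ 2) := by
        gcongr
    _ = ENNReal.ofReal (2 * (Q * (2 * Q * s * ε)) ^ 2 + 2 * Q ^ 2 * (4 * Q ^ 2 * s ^ 2 * ε ^ 2)) := by
        rw [ENNReal.ofReal_add (by positivity) (by positivity),
          ENNReal.ofReal_mul (p := 2) (by norm_num),
          ENNReal.ofReal_mul (p := 2 * Q ^ 2) (by positivity), ENNReal.ofReal_mul (p := 2)
            (by norm_num),
          ENNReal.ofReal_pow (p := Q * (2 * Q * s * ε)) (by positivity),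
          ENNReal.ofReal_pow (p := Q) (by positivity),
          ENNReal.ofReal_mul (p := Q) hQ0.le, mul_one]
        norm_num
    _ ≤ _ := by
        apply ENNReal.ofReal_le_ofReal
        have : 0 ≤ Q ^ 4 * s ^ 2 * ε ^ 2 := by positivity
        nlinarith

/-- (T2) integrated. -/
theorem hs_T2 {g : X → ℝ} {A : X → ℝ≥0∞} {g₀ : ℝ≥0∞} (hQ : 1 ≤ Q)
    (hs : 0 < s) (hε : 0 ≤ ε) (hC : 0 ≤ C) (hCQ : C ≤ Q)
    (hm : m univ ≤ ENNReal.ofReal (Q ^ 2 * s))
    (mA : AEMeasurable A m)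
    (hA : ∫⁻ z, A z ^ 2 ∂m ≤ ENNReal.ofReal (4 * Q ^ 3 * s ^ 3 * ε ^ 2))
    (hg : g₀ ≤ ENNReal.ofReal (2 * Q * s * ε))
    (h : ∀ᵐ z ∂m, ‖g z‖ₑ ≤ ENNReal.ofReal C * (g₀ + A z)) :
    ∫⁻ z, ‖g z‖ₑ ^ 2 ∂m ≤ ENNReal.ofReal ((s * Real.sqrt s * (5 * Q ^ 3 * ε)) ^ 2) := by
  have h2 : ∀ a b : ℝ≥0∞, (a + b) ^ 2 ≤ 2 * (a ^ 2 + b ^ 2) := fun a b => by
    calc (a + b) ^ 2 = a ^ 2 + b ^ 2 + (a * b + a * b) := by ring
      _ ≤ a ^ 2 + b ^ 2 + (a ^ 2 + b ^ 2) := by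
          refine add_le_add le_rfl ?_
          have := two_mul_le' a b
          calc a * b + a * b = 2 * (a * b) := by ring
            _ = 2 * a * b := by ring
            _ ≤ _ := by first | exact this | (refine le_trans (le_of_eq ?_) this; ring)
      _ = _ := by ring
  have hQ0 : 0 < Q := by linarith
  calc ∫⁻ z, ‖g z‖ₑ ^ 2 ∂m
      ≤ ∫⁻ z, (2 * (ENNReal.ofReal C * g₀) ^ 2 + 2 * ENNReal.ofReal C ^ 2 * A z ^ 2) ∂m := by
        refine lintegral_mono_ae ?_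
        filter_upwards [h] with w hw
        calc ‖g w‖ₑ ^ 2 ≤ (ENNReal.ofReal C * g₀ + ENNReal.ofReal C * A w) ^ 2 := by
              gcongr
              exact hw.trans (le_of_eq (mul_add _ _ _))
          _ ≤ _ := h2 _ _
          _ = _ := by ring
    _ = 2 * (ENNReal.ofReal C * g₀) ^ 2 * m univ +
        2 * ENNReal.ofReal C ^ 2 * ∫⁻ z, A z ^ 2 ∂m := by
        rw [lintegral_add_left measurable_const, lintegral_const,
          lintegral_const_mul'' _ (mA.pow_const 2)]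
    _ ≤ 2 * (ENNReal.ofReal Q * ENNReal.ofReal (2 * Q * s * ε)) ^ 2 * ENNReal.ofReal (Q ^ 2 * s) +
        2 * ENNReal.ofReal Q ^ 2 * ENNReal.ofReal (4 * Q ^ 3 * s ^ 3 * ε ^ 2) := by
        gcongr
    _ = ENNReal.ofReal (2 * (Q * (2 * Q * s * ε)) ^ 2 * (Q ^ 2 * s) +
          2 * Q ^ 2 * (4 * Q ^ 3 * s ^ 3 * ε ^ 2)) := by
        rw [ENNReal.ofReal_add (by positivity) (by positivity),
          ENNReal.ofReal_mul (p := 2 * (Q * (2 * Q * s * ε)) ^ 2) (by positivity),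
          ENNReal.ofReal_mul (p := 2) (by norm_num),
          ENNReal.ofReal_mul (p := 2 * Q ^ 2) (by positivity), ENNReal.ofReal_mul (p := 2)
            (by norm_num),
          ENNReal.ofReal_pow (p := Q * (2 * Q * s * ε)) (by positivity),
          ENNReal.ofReal_pow (p := Q) (by positivity),
          ENNReal.ofReal_mul (p := Q) hQ0.le]
        norm_num
    _ ≤ ENNReal.ofReal (s ^ 2 * s * (5 * Q ^ 3 * ε) ^ 2) := by
        apply ENNReal.ofReal_le_ofReal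
        have h5 : 0 ≤ s ^ 3 * ε ^ 2 := by positivity
        have h6 : Q ^ 5 ≤ Q ^ 6 := pow_le_pow_right₀ hQ (by norm_num)
        have h7 : Q ^ 5 * (s ^ 3 * ε ^ 2) ≤ Q ^ 6 * (s ^ 3 * ε ^ 2) := by gcongr
        have h8 : 0 ≤ Q ^ 6 * (s ^ 3 * ε ^ 2) := by positivity
        nlinarith
    _ = _ := by
        congr 1
        have : Real.sqrt s ^ 2 = s := Real.sq_sqrt hs.le
        calc s ^ 2 * s * (5 * Q ^ 3 * ε) ^ 2 = s ^ 2 * Real.sqrt s ^ 2 * (5 * Q ^ 3 * ε) ^ 2 := by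
              rw [this]
          _ = _ := by ring

end HS

end Crest.Agent.R247.Pln923
end
end

-- ▼ part R247/Pln5_923
section

/-!
# R247, block (2b), Pl5' part 5 (helper923): (A1), (A2) for a pair of nodes at one scale
-/

set_option autoImplicit false
set_option linter.unusedSectionVars false

noncomputable section

namespace Crest.Agent.R247.Pln923

open MeasureTheory Filter Set
open scoped ENNReal InnerProductSpace
open Crest.Agent.R247.Ker585 Crest.Agent.R247.Pl2661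
open Crest.Agent.R247.Gap79 (K P)
open Crest.Agent.R247.Pl5661 (Env Cut MB Far)
open Crest.Agent.R247.Pl6661 (EE C1)

variable {X W : Type*} [MeasurableSpace X] [MeasurableSpace W]

/-- `∫_B |P_{x,z}|` -/
def aP (vol : Measure X) (f : X → X → ℝ) (G : X → X → X → ℝ) (B : Set X) (x z : X) : ℝ≥0∞ :=
  ∫⁻ u in B, ‖P f G x z u‖ₑ ∂vol

/-- `∫_B |e_x(·, w)|` -/
def aE (vol : Measure X) (h : W → X → ℝ) (Gh : X → W → X → ℝ) (B : Set X) (x : X) (w : W) :
    ℝ≥0∞ := ∫⁻ u in B, ‖EE h Gh x u w‖ₑ ∂vol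

/-- one centre -/
structure One (vol : Measure X) (ν : Measure W) (R : X → (X → ℝ) → (X → ℝ) → Prop)
    (f : X → X → ℝ) (G : X → X → X → ℝ) (h : W → X → ℝ) (Gh : X → W → X → ℝ)
    (B : Set X) (F : ℝ) (n : ℕ) (L β Q s ε : ℝ) (x : X) : Prop where
  xB : x ∈ B
  far : Far f B L x
  mb : MB vol R n B x β
  mG : Measurable (fun p : X × X => G x p.1 p.2)
  mGh : Measurable (fun p : W × X => Gh x p.1 p.2)
  LL : ∫⁻ v in B, ∫⁻ u in B, ‖P f G x v u‖ₑ ^ 2 ∂vol ∂vol ≤ ENNReal.ofReal (Q * s ^ 2 * ε ^ 2)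
  FF : ∫⁻ w, ∫⁻ u in B, ‖EE h Gh x u w‖ₑ ^ 2 ∂vol ∂ν ≤ ENNReal.ofReal (Q * s * ε ^ 2)

/-- common data -/
structure Com (vol : Measure X) (ν : Measure W) (R : X → (X → ℝ) → (X → ℝ) → Prop)
    (f : X → X → ℝ) (G : X → X → X → ℝ) (h : W → X → ℝ) (Gh : X → W → X → ℝ)
    (B : Set X) (F : ℝ) (η η' φt : ℝ → ℝ) (cη : ℝ) (n : ℕ) (L β Q s ε : ℝ) : Prop where
  E : Env vol R f G h Gh B F
  c : Cut η η' φt cη
  hn : 1 ≤ n
  Q1 : 1 ≤ Q
  s0 : 0 < s
  ε0 : 0 ≤ ε
  CQ : C1 n F cη ≤ Q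
  cQ : cη ≤ Q
  volB : vol B ≤ ENNReal.ofReal (Q * s)
  βle : β ≤ Q * s * ε
  ν1 : ν univ ≤ 1
  L0 : 0 ≤ L

theorem C1_nonneg {n : ℕ} {F cη : ℝ} (hF : 0 ≤ F) (hc : 0 ≤ cη) : 0 ≤ C1 n F cη := by
  unfold C1; positivity

section

variable {vol : Measure X} [SFinite vol] {ν : Measure W} [SFinite ν]
  {R : X → (X → ℝ) → (X → ℝ) → Prop}
  {f : X → X → ℝ} {G : X → X → X → ℝ} {h : W → X → ℝ} {Gh : X → W → X → ℝ}
  {B : Set X} {F : ℝ} {η η' φt : ℝ → ℝ} {cη : ℝ} {n : ℕ} {L β Q s ε : ℝ}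

section com

variable (d : Com vol ν R f G h Gh B F η η' φt cη n L β Q s ε)
include d

theorem Com.den {x : X} (hx : Far f B L x) : Den vol f η B Q s x where
  mf := d.E.mfa x
  mη := d.c.cont_η.measurable
  η0 := d.c.η0
  ηQ := fun t => (d.c.bη t).trans d.cQ
  out := fun u hu => (d.c.far _ (by have := hx u hu; have := d.L0; linarith)).1
  mB := d.E.mB
  volB := d.volB
  Q1 := d.Q1
  s0 := d.s0

theorem Com.mPj {x : X} (hG : Measurable (fun p : X × X => G x p.1 p.2)) :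
    Measurable (fun p : X × X => P f G x p.1 p.2) := by
  unfold P
  have h1 : Measurable (fun p : X × X => f x p.2) := (d.E.mfa x).comp measurable_snd
  have h2 : Measurable (fun p : X × X => f p.1 p.2) := d.E.mf
  have h3 : Measurable (fun p : X × X => f x p.1) := (d.E.mfa x).comp measurable_fst
  exact ((hG.sub h1).sub h2).add h3

theorem Com.mEj {x : X} (hG : Measurable (fun p : W × X => Gh x p.1 p.2)) :
    Measurable (fun p : W × X => EE h Gh x p.2 p.1) := by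
  unfold EE
  have h1 : Measurable (fun p : W × X => h p.1 p.2) := d.E.mh
  have h2 : Measurable (fun p : W × X => h p.1 x) :=
    d.E.mh.comp (measurable_fst.prodMk measurable_const)
  exact hG.sub (h1.sub h2)

theorem Com.maP {x : X} (hG : Measurable (fun p : X × X => G x p.1 p.2)) :
    Measurable (aP vol f G B x) := by
  unfold aP
  exact Measurable.lintegral_prod_right' (f := fun p : X × X => ‖P f G x p.1 p.2‖ₑ)
    (d.mPj hG).enorm

theorem Com.maE {x : X} (hG : Measurable (fun p : W × X => Gh x p.1 p.2)) :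
    Measurable (aE vol h Gh B x) := by
  unfold aE
  exact Measurable.lintegral_prod_right' (f := fun p : W × X => ‖EE h Gh x p.2 p.1‖ₑ)
    (d.mEj hG).enorm

theorem Com.aP_sq {x : X} (o : One vol ν R f G h Gh B F n L β Q s ε x) :
    ∫⁻ z in B, aP vol f G B x z ^ 2 ∂vol ≤ ENNReal.ofReal (Q ^ 2 * s ^ 3 * ε ^ 2) := by
  have hQ := d.Q1
  have hs := d.s0
  have hm : ∀ z, AEMeasurable (fun u => ‖P f G x z u‖ₑ) (vol.restrict B) := fun z =>
    ((d.mPj o.mG).comp (measurable_const.prodMk measurable_id)).enorm.aemeasurable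
  calc ∫⁻ z in B, aP vol f G B x z ^ 2 ∂vol
      ≤ ∫⁻ z in B, vol B * ∫⁻ u in B, ‖P f G x z u‖ₑ ^ 2 ∂vol ∂vol := by
        refine lintegral_mono fun z => ?_
        have := Gap79.sq_lintegral_le (vol.restrict B) (hm z)
        rwa [Measure.restrict_apply_univ] at this
    _ = vol B * ∫⁻ z in B, ∫⁻ u in B, ‖P f G x z u‖ₑ ^ 2 ∂vol ∂vol :=
        lintegral_const_mul' _ _ d.E.fin
    _ ≤ ENNReal.ofReal (Q * s) * ENNReal.ofReal (Q * s ^ 2 * ε ^ 2) :=
        mul_le_mul' d.volB o.LL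
    _ = _ := by
        rw [← ENNReal.ofReal_mul (by positivity)]
        congr 1
        ring

theorem Com.aE_sq {x : X} (o : One vol ν R f G h Gh B F n L β Q s ε x) :
    ∫⁻ w, aE vol h Gh B x w ^ 2 ∂ν ≤ ENNReal.ofReal (Q ^ 2 * s ^ 2 * ε ^ 2) := by
  have hQ := d.Q1
  have hs := d.s0
  have hm : ∀ w, AEMeasurable (fun u => ‖EE h Gh x u w‖ₑ) (vol.restrict B) := fun w =>
    ((d.mEj o.mGh).comp (measurable_const.prodMk measurable_id)).enorm.aemeasurable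
  calc ∫⁻ w, aE vol h Gh B x w ^ 2 ∂ν
      ≤ ∫⁻ w, vol B * ∫⁻ u in B, ‖EE h Gh x u w‖ₑ ^ 2 ∂vol ∂ν := by
        refine lintegral_mono fun w => ?_
        have := Gap79.sq_lintegral_le (vol.restrict B) (hm w)
        rwa [Measure.restrict_apply_univ] at this
    _ = vol B * ∫⁻ w, ∫⁻ u in B, ‖EE h Gh x u w‖ₑ ^ 2 ∂vol ∂ν :=
        lintegral_const_mul' _ _ d.E.fin
    _ ≤ ENNReal.ofReal (Q * s) * ENNReal.ofReal (Q * s * ε ^ 2) :=
        mul_le_mul' d.volB o.FF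
    _ = _ := by
        rw [← ENNReal.ofReal_mul (by positivity)]
        congr 1
        ring

/-- `∫ (α_x + α_y)² ≤ 4 Q² s³ ε²` on `B` -/
theorem Com.aP2_sq {x y : X} (ox : One vol ν R f G h Gh B F n L β Q s ε x)
    (oy : One vol ν R f G h Gh B F n L β Q s ε y) :
    ∫⁻ z in B, (aP vol f G B x z + aP vol f G B y z) ^ 2 ∂vol ≤
      ENNReal.ofReal (4 * Q ^ 2 * s ^ 3 * ε ^ 2) := by
  have hQ := d.Q1
  have hs := d.s0
  have m1 : Measurable fun z => aP vol f G B x z ^ 2 := (d.maP ox.mG).pow_const 2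
  have m2 : Measurable fun z => aP vol f G B y z ^ 2 := (d.maP oy.mG).pow_const 2
  calc ∫⁻ z in B, (aP vol f G B x z + aP vol f G B y z) ^ 2 ∂vol
      ≤ ∫⁻ z in B, 2 * (aP vol f G B x z ^ 2 + aP vol f G B y z ^ 2) ∂vol :=
        lintegral_mono fun z => Gap79.add_sq_le _ _
    _ = 2 * (∫⁻ z in B, aP vol f G B x z ^ 2 ∂vol + ∫⁻ z in B, aP vol f G B y z ^ 2 ∂vol) := by
        rw [lintegral_const_mul' _ _ (by norm_num), lintegral_add_left m1]
    _ ≤ 2 * (ENNReal.ofReal (Q ^ 2 * s ^ 3 * ε ^ 2) + ENNReal.ofReal (Q ^ 2 * s ^ 3 * ε ^ 2)) :=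
        mul_le_mul' le_rfl (add_le_add (d.aP_sq ox) (d.aP_sq oy))
    _ = _ := by
        rw [← ENNReal.ofReal_add (by positivity) (by positivity),
          show (2 : ℝ≥0∞) = ENNReal.ofReal 2 by norm_num, ← ENNReal.ofReal_mul (by norm_num)]
        congr 1
        ring

theorem Com.aE2_sq {x y : X} (ox : One vol ν R f G h Gh B F n L β Q s ε x)
    (oy : One vol ν R f G h Gh B F n L β Q s ε y) :
    ∫⁻ w, (aE vol h Gh B x w + aE vol h Gh B y w) ^ 2 ∂ν ≤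
      ENNReal.ofReal (4 * Q ^ 2 * s ^ 2 * ε ^ 2) := by
  have hQ := d.Q1
  have hs := d.s0
  have m1 : Measurable fun z => aE vol h Gh B x z ^ 2 := (d.maE ox.mGh).pow_const 2
  have m2 : Measurable fun z => aE vol h Gh B y z ^ 2 := (d.maE oy.mGh).pow_const 2
  calc ∫⁻ z, (aE vol h Gh B x z + aE vol h Gh B y z) ^ 2 ∂ν
      ≤ ∫⁻ z, 2 * (aE vol h Gh B x z ^ 2 + aE vol h Gh B y z ^ 2) ∂ν :=
        lintegral_mono fun z => Gap79.add_sq_le _ _
    _ = 2 * (∫⁻ z, aE vol h Gh B x z ^ 2 ∂ν + ∫⁻ z, aE vol h Gh B y z ^ 2 ∂ν) := by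
        rw [lintegral_const_mul' _ _ (by norm_num), lintegral_add_left m1]
    _ ≤ 2 * (ENNReal.ofReal (Q ^ 2 * s ^ 2 * ε ^ 2) + ENNReal.ofReal (Q ^ 2 * s ^ 2 * ε ^ 2)) :=
        mul_le_mul' le_rfl (add_le_add (d.aE_sq ox) (d.aE_sq oy))
    _ = _ := by
        rw [← ENNReal.ofReal_add (by positivity) (by positivity),
          show (2 : ℝ≥0∞) = ENNReal.ofReal 2 by norm_num, ← ENNReal.ofReal_mul (by norm_num)]
        congr 1
        ring

/-- the bound of `A²` with respect to a measure with density -/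
theorem Com.A_sq {f' : X → X → ℝ} {a x y : X} (da : Den vol f' η B Q s a)
    (ox : One vol ν R f G h Gh B F n L β Q s ε x)
    (oy : One vol ν R f G h Gh B F n L β Q s ε y) :
    ∫⁻ z, (aP vol f G B x z + aP vol f G B y z) ^ 2 ∂(mm vol f' η a) ≤
      ENNReal.ofReal (4 * Q ^ 3 * s ^ 3 * ε ^ 2) := by
  have hQ := d.Q1
  refine (da.lintegral_le _).trans ((mul_le_mul' le_rfl (d.aP2_sq ox oy)).trans (le_of_eq ?_))
  rw [← ENNReal.ofReal_mul (by positivity)]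
  congr 1
  ring

theorem Com.g0_le {x y : X} {c0 : ℝ}
    (hc : ∫⁻ u in B, ‖P f G x y u - c0‖ₑ ∂vol ≤ ENNReal.ofReal (Q * s * ε)) :
    ENNReal.ofReal β + ∫⁻ u in B, ‖P f G x y u - c0‖ₑ ∂vol ≤ ENNReal.ofReal (2 * Q * s * ε) := by
  have hQ := d.Q1
  have hs := d.s0
  have hε := d.ε0
  have e : ENNReal.ofReal (2 * Q * s * ε) =
      ENNReal.ofReal (Q * s * ε) + ENNReal.ofReal (Q * s * ε) := by
    rw [← ENNReal.ofReal_add (by positivity) (by positivity)]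
    congr 1
    ring
  rw [e]
  exact add_le_add (ENNReal.ofReal_le_ofReal d.βle) hc

theorem Com.c_symm {x y : X} {c0 : ℝ} :
    ∫⁻ u in B, ‖P f G y x u - c0‖ₑ ∂vol = ∫⁻ u in B, ‖P f G x y u - c0‖ₑ ∂vol := by
  refine lintegral_congr_ae ?_
  filter_upwards [ae_restrict_of_ae (d.E.Gsymm x y)] with u hu
  show ‖P f G y x u - c0‖ₑ = ‖P f G x y u - c0‖ₑ
  congr 1
  unfold P
  rw [hu, d.E.symm y x]; ring

/-- measurability of `K` -/
theorem Com.mK {x : X} : Measurable (Function.uncurry (K f x)) := by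
  have h1 : Measurable (fun p : X × X => f x p.2) := (d.E.mfa x).comp measurable_snd
  have h2 : Measurable (fun p : X × X => f p.1 p.2) := d.E.mf
  have h3 : Measurable (fun p : X × X => f x p.1) := (d.E.mfa x).comp measurable_fst
  exact (h3.add h1).sub h2

theorem Com.K_le {x z u : X} (hx : x ∈ B) (hz : z ∈ B) (hu : u ∈ B) : |K f x z u| ≤ 2 * F := by
  have h1 := d.E.fF x hx z hz
  have h2 := d.E.fF x hx u hu
  have h3 := d.E.fF z hz u hu
  have h4 := d.E.nonneg x z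
  have h5 := d.E.nonneg x u
  have h6 := d.E.nonneg z u
  unfold K
  rw [abs_le]
  constructor <;> linarith

end com

/-- identity (iii) -/
theorem K_swap {f : X → X → ℝ} (hf : ∀ a b, f a b = f b a) (x y u v : X) :
    K f x u v - K f x u y = K f y v u - K f y v x := by
  unfold K
  rw [hf v u, hf v x, hf u y, hf y x]
  ring

/-- the mixed kernel -/
def MK (f : X → X → ℝ) (x y : X) (c0 : ℝ) (v z : X) : ℝ := K f x z v - K f x z y + c0

theorem MK_swap {f : X → X → ℝ} (hf : ∀ a b, f a b = f b a) (x y : X) (c0 : ℝ) (v z : X) :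
    MK f x y c0 v z = MK f y x c0 z v := by
  unfold MK
  rw [K_swap hf]

theorem Com.hM (d : Com vol ν R f G h Gh B F η η' φt cη n L β Q s ε) {x y : X}
    (ox : One vol ν R f G h Gh B F n L β Q s ε x)
    (oy : One vol ν R f G h Gh B F n L β Q s ε y) (c0 : ℝ) :
    HK (mm vol f η y) (mm vol f η x) (MK f x y c0) := by
  have i1 := (d.den ox.far).finite
  have i2 := (d.den oy.far).finite
  have hm : Measurable (Function.uncurry (MK f x y c0)) := by
    have h1 : Measurable (fun p : X × X => K f x p.2 p.1) := (d.mK (x := x)).comp measurable_swap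
    have h2 : Measurable (fun p : X × X => K f x p.2 y) :=
      (d.mK (x := x)).comp (measurable_snd.prodMk measurable_const)
    exact (h1.sub h2).add_const c0
  refine HK.of_bdd (B := 4 * F + |c0|) hm ?_
  filter_upwards [(d.den oy.far).ae_mem] with v hv
  filter_upwards [(d.den ox.far).ae_mem] with z hz
  have h1 := d.K_le ox.xB hz hv
  have h2 := d.K_le ox.xB hz oy.xB
  unfold MK
  refine (abs_add_le _ _).trans (add_le_add ((abs_sub _ _).trans ?_) le_rfl)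
  linarith

/-- **(A2)** -/
theorem Com.A2 (d : Com vol ν R f G h Gh B F η η' φt cη n L β Q s ε) {x y : X}
    (ox : One vol ν R f G h Gh B F n L β Q s ε x)
    (oy : One vol ν R f G h Gh B F n L β Q s ε y) {c0 : ℝ} (hc0 : |c0| ≤ F)
    (hL : |f y x - c0| ≤ L)
    (hc : ∫⁻ u in B, ‖P f G x y u - c0‖ₑ ∂vol ≤ ENNReal.ofReal (Q * s * ε))
    {Λ Λ' e : ℝ}
    (N : Node (mm vol f η x) ν (K f x) (fun w u => h w u - h w x) Λ e Q s n)
    (N' : Node (mm vol f η y) ν (K f y) (fun w u => h w u - h w y) Λ' e Q s n)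
    (he : 4 * Q ^ 4 * e ≤ 1) :
    ‖N.P - N'.P‖ ≤ 72 * Q ^ 10 * ε := by
  have hQ := d.Q1
  have hs := d.s0
  have hε := d.ε0
  have hQ0 : 0 < Q := by linarith
  have dx := d.den ox.far
  have dy := d.den oy.far
  have hC0 : 0 ≤ C1 n F cη := C1_nonneg d.E.F0 d.c.cη0
  have hKs : ∀ a z u, K f a z u = K f a u z := fun a z u => Gap79.K_symm d.E.symm a z u
  have mA : Measurable (fun z => aP vol f G B x z + aP vol f G B y z) :=
    (d.maP ox.mG).add (d.maP oy.mG)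
  have mD : Measurable (fun w => aE vol h Gh B x w + aE vol h Gh B y w) :=
    (d.maE ox.mGh).add (d.maE oy.mGh)
  have mA' : Measurable (fun z => aP vol f G B y z + aP vol f G B x z) :=
    (d.maP oy.mG).add (d.maP ox.mG)
  have mD' : Measurable (fun w => aE vol h Gh B y w + aE vol h Gh B x w) :=
    (d.maE oy.mGh).add (d.maE ox.mGh)
  have g0 := d.g0_le (x := x) (y := y) hc
  have hcs := hc
  rw [← d.c_symm] at hcs
  have g0' := d.g0_le (x := y) (y := x) hcs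
  have hL' : |f x y - c0| ≤ L := by rw [d.E.symm x y]; exact hL
  -- (T3)
  have t3 : hs2 (mm vol f η y) (mm vol f η x) (fun w z =>
      1 * kcomp (mm vol f η y) (K f y) (MK f x y c0) w z -
      1 * kcomp (mm vol f η x) (MK f x y c0) (K f x) w z) ≤
      ENNReal.ofReal ((s ^ 2 * (6 * Q ^ 4 * ε)) ^ 2) := by
    refine hs_T3 (A := fun z => aP vol f G B x z + aP vol f G B y z)
      (g₀ := ENNReal.ofReal β + ∫⁻ u in B, ‖P f G x y u - c0‖ₑ ∂vol) hQ hs hε hC0 d.CQ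
      dx.univ_le dy.univ_le mA.aemeasurable mA.aemeasurable (d.A_sq dx ox oy) (d.A_sq dy ox oy)
      g0 ?_
    filter_upwards [dy.ae_mem] with w hw
    filter_upwards [dx.ae_mem] with z hz
    have h1 := Pl7661.T3 d.E d.c d.hn ox.xB oy.xB ox.far oy.far ox.mb oy.mb hL hz hw hc0
    have e1 : kcomp (mm vol f η y) (K f y) (MK f x y c0) w z =
        ∫ v, K f y w v * (K f x z v - K f x z y + c0) * η (f y v) ∂vol := by
      unfold kcomp MK
      rw [dy.integral_eq]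
    have e2 : kcomp (mm vol f η x) (MK f x y c0) (K f x) w z =
        ∫ u, (K f y w u - K f y w x + c0) * K f x z u * η (f x u) ∂vol := by
      unfold kcomp
      rw [dx.integral_eq]
      refine integral_congr_ae (Eventually.of_forall fun u => ?_)
      show MK f x y c0 w u * K f x u z * η (f x u) = _
      rw [MK_swap d.E.symm, hKs x u z]
      rfl
    rw [one_mul, one_mul, e1, e2]
    refine h1.trans (mul_le_mul' le_rfl (le_of_eq ?_))
    simp only [aP]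
    ring
  -- (T4)
  have key : ∀ {a b : X} (oa : One vol ν R f G h Gh B F n L β Q s ε a)
      (ob : One vol ν R f G h Gh B F n L β Q s ε b), |f b a - c0| ≤ L →
      ENNReal.ofReal β + ∫⁻ u in B, ‖P f G a b u - c0‖ₑ ∂vol ≤ ENNReal.ofReal (2 * Q * s * ε) →
      hs2 ν (mm vol f η a) (fun w z =>
        1 * kcomp (mm vol f η b) (fun w u => h w u - h w b) (MK f a b c0) w z -
        1 * kcomp (mm vol f η a) (fun w u => h w u - h w a) (K f a) w z) ≤
        ENNReal.ofReal ((s * Real.sqrt s * (6 * Q ^ 3 * ε)) ^ 2) := by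
    intro a b oa ob hLab g0ab
    have da := d.den oa.far
    have db := d.den ob.far
    refine hs_T4 (A := fun z => aP vol f G B a z + aP vol f G B b z)
      (D := fun w => aE vol h Gh B a w + aE vol h Gh B b w)
      (g₀ := ENNReal.ofReal β + ∫⁻ u in B, ‖P f G a b u - c0‖ₑ ∂vol) hQ hs hε hC0 d.CQ
      da.univ_le d.ν1 ((d.maP oa.mG).add (d.maP ob.mG)).aemeasurable
      ((d.maE oa.mGh).add (d.maE ob.mGh)).aemeasurable (d.A_sq da oa ob) (d.aE2_sq oa ob) g0ab ?_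
    refine Eventually.of_forall fun w => ?_
    filter_upwards [da.ae_mem] with z hz
    have h1 := Pl7661.T4 d.E d.c d.hn oa.xB ob.xB oa.far ob.far oa.mb ob.mb hLab hz w hc0
    have e1 : kcomp (mm vol f η b) (fun w u => h w u - h w b) (MK f a b c0) w z =
        ∫ v, (h w v - h w b) * (K f a z v - K f a z b + c0) * η (f b v) ∂vol := by
      unfold kcomp MK
      rw [db.integral_eq]
    have e2 : kcomp (mm vol f η a) (fun w u => h w u - h w a) (K f a) w z =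
        ∫ u, (h w u - h w a) * K f a z u * η (f a u) ∂vol := by
      unfold kcomp
      rw [da.integral_eq]
      refine integral_congr_ae (Eventually.of_forall fun u => ?_)
      show (h w u - h w a) * K f a u z * η (f a u) = _
      rw [hKs a u z]
    rw [one_mul, one_mul, e1, e2]
    refine h1.trans (mul_le_mul' le_rfl (le_of_eq ?_))
    simp only [aP, aE]
    ring
  have t4 := key ox oy hL g0
  have t4' := key oy ox hL' g0'
  have hMs : (fun x' y' => MK f x y c0 y' x') = MK f y x c0 := by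
    funext a b
    exact MK_swap d.E.symm x y c0 b a
  have h1 := N.norm_sub_le N' he (d.hM ox oy c0) (a := 1) (a' := 1) (ρ := 1) (ρ' := 1)
    (τ3 := 6 * Q ^ 4 * ε) (τ4 := 6 * Q ^ 3 * ε) one_pos one_pos hQ hQ
    (inv_le_one_of_one_le₀ hQ) hQ (inv_le_one_of_one_le₀ hQ) hQ (by positivity) (by positivity)
    t3 t4 (by
      rw [hMs]
      exact t4')
  refine h1.trans ?_
  have h2 : Q ^ 5 ≤ Q ^ 10 := pow_le_pow_right₀ hQ (by norm_num)
  calc 8 * Q ^ 6 * (6 * Q ^ 4 * ε) + 4 * Q ^ 2 * (6 * Q ^ 3 * ε)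
      = (48 * Q ^ 10 + 24 * Q ^ 5) * ε := by ring
    _ ≤ (48 * Q ^ 10 + 24 * Q ^ 10) * ε := by gcongr
    _ = _ := by ring

/-- **(A1)** -/
theorem Com.A1 (d : Com vol ν R f G h Gh B F η η' φt cη n L β Q s ε) {x y : X}
    (ox : One vol ν R f G h Gh B F n L β Q s ε x)
    (oy : One vol ν R f G h Gh B F n L β Q s ε y) {c0 : ℝ} (hc0 : |c0| ≤ F)
    (hL : |f y x - c0| ≤ L)
    (hc : ∫⁻ u in B, ‖P f G x y u - c0‖ₑ ∂vol ≤ ENNReal.ofReal (Q * s * ε))
    {e : ℝ}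
    (N : Node (mm vol f η x) ν (K f x) (fun w u => h w u - h w x) (∫ u, φt (f x u) ∂vol) e Q s n)
    (v : Lp ℝ 2 ν) (hv : v =ᵐ[ν] fun w => h w y - h w x) :
    ‖v - N.P v‖ ≤ 15 * Q ^ 6 * ε := by
  have hQ := d.Q1
  have hs := d.s0
  have hε := d.ε0
  have hQ0 : 0 < Q := by linarith
  have dx := d.den ox.far
  have dy := d.den oy.far
  have ifx := dx.finite
  have hC0 : 0 ≤ C1 n F cη := C1_nonneg d.E.F0 d.c.cη0
  have mA : Measurable (fun z => aP vol f G B x z + aP vol f G B y z) :=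
    (d.maP ox.mG).add (d.maP oy.mG)
  have mD : Measurable (fun w => aE vol h Gh B x w + aE vol h Gh B y w) :=
    (d.maE ox.mGh).add (d.maE oy.mGh)
  have g0 := d.g0_le (x := x) (y := y) hc
  have hfm : MemLp (fun u => K f x u y - c0) 2 (mm vol f η x) := by
    refine MemLp.of_bound (C := 2 * F + |c0|) ?_ ?_
    · exact (((d.mK (x := x)).comp (measurable_id.prodMk measurable_const)).sub_const
        c0).aestronglyMeasurable
    · filter_upwards [dx.ae_mem] with u hu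
      rw [Real.norm_eq_abs]
      exact (abs_sub _ _).trans (add_le_add (d.K_le ox.xB hu oy.xB) le_rfl)
  have t1 : ∫⁻ w, ‖(∫ u, φt (f x u) ∂vol) * (h w y - h w x) -
      ∫ u, (h w u - h w x) * (K f x u y - c0) ∂(mm vol f η x)‖ₑ ^ 2 ∂ν ≤
      ENNReal.ofReal ((s * (5 * Q ^ 2 * ε)) ^ 2) := by
    refine hs_T1 (D := fun w => aE vol h Gh B x w + aE vol h Gh B y w)
      (g₀ := ENNReal.ofReal β + ∫⁻ u in B, ‖P f G x y u - c0‖ₑ ∂vol) hQ hs hε hC0 d.CQ
      d.ν1 mD.aemeasurable (d.aE2_sq ox oy) g0 ?_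
    refine Eventually.of_forall fun w => ?_
    have h1 := Pl7661.T1 d.E d.c ox.xB oy.xB ox.far ox.mb oy.mb hL w
    rw [dx.integral_eq]
    refine h1.trans (mul_le_mul' le_rfl (le_of_eq ?_))
    simp only [aE]
    ring
  have t2 : ∫⁻ z, ‖(∫ u, K f x z u * (K f x u y - c0) ∂(mm vol f η x)) -
      (∫ u, φt (f x u) ∂vol) * (K f x z y - c0)‖ₑ ^ 2 ∂(mm vol f η x) ≤
      ENNReal.ofReal ((s * Real.sqrt s * (5 * Q ^ 3 * ε)) ^ 2) := by
    refine hs_T2 (A := fun z => aP vol f G B x z + aP vol f G B y z)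
      (g₀ := ENNReal.ofReal β + ∫⁻ u in B, ‖P f G x y u - c0‖ₑ ∂vol) hQ hs hε hC0 d.CQ
      dx.univ_le mA.aemeasurable (d.A_sq dx ox oy) g0 ?_
    filter_upwards [dx.ae_mem] with z hz
    have h1 := Pl7661.T2 d.E d.c ox.xB oy.xB ox.far ox.mb oy.mb hL hz hc0
    rw [dx.integral_eq]
    refine h1.trans (mul_le_mul' le_rfl (le_of_eq ?_))
    simp only [aP]
    ring
  have h1 := N.norm_sub_P_le (ta := 5 * Q ^ 2 * ε) (tb := 5 * Q ^ 3 * ε) (by positivity)
    (by positivity) hfm v hv t1 t2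
  refine h1.trans ?_
  have h2 : Q ^ 3 ≤ Q ^ 6 := pow_le_pow_right₀ hQ (by norm_num)
  calc Q * (5 * Q ^ 2 * ε) + 2 * Q ^ 3 * (5 * Q ^ 3 * ε) = (5 * Q ^ 3 + 10 * Q ^ 6) * ε := by ring
    _ ≤ (5 * Q ^ 6 + 10 * Q ^ 6) * ε := by gcongr
    _ = _ := by ring

end

end Crest.Agent.R247.Pln923
end
end

-- ▼ part R247/PlI4_585

/-!
# R247, block (2b), Pl5' part 5b (helper585): (A3) for the two scales `f` and `4 f` at one centre
-/

set_option autoImplicit false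
set_option linter.unusedSectionVars false

noncomputable section

namespace Crest.Agent.R247.Pln923

open MeasureTheory Filter Set
open scoped ENNReal InnerProductSpace
open Crest.Agent.R247.Ker585 Crest.Agent.R247.Pl2661
open Crest.Agent.R247.Gap79 (K P)
open Crest.Agent.R247.Pl5661 (Env Cut MB Far)
open Crest.Agent.R247.Pl6661 (EE C1)

variable {X W : Type*} [MeasurableSpace X] [MeasurableSpace W]

section

variable {vol : Measure X} [SFinite vol] {ν : Measure W} [SFinite ν]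
  {R : X → (X → ℝ) → (X → ℝ) → Prop}
  {f : X → X → ℝ} {G : X → X → X → ℝ} {h : W → X → ℝ} {Gh : X → W → X → ℝ}
  {B : Set X} {F : ℝ} {η η' φt : ℝ → ℝ} {cη : ℝ} {n : ℕ} {L β Q s ε : ℝ}

theorem K_four (f : X → X → ℝ) (x z u : X) :
    K (fun a u => 4 * f a u) x z u = 4 * K f x z u := by
  unfold K; ring

theorem Com.den4 (d : Com vol ν R f G h Gh B F η η' φt cη n L β Q s ε) {x : X}
    (hx : Far f B L x) : Den vol (fun a u => 4 * f a u) η B Q s x where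
  mf := (d.E.mfa x).const_mul 4
  mη := d.c.cont_η.measurable
  η0 := d.c.η0
  ηQ := fun t => (d.c.bη t).trans d.cQ
  out := fun u hu => (d.c.far _ (by have := hx u hu; have := d.L0; linarith)).1
  mB := d.E.mB
  volB := d.volB
  Q1 := d.Q1
  s0 := d.s0

theorem Com.hK4 (d : Com vol ν R f G h Gh B F η η' φt cη n L β Q s ε) {x : X}
    (ox : One vol ν R f G h Gh B F n L β Q s ε x) :
    HK (mm vol (fun a u => 4 * f a u) η x) (mm vol f η x) (K f x) := by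
  have i1 := (d.den ox.far).finite
  have i2 := (d.den4 ox.far).finite
  refine HK.of_bdd (B := 2 * F) d.mK ?_
  filter_upwards [(d.den4 ox.far).ae_mem] with v hv
  filter_upwards [(d.den ox.far).ae_mem] with z hz
  exact d.K_le ox.xB hv hz

/-- **(A3)** -/
theorem Com.A3 (d : Com vol ν R f G h Gh B F η η' φt cη n L β Q s ε) {x : X}
    (ox : One vol ν R f G h Gh B F n L β Q s ε x)
    (h2 : 2 ^ (n + 1) ≤ Q) {Λ Λ' e : ℝ}
    (N : Node (mm vol f η x) ν (K f x) (fun w u => h w u - h w x) Λ e Q s n)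
    (N' : Node (mm vol (fun a u => 4 * f a u) η x) ν (K (fun a u => 4 * f a u) x)
      (fun w u => 2 * (h w u - h w x)) Λ' e Q s n)
    (he : 4 * Q ^ 4 * e ≤ 1) :
    ‖N.P - N'.P‖ ≤ 72 * Q ^ 10 * ε := by
  have hQ := d.Q1
  have hs := d.s0
  have hε := d.ε0
  have hQ0 : 0 < Q := by linarith
  have dx := d.den ox.far
  have d4 := d.den4 ox.far
  have hC0 : 0 ≤ C1 n F cη := C1_nonneg d.E.F0 d.c.cη0
  have hKs : ∀ a z u, K f a z u = K f a u z := fun a z u => Gap79.K_symm d.E.symm a z u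
  have mA : Measurable (fun z => aP vol f G B x z + aP vol f G B x z) :=
    (d.maP ox.mG).add (d.maP ox.mG)
  have mD : Measurable (fun w => aE vol h Gh B x w + aE vol h Gh B x w) :=
    (d.maE ox.mGh).add (d.maE ox.mGh)
  have hβ : 0 ≤ β := Pl7661.MB.nonneg d.E ox.mb
  have g0 : ENNReal.ofReal β ≤ ENNReal.ofReal (2 * Q * s * ε) := by
    refine ENNReal.ofReal_le_ofReal ?_
    have h1 := d.βle
    have h3 : 0 ≤ Q * s * ε := by positivity
    linarith
  have p1 : (1 : ℝ) ≤ 2 ^ n := Pl7661.one_le_two_pow' n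
  have p0 : (0 : ℝ) < 2 ^ n := by positivity
  have p2 : (2 : ℝ) ≤ 2 ^ n := by
    calc (2 : ℝ) = 2 ^ 1 := by norm_num
      _ ≤ 2 ^ n := pow_le_pow_right₀ (by norm_num) d.hn
  have q1 : (2 : ℝ) ^ (n + 1) = 2 * 2 ^ n := by ring
  have q2 : (2 : ℝ) ^ (n + 2) = 4 * 2 ^ n := by ring
  have h2' : (2 : ℝ) ^ n ≤ Q := by rw [q1] at h2; linarith
  -- bounds of the form `C * (β + a + b) ≤ C * (β + (a + a) + (b + b))`
  have mono : ∀ a b : ℝ≥0∞, ENNReal.ofReal (C1 n F cη) * (ENNReal.ofReal β + a + b) ≤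
      ENNReal.ofReal (C1 n F cη) * (ENNReal.ofReal β + (b + b) + (a + a)) := by
    intro a b
    refine mul_le_mul' le_rfl ?_
    calc ENNReal.ofReal β + a + b = ENNReal.ofReal β + b + a := by ring
      _ ≤ _ := add_le_add (add_le_add le_rfl le_self_add) le_self_add
  -- (T3)
  have t3 : hs2 (mm vol (fun a u => 4 * f a u) η x) (mm vol f η x) (fun w z =>
      2 ^ n * kcomp (mm vol (fun a u => 4 * f a u) η x) (K (fun a u => 4 * f a u) x) (K f x) w z -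
      1 * kcomp (mm vol f η x) (K f x) (K f x) w z) ≤
      ENNReal.ofReal ((s ^ 2 * (6 * Q ^ 4 * ε)) ^ 2) := by
    refine hs_T3 (A := fun z => aP vol f G B x z + aP vol f G B x z)
      (g₀ := ENNReal.ofReal β) hQ hs hε hC0 d.CQ
      dx.univ_le d4.univ_le mA.aemeasurable mA.aemeasurable (d.A_sq dx ox ox) (d.A_sq d4 ox ox)
      g0 ?_
    filter_upwards [d4.ae_mem] with w hw
    filter_upwards [dx.ae_mem] with z hz
    have h1 := Pl7661.T5 d.E d.c d.hn ox.xB ox.far ox.mb d.L0 hz hw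
    have e1 : 2 ^ n * kcomp (mm vol (fun a u => 4 * f a u) η x) (K (fun a u => 4 * f a u) x)
        (K f x) w z = 2 ^ (n + 2) * (∫ v, K f x w v * K f x z v * η (4 * f x v) ∂vol) := by
      unfold kcomp
      rw [d4.integral_eq, q2, mul_comm (4 : ℝ) (2 ^ n), mul_assoc]
      congr 1
      rw [← integral_const_mul]
      refine integral_congr_ae (Eventually.of_forall fun u => ?_)
      show K (fun a u => 4 * f a u) x w u * K f x u z * η (4 * f x u) = _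
      rw [K_four, hKs x u z]
      ring
    have e2 : kcomp (mm vol f η x) (K f x) (K f x) w z =
        ∫ u, K f x w u * K f x z u * η (f x u) ∂vol := by
      unfold kcomp
      rw [dx.integral_eq]
      refine integral_congr_ae (Eventually.of_forall fun u => ?_)
      show K f x w u * K f x u z * η (f x u) = _
      rw [hKs x u z]
    rw [one_mul, e1, e2]
    exact h1.trans (mono _ _)
  have ex4 : ∀ w z, kcomp (mm vol (fun a u => 4 * f a u) η x) (fun w u => 2 * (h w u - h w x))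
      (K f x) w z = 2 * ∫ v, (h w v - h w x) * K f x z v * η (4 * f x v) ∂vol := by
    intro w z
    unfold kcomp
    rw [d4.integral_eq, ← integral_const_mul]
    refine integral_congr_ae (Eventually.of_forall fun u => ?_)
    show 2 * (h w u - h w x) * K f x u z * η (4 * f x u) = _
    rw [hKs x u z]
    ring
  have ex8 : ∀ w z, kcomp (mm vol (fun a u => 4 * f a u) η x) (fun w u => 2 * (h w u - h w x))
      (K (fun a u => 4 * f a u) x) w z =
      8 * ∫ v, (h w v - h w x) * K f x z v * η (4 * f x v) ∂vol := by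
    intro w z
    unfold kcomp
    rw [d4.integral_eq, ← integral_const_mul]
    refine integral_congr_ae (Eventually.of_forall fun u => ?_)
    show 2 * (h w u - h w x) * K (fun a u => 4 * f a u) x u z * η (4 * f x u) = _
    rw [K_four, hKs x u z]
    ring
  have ex1 : ∀ w z, kcomp (mm vol f η x) (fun w u => h w u - h w x) (K f x) w z =
      ∫ u, (h w u - h w x) * K f x z u * η (f x u) ∂vol := by
    intro w z
    unfold kcomp
    rw [dx.integral_eq]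
    refine integral_congr_ae (Eventually.of_forall fun u => ?_)
    show (h w u - h w x) * K f x u z * η (f x u) = _
    rw [hKs x u z]
  -- (T4)
  have t4 : hs2 ν (mm vol f η x) (fun w z =>
      2 ^ (n + 1) * kcomp (mm vol (fun a u => 4 * f a u) η x)
        (fun w u => 2 * (h w u - h w x)) (K f x) w z -
      1 * kcomp (mm vol f η x) (fun w u => h w u - h w x) (K f x) w z) ≤
      ENNReal.ofReal ((s * Real.sqrt s * (6 * Q ^ 3 * ε)) ^ 2) := by
    refine hs_T4 (A := fun z => aP vol f G B x z + aP vol f G B x z)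
      (D := fun w => aE vol h Gh B x w + aE vol h Gh B x w)
      (g₀ := ENNReal.ofReal β) hQ hs hε hC0 d.CQ
      dx.univ_le d.ν1 mA.aemeasurable mD.aemeasurable (d.A_sq dx ox ox) (d.aE2_sq ox ox) g0 ?_
    refine Eventually.of_forall fun w => ?_
    filter_upwards [dx.ae_mem] with z hz
    have h1 := Pl7661.T6 d.E d.c d.hn ox.xB ox.far ox.mb d.L0 hz w
    rw [ex4, ex1, one_mul]
    have e1 : (2:ℝ) ^ (n + 1) * (2 * ∫ v, (h w v - h w x) * K f x z v * η (4 * f x v) ∂vol) =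
        2 ^ (n + 2) * ∫ v, (h w v - h w x) * K f x z v * η (4 * f x v) ∂vol := by
      rw [q1, q2]; ring
    rw [e1]
    exact h1.trans (mono _ _)
  have t4' : hs2 ν (mm vol (fun a u => 4 * f a u) η x) (fun w z =>
      2 / 2 ^ n * kcomp (mm vol f η x) (fun w u => h w u - h w x) (fun a b => K f x b a) w z -
      1 * kcomp (mm vol (fun a u => 4 * f a u) η x)
        (fun w u => 2 * (h w u - h w x)) (K (fun a u => 4 * f a u) x) w z) ≤
      ENNReal.ofReal ((s * Real.sqrt s * (6 * Q ^ 3 * ε)) ^ 2) := by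
    refine hs_T4 (A := fun z => aP vol f G B x z + aP vol f G B x z)
      (D := fun w => aE vol h Gh B x w + aE vol h Gh B x w)
      (g₀ := ENNReal.ofReal β) hQ hs hε hC0 d.CQ
      d4.univ_le d.ν1 mA.aemeasurable mD.aemeasurable (d.A_sq d4 ox ox) (d.aE2_sq ox ox) g0 ?_
    refine Eventually.of_forall fun w => ?_
    filter_upwards [d4.ae_mem] with z hz
    have h1 := Pl7661.T6 d.E d.c d.hn ox.xB ox.far ox.mb d.L0 hz w
    have hsw : (fun a b => K f x b a) = K f x := by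
      funext a b
      exact hKs x b a
    rw [hsw, ex8, ex1, one_mul]
    set X' := ∫ v, (h w v - h w x) * K f x z v * η (4 * f x v) ∂vol with hX'
    set Y' := ∫ u, (h w u - h w x) * K f x z u * η (f x u) ∂vol with hY'
    have e1 : 2 / 2 ^ n * Y' - 8 * X' = -((2 / 2 ^ n) * (2 ^ (n + 2) * X' - Y')) := by
      rw [q2]
      field_simp
      ring
    have e2 : ‖2 / 2 ^ n * Y' - 8 * X'‖ₑ ≤ ‖2 ^ (n + 2) * X' - Y'‖ₑ := by
      rw [e1, enorm_neg, enorm_mul]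
      have e3 : ‖(2 / 2 ^ n : ℝ)‖ₑ ≤ 1 := by
        rw [← ofReal_norm, Real.norm_of_nonneg (by positivity), ← ENNReal.ofReal_one]
        refine ENNReal.ofReal_le_ofReal ?_
        rw [div_le_one p0]
        exact p2
      calc ‖(2 / 2 ^ n : ℝ)‖ₑ * ‖2 ^ (n + 2) * X' - Y'‖ₑ
          ≤ 1 * ‖2 ^ (n + 2) * X' - Y'‖ₑ := mul_le_mul' e3 le_rfl
        _ = _ := one_mul _
    exact e2.trans (h1.trans (mono _ _))
  have hi : Q⁻¹ ≤ 1 := inv_le_one_of_one_le₀ hQ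
  have ha2' : 2 / (2:ℝ) ^ n ≤ Q := ((div_le_one p0).2 p2).trans hQ
  have h1 := N.norm_sub_le N' he (d.hK4 ox) (a := 2 ^ (n + 1)) (a' := 2 / 2 ^ n) (ρ := 1)
    (ρ' := 2 ^ n)
    (τ3 := 6 * Q ^ 4 * ε) (τ4 := 6 * Q ^ 3 * ε) (by positivity) (by positivity) h2 ha2'
    hi hQ (hi.trans p1) h2' (by positivity) (by positivity)
    t3 t4 t4'
  refine h1.trans ?_
  have h3 : Q ^ 5 ≤ Q ^ 10 := pow_le_pow_right₀ hQ (by norm_num)
  calc 8 * Q ^ 6 * (6 * Q ^ 4 * ε) + 4 * Q ^ 2 * (6 * Q ^ 3 * ε)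
      = (48 * Q ^ 10 + 24 * Q ^ 5) * ε := by ring
    _ ≤ (48 * Q ^ 10 + 24 * Q ^ 10) * ε := by gcongr
    _ = _ := by ring

/-- **(A3)**, with equalities in place of the literal forms -/
theorem A3' (d : Com vol ν R f G h Gh B F η η' φt cη n L β Q s ε) {x : X}
    (ox : One vol ν R f G h Gh B F n L β Q s ε x)
    (h2 : 2 ^ (n + 1) ≤ Q) {Λ Λ' e : ℝ}
    (N : Node (mm vol f η x) ν (K f x) (fun w u => h w u - h w x) Λ e Q s n)
    {f' : X → X → ℝ} (hf' : f' = fun a u => 4 * f a u) {j' : W → X → ℝ}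
    (hj' : j' = fun w u => 2 * (h w u - h w x))
    (N' : Node (mm vol f' η x) ν (K f' x) j' Λ' e Q s n)
    (he : 4 * Q ^ 4 * e ≤ 1) :
    ‖N.P - N'.P‖ ≤ 72 * Q ^ 10 * ε := by
  subst hf' hj'
  exact d.A3 ox h2 N N' he

end

end Crest.Agent.R247.Pln923
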