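import Crest.Agent.R247.Q9b_550
import Crest.Agent.R247.PlI1_585
import Crest.Agent.R247.Pl6_661
import Crest.Agent.R247.Ker4_585
import Crest.Agent.R247.Q9_550
import Crest.Agent.R247.Pln2_923
import Crest.Agent.R247.PlI4_585

-- ▼ part R247/Q9c_550
section

/-!
# R247: dimension zero and the final form `GlueDataT 40 n`
-/

set_option autoImplicit false
set_option linter.unusedSectionVars false
noncomputable section
open Set Filter Topology MeasureTheory Metric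
open scoped ContDiff Manifold ENNReal
open Bundle Crest.GeometryTopology.CoordMetric Crest.GeometryTopology.ChartCurvature
  Crest.GeometryTopology.PointedLimit

namespace Crest.Agent.R247.Q9550

universe u

open Crest.Agent.R247.Mcp688 Crest.Agent.R247.Far553 Crest.Agent.R247.Cal550
  Crest.Agent.R247.GluM923 Crest.Agent.R247.Nis710

/-- A connected `0`-manifold is a point. -/
theorem subsingleton_of_zero (M : Type u) [MetricSpace M] [ConnectedSpace M]
    [ChartedSpace (EuclideanSpace ℝ (Fin 0)) M] : Subsingleton M := by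
  have hd : DiscreteTopology M := by
    rw [discreteTopology_iff_isOpen_singleton]
    intro x
    have h1 : (chartAt (EuclideanSpace ℝ (Fin 0)) x).source = {x} := by
      ext y
      constructor
      · intro hy
        exact (chartAt (EuclideanSpace ℝ (Fin 0)) x).injOn hy
          (mem_chart_source (EuclideanSpace ℝ (Fin 0)) x) (Subsingleton.elim _ _)
      · rintro rfl
        exact mem_chart_source (EuclideanSpace ℝ (Fin 0)) _
    rw [← h1]
    exact (chartAt (EuclideanSpace ℝ (Fin 0)) x).open_source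
  exact PreconnectedSpace.trivial_of_discrete

theorem glueDataT_zero (T : ℝ) : GlueDataT.{u} T 0 := by
  refine ⟨1, le_rfl, 1, one_pos, fun η hη => ⟨1, one_pos, le_rfl, 1, le_rfl, 1, one_pos, ?_⟩⟩
  intro M _ _ _ _ _ _ _ _ _ _ q _ _
  have hsub := subsingleton_of_zero M
  refine ⟨Lp ℝ 2 (0 : Measure M), inferInstance, inferInstance, inferInstance, fun _ => 0,
    fun _ _ => 0, fun _ _ => 0, ?_⟩
  refine
    { Ψ_le := fun x _ y _ => by simp
      near := fun x _ y _ => by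
        rw [Subsingleton.elim x y]; simp
      D_nonneg := fun _ _ _ _ => le_rfl
      D_sum := fun x _ m => by simpa using hη.le
      proj := fun k _ x _ => ?_
      rank := fun x _ => ⟨⊥, inferInstance, finrank_bot ℝ _, fun v => by simp⟩
      A1 := fun k _ x _ y _ _ => by
        simp
      A2 := fun k _ x _ y _ _ => by simp
      A3 := fun k _ x _ => by simp }
  constructor <;> simp

/-- **Choice of the constants**, all dimensions. -/
theorem glueDataT_of' {n : ℕ} (h : 1 ≤ n → ∃ c : FarK, PkP.{u} n c ∧ FarConcl.{u} n c ∧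
    NearP.{u} n ∧ LocP.{u} n c ∧ PlThm.{u} n) : GlueDataT.{u} 40 n := by
  rcases Nat.eq_zero_or_pos n with rfl | hn
  · exact glueDataT_zero 40
  · obtain ⟨c, h1, h2, h3, h4, h5⟩ := h hn
    exact glueDataT_of hn h1 h2 h3 h4 h5

end Crest.Agent.R247.Q9550
end
end

-- ▼ part R247/PlI2_585
section

/-!
R247 block (2b), helper585: the data of `PlData` at scale `r` in the unit scale form:
(m), (L), (L2), (F), volumes, near isometry.
-/

set_option autoImplicit false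
set_option linter.unusedSectionVars false

noncomputable section

namespace Crest.Agent.R247.PlI585

open MeasureTheory Set Filter Topology Metric
open scoped ENNReal NNReal
open Crest.Agent.R247.Mcp688 Crest.Agent.R247.Cal550 Crest.Agent.R247.Gap79
open Crest.Agent.R247.Far553

variable {n : ℕ} {κ : ℝ} {X : Type*} [MetricSpace X] [MeasurableSpace X] [BorelSpace X]
  {μ : Measure X}

/-- **(I3)** (m) -/
theorem mb_of [ProperSpace X] {C : Rad n κ X μ} {B : Set X} {a : X} {ρ b : ℝ}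
    (hB : B ⊆ ball a ρ) (h : Q9550.MM C a ρ b) : Pl5661.MB μ (Rr C) n B a b := by
  intro ζ dζ S hR h0 hS
  have h1 : ∀ z, ρ ≤ dist a z → ζ z = 0 := by
    intro z hz
    apply h0
    intro hzB
    have := mem_ball.1 (hB hzB)
    rw [dist_comm] at this
    linarith
  exact h ζ dζ S (lip_of_locLip hR.1 h1) hS h1 hR.2

theorem enorm_sq_eq (a : ℝ) : ‖a‖ₑ ^ 2 = ENNReal.ofReal (a ^ 2) := by
  rw [← ofReal_norm, ← ENNReal.ofReal_pow (norm_nonneg _), Real.norm_eq_abs, sq_abs]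

theorem enorm_div_sq (a : ℝ) {s : ℝ} (hs : 0 < s) :
    ‖a / s‖ₑ ^ 2 = ENNReal.ofReal (s ^ 2)⁻¹ * ENNReal.ofReal (a ^ 2) := by
  rw [enorm_sq_eq, ← ENNReal.ofReal_mul (by positivity)]
  congr 1
  rw [div_pow, div_eq_inv_mul]

theorem enorm_div (a : ℝ) {s : ℝ} (hs : 0 < s) :
    ‖a / s‖ₑ = ENNReal.ofReal s⁻¹ * ENNReal.ofReal |a| := by
  rw [← ofReal_norm, Real.norm_eq_abs, abs_div, abs_of_pos hs, div_eq_inv_mul,
    ENNReal.ofReal_mul (by positivity)]

theorem ofReal_mul_le {a b : ℝ} (ha : 0 ≤ a) {t : ℝ≥0∞} (h : t ≤ ENNReal.ofReal b) :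
    ENNReal.ofReal a * t ≤ ENNReal.ofReal (a * b) := by
  rw [ENNReal.ofReal_mul ha]; gcongr

/-- **(I4)** (L) -/
theorem L_of {G : X → X → X → ℝ} {a : X} {ρ b r : ℝ} (hr : 0 < r) {B : Set X}
    (hB : B ⊆ ball a ρ) (h : Q9550.LL μ G a ρ b) :
    ∫⁻ v in B, ∫⁻ u in B, ‖Gap79.P (fr r) (Gs G r) a v u‖ₑ ^ 2 ∂μ ∂μ ≤
      ENNReal.ofReal (b / r ^ 4) := by
  have e1 : ∀ v, ∫⁻ u in B, ‖Gap79.P (fr r) (Gs G r) a v u‖ₑ ^ 2 ∂μ ≤
      ENNReal.ofReal (r ^ 4)⁻¹ * ∫⁻ u in ball a ρ, ENNReal.ofReal (PP G a v u ^ 2) ∂μ := by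
    intro v
    rw [← lintegral_const_mul' _ _ ENNReal.ofReal_ne_top]
    refine (lintegral_mono_set hB).trans (le_of_eq (lintegral_congr fun u => ?_))
    rw [P_eq, enorm_div_sq _ (by positivity)]
    congr 3
    ring
  calc ∫⁻ v in B, ∫⁻ u in B, ‖Gap79.P (fr r) (Gs G r) a v u‖ₑ ^ 2 ∂μ ∂μ
      ≤ ∫⁻ v in B, ENNReal.ofReal (r ^ 4)⁻¹ *
          ∫⁻ u in ball a ρ, ENNReal.ofReal (PP G a v u ^ 2) ∂μ ∂μ := lintegral_mono e1
    _ ≤ ∫⁻ v in ball a ρ, ENNReal.ofReal (r ^ 4)⁻¹ *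
          ∫⁻ u in ball a ρ, ENNReal.ofReal (PP G a v u ^ 2) ∂μ ∂μ := lintegral_mono_set hB
    _ = ENNReal.ofReal (r ^ 4)⁻¹ * ∫⁻ v in ball a ρ,
          ∫⁻ u in ball a ρ, ENNReal.ofReal (PP G a v u ^ 2) ∂μ ∂μ :=
        lintegral_const_mul' _ _ ENNReal.ofReal_ne_top
    _ ≤ ENNReal.ofReal ((r ^ 4)⁻¹ * b) := ofReal_mul_le (by positivity) h
    _ = _ := by rw [div_eq_inv_mul]

/-- **(I5)** (L2) -/
theorem LP_of {G : X → X → X → ℝ} {x y : X} {c ρ b r : ℝ} (hr : 0 < r) {B : Set X}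
    (hB : B ⊆ ball x ρ) (h : Q9550.LP μ G x y c ρ b) :
    ∫⁻ u in B, ‖Gap79.P (fr r) (Gs G r) x y u - c / r ^ 2‖ₑ ∂μ ≤ ENNReal.ofReal (b / r ^ 2) := by
  calc ∫⁻ u in B, ‖Gap79.P (fr r) (Gs G r) x y u - c / r ^ 2‖ₑ ∂μ
      ≤ ∫⁻ u in ball x ρ, ‖Gap79.P (fr r) (Gs G r) x y u - c / r ^ 2‖ₑ ∂μ :=
        lintegral_mono_set hB
    _ = ∫⁻ u in ball x ρ, ENNReal.ofReal (r ^ 2)⁻¹ * ENNReal.ofReal |PP G x y u - c| ∂μ := by
        refine lintegral_congr fun u => ?_
        rw [P_eq, ← sub_div, enorm_div _ (by positivity)]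
    _ = ENNReal.ofReal (r ^ 2)⁻¹ * ∫⁻ u in ball x ρ, ENNReal.ofReal |PP G x y u - c| ∂μ :=
        lintegral_const_mul' _ _ ENNReal.ofReal_ne_top
    _ ≤ ENNReal.ofReal ((r ^ 2)⁻¹ * b) := ofReal_mul_le (by positivity) h
    _ = _ := by rw [div_eq_inv_mul]

theorem lintegral_nuW (p : X) (f : X → ℝ≥0∞) :
    ∫⁻ w, f w ∂(Q9550.nuW μ p) = (μ (ann p 4 8))⁻¹ * ∫⁻ w in ann p 4 8, f w ∂μ := by
  unfold Q9550.nuW
  rw [lintegral_smul_measure, smul_eq_mul]

theorem meas_ee {C : Rad n κ X μ} {G : X → X → X → ℝ} (hG : GRep C G)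
    [SecondCountableTopology X] (a : X) :
    Measurable (Function.uncurry fun z w => ee G a z w) := by
  have h1 := hG.meas_Ed a
  have h2 : Measurable (fun q : X × X => dist q.1 q.2 - dist a q.2) := by
    have : Continuous (fun q : X × X => dist q.1 q.2 - dist a q.2) := by fun_prop
    exact this.measurable
  exact h1.sub h2

theorem inv_le_of {A : ℝ} (hA : 0 < A) {m : ℝ≥0∞} (h : ENNReal.ofReal A⁻¹ ≤ m) :
    m⁻¹ ≤ ENNReal.ofReal A := by
  have := ENNReal.inv_le_inv.2 h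
  rwa [← ENNReal.ofReal_inv_of_pos (by positivity), inv_inv] at this

/-- **(I6)** (F) -/
theorem F_of {C : Rad n κ X μ} {G : X → X → X → ℝ} (hG : GRep C G) [SFinite μ]
    [SecondCountableTopology X] {p a : X} {ρ b r A : ℝ} (h0r : 0 < r) (hA : 0 < A) {B : Set X}
    (hB : B ⊆ ball a ρ) (hW : ENNReal.ofReal A⁻¹ ≤ μ (ann p 4 8)) (h : Q9550.FF μ G p a ρ b) :
    ∫⁻ w, ∫⁻ u in B, ‖Pl6661.EE (hr r) (ghr G r) a u w‖ₑ ^ 2 ∂μ ∂(Q9550.nuW μ p) ≤
      ENNReal.ofReal (A * b / r ^ 2) := by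
  have hm : Measurable fun q : X × X => ENNReal.ofReal (ee G a q.2 q.1 ^ 2) :=
    (((meas_ee hG a).comp measurable_swap).pow_const 2).ennreal_ofReal
  have e1 : ∀ w, ∫⁻ u in B, ‖Pl6661.EE (hr r) (ghr G r) a u w‖ₑ ^ 2 ∂μ ≤
      ENNReal.ofReal (r ^ 2)⁻¹ * ∫⁻ u in ball a ρ, ENNReal.ofReal (ee G a u w ^ 2) ∂μ := by
    intro w
    rw [← lintegral_const_mul' _ _ ENNReal.ofReal_ne_top]
    refine (lintegral_mono_set hB).trans (le_of_eq (lintegral_congr fun u => ?_))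
    unfold Pl6661.EE
    rw [ghr_sub, enorm_div_sq _ h0r]
  rw [lintegral_nuW]
  calc (μ (ann p 4 8))⁻¹ *
        ∫⁻ w in ann p 4 8, ∫⁻ u in B, ‖Pl6661.EE (hr r) (ghr G r) a u w‖ₑ ^ 2 ∂μ ∂μ
      ≤ ENNReal.ofReal A * ∫⁻ w in ann p 4 8, ENNReal.ofReal (r ^ 2)⁻¹ *
          ∫⁻ u in ball a ρ, ENNReal.ofReal (ee G a u w ^ 2) ∂μ ∂μ := by
        refine mul_le_mul' (inv_le_of hA hW) (lintegral_mono fun w => e1 w)
    _ = ENNReal.ofReal A * (ENNReal.ofReal (r ^ 2)⁻¹ * ∫⁻ w in ann p 4 8,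
          ∫⁻ u in ball a ρ, ENNReal.ofReal (ee G a u w ^ 2) ∂μ ∂μ) := by
        rw [lintegral_const_mul' _ _ ENNReal.ofReal_ne_top]
    _ = ENNReal.ofReal A * (ENNReal.ofReal (r ^ 2)⁻¹ * ∫⁻ u in ball a ρ,
          ∫⁻ w in ann p 4 8, ENNReal.ofReal (ee G a u w ^ 2) ∂μ ∂μ) := by
        congr 2
        exact lintegral_lintegral_swap hm.aemeasurable
    _ ≤ ENNReal.ofReal A * ENNReal.ofReal ((r ^ 2)⁻¹ * b) := by
        gcongr
        exact ofReal_mul_le (by positivity) h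
    _ = ENNReal.ofReal (A * b / r ^ 2) := by
        rw [← ENNReal.ofReal_mul hA.le]
        congr 1
        field_simp

/-! ### volumes -/

theorem φc_fr_one {r : ℝ} (h0r : 0 < r) {x u : X} (h : dist x u ≤ r) : φc (fr r x u) = 1 := by
  apply φc_left
  have := fr_le (R := 1) h0r (by linarith : dist x u ≤ 1 * r)
  linarith

theorem φc_fr_zero {r : ℝ} (h0r : 0 < r) {x u : X} (h : u ∉ closedBall x (2 * r)) :
    φc (fr r x u) = 0 := φc_right (two_le_fr x h0r h)

theorem ηc_fr_zero {r : ℝ} (h0r : 0 < r) {x u : X} (h : u ∉ closedBall x (2 * r)) :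
    ηc (fr r x u) = 0 := ηc_right (two_le_fr x h0r h)

theorem integrable_φc_fr {r : ℝ} (h0r : 0 < r) (x : X) (hf : μ (closedBall x (2 * r)) ≠ ∞) :
    Integrable (fun u => φc (fr r x u)) μ := by
  have hi : Integrable ((closedBall x (2 * r)).indicator fun _ => (1 : ℝ)) μ :=
    (integrable_indicator_iff isClosed_closedBall.measurableSet).2 (integrableOn_const hf)
  refine hi.mono' (continuous_φc.comp (continuous_fr r x)).measurable.aestronglyMeasurable ?_
  refine Eventually.of_forall fun u => ?_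
  rw [Real.norm_eq_abs, abs_of_nonneg (φc_nonneg _)]
  by_cases hu : u ∈ closedBall x (2 * r)
  · rw [indicator_of_mem hu]; exact φc_le_one _
  · rw [indicator_of_notMem hu, φc_fr_zero h0r hu]

/-- lower bound of `Λ` -/
theorem lam_ge {r v : ℝ} (h0r : 0 < r) (x : X) (hf : μ (closedBall x (2 * r)) ≠ ∞)
    (hv : ENNReal.ofReal v ≤ μ (ball x r)) : v ≤ ∫ u, φc (fr r x u) ∂μ := by
  have hfb : μ (ball x r) ≠ ∞ := ne_top_of_le_ne_top hf
    (measure_mono (ball_subset_closedBall.trans (closedBall_subset_closedBall (by linarith))))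
  have h1 : v ≤ μ.real (ball x r) := by
    rw [measureReal_def]
    exact (ENNReal.ofReal_le_iff_le_toReal hfb).1 hv
  refine h1.trans ?_
  have h2 : μ.real (ball x r) = ∫ u, (ball x r).indicator (fun _ => (1 : ℝ)) u ∂μ := by
    rw [integral_indicator isOpen_ball.measurableSet]
    simp
  rw [h2]
  refine integral_mono ((integrable_indicator_iff isOpen_ball.measurableSet).2
    (integrableOn_const hfb)) (integrable_φc_fr h0r x hf) fun u => ?_
  by_cases hu : u ∈ ball x r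
  · rw [indicator_of_mem hu, φc_fr_one h0r (by rw [mem_ball, dist_comm] at hu; exact hu.le)]
  · rw [indicator_of_notMem hu]; exact φc_nonneg _

/-- upper bound of `Λ` -/
theorem lam_le {r : ℝ} (h0r : 0 < r) (x : X) (hf : μ (closedBall x (2 * r)) ≠ ∞) :
    ∫ u, φc (fr r x u) ∂μ ≤ μ.real (closedBall x (2 * r)) := by
  have h2 : μ.real (closedBall x (2 * r)) =
      ∫ u, (closedBall x (2 * r)).indicator (fun _ => (1 : ℝ)) u ∂μ := by
    rw [integral_indicator isClosed_closedBall.measurableSet]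
    simp
  rw [h2]
  refine integral_mono (integrable_φc_fr h0r x hf)
    ((integrable_indicator_iff isClosed_closedBall.measurableSet).2
    (integrableOn_const hf)) fun u => ?_
  by_cases hu : u ∈ closedBall x (2 * r)
  · rw [indicator_of_mem hu]; exact φc_le_one _
  · rw [indicator_of_notMem hu]; simp only; rw [φc_fr_zero h0r hu]

/-- total mass of `mx` -/
theorem mx_univ_le {r : ℝ} (h0r : 0 < r) (x : X) :
    mx μ ηc r x univ ≤ 8 * μ (closedBall x (2 * r)) := by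
  unfold mx
  rw [withDensity_apply _ MeasurableSet.univ, Measure.restrict_univ,
    show (8 : ℝ≥0∞) * μ (closedBall x (2 * r)) =
      ∫⁻ u, (closedBall x (2 * r)).indicator (fun _ => (8 : ℝ≥0∞)) u ∂μ by
      rw [lintegral_indicator isClosed_closedBall.measurableSet]; simp]
  refine lintegral_mono fun u => ?_
  by_cases hu : u ∈ closedBall x (2 * r)
  · rw [indicator_of_mem hu]
    refine (ENNReal.ofReal_le_ofReal (ηc_le _)).trans ?_
    norm_num
  · rw [indicator_of_notMem hu, ηc_fr_zero h0r hu]; simp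

theorem ae_mx {r : ℝ} (h0r : 0 < r) (x : X) : ∀ᵐ u ∂(mx μ ηc r x), dist x u ≤ 2 * r := by
  have hms : Measurable (fun u => ENNReal.ofReal (ηc (fr r x u))) :=
    (continuous_ηc.comp (continuous_fr r x)).measurable.ennreal_ofReal
  unfold mx
  rw [ae_withDensity_iff hms]
  refine Eventually.of_forall fun u hu => ?_
  by_contra hc
  apply hu
  have : u ∉ closedBall x (2 * r) := by rw [mem_closedBall, dist_comm]; exact hc
  rw [ηc_fr_zero h0r this]
  simp

theorem isFinite_mx {r : ℝ} (h0r : 0 < r) (x : X) (hf : μ (closedBall x (2 * r)) ≠ ∞) :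
    IsFiniteMeasure (mx μ ηc r x) :=
  ⟨(mx_univ_le h0r x).trans_lt (ENNReal.mul_lt_top (by norm_num) (lt_top_iff_ne_top.2 hf))⟩

theorem mx_real_univ_le {r V : ℝ} (h0r : 0 < r) (x : X) (hV0 : 0 ≤ V)
    (hV : μ (closedBall x (2 * r)) ≤ ENNReal.ofReal V) :
    (mx μ ηc r x).real univ ≤ 8 * V := by
  rw [measureReal_def]
  refine ENNReal.toReal_le_of_le_ofReal (by positivity) ?_
  refine (mx_univ_le h0r x).trans ?_
  rw [ENNReal.ofReal_mul (by norm_num)]
  have : ENNReal.ofReal 8 = 8 := by norm_num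
  rw [this]
  gcongr

/-! ### near isometry -/

/-- **(I8)** -/
theorem near_of {ν : Measure X} [IsFiniteMeasure ν] {p : X} {R : ℝ}
    (hν : ∀ᵐ w ∂ν, dist w p ≤ R) {u v : X} {ε r : ℝ} (h0r : 0 < r) (hε0 : 0 ≤ ε) (hε1 : ε ≤ 1)
    (hN : |Real.sqrt n * ‖Nis710.psi ν u - Nis710.psi ν v‖ - dist u v| ≤ ε * dist u v) :
    |n * (∫ w, (hr r w u - hr r w v) ^ 2 ∂ν) - 2 * fr r u v| ≤ 3 * ε * (dist u v / r) ^ 2 := by
  have h1 : ∫ w, (hr r w u - hr r w v) ^ 2 ∂ν =
      ‖Nis710.psi ν u - Nis710.psi ν v‖ ^ 2 / r ^ 2 := by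
    rw [Nis710.norm_psi_sub_sq hν u v, ← integral_div]
    refine integral_congr_ae (Eventually.of_forall fun w => ?_)
    simp only [hr, dist_comm w u, dist_comm w v]
    ring
  set N := ‖Nis710.psi ν u - Nis710.psi ν v‖ with hNdef
  set d := dist u v with hd
  have hN0 : 0 ≤ N := norm_nonneg _
  have hd0 : 0 ≤ d := dist_nonneg
  have hs0 : 0 ≤ Real.sqrt n := Real.sqrt_nonneg _
  have hs : Real.sqrt n ^ 2 = n := Real.sq_sqrt (Nat.cast_nonneg n)
  have h2 : n * N ^ 2 - d ^ 2 = (Real.sqrt n * N - d) * (Real.sqrt n * N + d) := by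
    linear_combination (-N ^ 2) * hs
  have h3 : Real.sqrt n * N + d ≤ 3 * d := by
    have := (abs_le.1 hN).2
    nlinarith
  have h4 : |n * N ^ 2 - d ^ 2| ≤ 3 * ε * d ^ 2 := by
    rw [h2, abs_mul, abs_of_nonneg (by positivity : 0 ≤ Real.sqrt n * N + d)]
    calc |Real.sqrt n * N - d| * (Real.sqrt n * N + d) ≤ (ε * d) * (3 * d) :=
          mul_le_mul hN h3 (by positivity) (by positivity)
      _ = _ := by ring
  have h5 : n * (N ^ 2 / r ^ 2) - 2 * fr r u v = (n * N ^ 2 - d ^ 2) / r ^ 2 := by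
    unfold fr; rw [← hd]; ring
  rw [h1, h5, abs_div, abs_of_nonneg (by positivity : (0 : ℝ) ≤ r ^ 2), div_pow, ← mul_div_assoc]
  gcongr

/-- the far functions normalised at `x` -/
def jr (r : ℝ) (x w u : X) : ℝ := hr r w u - hr r w x

theorem abs_jr_le {r : ℝ} (h0r : 0 < r) (x w u : X) : |jr r x w u| ≤ dist x u / r := by
  unfold jr hr
  rw [← sub_div, abs_div, abs_of_pos h0r, dist_comm x u]
  gcongr
  exact abs_dist_sub_le u x w

theorem measurable_jr [SecondCountableTopology X] (r : ℝ) (x : X) :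
    Measurable (Function.uncurry (jr r x)) := by
  have : Continuous (Function.uncurry (jr r x)) := by
    unfold jr hr Function.uncurry
    fun_prop
  exact this.measurable

theorem jr_bdd {ν : Measure X} {r : ℝ} (h0r : 0 < r) (x : X) :
    ∀ᵐ w ∂ν, ∀ᵐ u ∂(mx μ ηc r x), |jr r x w u| ≤ 2 := by
  refine Eventually.of_forall fun w => ?_
  filter_upwards [ae_mx h0r x] with u hu
  refine (abs_jr_le h0r x w u).trans ?_
  rw [div_le_iff₀ h0r]
  exact hu

theorem HK_jr [SecondCountableTopology X] {ν : Measure X} [IsFiniteMeasure ν] {r : ℝ}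
    (h0r : 0 < r) (x : X) (hf : μ (closedBall x (2 * r)) ≠ ∞) :
    Ker585.HK ν (mx μ ηc r x) (jr r x) := by
  have := isFinite_mx h0r x hf
  exact Ker585.HK.of_bdd (measurable_jr r x) (jr_bdd h0r x)

theorem norm_jr_le [SFinite μ] {ν : Measure X} [IsProbabilityMeasure ν] {r : ℝ}
    (h0r : 0 < r) (x : X) (hf : μ (closedBall x (2 * r)) ≠ ∞)
    (h : Ker585.HK ν (mx μ ηc r x) (jr r x)) :
    ‖Ker585.kop h‖ ≤ 2 * Real.sqrt ((mx μ ηc r x).real univ) := by
  have := isFinite_mx h0r x hf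
  have h1 := Ker585.norm_kop_le_of_bdd (by norm_num : (0 : ℝ) ≤ 2) h (jr_bdd h0r x)
  simpa using h1

/-- polarised near isometry -/
theorem near_polar {ν : Measure X} [IsProbabilityMeasure ν] {p : X} {R : ℝ}
    (hν : ∀ᵐ w ∂ν, dist w p ≤ R) {x : X} {ε r : ℝ} (h0r : 0 < r) (hε0 : 0 ≤ ε) (hε1 : ε ≤ 1)
    (hN : ∀ u ∈ closedBall x (2 * r), ∀ v ∈ closedBall x (2 * r),
      |Real.sqrt n * ‖Nis710.psi ν u - Nis710.psi ν v‖ - dist u v| ≤ ε * dist u v)
    {u v : X} (hu : u ∈ closedBall x (2 * r)) (hv : v ∈ closedBall x (2 * r)) :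
    |n * (∫ w, jr r x w u * jr r x w v ∂ν) - K (fr r) x u v| ≤ 72 * ε := by
  have hx : x ∈ closedBall x (2 * r) := mem_closedBall_self (by positivity)
  have key : ∀ a ∈ closedBall x (2 * r), ∀ b ∈ closedBall x (2 * r),
      |n * (∫ w, (hr r w a - hr r w b) ^ 2 ∂ν) - 2 * fr r a b| ≤ 48 * ε := by
    intro a ha b hb
    refine (near_of hν h0r hε0 hε1 (hN a ha b hb)).trans ?_
    have h1 : dist a b ≤ 4 * r := dist_le_of_mem ha hb
    have h2 : dist a b / r ≤ 4 := by rw [div_le_iff₀ h0r]; exact h1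
    have h3 : 0 ≤ dist a b / r := by positivity
    have h4 : (dist a b / r) ^ 2 ≤ 4 ^ 2 := by gcongr
    nlinarith
  have hi : ∀ a b : X, Integrable (fun w => (hr r w a - hr r w b) ^ 2) ν := by
    intro a b
    refine Integrable.mono' (integrable_const ((dist a b / r) ^ 2)) ?_ ?_
    · have : Continuous fun w => (hr r w a - hr r w b) ^ 2 := by unfold hr; fun_prop
      exact this.measurable.aestronglyMeasurable
    · refine Eventually.of_forall fun w => ?_
      rw [Real.norm_eq_abs, abs_of_nonneg (sq_nonneg _), ← sq_abs]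
      have h5 : |hr r w a - hr r w b| ≤ dist a b / r := by
        have := abs_jr_le h0r b w a
        rw [dist_comm b a] at this
        exact this
      gcongr
  have e1 : ∫ w, jr r x w u * jr r x w v ∂ν =
      (1 / 2) * ((∫ w, (hr r w u - hr r w x) ^ 2 ∂ν) + (∫ w, (hr r w v - hr r w x) ^ 2 ∂ν)
        - ∫ w, (hr r w u - hr r w v) ^ 2 ∂ν) := by
    have i1 : Integrable (fun w => (hr r w u - hr r w x) ^ 2 + (hr r w v - hr r w x) ^ 2) ν :=
      (hi u x).add (hi v x)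
    rw [← integral_add (hi u x) (hi v x), ← integral_sub i1 (hi u v), ← integral_const_mul]
    refine integral_congr_ae (Eventually.of_forall fun w => ?_)
    simp only [jr]
    ring
  have a1 := abs_le.1 (key u hu x hx)
  have a2 := abs_le.1 (key v hv x hx)
  have a3 := abs_le.1 (key u hu v hv)
  rw [fr_symm r u x] at a1
  rw [fr_symm r v x] at a2
  rw [e1]
  unfold K
  rw [abs_le]
  constructor <;> nlinarith [a1.1, a1.2, a2.1, a2.2, a3.1, a3.2]

/-- **(I8)**, literally the hypothesis `hn` of 923's `low_of_near'`. -/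
theorem near_hs2 [SFinite μ] {ν : Measure X} [IsProbabilityMeasure ν] {p : X} {R : ℝ}
    (hν : ∀ᵐ w ∂ν, dist w p ≤ R) {x : X} {ε r : ℝ} (h0r : 0 < r)
    (hf : μ (closedBall x (2 * r)) ≠ ∞) (hε0 : 0 ≤ ε) (hε1 : ε ≤ 1)
    (hN : ∀ u ∈ closedBall x (2 * r), ∀ v ∈ closedBall x (2 * r),
      |Real.sqrt n * ‖Nis710.psi ν u - Nis710.psi ν v‖ - dist u v| ≤ ε * dist u v) :
    Ker585.hs2 (mx μ ηc r x) (mx μ ηc r x)
      (fun u v => n * Ker585.kcomp ν (fun u w => jr r x w u) (jr r x) u v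
        - 1 * K (fr r) x u v) ≤
      ENNReal.ofReal ((72 * ε * (mx μ ηc r x).real univ) ^ 2) := by
  have := isFinite_mx h0r x hf
  refine (Ker585.hs2_le_of_bdd (B := 72 * ε) ?_).trans (le_of_eq ?_)
  · filter_upwards [ae_mx h0r x] with u hu
    filter_upwards [ae_mx h0r x] with v hv
    rw [one_mul]
    refine near_polar hν h0r hε0 hε1 hN ?_ ?_
    · rw [mem_closedBall, dist_comm]; exact hu
    · rw [mem_closedBall, dist_comm]; exact hv
  · congr 1; ring

/-! ### everything at scale `dy (k + 7)` -/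

theorem dy_seven (k : ℕ) : dy k = 128 * dy (k + 7) := by
  unfold dy
  rw [pow_add]
  ring

/-- the common ball of a pair -/
def BB (x y : X) (r : ℝ) : Set X := ball x (128 * r) ∩ ball y (128 * r)

theorem BB_meas (x y : X) (r : ℝ) : MeasurableSet (BB x y r) :=
  isOpen_ball.measurableSet.inter isOpen_ball.measurableSet

theorem ball_subset_BB {x y : X} {r : ℝ} (h : dist x y ≤ 8 * r) {s : ℝ} (hs : s ≤ 120 * r) :
    ball x s ⊆ BB x y r ∧ ball y s ⊆ BB x y r := by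
  have h0 : 0 ≤ r := by
    have := (dist_nonneg (x := x) (y := y)).trans h
    linarith
  refine ⟨fun u hu => ⟨?_, ?_⟩, fun u hu => ⟨?_, ?_⟩⟩ <;> rw [mem_ball] at hu ⊢
  · linarith
  · have := dist_triangle u x y; linarith
  · have := dist_triangle_right u x y; linarith
  · linarith

theorem far_of' {r : ℝ} (h0r : 0 < r) {B : Set X} {a : X}
    (h : ball a (120 * r) ⊆ B) : Pl5661.Far (fr r) B 7000 a := by
  intro u hu
  have h1 : 120 * r ≤ dist a u := by
    by_contra h2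
    push Not at h2
    exact hu (h (by rw [mem_ball, dist_comm]; exact h2))
  unfold fr
  rw [le_div_iff₀ (by positivity), le_div_iff₀ (by norm_num)]
  have : (120 * r) ^ 2 ≤ dist a u ^ 2 := by gcongr
  nlinarith [sq_nonneg r]


/-- **All data of a pair `x, y` at scale `r = dy (k + 7)`.** -/
theorem pair_data [ProperSpace X] [IsFiniteMeasureOnCompacts μ] {C : Rad n κ X μ}
    {G : X → X → X → ℝ} {p : X} {A ε : ℝ} {J₀ : ℕ} {E : ℕ → X → ℝ}
    (D : Q9550.PlData C G p A ε J₀ E) {k : ℕ} (hk : J₀ ≤ k) {r : ℝ} (hr : r = dy (k + 7))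
    {x y : X} (hx : x ∈ ball p 1) (hy : y ∈ ball p 1) (hxy : dist x y ≤ 8 * r)
    {B : Set X} (hB : B = BB x y r) :
    Pl5661.Env μ (Rr C) (fr r) (Gs G r) (PlI585.hr r) (ghr G r) B (2 ^ 16) ∧
    (x ∈ B ∧ y ∈ B) ∧ (Pl5661.Far (fr r) B 7000 x ∧ Pl5661.Far (fr r) B 7000 y) ∧
    (Pl5661.MB μ (Rr C) n B x (A * E k x * 128 ^ n * r ^ n) ∧
      Pl5661.MB μ (Rr C) n B y (A * E k y * 128 ^ n * r ^ n)) ∧
    (∫⁻ v in B, ∫⁻ u in B, ‖Gap79.P (fr r) (Gs G r) x v u‖ₑ ^ 2 ∂μ ∂μ ≤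
        ENNReal.ofReal (A * E k x * 128 ^ (2 * n + 4) * (r ^ n) ^ 2) ∧
      ∫⁻ v in B, ∫⁻ u in B, ‖Gap79.P (fr r) (Gs G r) y v u‖ₑ ^ 2 ∂μ ∂μ ≤
        ENNReal.ofReal (A * E k y * 128 ^ (2 * n + 4) * (r ^ n) ^ 2)) ∧
    (∃ c : ℝ, |c| ≤ 200 ∧ ∫⁻ u in B, ‖Gap79.P (fr r) (Gs G r) x y u - c‖ₑ ∂μ ≤
        ENNReal.ofReal (A * (Real.sqrt (E k x) + Real.sqrt (E k y)) * 128 ^ (n + 2) * r ^ n)) ∧
    (∫⁻ w, ∫⁻ u in B, ‖Pl6661.EE (PlI585.hr r) (ghr G r) x u w‖ₑ ^ 2 ∂μ ∂(Q9550.nuW μ p) ≤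
        ENNReal.ofReal (A ^ 2 * E k x * 128 ^ (n + 2) * r ^ n) ∧
      ∫⁻ w, ∫⁻ u in B, ‖Pl6661.EE (PlI585.hr r) (ghr G r) y u w‖ₑ ^ 2 ∂μ ∂(Q9550.nuW μ p) ≤
        ENNReal.ofReal (A ^ 2 * E k y * 128 ^ (n + 2) * r ^ n)) ∧
    μ B ≤ ENNReal.ofReal (A * 128 ^ n * r ^ n) ∧ |fr r x y| ≤ 32 := by
  have h0r : 0 < r := by rw [hr]; exact dy_pos _
  have hA : 0 < A := lt_of_lt_of_le one_pos D.A_ge
  have hdk : dy k = 128 * r := by rw [hr]; exact dy_seven k
  have hBx : B ⊆ ball x (128 * r) := by rw [hB]; exact inter_subset_left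
  have hBy : B ⊆ ball y (128 * r) := by rw [hB]; exact inter_subset_right
  have hbb := ball_subset_BB hxy (le_refl (120 * r))
  rw [← hB] at hbb
  have h128 : 128 * r ≤ 1 := by rw [← hdk]; exact dy_le_one k
  refine ⟨env D.grep h0r D.sing (by rw [hB]; exact BB_meas x y r) hBx,
    ⟨hbb.1 (mem_ball_self (by positivity)), hbb.2 (mem_ball_self (by positivity))⟩,
    ⟨far_of' h0r hbb.1, far_of' h0r hbb.2⟩, ⟨?_, ?_⟩, ⟨?_, ?_⟩, ?_, ⟨?_, ?_⟩, ?_, ?_⟩
  · have h := D.m k hk x hx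
    rw [hdk] at h
    have := mb_of hBx h
    rwa [mul_pow, ← mul_assoc] at this
  · have h := D.m k hk y hy
    rw [hdk] at h
    have := mb_of hBy h
    rwa [mul_pow, ← mul_assoc] at this
  · have h := D.L k hk x hx
    rw [hdk] at h
    refine (L_of h0r hBx h).trans (ENNReal.ofReal_le_ofReal (le_of_eq ?_))
    have : r ≠ 0 := h0r.ne'
    rw [mul_pow, pow_add r (2 * n) 4, pow_mul' r 2 n]
    field_simp
  · have h := D.L k hk y hy
    rw [hdk] at h
    refine (L_of h0r hBy h).trans (ENNReal.ofReal_le_ofReal (le_of_eq ?_))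
    have : r ≠ 0 := h0r.ne'
    rw [mul_pow, pow_add r (2 * n) 4, pow_mul' r 2 n]
    field_simp
  · obtain ⟨cc, -, h⟩ := D.L2
    obtain ⟨h1, h2⟩ := h k hk x hx y hy (by rw [← hr]; exact hxy)
    refine ⟨cc k x y / r ^ 2, ?_, ?_⟩
    · rw [abs_div, abs_of_nonneg (by positivity : (0 : ℝ) ≤ r ^ 2), div_le_iff₀ (by positivity)]
      rw [← hr] at h1
      exact h1
    · rw [hdk] at h2
      refine (LP_of h0r hBx h2).trans (ENNReal.ofReal_le_ofReal (le_of_eq ?_))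
      have : r ≠ 0 := h0r.ne'
      rw [mul_pow, pow_add r n 2]
      field_simp
  · have h := D.F k hk x hx
    rw [hdk] at h
    refine (F_of D.grep h0r hA hBx D.volW_ge h).trans (ENNReal.ofReal_le_ofReal (le_of_eq ?_))
    have : r ≠ 0 := h0r.ne'
    rw [mul_pow, pow_add r n 2]
    field_simp
  · have h := D.F k hk y hy
    rw [hdk] at h
    refine (F_of D.grep h0r hA hBy D.volW_ge h).trans (ENNReal.ofReal_le_ofReal (le_of_eq ?_))
    have : r ≠ 0 := h0r.ne'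
    rw [mul_pow, pow_add r n 2]
    field_simp
  · refine (measure_mono hBx).trans ((D.vol_le x hx _ (by positivity) h128).trans ?_)
    rw [mul_pow, mul_assoc]
  · rw [abs_of_nonneg (fr_nonneg r x y)]
    have := fr_le (R := 8) h0r hxy
    linarith

end Crest.Agent.R247.PlI585
end
end

-- ▼ part R247/PlI3_585
section

/-!
R247 block (2b), helper585: existence of the nodes (923's `Node`) from 550's `PlData`
(79's `round`, near isometry, volumes).
-/

set_option autoImplicit false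
set_option linter.unusedSectionVars false

noncomputable section

namespace Crest.Agent.R247.PlI585

open MeasureTheory Set Filter Topology Metric
open scoped ENNReal NNReal
open Crest.Agent.R247.Mcp688 Crest.Agent.R247.Cal550 Crest.Agent.R247.Gap79
open Crest.Agent.R247.Far553

universe u

/-- the constant of the nodes -/
def Qn (n : ℕ) (A : ℝ) : ℝ := 32 * A * 3 ^ n * (n + 1)

/-- constant of 79's `round` -/
def cR1 (V : ℝ) : ℝ := 4 * 8 ^ 2 * V ^ 2 * ((192 * (1 + 16 * V)) ^ 2 + ((1 + 96 * 8) ^ 2 + 2))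

/-- constant of 79's `round` -/
def cR2 (V : ℝ) : ℝ := 8 * (192 * (1 + 16 * V) * V + (2 + 96 * 8) * V) + 96 * (1 + 16 * V) * V

theorem dy_five (k : ℕ) : dy (k + 5) = 4 * dy (k + 7) := by
  unfold dy
  rw [pow_add, pow_add]
  ring

theorem Qn_facts (n : ℕ) {A : ℝ} (hA : 1 ≤ A) :
    1 ≤ Qn n A ∧ 2 * n * A ≤ Qn n A ∧ 32 * (A * 3 ^ n) ≤ Qn n A ∧ A ≤ Qn n A := by
  have hA0 : 0 < A := by linarith
  have h3 : (1 : ℝ) ≤ 3 ^ n := one_le_pow₀ (by norm_num)
  have h4 : A * 1 ≤ A * 3 ^ n := mul_le_mul_of_nonneg_left h3 hA0.le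
  have h6 : 0 ≤ (n : ℝ) := Nat.cast_nonneg n
  have h5 : A * 1 * n ≤ A * 3 ^ n * n := mul_le_mul_of_nonneg_right h4 h6
  have h7 : 0 ≤ A * n := by positivity
  have e : Qn n A = 32 * (A * 3 ^ n * n) + 32 * (A * 3 ^ n) := by unfold Qn; ring
  rw [e]
  refine ⟨by linarith, by linarith, by linarith, by linarith⟩

theorem small_consts {V v0 δ T c3 : ℝ} (hV : 0 ≤ V) (hv0 : 0 < v0) (hδ : 0 < δ) (hT : 1 ≤ T)
    (hc3 : 0 < c3) : ∃ ε₀ : ℝ, 0 < ε₀ ∧ ∀ ε : ℝ, 0 < ε → ε ≤ ε₀ → T * ε ≤ 1 ∧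
      Real.sqrt (cR1 V * (T * ε)) / v0 ^ 2 ≤ δ ∧
      cR2 V * Real.sqrt (T * ε) ≤ 1 / 2 * v0 ^ 2 ∧ c3 * ε ≤ 1 := by
  have hc1 : 0 ≤ cR1 V := by unfold cR1; positivity
  have hc2 : 0 ≤ cR2 V := by unfold cR2; positivity
  have hT0 : 0 < T := by linarith
  set a1 : ℝ := (δ * v0 ^ 2) ^ 2 / (cR1 V + 1) with ha1
  set a2 : ℝ := (v0 ^ 2 / (2 * (cR2 V + 1))) ^ 2 with ha2
  have p1 : 0 < a1 := by positivity
  have p2 : 0 < a2 := by positivity
  refine ⟨min (min (1 / T) (a1 / T)) (min (a2 / T) (1 / c3)), by positivity, fun ε h0 h => ?_⟩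
  have h1 : ε ≤ 1 / T := h.trans ((min_le_left _ _).trans (min_le_left _ _))
  have h2 : ε ≤ a1 / T := h.trans ((min_le_left _ _).trans (min_le_right _ _))
  have h3 : ε ≤ a2 / T := h.trans ((min_le_right _ _).trans (min_le_left _ _))
  have h4 : ε ≤ 1 / c3 := h.trans ((min_le_right _ _).trans (min_le_right _ _))
  rw [le_div_iff₀ hT0, mul_comm] at h1 h2 h3
  rw [le_div_iff₀ hc3, mul_comm] at h4
  refine ⟨h1, ?_, ?_, h4⟩
  · rw [div_le_iff₀ (by positivity), Real.sqrt_le_left (by positivity)]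
    have h5 : (cR1 V + 1) * (T * ε) ≤ (δ * v0 ^ 2) ^ 2 := by
      rw [ha1, le_div_iff₀ (by positivity)] at h2
      linarith
    have h6 : 0 ≤ T * ε := by positivity
    linarith
  · have h5 : Real.sqrt (T * ε) ≤ v0 ^ 2 / (2 * (cR2 V + 1)) := by
      rw [Real.sqrt_le_left (by positivity)]
      exact h3
    rw [le_div_iff₀ (by positivity)] at h5
    have h6 := Real.sqrt_nonneg (T * ε)
    nlinarith

set_option maxHeartbeats 1000000 in
/-- **Existence of the nodes.** -/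
theorem exists_node (n : ℕ) {A : ℝ} (hA : 1 ≤ A) {e₁ : ℝ} (he₁ : 0 < e₁) (he₁' : e₁ ≤ 1 / 4) :
    ∃ ε₀ : ℝ, 0 < ε₀ ∧ ∀ (κ : ℝ) (X : Type u) [MetricSpace X] [MeasurableSpace X] [BorelSpace X]
      [ProperSpace X] (μ : Measure X) [IsFiniteMeasureOnCompacts μ] (C : Rad n κ X μ)
      (G : X → X → X → ℝ) (p : X) [SFinite (Q9550.nuW μ p)] (ε : ℝ) (J₀ : ℕ) (E : ℕ → X → ℝ),
      Q9550.PlData C G p A ε J₀ E → ε ≤ ε₀ → ∀ k, J₀ ≤ k → ∀ x ∈ ball p (dy J₀ / 2),
      Nonempty (Pln923.Node (mx μ ηc (dy (k + 7)) x) (Q9550.nuW μ p) (K (fr (dy (k + 7))) x)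
        (jr (dy (k + 7)) x) (∫ u, φc (fr (dy (k + 7)) x u) ∂μ) e₁ (Qn n A)
        (dy (k + 7) ^ n) n) := by
  set V : ℝ := A * 3 ^ n with hVdef
  have hA0 : 0 < A := by linarith
  have hV0 : 0 < V := by positivity
  have hv0 : 0 < A⁻¹ := by positivity
  set δ : ℝ := min (1 / (100 * ((n : ℝ) + 1))) (2 / 5 * e₁) with hδdef
  have hδ : 0 < δ := by positivity
  set T : ℝ := A * 128 ^ (2 * n + 4) with hTdef
  have h128 : (1 : ℝ) ≤ 128 ^ (2 * n + 4) := one_le_pow₀ (by norm_num)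
  have hT : 1 ≤ T := by nlinarith
  obtain ⟨ε₀, hε₀, hsm⟩ := small_consts hV0.le hv0 hδ hT
    (by positivity : (0 : ℝ) < 2304 * V * A)
  refine ⟨min ε₀ 1, by positivity, ?_⟩
  intro κ X _ _ _ _ μ _ C G p _ ε J₀ E D hεε k hk x hx
  obtain ⟨s1, s2, s3, s4⟩ := hsm ε D.ε_pos (hεε.trans (min_le_left _ _))
  have hε1 : ε ≤ 1 := hεε.trans (min_le_right _ _)
  set r : ℝ := dy (k + 7) with hr
  have h0r : 0 < r := dy_pos _
  have hrn : 0 < r ^ n := by positivity
  have hdk : dy k = 128 * r := dy_seven k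
  have hdk1 : 128 * r ≤ dy J₀ := by rw [← hdk]; exact dy_anti hk
  have hJ1 : dy J₀ ≤ 1 / 16 := by
    have h1 := dy_anti D.J₀_ge
    have h2 : dy 4 = 1 / 16 := by unfold dy; norm_num
    linarith
  have hr1 : r ≤ 1 := by linarith
  have hfin : ∀ (a : X) (R : ℝ), μ (closedBall a R) ≠ ∞ := fun a R =>
    (isCompact_closedBall a R).measure_lt_top.ne
  -- points near `x`
  have hnear : ∀ a ∈ closedBall x (2 * r), a ∈ ball p (dy J₀) := by
    intro a ha
    rw [mem_closedBall] at ha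
    rw [mem_ball] at hx ⊢
    have := dist_triangle a x p
    linarith
  have hnear1 : ∀ a ∈ closedBall x (2 * r), a ∈ ball p 1 := fun a ha =>
    ball_subset_ball (by linarith) (hnear a ha)
  have hxx : x ∈ closedBall x (2 * r) := mem_closedBall_self (by positivity)
  have hx1 := hnear1 x hxx
  -- volumes
  have hVball : μ (closedBall x (2 * r)) ≤ ENNReal.ofReal (V * r ^ n) := by
    refine (measure_mono (closedBall_subset_ball (by linarith : 2 * r < 3 * r))).trans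
      ((D.vol_le x hx1 (3 * r) (by positivity) (by linarith)).trans
        (ENNReal.ofReal_le_ofReal (le_of_eq ?_)))
    rw [mul_pow, hVdef]; ring
  have hVreal : μ.real (closedBall x (2 * r)) ≤ V * r ^ n := by
    rw [measureReal_def]
    exact ENNReal.toReal_le_of_le_ofReal (by positivity) hVball
  have hLam : A⁻¹ * r ^ n ≤ ∫ u, φc (fr r x u) ∂μ :=
    lam_ge h0r x (hfin x _) (D.vol_ge x hx1 r h0r hr1)
  have hLam2 : ∫ u, φc (fr r x u) ∂μ ≤ V * r ^ n := (lam_le h0r x (hfin x _)).trans hVreal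
  set Λ : ℝ := ∫ u, φc (fr r x u) ∂μ with hΛdef
  have hΛ0 : 0 < Λ := lt_of_lt_of_le (by positivity) hLam
  -- (4a), (4b)
  have hTe : 0 ≤ T * ε := by have := D.ε_pos; positivity
  have h4n : (4 : ℝ) ^ n ≤ 128 ^ (2 * n + 4) := by
    calc (4 : ℝ) ^ n ≤ 128 ^ n := by gcongr; norm_num
      _ ≤ 128 ^ (2 * n + 4) := pow_le_pow_right₀ (by norm_num) (by omega)
  obtain ⟨hK, Ee, hR, hf, hrank⟩ := round (C := C) D.grep cutG h0r x D.κ_nonneg hfin
    (V := V) (v0 := A⁻¹) (e := T * ε) hv0 hTe s1 hVreal hLam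
    (fun a ha => by
      have h1 := D.drop_small (k + 5) (by omega) a (hnear1 a ha)
      rw [dy_five, ← hr] at h1
      refine h1.trans ?_
      rw [mul_pow, hTdef]
      have h2 : A * ε * (4 ^ n * r ^ n) ≤ A * ε * (128 ^ (2 * n + 4) * r ^ n) := by
        have := D.ε_pos
        gcongr
      refine h2.trans (le_of_eq ?_)
      ring)
    (by
      have h1 := D.κ_small
      have h2 := D.κ_nonneg
      have h3 : r ^ 2 ≤ 1 := pow_le_one₀ h0r.le hr1
      have h4 : κ * r ^ 2 ≤ κ * 1 := mul_le_mul_of_nonneg_left h3 h2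
      have h5 : 1 * ε ≤ T * ε := mul_le_mul_of_nonneg_right hT D.ε_pos.le
      linarith)
    (fun a ha => by
      have h1 := D.L k hk a (hnear1 a ha)
      rw [hdk] at h1
      have hsub : closedBall x (2 * r) ⊆ ball a (128 * r) := by
        intro b hb
        rw [mem_closedBall] at ha hb
        rw [mem_ball]
        have := dist_triangle_right b a x
        linarith
      refine (lintegral_mono fun v => lintegral_mono_set hsub).trans
        ((lintegral_mono_set hsub).trans (h1.trans (ENNReal.ofReal_le_ofReal ?_)))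
      rw [mul_pow, hTdef]
      have h2 := D.E_le k hk a (hnear1 a ha)
      have h3 : A * E k a * (128 ^ (2 * n + 4) * r ^ (2 * n + 4)) ≤
          A * ε * (128 ^ (2 * n + 4) * r ^ (2 * n + 4)) := by gcongr
      refine h3.trans (le_of_eq ?_)
      ring)
    rfl (s2.trans (min_le_left _ _)) s3
  have hRnd : Pl2661.Rnd (Λ⁻¹ • Ker585.kop hK) Ee e₁ := by
    refine ⟨hR.sa, hR.idem, hR.comm, hR.near.trans ?_⟩
    have h1 := s2.trans (min_le_right _ _)
    have h2 : (Real.sqrt (4 * 8 ^ 2 * V ^ 2 * ((192 * (1 + 16 * V)) ^ 2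
      + ((1 + 96 * 8) ^ 2 + 2)) * (T * ε)) / A⁻¹ ^ 2) ≤ 2 / 5 * e₁ := h1
    linarith
  -- the far measure
  have hprob : IsProbabilityMeasure (Q9550.nuW μ p) := by
    refine Q9550.nuW_prob ?_ ?_
    · have := D.volW_ge
      intro h0
      rw [h0] at this
      have h1 : ENNReal.ofReal A⁻¹ = 0 := le_antisymm this bot_le
      rw [ENNReal.ofReal_eq_zero] at h1
      linarith
    · exact ne_top_of_le_ne_top ENNReal.ofReal_ne_top D.volW_le
  have hν := Q9550.nuW_bound μ p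
  have hj : Ker585.HK (Q9550.nuW μ p) (mx μ ηc r x) (jr r x) := HK_jr h0r x (hfin x _)
  have hmx : (mx μ ηc r x).real univ ≤ 8 * (V * r ^ n) :=
    mx_real_univ_le h0r x (by positivity) hVball
  have hmx0 : 0 ≤ (mx μ ηc r x).real univ := measureReal_nonneg
  have hn0 : (0 : ℝ) < n := by exact_mod_cast D.n_pos
  have hn1 : (1 : ℝ) ≤ n := by exact_mod_cast D.n_pos
  have hβ : 72 * ε * (mx μ ηc r x).real univ ≤ Λ / 4 := by
    have h1 : 72 * ε * (mx μ ηc r x).real univ ≤ 72 * ε * (8 * (V * r ^ n)) := by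
      have := D.ε_pos
      gcongr
    have h2 : 2304 * V * ε ≤ A⁻¹ := by
      rw [le_inv_comm₀ (by have := D.ε_pos; positivity) hA0]
      rw [le_inv_comm₀ hA0 (by have := D.ε_pos; positivity)]
      rw [← one_div, le_div_iff₀ hA0]
      linarith
    have h3 : 2304 * V * ε * r ^ n ≤ A⁻¹ * r ^ n := by gcongr
    linarith
  obtain ⟨hQ1, hQA, hQV, hQA'⟩ := Qn_facts n hA
  rw [← hVdef] at hQV
  have hQ0 : 0 < Qn n A := by linarith
  refine ⟨{ hk := hK, sk := fun a b => K_symm (fr_symm r) x a b, hj := hj, E := Ee, R := hRnd,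
            fin := hf, rank := hrank, low := fun v hv => ?_, up := ?_, s_pos := hrn,
            Q_ge := hQ1, Λ_ge := ?_, Λ_le := ?_, e_half := he₁' }⟩
  · have h1 := Pln923.low_of_near' hK hj hΛ0 hn0 (by have := D.ε_pos; positivity) hRnd he₁' hβ
      (near_hs2 (n := n) hν h0r (hfin x _) D.ε_pos.le hε1
        (fun u hu v hv => D.near u (hnear u hu) v (hnear v hv))) v hv
    refine le_trans ?_ h1
    refine mul_le_mul_of_nonneg_right ?_ (norm_nonneg _)
    have h2 : (Qn n A)⁻¹ * Real.sqrt (r ^ n) = Real.sqrt ((Qn n A)⁻¹ ^ 2 * r ^ n) := by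
      rw [Real.sqrt_mul (by positivity), Real.sqrt_sq (by positivity)]
    rw [h2]
    apply Real.sqrt_le_sqrt
    rw [le_div_iff₀ (by positivity)]
    have h3 : (Qn n A)⁻¹ * (2 * n * A) ≤ 1 := by
      rw [inv_mul_le_iff₀ hQ0]; linarith
    have h4 : (Qn n A)⁻¹ ≤ 1 := inv_le_one_of_one_le₀ hQ1
    have h5 : 0 < (Qn n A)⁻¹ := by positivity
    have h6 : (Qn n A)⁻¹ ^ 2 * (2 * n) ≤ A⁻¹ := by
      rw [← one_div A, le_div_iff₀ hA0]
      calc (Qn n A)⁻¹ ^ 2 * (2 * n) * A = (Qn n A)⁻¹ * ((Qn n A)⁻¹ * (2 * n * A)) := by ring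
        _ ≤ 1 * 1 := by gcongr
        _ = 1 := one_mul _
    calc (Qn n A)⁻¹ ^ 2 * r ^ n * (2 * n) = (Qn n A)⁻¹ ^ 2 * (2 * n) * r ^ n := by ring
      _ ≤ A⁻¹ * r ^ n := by gcongr
      _ ≤ Λ := hLam
  · refine (norm_jr_le h0r x (hfin x _) hj).trans ?_
    have h1 : 2 * Real.sqrt ((mx μ ηc r x).real univ) ≤ Real.sqrt (32 * V * r ^ n) := by
      have h2 : (2 : ℝ) = Real.sqrt 4 := by
        rw [show (4 : ℝ) = 2 ^ 2 by norm_num, Real.sqrt_sq (by norm_num)]
      rw [h2, ← Real.sqrt_mul (by norm_num)]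
      apply Real.sqrt_le_sqrt
      linarith
    refine h1.trans ?_
    rw [Real.sqrt_mul (by positivity)]
    refine mul_le_mul_of_nonneg_right ?_ (Real.sqrt_nonneg _)
    rw [Real.sqrt_le_left hQ0.le, sq]
    calc 32 * V ≤ 1 * Qn n A := by linarith
      _ ≤ Qn n A * Qn n A := mul_le_mul_of_nonneg_right hQ1 hQ0.le
  · refine le_trans ?_ hLam
    exact mul_le_mul_of_nonneg_right (inv_anti₀ hA0 hQA') hrn.le
  · refine hLam2.trans ?_
    refine mul_le_mul_of_nonneg_right ?_ hrn.le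
    linarith

end Crest.Agent.R247.PlI585
end
end

-- ▼ part R247/Pln7_923

/-!
# R247, block (2b), Pl5' part 7 (helper923): the planes theorem `Q9550.PlThm n`
-/

set_option autoImplicit false
set_option linter.unusedSectionVars false

noncomputable section

namespace Crest.Agent.R247.Pln923

open MeasureTheory Filter Set Metric
open scoped ENNReal InnerProductSpace
open Crest.Agent.R247.Mcp688 Crest.Agent.R247.Cal550
open Crest.Agent.R247.Far553
open Crest.Agent.R247.Gap79 (fr Gs mx)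
open Crest.Agent.R247.Gap79 (K P)
open Crest.Agent.R247.Pl5661 (Env Cut MB Far)
open Crest.Agent.R247.Pl6661 (EE C1)
open Crest.Agent.R247.PlI585

universe u

/-- the constant -/
def QQ (n : ℕ) (A : ℝ) : ℝ :=
  Qn n A * 2 ^ n + C1 n (2 ^ 16) 8 + A ^ 2 * 128 ^ (2 * n + 4) + 2 ^ (n + 1) + 8

theorem QQ_facts (n : ℕ) {A : ℝ} (hA : 1 ≤ A) :
    1 ≤ QQ n A ∧ Qn n A ≤ QQ n A ∧ Qn n A * 2 ^ n ≤ QQ n A ∧ C1 n (2 ^ 16) 8 ≤ QQ n A ∧
    A ^ 2 * 128 ^ (2 * n + 4) ≤ QQ n A ∧ 2 ^ (n + 1) ≤ QQ n A ∧ 8 ≤ QQ n A := by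
  have h1 := (Qn_facts n hA).1
  have h2 : (1 : ℝ) ≤ 2 ^ n := one_le_pow₀ (by norm_num)
  have h3 : Qn n A * 1 ≤ Qn n A * 2 ^ n := by gcongr
  have h4 : 0 ≤ C1 n (2 ^ 16) 8 := C1_nonneg (by positivity) (by norm_num)
  have h5 : 0 ≤ A ^ 2 * 128 ^ (2 * n + 4) := by positivity
  have h6 : (0 : ℝ) ≤ 2 ^ (n + 1) := by positivity
  unfold QQ
  refine ⟨by linarith, by linarith, by linarith, by linarith, by linarith, by linarith,
    by linarith⟩

theorem MB_mono {X : Type*} [MeasurableSpace X] {vol : Measure X}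
    {R : X → (X → ℝ) → (X → ℝ) → Prop} {n : ℕ} {B : Set X} {x : X} {β β' : ℝ}
    (h : MB vol R n B x β) (hβ : β ≤ β') : MB vol R n B x β' := by
  intro ζ dζ S hR h0 hS
  refine (h ζ dζ S hR h0 hS).trans ?_
  have : 0 ≤ S := (abs_nonneg _).trans (hS x)
  gcongr

theorem le_sqrt_self {E : ℝ} (h0 : 0 ≤ E) (h1 : E ≤ 1) : E ≤ Real.sqrt E := by
  apply Real.le_sqrt_of_sq_le
  nlinarith

section data

variable {n : ℕ} {κ : ℝ} {X : Type u} [MetricSpace X] [MeasurableSpace X] [BorelSpace X]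
  {μ : Measure X} [ProperSpace X] [IsFiniteMeasureOnCompacts μ] {C : Rad n κ X μ}
  {G : X → X → X → ℝ} {p : X} {A ε : ℝ} {J₀ : ℕ} {E : ℕ → X → ℝ}

theorem nuW_isProb (D : Q9550.PlData C G p A ε J₀ E) :
    IsProbabilityMeasure (Q9550.nuW μ p) := by
  have hA := D.A_ge
  refine Q9550.nuW_prob ?_ ?_
  · have := D.volW_ge
    intro h0
    rw [h0] at this
    have h1 : ENNReal.ofReal A⁻¹ = 0 := le_antisymm this bot_le
    rw [ENNReal.ofReal_eq_zero] at h1
    have : 0 < A⁻¹ := by positivity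
    linarith
  · exact ne_top_of_le_ne_top ENNReal.ofReal_ne_top D.volW_le

/-- the data of a pair -/
theorem com_one (D : Q9550.PlData C G p A ε J₀ E) (hε : ε ≤ 1) {k : ℕ} (hk : J₀ ≤ k) {r : ℝ}
    (hr : r = dy (k + 7)) {x y : X} (hx : x ∈ ball p 1) (hy : y ∈ ball p 1)
    (hxy : dist x y ≤ 8 * r) :
    ∃ B : Set X, ∃ β : ℝ,
    Com μ (Q9550.nuW μ p) (Rr C) (fr r) (Gs G r) (PlI585.hr r) (ghr G r) B (2 ^ 16)
      ηc ηc' φc 8 n 7000 β (QQ n A) (r ^ n) (Real.sqrt (E k x) + Real.sqrt (E k y)) ∧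
    One μ (Q9550.nuW μ p) (Rr C) (fr r) (Gs G r) (PlI585.hr r) (ghr G r) B (2 ^ 16)
      n 7000 β (QQ n A) (r ^ n) (Real.sqrt (E k x) + Real.sqrt (E k y)) x ∧
    One μ (Q9550.nuW μ p) (Rr C) (fr r) (Gs G r) (PlI585.hr r) (ghr G r) B (2 ^ 16)
      n 7000 β (QQ n A) (r ^ n) (Real.sqrt (E k x) + Real.sqrt (E k y)) y ∧
    ∃ c0 : ℝ, |c0| ≤ 2 ^ 16 ∧ |fr r y x - c0| ≤ 7000 ∧
      ∫⁻ u in B, ‖P (fr r) (Gs G r) x y u - c0‖ₑ ∂μ ≤
        ENNReal.ofReal (QQ n A * r ^ n * (Real.sqrt (E k x) + Real.sqrt (E k y))) := by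
  obtain ⟨hE, ⟨xB, yB⟩, ⟨fx, fy⟩, ⟨mx', my'⟩, ⟨Lx, Ly⟩, ⟨c, hc1, hc2⟩, ⟨Fx, Fy⟩, hvol, hfxy⟩ :=
    pair_data D hk hr hx hy hxy (B := BB x y r) rfl
  have hA := D.A_ge
  have h0r : 0 < r := by rw [hr]; exact dy_pos _
  have hrn : 0 < r ^ n := by positivity
  obtain ⟨q1, q2, q3, q4, q5, q6, q7⟩ := QQ_facts n hA
  have hprob := nuW_isProb D
  set ex := E k x with hex
  set ey := E k y with hey
  have ex0 : 0 ≤ ex := D.E_nonneg k x hx
  have ey0 : 0 ≤ ey := D.E_nonneg k y hy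
  have ex1 : ex ≤ 1 := (D.E_le k hk x hx).trans hε
  have ey1 : ey ≤ 1 := (D.E_le k hk y hy).trans hε
  set δ := Real.sqrt ex + Real.sqrt ey with hδ
  have sx0 := Real.sqrt_nonneg ex
  have sy0 := Real.sqrt_nonneg ey
  have hδ0 : 0 ≤ δ := by positivity
  have hexδ : ex ≤ δ ^ 2 := by
    have := Real.sq_sqrt ex0
    rw [hδ]
    nlinarith
  have heyδ : ey ≤ δ ^ 2 := by
    have := Real.sq_sqrt ey0
    rw [hδ]
    nlinarith
  have hsum : ex + ey ≤ δ := add_le_add (le_sqrt_self ex0 ex1) (le_sqrt_self ey0 ey1)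
  have hA2 : A ≤ A ^ 2 := by nlinarith
  have p128 : ∀ m : ℕ, (0 : ℝ) < 128 ^ m := fun m => by positivity
  have pm : ∀ m : ℕ, m ≤ 2 * n + 4 → (128 : ℝ) ^ m ≤ 128 ^ (2 * n + 4) := fun m hm =>
    pow_le_pow_right₀ (by norm_num) hm
  have k1 : ∀ m : ℕ, m ≤ 2 * n + 4 → A * 128 ^ m ≤ QQ n A := fun m hm => by
    refine le_trans ?_ q5
    exact mul_le_mul hA2 (pm m hm) (p128 m).le (by positivity)
  have k2 : ∀ m : ℕ, m ≤ 2 * n + 4 → A ^ 2 * 128 ^ m ≤ QQ n A := fun m hm => by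
    refine le_trans ?_ q5
    exact mul_le_mul le_rfl (pm m hm) (p128 m).le (by positivity)
  have hQ0 : 0 < QQ n A := by linarith
  refine ⟨BB x y r, A * (ex + ey) * 128 ^ n * r ^ n, ?_, ?_, ?_, c, ?_, ?_, ?_⟩
  · refine ⟨hE, cutP, D.n_pos, q1, hrn, hδ0, q4, q7, ?_, ?_, ?_, by norm_num⟩
    · refine hvol.trans (ENNReal.ofReal_le_ofReal ?_)
      exact mul_le_mul_of_nonneg_right (k1 n (by omega)) hrn.le
    · calc A * (ex + ey) * 128 ^ n * r ^ n = A * 128 ^ n * r ^ n * (ex + ey) := by ring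
        _ ≤ QQ n A * r ^ n * δ := by
            have := k1 n (by omega)
            gcongr
    · exact prob_le_one
  · refine ⟨xB, fx, MB_mono mx' ?_, ?_, ?_, Lx.trans (ENNReal.ofReal_le_ofReal ?_),
      Fx.trans (ENNReal.ofReal_le_ofReal ?_)⟩
    · gcongr
      linarith
    · exact (D.grep.meas.comp (measurable_const.prodMk
        (measurable_fst.prodMk measurable_snd))).div_const _
    · exact ((D.grep.meas_Ed x).comp measurable_swap).div_const _
    · calc A * ex * 128 ^ (2 * n + 4) * (r ^ n) ^ 2 = A * 128 ^ (2 * n + 4) * (r ^ n) ^ 2 * ex := by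
            ring
        _ ≤ QQ n A * (r ^ n) ^ 2 * δ ^ 2 := by
            have := k1 (2 * n + 4) le_rfl
            gcongr
    · calc A ^ 2 * ex * 128 ^ (n + 2) * r ^ n = A ^ 2 * 128 ^ (n + 2) * r ^ n * ex := by ring
        _ ≤ QQ n A * r ^ n * δ ^ 2 := by
            have := k2 (n + 2) (by omega)
            gcongr
  · refine ⟨yB, fy, MB_mono my' ?_, ?_, ?_, Ly.trans (ENNReal.ofReal_le_ofReal ?_),
      Fy.trans (ENNReal.ofReal_le_ofReal ?_)⟩
    · gcongr
      linarith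
    · exact (D.grep.meas.comp (measurable_const.prodMk
        (measurable_fst.prodMk measurable_snd))).div_const _
    · exact ((D.grep.meas_Ed y).comp measurable_swap).div_const _
    · calc A * ey * 128 ^ (2 * n + 4) * (r ^ n) ^ 2 = A * 128 ^ (2 * n + 4) * (r ^ n) ^ 2 * ey := by
            ring
        _ ≤ QQ n A * (r ^ n) ^ 2 * δ ^ 2 := by
            have := k1 (2 * n + 4) le_rfl
            gcongr
    · calc A ^ 2 * ey * 128 ^ (n + 2) * r ^ n = A ^ 2 * 128 ^ (n + 2) * r ^ n * ey := by ring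
        _ ≤ QQ n A * r ^ n * δ ^ 2 := by
            have := k2 (n + 2) (by omega)
            gcongr
  · exact hc1.trans (by norm_num)
  · have h1 : fr r y x = fr r x y := hE.symm y x
    rw [h1]
    refine (abs_sub _ _).trans ?_
    linarith
  · refine hc2.trans (ENNReal.ofReal_le_ofReal ?_)
    calc A * δ * 128 ^ (n + 2) * r ^ n = A * 128 ^ (n + 2) * r ^ n * δ := by ring
      _ ≤ QQ n A * r ^ n * δ := by
          have := k1 (n + 2) (by omega)
          gcongr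

end data

/-- the coordinate difference in `L²(ν)` -/
theorem psi_diff {X : Type u} [MetricSpace X] [MeasurableSpace X] [BorelSpace X]
    {ν : Measure X} [IsFiniteMeasure ν] {p : X}
    (hν : ∀ᵐ w ∂ν, dist w p ≤ 8) (r : ℝ) (x y : X) :
    (r⁻¹ • (Nis710.psi ν y - Nis710.psi ν x) : Lp ℝ 2 ν) =ᵐ[ν]
      fun w => PlI585.hr r w y - PlI585.hr r w x := by
  have h1 := Nis710.coe_psi (Nis710.memLp_dist hν x)
  have h2 := Nis710.coe_psi (Nis710.memLp_dist hν y)
  filter_upwards [Lp.coeFn_smul r⁻¹ (Nis710.psi ν y - Nis710.psi ν x),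
    Lp.coeFn_sub (Nis710.psi ν y) (Nis710.psi ν x), h1, h2] with w e1 e2 e3 e4
  rw [e1, Pi.smul_apply, e2, Pi.sub_apply, e3, e4]
  simp only [PlI585.hr, smul_eq_mul]
  rw [dist_comm w y, dist_comm w x]
  ring

/-- **The planes theorem.** -/
theorem plThm (n : ℕ) : Q9550.PlThm.{u} n := by
  intro A hA
  obtain ⟨q1, q2, q3, q4, q5, q6, q7⟩ := QQ_facts n hA
  set Q := QQ n A with hQdef
  have hQ0 : 0 < Q := by linarith
  set e₁ : ℝ := 1 / (4 * Q ^ 4) with he₁def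
  have he₁ : 0 < e₁ := by positivity
  have hQ4 : 1 ≤ Q ^ 4 := one_le_pow₀ q1
  have he₁' : e₁ ≤ 1 / 4 := by
    rw [he₁def]
    apply one_div_le_one_div_of_le (by norm_num)
    linarith
  have he : 4 * Q ^ 4 * e₁ ≤ 1 := by
    rw [he₁def]
    field_simp
    norm_num
  obtain ⟨ε₀, hε₀, hnode⟩ := exists_node.{u} n hA he₁ he₁'
  refine ⟨144 * Q ^ 10, ?_, min ε₀ 1, by positivity, ?_⟩
  · have := one_le_pow₀ (n := 10) q1
    linarith
  intro κ X _ _ _ _ μ _ C G p J₀ E D J hJ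
  have hprob := nuW_isProb D
  have hν := Q9550.nuW_bound μ p
  have hball : ∀ x ∈ ball p (dy J / 2), x ∈ ball p (dy J₀ / 2) := fun x hx =>
    ball_subset_ball (by have := dy_anti (show J₀ ≤ J by omega); linarith) hx
  have hball1 : ∀ x ∈ ball p (dy J / 2), x ∈ ball p 1 := fun x hx =>
    ball_subset_ball (by have := dy_le_one J; linarith) hx
  have hnd := hnode κ X μ C G p (min ε₀ 1) J₀ E D (min_le_left _ _)
  choose Nd hNd using fun (k : ℕ) (x : X) (h : J₀ ≤ k ∧ x ∈ ball p (dy J₀ / 2)) =>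
    (⟨Classical.choice (hnd k h.1 x h.2), trivial⟩ : ∃ _ : Node (mx μ ηc (dy (k + 7)) x)
      (Q9550.nuW μ p) (K (fr (dy (k + 7))) x) (jr (dy (k + 7)) x)
      (∫ u, φc (fr (dy (k + 7)) x u) ∂μ) e₁ (Qn n A) (dy (k + 7) ^ n) n, True)
  classical
  refine ⟨fun k x => if h : J₀ ≤ J + k - 7 ∧ x ∈ ball p (dy J₀ / 2) then
    (Nd (J + k - 7) x h).P else 0, ?_, ?_, ?_, ?_, ?_⟩
  · intro k hk x hx
    have h : J₀ ≤ J + k - 7 ∧ x ∈ ball p (dy J₀ / 2) := ⟨by omega, hball x hx⟩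
    simp only [dif_pos h]
    exact (Nd _ x h).isProj
  · intro x hx
    have h : J₀ ≤ J + 1 - 7 ∧ x ∈ ball p (dy J₀ / 2) := ⟨by omega, hball x hx⟩
    simp only [dif_pos h]
    exact (Nd _ x h).exists_range
  · intro k hk x hx y hy hxy
    have h : J₀ ≤ J + k - 7 ∧ x ∈ ball p (dy J₀ / 2) := ⟨by omega, hball x hx⟩
    simp only [dif_pos h]
    set k' := J + k - 7 with hk'
    have hkk : k' + 7 = J + k := by omega
    have hrr : dy J / 2 ^ k = dy (k' + 7) := by rw [Q9550.dy_eq_div, hkk]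
    rw [hrr] at hxy ⊢
    set r := dy (k' + 7) with hr
    have h0r : 0 < r := dy_pos _
    have hrn : 0 < r ^ n := by positivity
    obtain ⟨B, β, d, ox, oy, c0, hc0, hL, hc⟩ := com_one D (min_le_right _ _) h.1 hr
      (hball1 x hx) (hball1 y hy) hxy
    set u := Nis710.psi (Q9550.nuW μ p) y - Nis710.psi (Q9550.nuW μ p) x with hu
    have h1 : ‖r⁻¹ • u - (Nd k' x h).P (r⁻¹ • u)‖ ≤
        15 * Q ^ 6 * (Real.sqrt (E k' x) + Real.sqrt (E k' y)) :=
      d.A1 ox oy hc0 hL hc ((Nd k' x h).weaken hrn q2 (by gcongr) (by gcongr)) (r⁻¹ • u)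
        (psi_diff hν r x y)
    have h3 : (1 - (Nd k' x h).P) u = r • (r⁻¹ • u - (Nd k' x h).P (r⁻¹ • u)) := by
      rw [map_smul, ← smul_sub, smul_smul, mul_inv_cancel₀ h0r.ne', one_smul]
      rfl
    rw [h3, norm_smul, Real.norm_eq_abs, abs_of_pos h0r, mul_comm]
    have h4 : 15 * Q ^ 6 * (Real.sqrt (E k' x) + Real.sqrt (E k' y)) ≤
        144 * Q ^ 10 * (Real.sqrt (E k' x) + Real.sqrt (E k' y)) := by
      have h5 : Q ^ 6 ≤ Q ^ 10 := pow_le_pow_right₀ q1 (by norm_num)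
      have h6 : 0 ≤ Q ^ 6 := by positivity
      have h7 : 15 * Q ^ 6 ≤ 144 * Q ^ 10 := by linarith
      gcongr
    exact mul_le_mul_of_nonneg_right (h1.trans h4) h0r.le
  · intro k hk x hx y hy hxy
    have h : J₀ ≤ J + k - 7 ∧ x ∈ ball p (dy J₀ / 2) := ⟨by omega, hball x hx⟩
    have h' : J₀ ≤ J + k - 7 ∧ y ∈ ball p (dy J₀ / 2) := ⟨by omega, hball y hy⟩
    simp only [dif_pos h, dif_pos h']
    set k' := J + k - 7 with hk'
    have hkk : k' + 7 = J + k := by omega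
    have hrr : dy J / 2 ^ k = dy (k' + 7) := by rw [Q9550.dy_eq_div, hkk]
    rw [hrr] at hxy
    set r := dy (k' + 7) with hr
    have h0r : 0 < r := dy_pos _
    have hrn : 0 < r ^ n := by positivity
    obtain ⟨B, β, d, ox, oy, c0, hc0, hL, hc⟩ := com_one D (min_le_right _ _) h.1 hr
      (hball1 x hx) (hball1 y hy) hxy
    have h1 := d.A2 ox oy hc0 hL hc ((Nd k' x h).weaken hrn q2 (by gcongr) (by gcongr))
      ((Nd k' y h').weaken hrn q2 (by gcongr) (by gcongr)) he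
    refine h1.trans ?_
    have h4 : 72 * Q ^ 10 ≤ 144 * Q ^ 10 := by
      have : 0 ≤ Q ^ 10 := by positivity
      linarith
    gcongr
  · intro k hk x hx
    have h : J₀ ≤ J + k - 7 ∧ x ∈ ball p (dy J₀ / 2) := ⟨by omega, hball x hx⟩
    have h' : J₀ ≤ J + (k + 1) - 7 ∧ x ∈ ball p (dy J₀ / 2) := ⟨by omega, hball x hx⟩
    simp only [dif_pos h, dif_pos h']
    have hk2 : J + (k + 1) - 7 = (J + k - 7) + 1 := by omega
    set k' := J + k - 7 with hk'
    set k'' := J + (k + 1) - 7 with hk''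
    set r := dy (k' + 7) with hr
    have h0r : 0 < r := dy_pos _
    have hrn : 0 < r ^ n := by positivity
    have hr2 : dy (k'' + 7) = r / 2 := by
      rw [hk2, hr]
      unfold dy
      rw [show k' + 1 + 7 = (k' + 7) + 1 by ring, pow_succ]
      ring
    obtain ⟨B, β, d, ox, -, -⟩ := com_one D (min_le_right _ _) h.1 hr
      (hball1 x hx) (hball1 x hx) (by rw [dist_self]; positivity)
    have hs2 : 0 < dy (k'' + 7) ^ n := pow_pos (dy_pos _) _
    have hQn := (Qn_facts n hA).1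
    have h2n : (1 : ℝ) ≤ 2 ^ n := one_le_pow₀ (by norm_num)
    have e2 : dy (k'' + 7) ^ n * 2 ^ n = r ^ n := by
      rw [hr2, ← mul_pow]; congr 1; ring
    have h1 := A3' d ox q6 ((Nd k' x h).weaken hrn q2 (by gcongr) (by gcongr))
      (f' := fr (dy (k'' + 7))) (by
        funext a u
        rw [hr2]
        unfold Gap79.fr
        ring)
      (j' := jr (dy (k'' + 7)) x) (by
        funext w u
        rw [hr2]
        unfold jr PlI585.hr
        field_simp)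
      ((Nd k'' x h').weaken hrn q2 (by
        have : dy (k'' + 7) ^ n ≤ r ^ n := by
          rw [← e2]
          nlinarith
        gcongr) (by
        rw [← e2]
        calc Qn n A * (dy (k'' + 7) ^ n * 2 ^ n) = (Qn n A * 2 ^ n) * dy (k'' + 7) ^ n := by ring
          _ ≤ Q * dy (k'' + 7) ^ n := by gcongr)) he
    refine h1.trans ?_
    have s1 := Real.sqrt_nonneg (E k' x)
    have s2 := Real.sqrt_nonneg (E k'' x)
    calc 72 * Q ^ 10 * (Real.sqrt (E k' x) + Real.sqrt (E k' x)) =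
        144 * Q ^ 10 * Real.sqrt (E k' x) := by ring
      _ ≤ 144 * Q ^ 10 * (Real.sqrt (E k' x) + Real.sqrt (E k'' x)) := by
          gcongr
          linarith

end Crest.Agent.R247.Pln923
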