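import Crest.Agent.R247.Hes3_124
import Crest.Agent.R247.Dir6_593

-- ▼ part R247/Gb1_593
section

/-!
R247, block (5-GB) (helper593), part 1: cut-offs, global `L²` bound of the Hessian, the truncation
lemma `χ² θ(|Du|²/2) ∈ V`, Bochner tested with it, the gradient bound.
-/

set_option autoImplicit false
set_option linter.unusedSectionVars false

open MeasureTheory Filter Topology Set
open scoped RealInnerProductSpace ENNReal NNReal

noncomputable section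

namespace Crest.Agent.R247.Gb593

open Crest.Agent.R247.Dir593 Crest.Agent.R247.Dir593.GradS Crest.Agent.R247.Hes124
  Crest.Agent.R247.Hes124.BochS

section Cut

variable {X : Type*} [MetricSpace X] [MeasurableSpace X] {F : Type*}
  [NormedAddCommGroup F] [InnerProductSpace ℝ F] {μ : Measure X} (S : GradS X F μ)
  [BorelSpace X] [IsFiniteMeasureOnCompacts μ]

/-- exhausting sequence of cut-offs -/
structure Cut (c : ℕ → X → ℝ) : Prop where
  T : ∀ k, IsT (c k)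
  nn : ∀ k x, 0 ≤ c k x
  le1 : ∀ k x, c k x ≤ 1
  G1 : ∀ k, ∀ᵐ x ∂μ, ‖S.G (c k) x‖ ≤ 1
  ev1 : ∀ x, ∀ᶠ k in atTop, c k x = 1
  ev0 : ∀ᵐ x ∂μ, ∀ᶠ k in atTop, S.G (c k) x = 0

theorem exists_cut [ProperSpace X] : ∃ c : ℕ → X → ℝ, Cut S c := by
  by_cases hX : Nonempty X
  swap
  · have hE : IsEmpty X := not_nonempty_iff.1 hX
    exact ⟨fun _ _ => 0, ⟨fun _ => IsT.zero, fun _ _ => le_rfl, fun _ _ => zero_le_one,
      fun _ => Eventually.of_forall fun x => (hE.false x).elim, fun x => (hE.false x).elim,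
      Eventually.of_forall fun x => (hE.false x).elim⟩⟩
  obtain ⟨x0⟩ := hX
  set c : ℕ → X → ℝ := fun k x => max 0 (min (((k : ℝ) + 1) - dist x x0) 1) with hc
  have hcL : ∀ k, LipschitzWith 1 (c k) := by
    intro k
    refine LipschitzWith.of_dist_le_mul fun x y => ?_
    rw [NNReal.coe_one, one_mul, Real.dist_eq]
    have h1 := abs_clamp_sub 0 1 ((k : ℝ) + 1 - dist x x0) ((k : ℝ) + 1 - dist y x0)
    rw [one_mul] at h1
    refine h1.trans ?_
    have e : (k : ℝ) + 1 - dist x x0 - ((k : ℝ) + 1 - dist y x0) = -(dist x x0 - dist y x0) := by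
      ring
    rw [e, abs_neg]
    exact abs_dist_sub_le x y x0
  have hcs : ∀ k, HasCompactSupport (c k) := fun k => by
    refine HasCompactSupport.intro (isCompact_closedBall x0 ((k : ℝ) + 1)) fun x hx => ?_
    rw [Metric.mem_closedBall, not_le] at hx
    simp only [hc]
    rw [max_eq_left]
    exact (min_le_left _ _).trans (by linarith)
  have hcT : ∀ k, IsT (c k) := fun k => ⟨(hcL k).locallyLipschitz, hcs k⟩
  refine ⟨c, hcT, fun k x => le_max_left _ _,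
    fun k x => max_le zero_le_one (min_le_right _ _), fun k => ?_, fun x => ?_, ?_⟩
  · filter_upwards [S.norm_le (hcT k).1 isOpen_univ (hcL k).lipschitzOnWith] with x hx
    simpa using hx (mem_univ x)
  · filter_upwards [eventually_ge_atTop ⌈dist x x0⌉₊] with k hk
    have h1 : dist x x0 ≤ k := (Nat.le_ceil _).trans (by exact_mod_cast hk)
    simp only [hc]
    rw [min_eq_right (by linarith), max_eq_right zero_le_one]
  · have h3 : ∀ᵐ x ∂μ, ∀ k : ℕ, x ∈ Metric.ball x0 (k : ℝ) → S.G (c k) x = 0 := by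
      refine ae_all_iff.2 fun k => ?_
      have hEq : EqOn (c k) (fun _ => (1:ℝ)) (Metric.ball x0 (k : ℝ)) := fun x hx => by
        have hx' := Metric.mem_ball.1 hx
        simp only [hc]
        rw [min_eq_right (by linarith), max_eq_right zero_le_one]
      filter_upwards [S.loc (hcT k).1 (LocallyLipschitz.const (1:ℝ)) Metric.isOpen_ball hEq,
        S.const 1] with x a1 a2 hx
      rw [a1 hx, a2]
    filter_upwards [h3] with x hx
    filter_upwards [eventually_gt_atTop ⌈dist x x0⌉₊] with k hk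
    have h1 : dist x x0 < k := (Nat.le_ceil _).trans_lt (by exact_mod_cast hk)
    exact hx k (Metric.mem_ball.2 h1)

variable {S}

theorem Cut.tendsto1 {c : ℕ → X → ℝ} (hc : Cut S c) (x : X) :
    Tendsto (fun k => c k x) atTop (𝓝 1) :=
  tendsto_const_nhds.congr' ((hc.ev1 x).mono fun _ h => h.symm)

theorem Cut.tendsto0 {c : ℕ → X → ℝ} (hc : Cut S c) :
    ∀ᵐ x ∂μ, Tendsto (fun k => S.G (c k) x) atTop (𝓝 0) := by
  filter_upwards [hc.ev0] with x hx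
  exact tendsto_const_nhds.congr' (hx.mono fun _ h => h.symm)

end Cut

variable {n : ℕ} {κ : ℝ} {X : Type*} [MetricSpace X] [MeasurableSpace X] [BorelSpace X]
  {μ : Measure X} [IsFiniteMeasureOnCompacts μ]
variable {B : BochS n κ X μ} {u : Lp ℝ 2 μ} {S0 : ℝ} {w : ℕ → X → ℝ} {A : X → S n}

/-- generalised dominated convergence (form used here) -/
theorem HDlim (h : HD B u S0 w A) {K : Set X} (hK : IsCompact K) {b : X → ℝ}
    (hb : Integrable b μ) {C : ℝ} {T : ℕ → X → ℝ} {T' : X → ℝ}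
    (hT : ∀ k, AEStronglyMeasurable (T k) μ)
    (hbd : ∀ k, ∀ᵐ x ∂μ, |T k x| ≤ C * (‖B.H (w k) x‖ ^ 2 + ‖B.G (w k) x‖ ^ 2 + 1) + b x)
    (h0 : ∀ k, ∀ᵐ x ∂μ, x ∉ K → T k x = 0)
    (hl : ∀ᵐ x ∂μ, Tendsto (fun k => T k x) atTop (𝓝 (T' x))) :
    Integrable T' μ ∧ Tendsto (fun k => ∫ x, T k x ∂μ) atTop (𝓝 (∫ x, T' x ∂μ)) := by
  refine h.lim hK (abs_nonneg C) hb hT (fun k => ?_) h0 hl
  filter_upwards [hbd k] with x hx
  refine hx.trans ?_
  have h1 : 0 ≤ ‖B.H (w k) x‖ ^ 2 + ‖B.G (w k) x‖ ^ 2 + 1 := by positivity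
  have h2 := mul_le_mul_of_nonneg_right (le_abs_self C) h1
  linarith

/-- Caccioppoli (form used here) -/
theorem HDcacc (h : HD B u S0 w A) (hκ : 0 ≤ κ) {f : X → ℝ}
    (htr : ∀ᵐ x ∂μ, tr (A x) = f x) {χ : X → ℝ} (hχ : IsT χ) (h0 : ∀ x, 0 ≤ χ x)
    (h1 : ∀ x, χ x ≤ 1) {c : ℝ} (hc : ∀ᵐ x ∂μ, ‖B.G χ x‖ ≤ c) :
    ∫ x, χ x ^ 2 * ‖A x‖ ^ 2 ∂μ ≤
      4 * ∫ x in tsupport χ, f x ^ 2 ∂μ +
        (2 * κ + 6 * c ^ 2) * ∫ x in tsupport χ, ‖B.D u x‖ ^ 2 ∂μ := by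
  have h2 := (h.cacc hκ hχ h0 h1 hc).2
  have h3 : ∫ x in tsupport χ, tr (A x) ^ 2 ∂μ = ∫ x in tsupport χ, f x ^ 2 ∂μ :=
    integral_congr_ae (ae_restrict_of_ae (by
      filter_upwards [htr] with x e1
      rw [e1]))
  rwa [h3] at h2

/-- (GB1): the Hessian is in `L²(M)`. -/
theorem memLp_A [ProperSpace X] (h : HD B u S0 w A) (hκ : 0 ≤ κ) {f : X → ℝ} (hf : MemLp f 2 μ)
    (htr : ∀ᵐ x ∂μ, tr (A x) = f x) : MemLp A 2 μ := by
  obtain ⟨c, hc⟩ := exists_cut B.toGradS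
  have hfi : Integrable (fun x => f x ^ 2) μ := hf.integrable_sq
  have hDi : Integrable (fun x => ‖B.D u x‖ ^ 2) μ := integrable_normSq (B.D u)
  set C : ℝ := 4 * ∫ x, f x ^ 2 ∂μ + (2 * κ + 6 * 1 ^ 2) * ∫ x, ‖B.D u x‖ ^ 2 ∂μ with hC
  have hAi : ∀ k, Integrable (fun x => c k x ^ 2 * ‖A x‖ ^ 2) μ := fun k => by
    have h1 : MemLp A 2 (μ.restrict (tsupport (c k))) := (h.toA _ (hc.T k).2.isCompact).mem'
    have h2 : IntegrableOn (fun x => c k x ^ 2 * ‖A x‖ ^ 2) (tsupport (c k)) μ := by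
      refine (int_sq h1).bdd_mul
        (((hc.T k).1.continuous.pow 2).aestronglyMeasurable) (c := 1)
        (Eventually.of_forall fun x => ?_)
      rw [Real.norm_of_nonneg (sq_nonneg _)]
      exact pow_le_one₀ (hc.nn k x) (hc.le1 k x)
    have h3 := (integrable_indicator_iff (isClosed_tsupport (c k)).measurableSet).2 h2
    refine h3.congr (Eventually.of_forall fun x => ?_)
    by_cases hx : x ∈ tsupport (c k)
    · rw [indicator_of_mem hx]
    · rw [indicator_of_notMem hx]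
      show (0:ℝ) = c k x ^ 2 * ‖A x‖ ^ 2
      rw [image_eq_zero_of_notMem_tsupport hx]; simp
  have h1 : ∀ k, ∫ x, c k x ^ 2 * ‖A x‖ ^ 2 ∂μ ≤ C := fun k => by
    refine (HDcacc h hκ htr (hc.T k) (hc.nn k) (hc.le1 k) (hc.G1 k)).trans ?_
    have h2 : ∫ x in tsupport (c k), f x ^ 2 ∂μ ≤ ∫ x, f x ^ 2 ∂μ :=
      setIntegral_le_integral hfi (Eventually.of_forall fun x => sq_nonneg _)
    have h3 : ∫ x in tsupport (c k), ‖B.D u x‖ ^ 2 ∂μ ≤ ∫ x, ‖B.D u x‖ ^ 2 ∂μ :=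
      setIntegral_le_integral hDi (Eventually.of_forall fun x => sq_nonneg _)
    have h4 := mul_le_mul_of_nonneg_left h3 (by positivity : 0 ≤ 2 * κ + 6 * (1:ℝ) ^ 2)
    linarith
  refine (memLp_two_iff_integrable_sq_norm h.Am).2 ⟨(h.Am.norm.pow 2), ?_⟩
  rw [HasFiniteIntegral]
  have h5 : ∫⁻ x, ‖‖A x‖ ^ 2‖ₑ ∂μ ≤ liminf (fun k => ∫⁻ x, ‖c k x ^ 2 * ‖A x‖ ^ 2‖ₑ ∂μ) atTop := by
    have e : ∀ x, ‖‖A x‖ ^ 2‖ₑ = liminf (fun k => ‖c k x ^ 2 * ‖A x‖ ^ 2‖ₑ) atTop := fun x => by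
      refine (Tendsto.liminf_eq ?_).symm
      refine tendsto_const_nhds.congr' ?_
      filter_upwards [hc.ev1 x] with k hk
      rw [hk]; simp
    simp only [e]
    refine lintegral_liminf_le' fun k => ?_
    exact (hAi k).aestronglyMeasurable.enorm
  refine lt_of_le_of_lt (h5.trans ?_) (ENNReal.ofReal_lt_top (r := C))
  refine liminf_le_of_le ⟨0, Eventually.of_forall fun _ => bot_le⟩ fun b hb => ?_
  obtain ⟨k, hk⟩ := hb.exists
  refine hk.trans ?_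
  have h6 : ∫⁻ x, ‖c k x ^ 2 * ‖A x‖ ^ 2‖ₑ ∂μ = ENNReal.ofReal (∫ x, c k x ^ 2 * ‖A x‖ ^ 2 ∂μ) := by
    rw [ofReal_integral_eq_lintegral_ofReal (hAi k)
      (Eventually.of_forall fun x => by positivity)]
    refine lintegral_congr fun x => ?_
    rw [Real.enorm_eq_ofReal (by positivity)]
  rw [h6]
  exact ENNReal.ofReal_le_ofReal (h1 k)

/-! ### truncations of `|Du|²/2` -/

/-- admissible truncation functions -/
structure Tr (θ : ℝ → ℝ) (Θ M : ℝ) : Prop where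
  cd : ContDiff ℝ 1 θ
  Θ0 : 0 ≤ Θ
  M0 : 0 ≤ M
  b : ∀ s, 0 ≤ s → |θ s| ≤ Θ
  b' : ∀ s, 0 ≤ s → |deriv θ s| ≤ Θ
  z : ∀ s, M ≤ s → deriv θ s = 0

variable {θ : ℝ → ℝ} {Θ M : ℝ}

theorem Tr.bsq (hθ : Tr θ Θ M) (g : F n) : |deriv θ (‖g‖ ^ 2 / 2)| * ‖g‖ ^ 2 ≤ Θ * (2 * M) := by
  rcases le_total M (‖g‖ ^ 2 / 2) with h | h
  · rw [hθ.z _ h, abs_zero, zero_mul]
    exact mul_nonneg hθ.Θ0 (mul_nonneg zero_le_two hθ.M0)
  · exact mul_le_mul (hθ.b' _ (by positivity)) (by linarith) (sq_nonneg _) hθ.Θ0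

/-- the half square of the gradient -/
def P (B : BochS n κ X μ) (u : Lp ℝ 2 μ) (x : X) : ℝ := ‖B.D u x‖ ^ 2 / 2

theorem aesm_P (B : BochS n κ X μ) (u : Lp ℝ 2 μ) : AEStronglyMeasurable (P B u) μ :=
  ((continuous_norm.pow 2).div_const 2).comp_aestronglyMeasurable (Lp.aestronglyMeasurable (B.D u))

/-- the candidate gradient of `χ² θ(P)` -/
def DP (B : BochS n κ X μ) (u : Lp ℝ 2 μ) (A : X → S n) (θ : ℝ → ℝ) (χ : X → ℝ) (x : X) : F n :=
  (χ x ^ 2 * deriv θ (P B u x)) • mv (A x) (B.D u x) + (2 * χ x * θ (P B u x)) • B.G χ x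

/-- data for the truncated test functions -/
structure Pk (B : BochS n κ X μ) (w : ℕ → X → ℝ) (Q : ℕ → X → ℝ) : Prop where
  T : ∀ k, IsT (Q k)
  eq : ∀ k, ∀ᵐ x ∂μ, Q k x = ‖B.G (w k) x‖ ^ 2 / 2
  G : ∀ k, ∀ᵐ x ∂μ, B.G (Q k) x = mv (B.H (w k) x) (B.G (w k) x)

theorem exists_Pk (h : HD B u S0 w A) : ∃ Q, Pk B w Q := by
  have := fun k => B.half_sq (h.core k)
  choose Q h1 h2 h3 using this
  exact ⟨Q, h1, h2, h3⟩

/-- the test function `χ² θ(P_k)` -/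
def pk (θ : ℝ → ℝ) (χ : X → ℝ) (Q : ℕ → X → ℝ) (k : ℕ) (x : X) : ℝ := χ x * χ x * θ (Q k x)

theorem isT_pk {Q : ℕ → X → ℝ} (hQ : Pk B w Q) (hθ : Tr θ Θ M) {χ : X → ℝ} (hχ : IsT χ) (k : ℕ) :
    IsT (pk θ χ Q k) :=
  (hχ.mul hχ.1).mul (hθ.cd.locallyLipschitz.comp (hQ.T k).1)

theorem G_pk {Q : ℕ → X → ℝ} (hQ : Pk B w Q) (hθ : Tr θ Θ M) {χ : X → ℝ} (hχ : IsT χ) (k : ℕ) :
    ∀ᵐ x ∂μ, B.G (pk θ χ Q k) x =
      (χ x ^ 2 * deriv θ (‖B.G (w k) x‖ ^ 2 / 2)) • mv (B.H (w k) x) (B.G (w k) x) +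
        (2 * χ x * θ (‖B.G (w k) x‖ ^ 2 / 2)) • B.G χ x := by
  have hcomp : LocallyLipschitz fun y => θ (Q k y) := hθ.cd.locallyLipschitz.comp (hQ.T k).1
  filter_upwards [B.mul (hχ.mul hχ.1).1 hcomp, B.comp (hQ.T k).1 hθ.cd, B.G_sq hχ, hQ.eq k,
    hQ.G k] with x e1 e2 e3 e4 e5
  have e6 : B.G (pk θ χ Q k) x = (χ x * χ x) • B.G (fun y => θ (Q k y)) x +
      θ (Q k x) • B.G (fun y => χ y * χ y) x := e1
  rw [e6, e2, e3, e4, e5]
  module

/-- elementary bounds for the vector `α mv H G + β g` -/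
theorem norm_vec_le {θ : ℝ → ℝ} {Θ M : ℝ} (hθ : Tr θ Θ M) {c t : ℝ} (ht : |t| ≤ c) (Hm : S n)
    (g gx : F n) (hg : ‖gx‖ ≤ c) :
    ‖(t ^ 2 * deriv θ (‖g‖ ^ 2 / 2)) • mv Hm g + (2 * t * θ (‖g‖ ^ 2 / 2)) • gx‖ ^ 2 ≤
      2 * (c ^ 4 * (Θ * (Θ * (2 * M)))) * ‖Hm‖ ^ 2 + 2 * (2 * c ^ 2 * Θ) ^ 2 := by
  have hc : 0 ≤ c := (abs_nonneg _).trans ht
  have hP : 0 ≤ ‖g‖ ^ 2 / 2 := by positivity
  have h1 := hθ.bsq g
  have h2 := hθ.b' _ hP
  have h3 := hθ.b _ hP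
  have hΘ := hθ.Θ0
  set d := deriv θ (‖g‖ ^ 2 / 2) with hd
  have ht2 : t ^ 2 ≤ c ^ 2 := by rw [← sq_abs]; exact pow_le_pow_left₀ (abs_nonneg _) ht 2
  have e1 : ‖(t ^ 2 * d) • mv Hm g‖ ^ 2 ≤ (c ^ 4 * (Θ * (Θ * (2 * M)))) * ‖Hm‖ ^ 2 := by
    rw [norm_smul, mul_pow, Real.norm_eq_abs, sq_abs]
    have f1 := norm_mv_sq_le Hm g
    have f2 : d ^ 2 * ‖g‖ ^ 2 ≤ Θ * (Θ * (2 * M)) := by
      have : d ^ 2 * ‖g‖ ^ 2 = |d| * (|d| * ‖g‖ ^ 2) := by rw [← sq_abs]; ring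
      rw [this]
      exact mul_le_mul h2 h1 (by positivity) hΘ
    have f3 : (t ^ 2) ^ 2 ≤ c ^ 4 := by
      calc (t ^ 2) ^ 2 ≤ (c ^ 2) ^ 2 := pow_le_pow_left₀ (sq_nonneg _) ht2 2
        _ = c ^ 4 := by ring
    calc (t ^ 2 * d) ^ 2 * ‖mv Hm g‖ ^ 2 ≤ (t ^ 2 * d) ^ 2 * (‖Hm‖ ^ 2 * ‖g‖ ^ 2) :=
          mul_le_mul_of_nonneg_left f1 (sq_nonneg _)
      _ = (t ^ 2) ^ 2 * (d ^ 2 * ‖g‖ ^ 2) * ‖Hm‖ ^ 2 := by ring
      _ ≤ c ^ 4 * (Θ * (Θ * (2 * M))) * ‖Hm‖ ^ 2 := by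
          refine mul_le_mul_of_nonneg_right ?_ (sq_nonneg _)
          exact mul_le_mul f3 f2 (by positivity) (by positivity)
  have e2 : ‖(2 * t * θ (‖g‖ ^ 2 / 2)) • gx‖ ^ 2 ≤ (2 * c ^ 2 * Θ) ^ 2 := by
    refine pow_le_pow_left₀ (norm_nonneg _) ?_ 2
    rw [norm_smul, Real.norm_eq_abs, abs_mul, abs_mul, abs_of_pos (by norm_num : (0:ℝ) < 2)]
    calc 2 * |t| * |θ (‖g‖ ^ 2 / 2)| * ‖gx‖ ≤ 2 * c * Θ * c := by gcongr
      _ = 2 * c ^ 2 * Θ := by ring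
  have e3 := norm_add_le ((t ^ 2 * d) • mv Hm g) ((2 * t * θ (‖g‖ ^ 2 / 2)) • gx)
  have e4 := pow_le_pow_left₀ (norm_nonneg _) e3 2
  nlinarith [sq_nonneg (‖(t ^ 2 * d) • mv Hm g‖ - ‖(2 * t * θ (‖g‖ ^ 2 / 2)) • gx‖)]

/-- the truncated function is in `L²` -/
theorem memLp_p (hθ : Tr θ Θ M) {χ : X → ℝ} (hχ : IsT χ) :
    MemLp (fun x => χ x ^ 2 * θ (P B u x)) 2 μ := by
  have h1 : MemLp (fun x => χ x * χ x) 2 μ := (hχ.mul hχ.1).memLp
  have hm : AEStronglyMeasurable (fun x => θ (P B u x)) μ :=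
    hθ.cd.continuous.comp_aestronglyMeasurable (aesm_P B u)
  have h2 := memLp_bdd_smul h1 hm (C := Θ) (Eventually.of_forall fun x => hθ.b _ (by
    unfold P; positivity))
  refine h2.ae_eq (Eventually.of_forall fun x => ?_)
  simp only [smul_eq_mul]
  ring

theorem aesm_DP (h : HD B u S0 w A) (hθ : Tr θ Θ M) {χ : X → ℝ} (hχ : IsT χ) :
    AEStronglyMeasurable (DP B u A θ χ) μ := by
  have hP : AEStronglyMeasurable (P B u) μ := aesm_P B u
  have hc := hχ.1.continuous.aestronglyMeasurable (μ := μ)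
  have h1 : AEStronglyMeasurable (fun x => deriv θ (P B u x)) μ :=
    (hθ.cd.continuous_deriv le_rfl).comp_aestronglyMeasurable hP
  have h2 : AEStronglyMeasurable (fun x => θ (P B u x)) μ :=
    hθ.cd.continuous.comp_aestronglyMeasurable hP
  exact (((hc.pow 2).mul h1).smul (aesm_mv h.Am (Lp.aestronglyMeasurable _))).add
    (((hc.const_mul 2).mul h2).smul (B.meas hχ.1))

/-- constants for a cut-off -/
theorem cut_const (B : BochS n κ X μ) {χ : X → ℝ} (hχ : IsT χ) : ∃ c : ℝ, 0 ≤ c ∧ (∀ x, |χ x| ≤ c) ∧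
    (∀ᵐ x ∂μ, ‖B.G χ x‖ ≤ c) ∧ ∀ᵐ x ∂μ, x ∉ tsupport χ → B.G χ x = 0 := by
  obtain ⟨c, h0, h1, h2⟩ := test_bdd B.toGradS hχ
  exact ⟨c, h0, h1, h2, G_supp B.toGradS hχ⟩

theorem memLp_DP (h : HD B u S0 w A) (hθ : Tr θ Θ M) {χ : X → ℝ} (hχ : IsT χ) :
    MemLp (DP B u A θ χ) 2 μ := by
  obtain ⟨c, hc0, hc1, hc2, hc3⟩ := cut_const B hχ
  have hK := hχ.2.isCompact
  have hA : MemLp A 2 (μ.restrict (tsupport χ)) := (h.toA _ hK).mem'
  have hi : Integrable (fun x => (tsupport χ).indicator (fun x =>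
      2 * (c ^ 4 * (Θ * (Θ * (2 * M)))) * ‖A x‖ ^ 2 + 2 * (2 * c ^ 2 * Θ) ^ 2) x) μ := by
    refine (integrable_indicator_iff (isClosed_tsupport χ).measurableSet).2 ?_
    exact ((int_sq hA).const_mul _).add (integrableOn_const hK.measure_lt_top.ne)
  refine (memLp_two_iff_integrable_sq_norm (aesm_DP h hθ hχ)).2 (hi.mono'
    ((aesm_DP h hθ hχ).norm.pow 2) ?_)
  filter_upwards [hc2, hc3] with x e1 e2
  rw [Real.norm_of_nonneg (sq_nonneg _)]
  by_cases hx : x ∈ tsupport χ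
  · rw [indicator_of_mem hx]
    exact norm_vec_le hθ (hc1 x) (A x) (B.D u x) (B.G χ x) e1
  · rw [indicator_of_notMem hx]
    simp only [DP]
    rw [e2 hx, image_eq_zero_of_notMem_tsupport hx]
    simp

/-- pointwise limit of the gradients of the truncated test functions -/
theorem tendsto_G_pk (h : HD B u S0 w A) {Q : ℕ → X → ℝ} (hQ : Pk B w Q) (hθ : Tr θ Θ M)
    {χ : X → ℝ} (hχ : IsT χ) :
    ∀ᵐ x ∂μ, Tendsto (fun k => B.G (pk θ χ Q k) x) atTop (𝓝 (DP B u A θ χ x)) := by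
  have h1 : ∀ᵐ x ∂μ, ∀ k, B.G (pk θ χ Q k) x =
      (χ x ^ 2 * deriv θ (‖B.G (w k) x‖ ^ 2 / 2)) • mv (B.H (w k) x) (B.G (w k) x) +
        (2 * χ x * θ (‖B.G (w k) x‖ ^ 2 / 2)) • B.G χ x := ae_all_iff.2 fun k => G_pk hQ hθ hχ k
  filter_upwards [h1, h.aeD, h.aeA] with x e1 e2 e3
  simp only [e1]
  have hP : Tendsto (fun k => ‖B.G (w k) x‖ ^ 2 / 2) atTop (𝓝 (P B u x)) :=
    ((e2.norm).pow 2).div_const 2
  have hd : Tendsto (fun k => deriv θ (‖B.G (w k) x‖ ^ 2 / 2)) atTop (𝓝 (deriv θ (P B u x))) :=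
    ((hθ.cd.continuous_deriv le_rfl).tendsto _).comp hP
  have ht : Tendsto (fun k => θ (‖B.G (w k) x‖ ^ 2 / 2)) atTop (𝓝 (θ (P B u x))) :=
    (hθ.cd.continuous.tendsto _).comp hP
  have hmv : Tendsto (fun k => mv (B.H (w k) x) (B.G (w k) x)) atTop (𝓝 (mv (A x) (B.D u x))) :=
    (continuous_mv.tendsto _).comp (e3.prodMk_nhds e2)
  exact ((hd.const_mul _).smul hmv).add ((ht.const_mul _).smul_const _)

theorem tendsto_pk (h : HD B u S0 w A) {Q : ℕ → X → ℝ} (hQ : Pk B w Q) (hθ : Tr θ Θ M)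
    {χ : X → ℝ} :
    ∀ᵐ x ∂μ, Tendsto (fun k => pk θ χ Q k x) atTop (𝓝 (χ x ^ 2 * θ (P B u x))) := by
  have h1 : ∀ᵐ x ∂μ, ∀ k, Q k x = ‖B.G (w k) x‖ ^ 2 / 2 := ae_all_iff.2 fun k => hQ.eq k
  filter_upwards [h1, h.aeD] with x e1 e2
  have hP : Tendsto (fun k => ‖B.G (w k) x‖ ^ 2 / 2) atTop (𝓝 (P B u x)) :=
    ((e2.norm).pow 2).div_const 2
  have ht : Tendsto (fun k => θ (‖B.G (w k) x‖ ^ 2 / 2)) atTop (𝓝 (θ (P B u x))) :=
    (hθ.cd.continuous.tendsto _).comp hP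
  have h3 := ht.const_mul (χ x ^ 2)
  refine h3.congr fun k => ?_
  simp only [pk, e1 k, pow_two]

theorem pk_bd {Q : ℕ → X → ℝ} (hQ : Pk B w Q) (hθ : Tr θ Θ M) {χ : X → ℝ} {c : ℝ}
    (hc : ∀ x, |χ x| ≤ c) (k : ℕ) : ∀ᵐ x ∂μ, |pk θ χ Q k x| ≤ c ^ 2 * Θ := by
  filter_upwards [hQ.eq k] with x e1
  simp only [pk, e1, abs_mul]
  have h1 := hθ.b (‖B.G (w k) x‖ ^ 2 / 2) (by positivity)
  have h2 := hc x
  have h0 : 0 ≤ c := (abs_nonneg _).trans h2
  calc |χ x| * |χ x| * |θ (‖B.G (w k) x‖ ^ 2 / 2)| ≤ c * c * Θ := by gcongr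
    _ = c ^ 2 * Θ := by ring

/-- **truncation lemma** -/
theorem trunc_mem (h : HD B u S0 w A) (hθ : Tr θ Θ M) {χ : X → ℝ} (hχ : IsT χ) :
    (memLp_p (B := B) (u := u) hθ hχ).toLp _ ∈ B.V ∧
      (B.D ((memLp_p (B := B) (u := u) hθ hχ).toLp _) : X → F n) =ᵐ[μ] DP B u A θ χ := by
  obtain ⟨Q, hQ⟩ := exists_Pk h
  obtain ⟨c, hc0, hc1, hc2, hc3⟩ := cut_const B hχ
  have hK := hχ.2.isCompact
  have hT := isT_pk hQ hθ hχ
  set p : Lp ℝ 2 μ := (memLp_p (B := B) (u := u) hθ hχ).toLp _ with hp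
  have hpc : (p : X → ℝ) =ᵐ[μ] fun x => χ x ^ 2 * θ (P B u x) := MemLp.coeFn_toLp _
  set g : Lp (F n) 2 μ := (memLp_DP h hθ hχ).toLp _ with hg
  have hgc : (g : X → F n) =ᵐ[μ] DP B u A θ χ := MemLp.coeFn_toLp _
  have t1 : Tendsto (fun k => (tL (hT k) : Lp ℝ 2 μ)) atTop (𝓝 p) := by
    have hb : MemLp ((tsupport χ).indicator fun _ => c ^ 2 * Θ + c ^ 2 * Θ) 2 μ :=
      memLp_indicator_const 2 (isClosed_tsupport χ).measurableSet _
        (Or.inr hK.measure_lt_top.ne)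
    refine tendsto_dom hb (fun k => ?_) ?_
    · filter_upwards [coe_tL (μ := μ) (hT k), hpc, pk_bd hQ hθ hc1 k] with x e1 e2 e3
      rw [e1, e2]
      by_cases hx : x ∈ tsupport χ
      · rw [indicator_of_mem hx]
        refine (norm_sub_le _ _).trans (add_le_add e3 ?_)
        rw [Real.norm_eq_abs, abs_mul, abs_pow]
        have := hθ.b (P B u x) (by unfold P; positivity)
        exact mul_le_mul (pow_le_pow_left₀ (abs_nonneg _) (hc1 x) 2) this (abs_nonneg _)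
          (by positivity)
      · rw [indicator_of_notMem hx]
        simp only [pk]
        rw [image_eq_zero_of_notMem_tsupport hx]
        simp
    · have h5 : ∀ᵐ x ∂μ, ∀ k, (tL (hT k) : Lp ℝ 2 μ) x = pk θ χ Q k x :=
        ae_all_iff.2 fun k => coe_tL (hT k)
      filter_upwards [h5, hpc, tendsto_pk h hQ hθ (χ := χ)] with x e1 e2 e3
      simp only [e1, e2]
      exact e3
  have t2 : Tendsto (fun k => B.D (tL (hT k))) atTop (𝓝 g) := by
    rw [tendsto_iff_norm_sub_tendsto_zero]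
    have h6 : Tendsto (fun k => ∫ x, ‖B.G (pk θ χ Q k) x - DP B u A θ χ x‖ ^ 2 ∂μ) atTop
        (𝓝 (∫ _ : X, (0:ℝ) ∂μ)) := by
      have hDi := int_sq (memLp_DP h hθ hχ)
      refine (HDlim h hK (b := fun x => 2 * ‖DP B u A θ χ x‖ ^ 2) (hDi.const_mul 2)
        (C := 2 * (2 * (c ^ 4 * (Θ * (Θ * (2 * M)))) + 2 * (2 * c ^ 2 * Θ) ^ 2))
        (T := fun k x => ‖B.G (pk θ χ Q k) x - DP B u A θ χ x‖ ^ 2) (fun k => ?_) (fun k => ?_)
        (fun k => ?_) ?_).2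
      · exact ((B.meas (hT k).1).sub (aesm_DP h hθ hχ)).norm.pow 2
      · filter_upwards [G_pk hQ hθ hχ k, hc2] with x e1 e2
        rw [abs_of_nonneg (sq_nonneg _)]
        have e3 := norm_vec_le hθ (hc1 x) (B.H (w k) x) (B.G (w k) x) (B.G χ x) e2
        rw [← e1] at e3
        have e4 := norm_sub_le (B.G (pk θ χ Q k) x) (DP B u A θ χ x)
        have e5 := pow_le_pow_left₀ (norm_nonneg _) e4 2
        have e6 : 0 ≤ c ^ 4 * (Θ * (Θ * (2 * M))) := by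
          have := hθ.Θ0
          have := hθ.M0
          positivity
        have e7 : 0 ≤ (2 * c ^ 2 * Θ) ^ 2 := sq_nonneg _
        set a := ‖B.H (w k) x‖ ^ 2 with ha
        set b := ‖B.G (w k) x‖ ^ 2 with hb
        have ha0 : 0 ≤ a := sq_nonneg _
        have hb0 : 0 ≤ b := sq_nonneg _
        set K1 := c ^ 4 * (Θ * (Θ * (2 * M))) with hK1
        set K2 := (2 * c ^ 2 * Θ) ^ 2 with hK2
        have f1 : 2 * ‖B.G (pk θ χ Q k) x‖ ^ 2 ≤ 2 * (2 * K1 + 2 * K2) * (a + b + 1) := by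
          nlinarith [mul_nonneg e6 hb0, mul_nonneg e7 hb0, mul_nonneg e6 ha0, mul_nonneg e7 ha0]
        nlinarith [sq_nonneg (‖B.G (pk θ χ Q k) x‖ - ‖DP B u A θ χ x‖)]
      · filter_upwards [G_pk hQ hθ hχ k, hc3] with x e1 e2 hx
        rw [e1]
        simp only [DP]
        rw [e2 hx, image_eq_zero_of_notMem_tsupport hx]
        simp
      · filter_upwards [tendsto_G_pk h hQ hθ hχ] with x e1
        have := ((tendsto_iff_norm_sub_tendsto_zero.1 e1).pow 2)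
        simpa using this
    rw [integral_zero] at h6
    have h7 : (fun k => ‖B.D (tL (hT k)) - g‖) =
        fun k => Real.sqrt (∫ x, ‖B.G (pk θ χ Q k) x - DP B u A θ χ x‖ ^ 2 ∂μ) := by
      funext k
      rw [← Real.sqrt_sq (norm_nonneg (B.D (tL (hT k)) - g)), normSq]
      congr 1
      refine integral_congr_ae ?_
      filter_upwards [Lp.coeFn_sub (B.D (tL (hT k))) g, B.D_tL (hT k), hgc] with x e1 e2 e3
      rw [e1, Pi.sub_apply, e2, e3]
    rw [h7]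
    simpa using h6.sqrt
  obtain ⟨hV, hD⟩ := B.D_closed (fun k => B.tL_mem (hT k)) t1 t2
  exact ⟨hV, by rw [hD]; exact hgc⟩

end Crest.Agent.R247.Gb593
end
end

-- ▼ part R247/Gb2_593
section

/-!
R247, block (5-GB) (helper593), part 2: Bochner tested with `χ² θ(|Du|²/2)`, weak equation tested
in `V`, the gradient bound (GB2).
-/

set_option autoImplicit false
set_option linter.unusedSectionVars false

open MeasureTheory Filter Topology Set
open scoped RealInnerProductSpace ENNReal NNReal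

noncomputable section

namespace Crest.Agent.R247.Gb593

open Crest.Agent.R247.Dir593 Crest.Agent.R247.Dir593.GradS Crest.Agent.R247.Hes124
  Crest.Agent.R247.Hes124.BochS

theorem abs_T_le {a g τ s1 s2 p r c1 c2 Cp CR nn : ℝ} (hp : |p| ≤ Cp)
    (hr : |r| ≤ CR * g ^ 2) (hs1 : |s1| ≤ c1 * (a ^ 2 + g ^ 2)) (hτ : τ ^ 2 ≤ nn * a ^ 2)
    (hs2 : s2 ^ 2 ≤ c2 * (a ^ 2 + g ^ 2)) (hCR : 0 ≤ CR) (hc1 : 0 ≤ c1) (hc2 : 0 ≤ c2)
    (hnn : 0 ≤ nn) :
    |p * (a ^ 2 + r) + s1 - τ * (p * τ + s2)| ≤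
      (Cp + Cp * CR + c1 + Cp * nn + nn + c2) * (a ^ 2 + g ^ 2 + 1) := by
  have hCp : 0 ≤ Cp := (abs_nonneg _).trans hp
  have h1 : |p * (a ^ 2 + r)| ≤ Cp * (a ^ 2 + CR * g ^ 2) := by
    rw [abs_mul]
    refine mul_le_mul hp ?_ (abs_nonneg _) hCp
    refine (abs_add_le _ _).trans ?_
    rw [abs_of_nonneg (sq_nonneg a)]
    linarith
  have h2 : |τ * (p * τ + s2)| ≤ Cp * (nn * a ^ 2) + (nn * a ^ 2 + c2 * (a ^ 2 + g ^ 2)) / 2 := by
    have e : τ * (p * τ + s2) = p * τ ^ 2 + τ * s2 := by ring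
    rw [e]
    refine (abs_add_le _ _).trans (add_le_add ?_ ?_)
    · rw [abs_mul, abs_of_nonneg (sq_nonneg τ)]
      exact mul_le_mul hp hτ (sq_nonneg _) hCp
    · rw [abs_mul]
      have := two_mul_le_add_sq |τ| |s2|
      rw [sq_abs, sq_abs] at this
      linarith
  have h3 : |p * (a ^ 2 + r) + s1 - τ * (p * τ + s2)| ≤
      |p * (a ^ 2 + r)| + |s1| + |τ * (p * τ + s2)| :=
    (abs_sub _ _).trans (by linarith [abs_add_le (p * (a ^ 2 + r)) s1])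
  have ha := sq_nonneg a
  have hg := sq_nonneg g
  have e1 : 0 ≤ Cp * a ^ 2 := by positivity
  have e2 : 0 ≤ Cp * g ^ 2 := by positivity
  have e3 : 0 ≤ Cp * CR * a ^ 2 := by positivity
  have e4 : 0 ≤ Cp * nn * g ^ 2 := by positivity
  have e5 : 0 ≤ nn * g ^ 2 := by positivity
  have e6 : 0 ≤ c2 * g ^ 2 := by positivity
  have e7 : 0 ≤ c2 * a ^ 2 := by positivity
  have e8 : 0 ≤ nn * a ^ 2 := by positivity
  have e9 : 0 ≤ Cp * CR := by positivity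
  have e10 : 0 ≤ Cp * nn := by positivity
  nlinarith

variable {n : ℕ} {κ : ℝ} {X : Type*} [MetricSpace X] [MeasurableSpace X] [BorelSpace X]
  {μ : Measure X} [IsFiniteMeasureOnCompacts μ]
variable {B : BochS n κ X μ} {u : Lp ℝ 2 μ} {S0 : ℝ} {w : ℕ → X → ℝ} {A : X → S n}
variable {θ : ℝ → ℝ} {Θ M : ℝ}

/-- scalar bounds for the pairings of `α mv H G + β g` -/
theorem pair_bounds (hθ : Tr θ Θ M) {c t : ℝ} (ht : |t| ≤ c) (Hm : S n) (g gx : F n)
    (hg : ‖gx‖ ≤ c) :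
    |⟪(t ^ 2 * deriv θ (‖g‖ ^ 2 / 2)) • mv Hm g + (2 * t * θ (‖g‖ ^ 2 / 2)) • gx, mv Hm g⟫| ≤
        (c ^ 2 * (Θ * (2 * M)) + c ^ 2 * Θ) * (‖Hm‖ ^ 2 + ‖g‖ ^ 2) ∧
      ⟪(t ^ 2 * deriv θ (‖g‖ ^ 2 / 2)) • mv Hm g + (2 * t * θ (‖g‖ ^ 2 / 2)) • gx, g⟫ ^ 2 ≤
        (2 * (c ^ 2 * (Θ * (2 * M))) ^ 2 + 2 * (2 * c ^ 2 * Θ) ^ 2) * (‖Hm‖ ^ 2 + ‖g‖ ^ 2) := by
  have hc : 0 ≤ c := (abs_nonneg _).trans ht
  have hP : 0 ≤ ‖g‖ ^ 2 / 2 := by positivity
  have h1 := hθ.bsq g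
  have h3 := hθ.b _ hP
  have hΘ := hθ.Θ0
  have hM := hθ.M0
  set d := deriv θ (‖g‖ ^ 2 / 2) with hd
  set b := θ (‖g‖ ^ 2 / 2) with hb
  have ht2 : t ^ 2 ≤ c ^ 2 := by rw [← sq_abs]; exact pow_le_pow_left₀ (abs_nonneg _) ht 2
  have hmv := norm_mv_le Hm g
  have hmv2 := norm_mv_sq_le Hm g
  constructor
  · rw [inner_add_left, real_inner_smul_left, real_inner_smul_left, real_inner_self_eq_norm_sq]
    refine (abs_add_le _ _).trans ?_
    have e1 : |t ^ 2 * d * ‖mv Hm g‖ ^ 2| ≤ c ^ 2 * (Θ * (2 * M)) * ‖Hm‖ ^ 2 := by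
      rw [abs_mul, abs_mul, abs_of_nonneg (sq_nonneg t), abs_of_nonneg (sq_nonneg ‖mv Hm g‖)]
      calc t ^ 2 * |d| * ‖mv Hm g‖ ^ 2 ≤ t ^ 2 * |d| * (‖Hm‖ ^ 2 * ‖g‖ ^ 2) := by gcongr
        _ = t ^ 2 * (|d| * ‖g‖ ^ 2) * ‖Hm‖ ^ 2 := by ring
        _ ≤ c ^ 2 * (Θ * (2 * M)) * ‖Hm‖ ^ 2 := by gcongr
    have e2 : |2 * t * b * ⟪gx, mv Hm g⟫| ≤ c ^ 2 * Θ * (‖Hm‖ ^ 2 + ‖g‖ ^ 2) := by
      rw [abs_mul, abs_mul, abs_mul, abs_of_pos (by norm_num : (0:ℝ) < 2)]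
      calc 2 * |t| * |b| * |⟪gx, mv Hm g⟫| ≤ 2 * c * Θ * (c * (‖Hm‖ * ‖g‖)) := by
            gcongr
            exact (abs_real_inner_le_norm _ _).trans (by gcongr)
        _ = c ^ 2 * Θ * (2 * ‖Hm‖ * ‖g‖) := by ring
        _ ≤ c ^ 2 * Θ * (‖Hm‖ ^ 2 + ‖g‖ ^ 2) := by
            gcongr
            exact two_mul_le_add_sq _ _
    have e3 : 0 ≤ c ^ 2 * (Θ * (2 * M)) * ‖g‖ ^ 2 := by positivity
    nlinarith
  · rw [inner_add_left, real_inner_smul_left, real_inner_smul_left]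
    have e1 : (t ^ 2 * d * ⟪mv Hm g, g⟫) ^ 2 ≤ (c ^ 2 * (Θ * (2 * M))) ^ 2 * ‖Hm‖ ^ 2 := by
      rw [← sq_abs, ← mul_pow]
      refine pow_le_pow_left₀ (abs_nonneg _) ?_ 2
      rw [abs_mul, abs_mul, abs_of_nonneg (sq_nonneg t)]
      calc t ^ 2 * |d| * |⟪mv Hm g, g⟫| ≤ t ^ 2 * |d| * ((‖Hm‖ * ‖g‖) * ‖g‖) := by
            gcongr
            exact (abs_real_inner_le_norm _ _).trans (by gcongr)
        _ = t ^ 2 * (|d| * ‖g‖ ^ 2) * ‖Hm‖ := by ring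
        _ ≤ c ^ 2 * (Θ * (2 * M)) * ‖Hm‖ := by gcongr
    have e2 : (2 * t * b * ⟪gx, g⟫) ^ 2 ≤ (2 * c ^ 2 * Θ) ^ 2 * ‖g‖ ^ 2 := by
      rw [← sq_abs, ← mul_pow]
      refine pow_le_pow_left₀ (abs_nonneg _) ?_ 2
      rw [abs_mul, abs_mul, abs_mul, abs_of_pos (by norm_num : (0:ℝ) < 2)]
      calc 2 * |t| * |b| * |⟪gx, g⟫| ≤ 2 * c * Θ * (c * ‖g‖) := by
            gcongr
            exact (abs_real_inner_le_norm _ _).trans (by gcongr)
        _ = 2 * c ^ 2 * Θ * ‖g‖ := by ring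
    have e3 : 0 ≤ (c ^ 2 * (Θ * (2 * M))) ^ 2 * ‖g‖ ^ 2 := by positivity
    have e4 : 0 ≤ (2 * c ^ 2 * Θ) ^ 2 * ‖Hm‖ ^ 2 := by positivity
    nlinarith [sq_nonneg (t ^ 2 * d * ⟪mv Hm g, g⟫ - 2 * t * b * ⟪gx, g⟫)]

/-- the integrand of Bochner with a general test function `p` and its gradient `v` -/
def Tb (B : BochS n κ X μ) (H : X → S n) (G : X → F n) (p : X → ℝ) (v : X → F n) (x : X) : ℝ :=
  p x * (‖H x‖ ^ 2 + ⟪mv (B.Ric x) (G x), G x⟫) + ⟪v x, mv (H x) (G x)⟫ -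
    tr (H x) * (p x * tr (H x) + ⟪v x, G x⟫)

/-- **Bochner tested with the truncation** -/
theorem boch_trunc (h : HD B u S0 w A) (hθ : Tr θ Θ M) {χ : X → ℝ} (hχ : IsT χ) :
    Integrable (Tb B A (B.D u) (fun x => χ x ^ 2 * θ (P B u x)) (DP B u A θ χ)) μ ∧
      ∫ x, Tb B A (B.D u) (fun x => χ x ^ 2 * θ (P B u x)) (DP B u A θ χ) x ∂μ = 0 := by
  obtain ⟨Q, hQ⟩ := exists_Pk h
  obtain ⟨c, hc0, hc1, hc2, hc3⟩ := cut_const B hχ
  have hK := hχ.2.isCompact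
  have hT := isT_pk hQ hθ hχ
  obtain ⟨CR, hCR0, hCR⟩ := B.Ric_bdd' (tsupport χ) hK
  have hΘ := hθ.Θ0
  have hM := hθ.M0
  have hlim := HDlim h hK (b := fun _ => 0) (integrable_zero _ _ _)
    (C := (c ^ 2 * Θ) + (c ^ 2 * Θ) * CR + (c ^ 2 * (Θ * (2 * M)) + c ^ 2 * Θ) +
      (c ^ 2 * Θ) * n + n + (2 * (c ^ 2 * (Θ * (2 * M))) ^ 2 + 2 * (2 * c ^ 2 * Θ) ^ 2))
    (T := fun k => Tb B (B.H (w k)) (B.G (w k)) (pk θ χ Q k) (B.G (pk θ χ Q k)))
    (T' := Tb B A (B.D u) (fun x => χ x ^ 2 * θ (P B u x)) (DP B u A θ χ)) ?_ ?_ ?_ ?_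
  · refine ⟨hlim.1, ?_⟩
    have h0 : ∀ k, ∫ x, Tb B (B.H (w k)) (B.G (w k)) (pk θ χ Q k) (B.G (pk θ χ Q k)) x ∂μ = 0 := by
      intro k
      have hb := B.bochner (h.core k) (hT k)
      have i1 := B.int_lhs (h.core k) (hT k)
      have i2 := B.int_rhs1 (h.core k) (hT k)
      have i3 := B.int_rhs2 (h.core k) (hT k)
      unfold Tb
      have i12 : Integrable (fun x => pk θ χ Q k x * (‖B.H (w k) x‖ ^ 2 +
        ⟪mv (B.Ric x) (B.G (w k) x), B.G (w k) x⟫) +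
          ⟪B.G (pk θ χ Q k) x, mv (B.H (w k) x) (B.G (w k) x)⟫) μ := i1.add i2
      rw [integral_sub i12 i3, integral_add i1 i2, hb]
      ring
    have := hlim.2
    simp only [h0] at this
    exact (tendsto_nhds_unique this tendsto_const_nhds)
  · intro k
    have m1 := B.H_meas (h.core k)
    have m2 : AEStronglyMeasurable (B.G (w k)) μ := (B.G_memLp (h.core k)).1
    have m3 : AEStronglyMeasurable (pk θ χ Q k) μ := (hT k).1.continuous.aestronglyMeasurable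
    have m4 : AEStronglyMeasurable (B.G (pk θ χ Q k)) μ := B.meas (hT k).1
    exact ((m3.mul ((m1.norm.pow 2).add ((aesm_mv B.Ric_meas m2).inner m2))).add
      (m4.inner (aesm_mv m1 m2))).sub ((aesm_tr m1).mul ((m3.mul (aesm_tr m1)).add (m4.inner m2)))
  · intro k
    filter_upwards [G_pk hQ hθ hχ k, hc2, pk_bd hQ hθ hc1 k, hCR] with x e1 e2 e3 e4
    rw [add_zero]
    obtain ⟨f1, f2⟩ := pair_bounds hθ (hc1 x) (B.H (w k) x) (B.G (w k) x) (B.G χ x) e2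
    rw [← e1] at f1 f2
    by_cases hx : x ∈ tsupport χ
    · refine abs_T_le e3 ?_ f1 (tr_sq_le _) f2 hCR0 (by positivity) (by positivity) (by positivity)
      calc |⟪mv (B.Ric x) (B.G (w k) x), B.G (w k) x⟫|
          ≤ ‖mv (B.Ric x) (B.G (w k) x)‖ * ‖B.G (w k) x‖ := abs_real_inner_le_norm _ _
        _ ≤ (‖B.Ric x‖ * ‖B.G (w k) x‖) * ‖B.G (w k) x‖ := by gcongr; exact norm_mv_le _ _
        _ ≤ (CR * ‖B.G (w k) x‖) * ‖B.G (w k) x‖ := by gcongr; exact e4 hx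
        _ = CR * ‖B.G (w k) x‖ ^ 2 := by ring
    · have hχ0 : χ x = 0 := image_eq_zero_of_notMem_tsupport hx
      have hp0 : pk θ χ Q k x = 0 := by simp [pk, hχ0]
      have hG0 : B.G (pk θ χ Q k) x = 0 := by rw [e1, hχ0]; simp
      have hT0 : Tb B (B.H (w k)) (B.G (w k)) (pk θ χ Q k) (B.G (pk θ χ Q k)) x = 0 := by
        simp [Tb, hp0, hG0]
      rw [hT0, abs_zero]
      positivity
  · intro k
    filter_upwards [G_pk hQ hθ hχ k] with x e1 hx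
    have hχ0 : χ x = 0 := image_eq_zero_of_notMem_tsupport hx
    have hp0 : pk θ χ Q k x = 0 := by simp [pk, hχ0]
    have hG0 : B.G (pk θ χ Q k) x = 0 := by rw [e1, hχ0]; simp
    simp [Tb, hp0, hG0]
  · filter_upwards [tendsto_pk h hQ hθ (χ := χ), tendsto_G_pk h hQ hθ hχ, h.aeD, h.aeA]
      with x e1 e2 e3 e4
    have e5 : Tendsto (fun k => tr (B.H (w k) x)) atTop (𝓝 (tr (A x))) :=
      (continuous_tr.tendsto _).comp e4
    have e6 : Tendsto (fun k => mv (B.H (w k) x) (B.G (w k) x)) atTop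
        (𝓝 (mv (A x) (B.D u x))) := (continuous_mv.tendsto _).comp (e4.prodMk_nhds e3)
    have e7 : Tendsto (fun k => mv (B.Ric x) (B.G (w k) x)) atTop
        (𝓝 (mv (B.Ric x) (B.D u x))) :=
      (continuous_mv.tendsto _).comp (tendsto_const_nhds.prodMk_nhds e3)
    unfold Tb
    exact ((e1.mul (((e4.norm).pow 2).add (e7.inner e3))).add (e2.inner e6)).sub
      (e5.mul ((e1.mul e5).add (e2.inner e3)))

/-! ### the weak equation tested in `V` -/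

/-- the weak equation extends to `V` -/
theorem weak_V {u f : Lp ℝ 2 μ}
    (hw : ∀ p, IsT p → ∫ x, ⟪B.D u x, B.G p x⟫ ∂μ = - ∫ x, f x * p x ∂μ) {p : Lp ℝ 2 μ}
    (hp : p ∈ B.V) : ∫ x, ⟪B.D u x, B.D p x⟫ ∂μ = - ∫ x, f x * p x ∂μ := by
  obtain ⟨q, hq, h1, h2⟩ := B.exists_seq hp
  have e1 : ∀ k, (⟪B.D u, B.D (tL (hq k))⟫ : ℝ) = -⟪f, (tL (hq k) : Lp ℝ 2 μ)⟫ := fun k => by
    rw [L2.inner_def, L2.inner_def]
    have a1 : ∫ x, ⟪B.D u x, B.D (tL (hq k)) x⟫ ∂μ = ∫ x, ⟪B.D u x, B.G (q k) x⟫ ∂μ := by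
      refine integral_congr_ae ?_
      filter_upwards [B.D_tL (hq k)] with x hx
      rw [hx]
    have a2 : ∫ x, (inner ℝ (f x) ((tL (hq k) : Lp ℝ 2 μ) x) : ℝ) ∂μ = ∫ x, f x * q k x ∂μ := by
      refine integral_congr_ae ?_
      filter_upwards [coe_tL (μ := μ) (hq k)] with x hx
      rw [hx]
      simp [mul_comm]
    rw [a1, a2]
    exact hw _ (hq k)
  have l1 : Tendsto (fun k => (⟪B.D u, B.D (tL (hq k))⟫ : ℝ)) atTop (𝓝 ⟪B.D u, B.D p⟫) :=
    tendsto_const_nhds.inner h2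
  have l2 : Tendsto (fun k => -(⟪f, (tL (hq k) : Lp ℝ 2 μ)⟫ : ℝ)) atTop (𝓝 (-⟪f, p⟫)) :=
    (tendsto_const_nhds.inner h1).neg
  have e2 := tendsto_nhds_unique (l1.congr e1) l2
  rw [L2.inner_def, L2.inner_def] at e2
  rw [e2]
  congr 1
  refine integral_congr_ae (Eventually.of_forall fun x => ?_)
  simp [mul_comm]

/-- the weak equation tested with `f p` -/
theorem weak_fp {u f : Lp ℝ 2 μ} (hf : f ∈ B.V) {C : ℝ} (hC : 0 ≤ C)
    (hfb : ∀ᵐ x ∂μ, |f x| ≤ C)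
    (hw : ∀ p, IsT p → ∫ x, ⟪B.D u x, B.G p x⟫ ∂μ = - ∫ x, f x * p x ∂μ) {p : Lp ℝ 2 μ}
    (hp : p ∈ B.V) (hpb : ∀ᵐ x ∂μ, |p x| ≤ C) :
    Integrable (fun x => f x * (p x * f x + ⟪B.D p x, B.D u x⟫) + p x * ⟪B.D f x, B.D u x⟫) μ ∧
      ∫ x, (f x * (p x * f x + ⟪B.D p x, B.D u x⟫) + p x * ⟪B.D f x, B.D u x⟫) ∂μ = 0 := by
  have hm : MemLp (fun x => f x * p x) 2 μ := by
    have := memLp_smul (Lp.aestronglyMeasurable f) hfb p
    exact this
  set v : Lp ℝ 2 μ := hm.toLp _ with hv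
  have hvc : (v : X → ℝ) =ᵐ[μ] fun x => f x * p x := MemLp.coeFn_toLp _
  obtain ⟨hvV, hD⟩ := B.D_mul hf hp hC hfb hpb hvc
  have h1 := weak_V hw hvV
  have e1 : ∀ᵐ x ∂μ, ⟪B.D u x, B.D v x⟫ = f x * ⟪B.D p x, B.D u x⟫ + p x * ⟪B.D f x, B.D u x⟫ := by
    filter_upwards [hD] with x hx
    rw [hx, inner_add_right, real_inner_smul_right, real_inner_smul_right,
      real_inner_comm (B.D p x), real_inner_comm (B.D f x)]
  have e2 : ∀ᵐ x ∂μ, f x * v x = f x * (p x * f x) := by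
    filter_upwards [hvc] with x hx
    rw [hx]; ring
  have i1 : Integrable (fun x => ⟪B.D u x, B.D v x⟫) μ := L2.integrable_inner (𝕜 := ℝ) _ _
  have i2 : Integrable (fun x => f x * v x) μ := by
    have := L2.integrable_inner (𝕜 := ℝ) v f
    refine this.congr (Eventually.of_forall fun x => ?_)
    simp
  have i3 : Integrable (fun x => ⟪B.D u x, B.D v x⟫ + f x * v x) μ := i1.add i2
  have e3 : ∀ᵐ x ∂μ, ⟪B.D u x, B.D v x⟫ + f x * v x =
      f x * (p x * f x + ⟪B.D p x, B.D u x⟫) + p x * ⟪B.D f x, B.D u x⟫ := by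
    filter_upwards [e1, e2] with x a1 a2
    rw [a1, a2]; ring
  refine ⟨i3.congr e3, ?_⟩
  rw [← integral_congr_ae e3, integral_add i1 i2, h1]
  ring

end Crest.Agent.R247.Gb593
end
end

-- ▼ part R247/Gb3_593

/-!
R247, block (5-GB) (helper593), part 3: the gradient bound (GB2), `|Du|²/2 ∈ V` (GB3).
-/

set_option autoImplicit false
set_option linter.unusedSectionVars false

open MeasureTheory Filter Topology Set
open scoped RealInnerProductSpace ENNReal NNReal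

noncomputable section

namespace Crest.Agent.R247.Gb593

open Crest.Agent.R247.Dir593 Crest.Agent.R247.Dir593.GradS Crest.Agent.R247.Hes124
  Crest.Agent.R247.Hes124.BochS

/-- smooth step starting at `a` -/
def st (a s : ℝ) : ℝ := rmp a 1 s - rmp (a + 1) 1 s

theorem st_eq_zero {a s : ℝ} (h : s ≤ a) : st a s = 0 := by
  unfold st rmp
  rw [max_eq_right (by linarith), max_eq_right (by linarith), max_eq_right (by linarith),
    max_eq_right (by linarith)]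
  simp

theorem st_bounds (a s : ℝ) : 0 ≤ st a s ∧ st a s ≤ 1 := by
  rcases le_total s a with h | h
  · rw [st_eq_zero h]; exact ⟨le_rfl, zero_le_one⟩
  unfold st rmp
  rcases le_total s (a + 1) with h1 | h1
  · rw [max_eq_left (by linarith), max_eq_right (by linarith), max_eq_right (by linarith),
      max_eq_right (by linarith)]
    constructor <;> nlinarith
  · rcases le_total s (a + 2) with h2 | h2
    · rw [max_eq_left (by linarith), max_eq_left (by linarith), max_eq_left (by linarith),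
        max_eq_right (by linarith)]
      constructor <;> nlinarith
    · rw [max_eq_left (by linarith), max_eq_left (by linarith), max_eq_left (by linarith),
        max_eq_left (by linarith)]
      constructor <;> nlinarith

theorem st_pos {a s : ℝ} (h : a < s) : 0 < st a s := by
  unfold st rmp
  rcases le_total s (a + 1) with h1 | h1
  · rw [max_eq_left (by linarith), max_eq_right (by linarith), max_eq_right (by linarith),
      max_eq_right (by linarith)]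
    have : 0 < s - a := by linarith
    have : 0 < (s - a) ^ 2 := by positivity
    nlinarith
  · rcases le_total s (a + 2) with h2 | h2
    · rw [max_eq_left (by linarith), max_eq_left (by linarith), max_eq_left (by linarith),
        max_eq_right (by linarith)]
      nlinarith
    · rw [max_eq_left (by linarith), max_eq_left (by linarith), max_eq_left (by linarith),
        max_eq_left (by linarith)]
      nlinarith

theorem hasDerivAt_st (a s : ℝ) : HasDerivAt (st a) (rmp' a 1 s - rmp' (a + 1) 1 s) s :=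
  (hasDerivAt_rmp one_pos s).sub (hasDerivAt_rmp one_pos s)

theorem deriv_st (a s : ℝ) : deriv (st a) s = rmp' a 1 s - rmp' (a + 1) 1 s :=
  (hasDerivAt_st a s).deriv

theorem deriv_st_bounds (a s : ℝ) : 0 ≤ deriv (st a) s ∧ deriv (st a) s ≤ 1 := by
  rw [deriv_st]
  have h1 := rmp'_mem (a := a) one_pos s
  have h2 := rmp'_mem (a := a + 1) one_pos s
  refine ⟨?_, by linarith⟩
  rcases le_total s (a + 1) with h | h
  · have e : rmp' (a + 1) 1 s = 0 := by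
      unfold rmp'
      rw [max_eq_right (by linarith), max_eq_right (by linarith)]
      simp
    rw [e]; linarith
  · have e : rmp' a 1 s = 1 := by
      unfold rmp'
      rw [max_eq_left (by linarith), max_eq_left (by linarith)]
      ring
    rw [e]; linarith

theorem deriv_st_zero {a s : ℝ} (h : a + 2 ≤ s) : deriv (st a) s = 0 := by
  rw [deriv_st]
  unfold rmp'
  rw [max_eq_left (by linarith), max_eq_left (by linarith), max_eq_left (by linarith),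
    max_eq_left (by linarith)]
  ring

theorem contDiff_st (a : ℝ) : ContDiff ℝ 1 (st a) := by
  unfold st
  exact (contDiff_rmp one_pos).sub (contDiff_rmp one_pos)

theorem tr_st {a : ℝ} (ha : 0 ≤ a) : Tr (st a) 1 (a + 2) where
  cd := contDiff_st a
  Θ0 := zero_le_one
  M0 := by linarith
  b := fun s _ => by rw [abs_of_nonneg (st_bounds a s).1]; exact (st_bounds a s).2
  b' := fun s _ => by rw [abs_of_nonneg (deriv_st_bounds a s).1]; exact (deriv_st_bounds a s).2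
  z := fun _ hs => deriv_st_zero hs

/-- bounded identity: `idt b s = s` for `s ≤ b`, constant for `s ≥ b + 1` -/
def idt (b s : ℝ) : ℝ := s - rmp b 1 s

theorem hasDerivAt_idt (b s : ℝ) : HasDerivAt (idt b) (1 - rmp' b 1 s) s :=
  (hasDerivAt_id s).sub (hasDerivAt_rmp one_pos s)

theorem idt_eq {b s : ℝ} (h : s ≤ b) : idt b s = s := by
  unfold idt rmp
  rw [max_eq_right (by linarith), max_eq_right (by linarith)]
  simp

theorem deriv_idt_eq {b s : ℝ} (h : s ≤ b) : deriv (idt b) s = 1 := by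
  rw [(hasDerivAt_idt b s).deriv]
  unfold rmp'
  rw [max_eq_right (by linarith), max_eq_right (by linarith)]
  simp

theorem tr_idt {b : ℝ} (hb : 0 ≤ b) : Tr (idt b) (b + 1) (b + 1) where
  cd := by
    unfold idt
    exact contDiff_id.sub (contDiff_rmp one_pos)
  Θ0 := by linarith
  M0 := by linarith
  b := fun s hs => by
    unfold idt rmp
    rcases le_total s b with h | h
    · rw [max_eq_right (by linarith), max_eq_right (by linarith)]
      rw [abs_le]; constructor <;> nlinarith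
    · rcases le_total s (b + 1) with h1 | h1
      · rw [max_eq_left (by linarith), max_eq_right (by linarith)]
        rw [abs_le]; constructor <;> nlinarith
      · rw [max_eq_left (by linarith), max_eq_left (by linarith)]
        rw [abs_le]; constructor <;> nlinarith
  b' := fun s _ => by
    rw [(hasDerivAt_idt b s).deriv]
    have h1 := rmp'_mem (a := b) one_pos s
    rw [abs_of_nonneg (by linarith)]
    linarith
  z := fun s hs => by
    rw [(hasDerivAt_idt b s).deriv]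
    unfold rmp'
    rw [max_eq_left (by linarith), max_eq_left (by linarith)]
    ring

variable {n : ℕ} {κ : ℝ} {X : Type*} [MetricSpace X] [MeasurableSpace X] [BorelSpace X]
  {μ : Measure X} [IsFiniteMeasureOnCompacts μ]
variable {B : BochS n κ X μ} {u : Lp ℝ 2 μ} {S0 : ℝ} {w : ℕ → X → ℝ} {A : X → S n}
variable {θ : ℝ → ℝ} {Θ M : ℝ}

/-- hypotheses on `u`: weak Laplacian `f ∈ V` bounded -/
structure Eqn (B : BochS n κ X μ) (u f : Lp ℝ 2 μ) (C : ℝ) (A : X → S n) : Prop where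
  fV : f ∈ B.V
  C0 : 0 ≤ C
  fb : ∀ᵐ x ∂μ, |f x| ≤ C
  wk : ∀ p, IsT p → ∫ x, ⟪B.D u x, B.G p x⟫ ∂μ = - ∫ x, f x * p x ∂μ
  tr : ∀ᵐ x ∂μ, tr (A x) = f x

/-- combination of Bochner and the weak equation, truncated test function -/
theorem E2 (h : HD B u S0 w A) {f : Lp ℝ 2 μ} {C : ℝ} (hE : Eqn B u f C A) (hθ : Tr θ Θ M)
    {χ : X → ℝ} (hχ : IsT χ) :
    Integrable (fun x => χ x ^ 2 * θ (P B u x) * (‖A x‖ ^ 2 +
        ⟪mv (B.Ric x) (B.D u x), B.D u x⟫ + ⟪B.D f x, B.D u x⟫) +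
        ⟪DP B u A θ χ x, mv (A x) (B.D u x)⟫) μ ∧
      ∫ x, (χ x ^ 2 * θ (P B u x) * (‖A x‖ ^ 2 +
        ⟪mv (B.Ric x) (B.D u x), B.D u x⟫ + ⟪B.D f x, B.D u x⟫) +
        ⟪DP B u A θ χ x, mv (A x) (B.D u x)⟫) ∂μ = 0 := by
  obtain ⟨c, hc0, hc1, hc2, hc3⟩ := cut_const B hχ
  obtain ⟨i1, e1⟩ := boch_trunc h hθ hχ
  obtain ⟨hpV, hpD⟩ := trunc_mem h hθ hχ
  set p : Lp ℝ 2 μ := (memLp_p (B := B) (u := u) hθ hχ).toLp _ with hp
  have hpc : (p : X → ℝ) =ᵐ[μ] fun x => χ x ^ 2 * θ (P B u x) := MemLp.coeFn_toLp _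
  have hΘ := hθ.Θ0
  have hpb : ∀ᵐ x ∂μ, |p x| ≤ max C (c ^ 2 * Θ) := by
    filter_upwards [hpc] with x hx
    rw [hx, abs_mul, abs_pow]
    refine le_trans ?_ (le_max_right _ _)
    exact mul_le_mul (pow_le_pow_left₀ (abs_nonneg _) (hc1 x) 2)
      (hθ.b _ (by unfold P; positivity)) (abs_nonneg _) (by positivity)
  obtain ⟨i2, e2⟩ := weak_fp hE.fV (le_max_of_le_left hE.C0 : 0 ≤ max C (c ^ 2 * Θ))
    (hE.fb.mono fun x hx => hx.trans (le_max_left _ _)) hE.wk hpV hpb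
  have e3 : ∀ᵐ x ∂μ, Tb B A (B.D u) (fun x => χ x ^ 2 * θ (P B u x)) (DP B u A θ χ) x +
      (f x * (p x * f x + ⟪B.D p x, B.D u x⟫) + p x * ⟪B.D f x, B.D u x⟫) =
      χ x ^ 2 * θ (P B u x) * (‖A x‖ ^ 2 +
        ⟪mv (B.Ric x) (B.D u x), B.D u x⟫ + ⟪B.D f x, B.D u x⟫) +
        ⟪DP B u A θ χ x, mv (A x) (B.D u x)⟫ := by
    filter_upwards [hpc, hpD, hE.tr] with x a1 a2 a3
    rw [a1, a2]
    simp only [Tb]
    rw [a3]
    ring
  refine ⟨(i1.add i2).congr e3, ?_⟩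
  rw [← integral_congr_ae e3, integral_add i1 i2, e1, e2, add_zero]

/-- `|D u|²` is integrable -/
theorem int_Du (u : Lp ℝ 2 μ) (B : BochS n κ X μ) : Integrable (fun x => ‖B.D u x‖ ^ 2) μ :=
  integrable_normSq (B.D u)

/-- (GB2) **gradient bound**. -/
theorem grad_bound [ProperSpace X] (h : HD B u S0 w A) (hκ : 0 ≤ κ) {f : Lp ℝ 2 μ} {C : ℝ}
    (hE : Eqn B u f C A) {t : ℝ} (ht : 0 < t) (hκt : 2 * κ * t < 1) {A0 : ℝ}
    (hg : ∀ᵐ x ∂μ, ‖B.D u x - t • B.D f x‖ ≤ A0) :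
    ∀ᵐ x ∂μ, ‖B.D u x‖ ^ 2 ≤ A0 ^ 2 / (1 - 2 * κ * t) := by
  have hδ : 0 < 1 - 2 * κ * t := by linarith
  set a : ℝ := A0 ^ 2 / (1 - 2 * κ * t) / 2 with ha
  have ha0 : 0 ≤ a := by positivity
  have hA : MemLp A 2 μ := memLp_A h hκ (Lp.memLp f) hE.tr
  obtain ⟨c, hc⟩ := exists_cut B.toGradS
  set q0 : X → ℝ := fun x => ((1 - 2 * κ * t) * (2 * P B u x) - A0 ^ 2) / (2 * t) with hq0
  -- integrable majorants
  have iD := int_Du u B
  have iAD : Integrable (fun x => ‖A x‖ * ‖B.D u x‖) μ := int_norm_mul hA (Lp.memLp (B.D u))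
  have hmP : AEStronglyMeasurable (fun x => st a (P B u x)) μ :=
    (contDiff_st a).continuous.comp_aestronglyMeasurable (aesm_P B u)
  have hmq : AEStronglyMeasurable q0 μ :=
    (by fun_prop : Continuous fun s : ℝ => ((1 - 2 * κ * t) * (2 * s) - A0 ^ 2) /
      (2 * t)).comp_aestronglyMeasurable (aesm_P B u)
  -- nonnegativity and bound of `st a P * q0`
  have hnn : ∀ x, 0 ≤ st a (P B u x) * q0 x := fun x => by
    rcases le_or_gt (P B u x) a with h1 | h1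
    · rw [st_eq_zero h1, zero_mul]
    · refine mul_nonneg (st_bounds _ _).1 (div_nonneg ?_ (by positivity))
      have : A0 ^ 2 = (1 - 2 * κ * t) * (2 * a) := by rw [ha]; field_simp
      rw [this]
      nlinarith
  have hle : ∀ x, st a (P B u x) * q0 x ≤ (1 / (2 * t)) * ‖B.D u x‖ ^ 2 := fun x => by
    have h2 : q0 x ≤ (1 / (2 * t)) * ‖B.D u x‖ ^ 2 := by
      simp only [hq0, P]
      rw [div_le_iff₀ (by positivity)]
      have : 1 / (2 * t) * ‖B.D u x‖ ^ 2 * (2 * t) = ‖B.D u x‖ ^ 2 := by field_simp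
      rw [this]
      have h3 : 0 ≤ 2 * κ * t * ‖B.D u x‖ ^ 2 := by positivity
      nlinarith [sq_nonneg A0]
    rcases le_or_gt 0 (q0 x) with h1 | h1
    · calc st a (P B u x) * q0 x ≤ 1 * q0 x := mul_le_mul_of_nonneg_right (st_bounds _ _).2 h1
        _ ≤ _ := by rw [one_mul]; exact h2
    · exact (mul_nonpos_of_nonneg_of_nonpos (st_bounds _ _).1 h1.le).trans (by positivity)
  have iq : Integrable (fun x => st a (P B u x) * q0 x) μ :=
    (iD.const_mul (1 / (2 * t))).mono' (hmP.mul hmq) (Eventually.of_forall fun x => by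
      rw [Real.norm_of_nonneg (hnn x)]; exact hle x)
  -- the key inequality for each cut-off
  have key : ∀ k, ∫ x, c k x ^ 2 * (st a (P B u x) * q0 x) ∂μ ≤
      ∫ x, -(2 * c k x * st a (P B u x) * ⟪B.G (c k) x, mv (A x) (B.D u x)⟫) ∂μ := by
    intro k
    obtain ⟨i1, e1⟩ := E2 h hE (tr_st ha0) (hc.T k)
    have hcm : AEStronglyMeasurable (c k) μ := (hc.T k).1.continuous.aestronglyMeasurable
    have i2 : Integrable (fun x => c k x ^ 2 * (st a (P B u x) * q0 x)) μ := by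
      refine iq.bdd_mul (hcm.pow 2) (c := 1) (Eventually.of_forall fun x => ?_)
      rw [Real.norm_of_nonneg (sq_nonneg _)]
      exact pow_le_one₀ (hc.nn k x) (hc.le1 k x)
    have i3 : Integrable (fun x => -(2 * c k x * st a (P B u x) *
        ⟪B.G (c k) x, mv (A x) (B.D u x)⟫)) μ := by
      refine (iAD.const_mul 2).mono' (((hcm.const_mul 2).mul hmP).mul
        ((B.meas (hc.T k).1).inner (aesm_mv h.Am (Lp.aestronglyMeasurable _)))).neg ?_
      filter_upwards [hc.G1 k] with x hx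
      rw [norm_neg, Real.norm_eq_abs, abs_mul, abs_mul, abs_mul,
        abs_of_pos (by norm_num : (0:ℝ) < 2), abs_of_nonneg (hc.nn k x),
        abs_of_nonneg (st_bounds a (P B u x)).1]
      have g1 : |⟪B.G (c k) x, mv (A x) (B.D u x)⟫| ≤ 1 * (‖A x‖ * ‖B.D u x‖) :=
        (abs_real_inner_le_norm _ _).trans (mul_le_mul hx (norm_mv_le _ _) (norm_nonneg _)
          zero_le_one)
      have g2 : c k x * st a (P B u x) ≤ 1 :=
        mul_le_one₀ (hc.le1 k x) (st_bounds a (P B u x)).1 (st_bounds a (P B u x)).2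
      have g3 : 0 ≤ c k x * st a (P B u x) := mul_nonneg (hc.nn k x) (st_bounds a (P B u x)).1
      have g4 : 0 ≤ ‖A x‖ * ‖B.D u x‖ := by positivity
      calc 2 * c k x * st a (P B u x) * |⟪B.G (c k) x, mv (A x) (B.D u x)⟫|
          = 2 * (c k x * st a (P B u x)) * |⟪B.G (c k) x, mv (A x) (B.D u x)⟫| := by ring
        _ ≤ 2 * 1 * (1 * (‖A x‖ * ‖B.D u x‖)) := by gcongr
        _ = 2 * (‖A x‖ * ‖B.D u x‖) := by ring
    have e2 : ∫ x, c k x ^ 2 * (st a (P B u x) * q0 x) ∂μ =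
        ∫ x, (c k x ^ 2 * (st a (P B u x) * q0 x) - (c k x ^ 2 * st a (P B u x) * (‖A x‖ ^ 2 +
        ⟪mv (B.Ric x) (B.D u x), B.D u x⟫ + ⟪B.D f x, B.D u x⟫) +
        ⟪DP B u A (st a) (c k) x, mv (A x) (B.D u x)⟫)) ∂μ := by
      rw [integral_sub i2 i1, e1, sub_zero]
    rw [e2]
    refine integral_mono_ae (i2.sub i1) i3 ?_
    filter_upwards [B.Ric_lb, hg] with x b1 b2
    have b3 := b1 (B.D u x)
    have b4 : (‖B.D u x‖ ^ 2 - A0 ^ 2) / (2 * t) ≤ ⟪B.D f x, B.D u x⟫ := by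
      rw [div_le_iff₀ (by positivity)]
      have c1 : ⟪B.D u x - t • B.D f x, B.D u x⟫ ≤ A0 * ‖B.D u x‖ :=
        (real_inner_le_norm _ _).trans (mul_le_mul_of_nonneg_right b2 (norm_nonneg _))
      rw [inner_sub_left, real_inner_self_eq_norm_sq, real_inner_smul_left] at c1
      nlinarith [sq_nonneg (A0 - ‖B.D u x‖)]
    have b5 : q0 x ≤ ‖A x‖ ^ 2 + ⟪mv (B.Ric x) (B.D u x), B.D u x⟫ + ⟪B.D f x, B.D u x⟫ := by
      have c1 : q0 x = -(κ * ‖B.D u x‖ ^ 2) + (‖B.D u x‖ ^ 2 - A0 ^ 2) / (2 * t) := by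
        simp only [hq0, P]; field_simp; ring
      rw [c1]
      linarith [sq_nonneg ‖A x‖]
    have b6 : ⟪DP B u A (st a) (c k) x, mv (A x) (B.D u x)⟫ =
        c k x ^ 2 * deriv (st a) (P B u x) * ‖mv (A x) (B.D u x)‖ ^ 2 +
          2 * c k x * st a (P B u x) * ⟪B.G (c k) x, mv (A x) (B.D u x)⟫ := by
      simp only [DP]
      rw [inner_add_left, real_inner_smul_left, real_inner_smul_left, real_inner_self_eq_norm_sq]
    show c k x ^ 2 * (st a (P B u x) * q0 x) - (c k x ^ 2 * st a (P B u x) * (‖A x‖ ^ 2 +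
        ⟪mv (B.Ric x) (B.D u x), B.D u x⟫ + ⟪B.D f x, B.D u x⟫) +
        ⟪DP B u A (st a) (c k) x, mv (A x) (B.D u x)⟫) ≤ _
    rw [b6]
    have b7 : 0 ≤ c k x ^ 2 * deriv (st a) (P B u x) * ‖mv (A x) (B.D u x)‖ ^ 2 :=
      mul_nonneg (mul_nonneg (sq_nonneg _) (deriv_st_bounds _ _).1) (sq_nonneg _)
    have b8 : c k x ^ 2 * (st a (P B u x) * q0 x) ≤ c k x ^ 2 * st a (P B u x) * (‖A x‖ ^ 2 +
        ⟪mv (B.Ric x) (B.D u x), B.D u x⟫ + ⟪B.D f x, B.D u x⟫) := by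
      rw [mul_assoc]
      exact mul_le_mul_of_nonneg_left (mul_le_mul_of_nonneg_left b5 (st_bounds _ _).1)
        (sq_nonneg _)
    linarith
  -- limits
  have l1 : Tendsto (fun k => ∫ x, c k x ^ 2 * (st a (P B u x) * q0 x) ∂μ) atTop
      (𝓝 (∫ x, st a (P B u x) * q0 x ∂μ)) := by
    refine tendsto_integral_of_dominated_convergence (fun x => st a (P B u x) * q0 x)
      (fun k => ?_) iq (fun k => Eventually.of_forall fun x => ?_)
      (Eventually.of_forall fun x => ?_)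
    · exact (((hc.T k).1.continuous.aestronglyMeasurable).pow 2).mul (hmP.mul hmq)
    · rw [Real.norm_of_nonneg (mul_nonneg (sq_nonneg _) (hnn x))]
      calc c k x ^ 2 * (st a (P B u x) * q0 x) ≤ 1 * (st a (P B u x) * q0 x) :=
            mul_le_mul_of_nonneg_right (pow_le_one₀ (hc.nn k x) (hc.le1 k x)) (hnn x)
        _ = _ := one_mul _
    · have := ((hc.tendsto1 x).pow 2).mul_const (st a (P B u x) * q0 x)
      simpa using this
  have l2 : Tendsto (fun k => ∫ x, -(2 * c k x * st a (P B u x) *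
      ⟪B.G (c k) x, mv (A x) (B.D u x)⟫) ∂μ) atTop (𝓝 (∫ _ : X, (0:ℝ) ∂μ)) := by
    refine tendsto_integral_of_dominated_convergence (fun x => 2 * (‖A x‖ * ‖B.D u x‖))
      (fun k => ?_) (iAD.const_mul 2) (fun k => ?_) ?_
    · exact (((((hc.T k).1.continuous.aestronglyMeasurable).const_mul 2).mul hmP).mul
        ((B.meas (hc.T k).1).inner (aesm_mv h.Am (Lp.aestronglyMeasurable _)))).neg
    · filter_upwards [hc.G1 k] with x hx
      rw [norm_neg, Real.norm_eq_abs, abs_mul, abs_mul, abs_mul,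
        abs_of_pos (by norm_num : (0:ℝ) < 2), abs_of_nonneg (hc.nn k x),
        abs_of_nonneg (st_bounds a (P B u x)).1]
      have g1 : |⟪B.G (c k) x, mv (A x) (B.D u x)⟫| ≤ 1 * (‖A x‖ * ‖B.D u x‖) :=
        (abs_real_inner_le_norm _ _).trans (mul_le_mul hx (norm_mv_le _ _) (norm_nonneg _)
          zero_le_one)
      have g2 : c k x * st a (P B u x) ≤ 1 :=
        mul_le_one₀ (hc.le1 k x) (st_bounds a (P B u x)).1 (st_bounds a (P B u x)).2
      have g3 : 0 ≤ c k x * st a (P B u x) := mul_nonneg (hc.nn k x) (st_bounds a (P B u x)).1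
      have g4 : 0 ≤ ‖A x‖ * ‖B.D u x‖ := by positivity
      calc 2 * c k x * st a (P B u x) * |⟪B.G (c k) x, mv (A x) (B.D u x)⟫|
          = 2 * (c k x * st a (P B u x)) * |⟪B.G (c k) x, mv (A x) (B.D u x)⟫| := by ring
        _ ≤ 2 * 1 * (1 * (‖A x‖ * ‖B.D u x‖)) := by gcongr
        _ = 2 * (‖A x‖ * ‖B.D u x‖) := by ring
    · filter_upwards [hc.tendsto0] with x hx
      have h1 : Tendsto (fun k => (⟪B.G (c k) x, mv (A x) (B.D u x)⟫ : ℝ)) atTop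
          (𝓝 ⟪(0 : F n), mv (A x) (B.D u x)⟫) := hx.inner tendsto_const_nhds
      have h2 := ((((hc.tendsto1 x).const_mul 2).mul_const (st a (P B u x))).mul h1).neg
      simpa using h2
  have h0 : ∫ x, st a (P B u x) * q0 x ∂μ ≤ 0 := by
    have := le_of_tendsto_of_tendsto' l1 l2 key
    simpa using this
  have h1 : ∫ x, st a (P B u x) * q0 x ∂μ = 0 :=
    le_antisymm h0 (integral_nonneg hnn)
  have h2 := (integral_eq_zero_iff_of_nonneg hnn iq).1 h1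
  filter_upwards [h2] with x hx
  by_contra hcon
  rw [not_le] at hcon
  have h3 : a < P B u x := by
    rw [ha]; unfold P
    linarith
  have h4 : 0 < q0 x := by
    simp only [hq0]
    refine div_pos ?_ (by positivity)
    have : A0 ^ 2 = (1 - 2 * κ * t) * (2 * a) := by rw [ha]; field_simp
    rw [this]
    nlinarith
  have h5 := mul_pos (st_pos h3) h4
  have h6 : st a (P B u x) * q0 x = 0 := hx
  linarith

end Crest.Agent.R247.Gb593
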