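import Crest.Agent.R247.Hes3_124
import Crest.Agent.R247.Dir6_593
import Crest.Agent.R247.Gb3_593

-- ▼ part R247/Hes5_124
section

/-!
R247, block (5-H) (helper124), part 5: algebra of the weak Bochner identity.
`BW` = the complete analytic output (Hessian in `L²`, `|Du|²/2 ∈ V`, weak Bochner for bounded
test functions in `V`); `keq` = the exact equation of `k = |Du|² - 2u - θ0`; `S'` and its lower
bounds; `hf_ineq` = the integrated Hessian inequality for `φ = R Ψ`.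
-/

set_option autoImplicit false
set_option linter.unusedSectionVars false

open MeasureTheory Filter Topology Set
open scoped RealInnerProductSpace ENNReal NNReal

noncomputable section

namespace Crest.Agent.R247.Hes124

open Crest.Agent.R242 Crest.Agent.R247.Dir593 Crest.Agent.R247.Dir593.GradS

variable {n : ℕ} {κ : ℝ} {X : Type*} [MetricSpace X] [MeasurableSpace X] [BorelSpace X]
  {μ : Measure X} [IsFiniteMeasureOnCompacts μ]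

/-- linear combination of six integrals -/
lemma lin6 {Y : Type*} [MeasurableSpace Y] {ν : Measure Y} {a b c d e f : Y → ℝ}
    (ia : Integrable a ν) (ib : Integrable b ν) (ic : Integrable c ν) (id : Integrable d ν)
    (ie : Integrable e ν) (if' : Integrable f ν) {c1 c2 c3 c4 c5 c6 : ℝ}
    (h : ∀ᵐ x ∂ν, c1 * a x + c2 * b x + c3 * c x + c4 * d x + c5 * e x + c6 * f x = 0) :
    c1 * ∫ x, a x ∂ν + c2 * ∫ x, b x ∂ν + c3 * ∫ x, c x ∂ν + c4 * ∫ x, d x ∂ν +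
      c5 * ∫ x, e x ∂ν + c6 * ∫ x, f x ∂ν = 0 := by
  have h1 : ∫ x, (c1 * a x + c2 * b x + c3 * c x + c4 * d x + c5 * e x + c6 * f x) ∂ν = 0 := by
    rw [integral_congr_ae h, integral_zero]
  have j1 : Integrable (fun x => c1 * a x) ν := ia.const_mul _
  have j2 : Integrable (fun x => c2 * b x) ν := ib.const_mul _
  have j3 : Integrable (fun x => c3 * c x) ν := ic.const_mul _
  have j4 : Integrable (fun x => c4 * d x) ν := id.const_mul _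
  have j5 : Integrable (fun x => c5 * e x) ν := ie.const_mul _
  have j6 : Integrable (fun x => c6 * f x) ν := if'.const_mul _
  have k2 : Integrable (fun x => c1 * a x + c2 * b x) ν := j1.add j2
  have k3 : Integrable (fun x => c1 * a x + c2 * b x + c3 * c x) ν := k2.add j3
  have k4 : Integrable (fun x => c1 * a x + c2 * b x + c3 * c x + c4 * d x) ν := k3.add j4
  have k5 : Integrable (fun x => c1 * a x + c2 * b x + c3 * c x + c4 * d x + c5 * e x) ν :=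
    k4.add j5
  rw [integral_add k5 j6, integral_add k4 j5, integral_add k3 j4, integral_add k2 j3,
    integral_add j1 j2] at h1
  simpa only [integral_const_mul] using h1

/-- Hessian package: `Δ u = g`, `A` = Hessian, `P = |Du|²/2`, weak Bochner. -/
structure BW (B : BochS n κ X μ) (u g : Lp ℝ 2 μ) (A : X → S n) (P : Lp ℝ 2 μ) : Prop where
  u_mem : u ∈ B.V
  g_mem : g ∈ B.V
  weak : ∀ p ∈ B.V, (⟪B.D u, B.D p⟫ : ℝ) = -⟪g, p⟫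
  trA : ∀ᵐ x ∂μ, tr (A x) = g x
  A_memLp : MemLp A 2 μ
  P_mem : P ∈ B.V
  P_eq : ∀ᵐ x ∂μ, P x = ‖B.D u x‖ ^ 2 / 2
  DP : ∀ᵐ x ∂μ, B.D P x = mv (A x) (B.D u x)
  bdd : ∃ C : ℝ, ∀ᵐ x ∂μ, ‖B.D u x‖ ≤ C
  int : Integrable (fun x => ‖A x‖ ^ 2 + ⟪mv (B.Ric x) (B.D u x), B.D u x⟫) μ
  boch : ∀ p ∈ B.V, (∃ C : ℝ, ∀ᵐ x ∂μ, |p x| ≤ C) →
    ∫ x, p x * (‖A x‖ ^ 2 + ⟪mv (B.Ric x) (B.D u x), B.D u x⟫) ∂μ +
      ∫ x, ⟪B.D p x, mv (A x) (B.D u x)⟫ ∂μ = - ∫ x, p x * ⟪B.D g x, B.D u x⟫ ∂μ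

/-- the density `S' = 2|A - I|² + 2 Ric(Du,Du) + ρ²|Dq|² + 2⟨GN,Du⟩ + 2(N - n)` -/
def Sp (B : BochS n κ X μ) (u q : Lp ℝ 2 μ) (A : X → S n) (N : X → ℝ) (ρ : ℝ) (x : X) : ℝ :=
  2 * ‖A x - idm n‖ ^ 2 + 2 * ⟪mv (B.Ric x) (B.D u x), B.D u x⟫ + ρ ^ 2 * ‖B.D q x‖ ^ 2 +
    2 * ⟪B.G N x, B.D u x⟫ + 2 * (N x - n)

namespace BW

variable {B : BochS n κ X μ} {u g : Lp ℝ 2 μ} {A : X → S n} {P : Lp ℝ 2 μ}

/-- `4q - S' = -2β + 2N - ρ²|Dq|² - 2⟨GN,Du⟩` -/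
lemma four_q_sub (h : BW B u g A P) {q : Lp ℝ 2 μ} {N : X → ℝ} (hN : IsT N) {ρ : ℝ}
    (hg : g = tL hN - q) :
    ∀ᵐ x ∂μ, 4 * q x - Sp B u q A N ρ x =
      -2 * (‖A x‖ ^ 2 + ⟪mv (B.Ric x) (B.D u x), B.D u x⟫) + 2 * N x - ρ ^ 2 * ‖B.D q x‖ ^ 2 -
        2 * ⟪B.G N x, B.D u x⟫ := by
  filter_upwards [h.trA, Lp.coeFn_sub (tL hN : Lp ℝ 2 μ) q, coe_tL (μ := μ) hN] with x e1 e2 e3
  have e4 : tr (A x) = N x - q x := by rw [e1, hg, e2, Pi.sub_apply, e3]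
  unfold Sp
  rw [norm_sub_idm_sq, e4]
  ring

lemma int_four (h : BW B u g A P) {q : Lp ℝ 2 μ} {N : X → ℝ} (hN : IsT N) {ρ : ℝ}
    (hg : g = tL hN - q) : Integrable (fun x => 4 * q x - Sp B u q A N ρ x) μ := by
  have i1 := h.int.const_mul (-2)
  have iN : Integrable N μ := hN.1.continuous.integrable_of_hasCompactSupport hN.2
  have iq : Integrable (fun x => ‖B.D q x‖ ^ 2) μ := int_sq (Lp.memLp _)
  have iG : Integrable (fun x => ⟪B.G N x, B.D u x⟫) μ :=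
    int_inner (hN.memLpG B.toGradS) (Lp.memLp _)
  refine (((i1.add (iN.const_mul 2)).sub (iq.const_mul (ρ ^ 2))).sub (iG.const_mul 2)).congr ?_
  filter_upwards [h.four_q_sub hN (ρ := ρ) hg] with x e
  rw [e]
  simp only [Pi.add_apply, Pi.sub_apply]

lemma int_Sp (h : BW B u g A P) {q : Lp ℝ 2 μ} {N : X → ℝ} (hN : IsT N) {ρ : ℝ}
    (hg : g = tL hN - q) (hq : Integrable q μ) : Integrable (Sp B u q A N ρ) μ := by
  refine ((hq.const_mul 4).sub (h.int_four hN (ρ := ρ) hg)).congr (Eventually.of_forall fun x => ?_)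
  simp only [Pi.sub_apply]
  ring

/-- the function `k = |Du|² - 2u - θ0` -/
def kL (u P : Lp ℝ 2 μ) {θ0 : X → ℝ} (hθ : IsT θ0) : Lp ℝ 2 μ :=
  (2:ℝ) • P - (2:ℝ) • u - tL hθ

lemma kL_mem (h : BW B u g A P) {θ0 : X → ℝ} (hθ : IsT θ0) : kL u P hθ ∈ B.V :=
  B.V.sub_mem (B.V.sub_mem (B.V.smul_mem _ h.P_mem) (B.V.smul_mem _ h.u_mem)) (B.tL_mem hθ)

lemma D_kL (h : BW B u g A P) {θ0 : X → ℝ} (hθ : IsT θ0) :
    B.D (kL u P hθ) = (2:ℝ) • B.D P - (2:ℝ) • B.D u - B.D (tL hθ) := by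
  unfold kL
  rw [B.D_sub (B.V.sub_mem (B.V.smul_mem _ h.P_mem) (B.V.smul_mem _ h.u_mem)) (B.tL_mem hθ),
    B.D_sub (B.V.smul_mem _ h.P_mem) (B.V.smul_mem _ h.u_mem), B.D_smul _ h.P_mem,
    B.D_smul _ h.u_mem]

/-- `D k = 2 (A - I) Du - G θ0` -/
lemma D_kL_ae (h : BW B u g A P) {θ0 : X → ℝ} (hθ : IsT θ0) :
    ∀ᵐ x ∂μ, B.D (kL u P hθ) x = (2:ℝ) • (mv (A x) (B.D u x) - B.D u x) - B.G θ0 x := by
  rw [h.D_kL hθ]
  filter_upwards [Lp.coeFn_sub ((2:ℝ) • B.D P - (2:ℝ) • B.D u) (B.D (tL hθ)),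
    Lp.coeFn_sub ((2:ℝ) • B.D P) ((2:ℝ) • B.D u), Lp.coeFn_smul (2:ℝ) (B.D P),
    Lp.coeFn_smul (2:ℝ) (B.D u), h.DP, B.D_tL hθ] with x e1 e2 e3 e4 e5 e6
  rw [e1, Pi.sub_apply, e2, Pi.sub_apply, e3, e4, Pi.smul_apply, Pi.smul_apply, e5, e6]
  module

/-- pointwise formula `k = 2ρ²q - 2ρ²⟨Gf0,Dq⟩ + ρ⁴|Dq|²` -/
lemma kL_ae (h : BW B u g A P) {f0 θ0 : X → ℝ} (hf0 : IsT f0) (hθ : IsT θ0) {q : Lp ℝ 2 μ}
    (hq : q ∈ B.V) {ρ : ℝ} (hu : u = tL hf0 - ρ ^ 2 • q)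
    (hθe : ∀ᵐ x ∂μ, θ0 x = ‖B.G f0 x‖ ^ 2 - 2 * f0 x) :
    ∀ᵐ x ∂μ, kL u P hθ x = 2 * ρ ^ 2 * q x - 2 * ρ ^ 2 * ⟪B.G f0 x, B.D q x⟫ +
      ρ ^ 4 * ‖B.D q x‖ ^ 2 := by
  have hDu : B.D u = B.D (tL hf0) - ρ ^ 2 • B.D q := by
    rw [hu, B.D_sub (B.tL_mem hf0) (B.V.smul_mem _ hq), B.D_smul _ hq]
  unfold kL
  filter_upwards [Lp.coeFn_sub ((2:ℝ) • P - (2:ℝ) • u) (tL hθ : Lp ℝ 2 μ),
    Lp.coeFn_sub ((2:ℝ) • P) ((2:ℝ) • u), Lp.coeFn_smul (2:ℝ) P,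
    Lp.coeFn_smul (2:ℝ) u, h.P_eq, coe_tL (μ := μ) hθ, hθe, coe_tL (μ := μ) hf0,
    Lp.coeFn_sub (tL hf0 : Lp ℝ 2 μ) (ρ ^ 2 • q), Lp.coeFn_smul (ρ ^ 2) q,
    Lp.coeFn_sub (B.D (tL hf0)) (ρ ^ 2 • B.D q), Lp.coeFn_smul (ρ ^ 2) (B.D q), B.D_tL hf0]
    with x e1 e2 e3 e4 e5 e6 e7 e8 e9 e10 e11 e12 e13
  have hux : u x = f0 x - ρ ^ 2 * q x := by
    rw [hu, e9, Pi.sub_apply, e8, e10, Pi.smul_apply, smul_eq_mul]
  have hDx : B.D u x = B.G f0 x - ρ ^ 2 • B.D q x := by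
    rw [hDu, e11, Pi.sub_apply, e12, Pi.smul_apply, e13]
  rw [e1, Pi.sub_apply, e2, Pi.sub_apply, e3, e4, Pi.smul_apply, Pi.smul_apply, e5, e6, e7,
    smul_eq_mul, smul_eq_mul, hux, hDx, norm_sub_sq_real, real_inner_smul_right, norm_smul,
    Real.norm_of_nonneg (sq_nonneg ρ)]
  ring

/-- **the exact `k`-equation** -/
theorem keq (h : BW B u g A P) {f0 N θ0 : X → ℝ} (hf0 : IsT f0) (hN : IsT N) (hθ : IsT θ0)
    {q : Lp ℝ 2 μ} (hq : q ∈ B.V) {ρ : ℝ} (hu : u = tL hf0 - ρ ^ 2 • q) (hg : g = tL hN - q)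
    (hθe : ∀ᵐ x ∂μ, θ0 x = ‖B.G f0 x‖ ^ 2 - 2 * f0 x) {p : Lp ℝ 2 μ} (hp : p ∈ B.V)
    (hpb : ∃ C : ℝ, ∀ᵐ x ∂μ, |p x| ≤ C) :
    ρ ^ 2 * ⟪B.D (kL u P hθ), B.D p⟫ + ⟪kL u P hθ, p⟫ =
      ρ ^ 2 * ∫ x, (4 * q x - Sp B u q A N ρ x) * p x ∂μ -
        ρ ^ 2 * ∫ x, ⟪B.G θ0 x, B.D p x⟫ ∂μ := by
  obtain ⟨C, hC⟩ := hpb
  have hb := h.boch p hp ⟨C, hC⟩
  have hw := h.weak p hp
  have hpm : AEStronglyMeasurable p μ := Lp.aestronglyMeasurable p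
  have hDu : B.D u = B.D (tL hf0) - ρ ^ 2 • B.D q := by
    rw [hu, B.D_sub (B.tL_mem hf0) (B.V.smul_mem _ hq), B.D_smul _ hq]
  have hDg : B.D g = B.D (tL hN) - B.D q := by rw [hg, B.D_sub (B.tL_mem hN) hq]
  -- integrability
  have iβ : Integrable (fun x => p x * (‖A x‖ ^ 2 + ⟪mv (B.Ric x) (B.D u x), B.D u x⟫)) μ :=
    BochS.int_bdd_mul h.int hpm hC
  have iDg : Integrable (fun x => p x * ⟪B.D g x, B.D u x⟫) μ :=
    BochS.int_bdd_mul (int_inner (Lp.memLp _) (Lp.memLp _)) hpm hC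
  have iGN : Integrable (fun x => p x * ⟪B.G N x, B.D u x⟫) μ :=
    BochS.int_bdd_mul (int_inner (hN.memLpG B.toGradS) (Lp.memLp _)) hpm hC
  have iDq2 : Integrable (fun x => p x * ‖B.D q x‖ ^ 2) μ :=
    BochS.int_bdd_mul (int_sq (Lp.memLp _)) hpm hC
  have iNp : Integrable (fun x => p x * N x) μ := int_mul (Lp.memLp p) hN.memLp
  -- expand the left side
  rw [h.D_kL hθ]
  have e1 : (⟪(2:ℝ) • B.D P - (2:ℝ) • B.D u - B.D (tL hθ), B.D p⟫ : ℝ) =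
      2 * ⟪B.D P, B.D p⟫ - 2 * ⟪B.D u, B.D p⟫ - ⟪B.D (tL hθ), B.D p⟫ := by
    rw [inner_sub_left, inner_sub_left, real_inner_smul_left, real_inner_smul_left]
  have e2 : (⟪kL u P hθ, p⟫ : ℝ) = 2 * ⟪P, p⟫ - 2 * ⟪u, p⟫ - ⟪(tL hθ : Lp ℝ 2 μ), p⟫ := by
    unfold kL
    rw [inner_sub_left, inner_sub_left, real_inner_smul_left, real_inner_smul_left]
  have e3 : (⟪B.D P, B.D p⟫ : ℝ) = ∫ x, ⟪B.D p x, mv (A x) (B.D u x)⟫ ∂μ := by
    rw [L2.inner_def]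
    refine integral_congr_ae ?_
    filter_upwards [h.DP] with x hx
    rw [hx, real_inner_comm]
  have e4 : (⟪B.D (tL hθ), B.D p⟫ : ℝ) = ∫ x, ⟪B.G θ0 x, B.D p x⟫ ∂μ := by
    rw [L2.inner_def]
    refine integral_congr_ae ?_
    filter_upwards [B.D_tL hθ] with x hx
    rw [hx]
  have e5 : (⟪g, p⟫ : ℝ) = ⟪(tL hN : Lp ℝ 2 μ), p⟫ - ⟪q, p⟫ := by rw [hg, inner_sub_left]
  have e6 : (⟪u, p⟫ : ℝ) = ⟪(tL hf0 : Lp ℝ 2 μ), p⟫ - ρ ^ 2 * ⟪q, p⟫ := by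
    rw [hu, inner_sub_left, real_inner_smul_left]
  -- the combination `2ρ²⟨Dg,Du⟩` etc.
  have hsc : ∀ a b : Lp ℝ 2 μ, (⟪a, b⟫ : ℝ) = ∫ x, b x * a x ∂μ := fun a b => by
    rw [L2.inner_def]
    refine integral_congr_ae (Eventually.of_forall fun x => ?_)
    simp
  have iP : Integrable (fun x => p x * P x) μ := int_mul (Lp.memLp p) (Lp.memLp P)
  have iθ : Integrable (fun x => p x * (tL hθ : Lp ℝ 2 μ) x) μ := int_mul (Lp.memLp p) (Lp.memLp _)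
  have if0 : Integrable (fun x => p x * (tL hf0 : Lp ℝ 2 μ) x) μ :=
    int_mul (Lp.memLp p) (Lp.memLp _)
  have key : 2 * ρ ^ 2 * (- ∫ x, p x * ⟪B.D g x, B.D u x⟫ ∂μ) + 2 * ⟪P, p⟫ -
      ⟪(tL hθ : Lp ℝ 2 μ), p⟫ - 2 * ⟪(tL hf0 : Lp ℝ 2 μ), p⟫ =
      - (ρ ^ 4 * ∫ x, p x * ‖B.D q x‖ ^ 2 ∂μ) -
        2 * ρ ^ 2 * ∫ x, p x * ⟪B.G N x, B.D u x⟫ ∂μ := by
    rw [hsc, hsc, hsc]
    have := lin6 (c1 := 2 * ρ ^ 2 * (-1)) (c2 := 2) (c3 := -1) (c4 := -2) (c5 := ρ ^ 4)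
      (c6 := 2 * ρ ^ 2) iDg iP iθ if0 iDq2 iGN ?_
    · linarith
    filter_upwards [h.P_eq, coe_tL (μ := μ) hθ, hθe, coe_tL (μ := μ) hf0,
      Lp.coeFn_sub (B.D (tL hf0)) (ρ ^ 2 • B.D q), Lp.coeFn_smul (ρ ^ 2) (B.D q), B.D_tL hf0,
      Lp.coeFn_sub (B.D (tL hN)) (B.D q), B.D_tL hN]
      with x a1 a2 a3 a4 a5 a6 a7 a8 a9
    have hDx : B.D u x = B.G f0 x - ρ ^ 2 • B.D q x := by
      rw [hDu, a5, Pi.sub_apply, a6, Pi.smul_apply, a7]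
    have hDgx : B.D g x = B.G N x - B.D q x := by rw [hDg, a8, Pi.sub_apply, a9]
    rw [a1, a2, a3, a4, hDgx]
    have b1 : ‖B.D u x‖ ^ 2 = ‖B.G f0 x‖ ^ 2 - 2 * (ρ ^ 2 * ⟪B.G f0 x, B.D q x⟫) +
        ρ ^ 4 * ‖B.D q x‖ ^ 2 := by
      rw [hDx, norm_sub_sq_real, real_inner_smul_right, norm_smul,
        Real.norm_of_nonneg (sq_nonneg ρ)]
      ring
    have b2 : (⟪B.D q x, B.D u x⟫ : ℝ) = ⟪B.G f0 x, B.D q x⟫ - ρ ^ 2 * ‖B.D q x‖ ^ 2 := by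
      rw [hDx, inner_sub_right, real_inner_smul_right, real_inner_self_eq_norm_sq,
        real_inner_comm]
    rw [inner_sub_left, b1, b2]
    ring
  have hR : ∫ x, (4 * q x - Sp B u q A N ρ x) * p x ∂μ =
      -2 * ∫ x, p x * (‖A x‖ ^ 2 + ⟪mv (B.Ric x) (B.D u x), B.D u x⟫) ∂μ +
      2 * ∫ x, p x * N x ∂μ - ρ ^ 2 * ∫ x, p x * ‖B.D q x‖ ^ 2 ∂μ -
      2 * ∫ x, p x * ⟪B.G N x, B.D u x⟫ ∂μ := by
    have i4 : Integrable (fun x => (4 * q x - Sp B u q A N ρ x) * p x) μ := by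
      refine (BochS.int_bdd_mul (h.int_four hN (ρ := ρ) hg) hpm hC).congr
        (Eventually.of_forall fun x => ?_)
      simp only
      ring
    have := lin6 (c1 := 1) (c2 := 2) (c3 := -2) (c4 := ρ ^ 2) (c5 := 2) (c6 := 0)
      i4 iβ iNp iDq2 iGN iGN ?_
    · linarith
    filter_upwards [h.four_q_sub hN (ρ := ρ) hg] with x e
    rw [e]
    ring
  have e7 : (⟪(tL hN : Lp ℝ 2 μ), p⟫ : ℝ) = ∫ x, p x * N x ∂μ := by
    rw [hsc]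
    refine integral_congr_ae ?_
    filter_upwards [coe_tL (μ := μ) hN] with x e
    rw [e]
  rw [e1, e2, e3, e4, hw, e5, e6, e7, hR]
  linear_combination 2 * ρ ^ 2 * hb + key

/-! ### lower bounds of `S'` -/

/-- inner region -/
lemma Sp_inner (_h : BW B u g A P) {f0 N : X → ℝ} (hf0 : IsT f0) {q : Lp ℝ 2 μ} (hq : q ∈ B.V)
    {ρ : ℝ} (hκ : 0 ≤ κ) (hu : u = tL hf0 - ρ ^ 2 • q) :
    ∀ᵐ x ∂μ, ∀ s : ℝ, 0 ≤ s → N x = n + 2 * κ * s → B.G N x = (2 * κ) • B.G f0 x →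
      ‖B.G f0 x‖ ^ 2 = 2 * s →
      2 * ‖A x - idm n‖ ^ 2 + (1 - 2 * κ * ρ ^ 2) * (ρ ^ 2 * ‖B.D q x‖ ^ 2) ≤
        Sp B u q A N ρ x := by
  have hDu : B.D u = B.D (tL hf0) - ρ ^ 2 • B.D q := by
    rw [hu, B.D_sub (B.tL_mem hf0) (B.V.smul_mem _ hq), B.D_smul _ hq]
  filter_upwards [B.Ric_lb, Lp.coeFn_sub (B.D (tL hf0)) (ρ ^ 2 • B.D q),
    Lp.coeFn_smul (ρ ^ 2) (B.D q), B.D_tL hf0] with x a1 a5 a6 a7 s hs hNx hGN hG
  have hDx : B.D u x = B.G f0 x - ρ ^ 2 • B.D q x := by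
    rw [hDu, a5, Pi.sub_apply, a6, Pi.smul_apply, a7]
  have b0 := a1 (B.D u x)
  have b1 : (⟪B.G f0 x, B.D u x⟫ : ℝ) = (‖B.G f0 x‖ ^ 2 + ‖B.D u x‖ ^ 2 -
      ρ ^ 4 * ‖B.D q x‖ ^ 2) / 2 := by
    have e : ρ ^ 2 • B.D q x = B.G f0 x - B.D u x := by rw [hDx]; abel
    have e2 : ‖ρ ^ 2 • B.D q x‖ ^ 2 = ρ ^ 4 * ‖B.D q x‖ ^ 2 := by
      rw [norm_smul, Real.norm_of_nonneg (sq_nonneg ρ)]; ring
    rw [← e2, e, norm_sub_sq_real]
    ring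
  unfold Sp
  rw [hGN, real_inner_smul_left, b1, hG, hNx]
  nlinarith [mul_nonneg hκ hs]

/-- real arithmetic of the outer region -/
lemma outer_arith {κ ρ Nx qx A2 R G a c du d ip : ℝ} (hκ : 0 ≤ κ) (hρ : 8 * κ * ρ ^ 2 ≤ 1)
    (hA : 0 ≤ A2) (hq : 0 ≤ qx) (hR : -(κ * du ^ 2) ≤ R) (_ha : 0 ≤ a) (hc : 0 ≤ c)
    (hdu0 : 0 ≤ du) (hdu : du ≤ a + ρ ^ 2 * d) (hip : |ip| ≤ c * du)
    (hG : 4 * qx - G = -2 * (A2 + R) + 2 * Nx - ρ ^ 2 * d ^ 2 - 2 * ip) :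
    -(2 * |Nx| + 4 * κ * a ^ 2 + 2 * c * a + 2 * ρ ^ 2 * c ^ 2) ≤ G := by
  have h1 := (abs_le.1 hip).1
  have h2 := le_abs_self Nx
  have h3 : c * du ≤ c * a + c * (ρ ^ 2 * d) := by nlinarith
  have h4 : 2 * (c * (ρ ^ 2 * d)) ≤ 2 * ρ ^ 2 * c ^ 2 + ρ ^ 2 * d ^ 2 / 2 := by
    have e : 2 * ρ ^ 2 * c ^ 2 + ρ ^ 2 * d ^ 2 / 2 - 2 * (c * (ρ ^ 2 * d)) =
        ρ ^ 2 * (2 * c - d) ^ 2 / 2 := by ring
    have : 0 ≤ ρ ^ 2 * (2 * c - d) ^ 2 / 2 := by positivity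
    linarith
  have h5 : du ^ 2 ≤ 2 * a ^ 2 + 2 * (ρ ^ 2 * d) ^ 2 := by
    nlinarith [sq_nonneg (a - ρ ^ 2 * d)]
  have h6 : 2 * κ * du ^ 2 ≤ 4 * κ * a ^ 2 + 4 * κ * (ρ ^ 2 * d) ^ 2 := by
    nlinarith [mul_le_mul_of_nonneg_left h5 hκ]
  have h7 : 4 * κ * (ρ ^ 2 * d) ^ 2 ≤ ρ ^ 2 * d ^ 2 / 2 := by
    have e : 4 * κ * (ρ ^ 2 * d) ^ 2 = (8 * κ * ρ ^ 2) * (ρ ^ 2 * d ^ 2 / 2) := by ring
    rw [e]
    have : 0 ≤ ρ ^ 2 * d ^ 2 / 2 := by positivity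
    nlinarith
  linarith

/-- outer region -/
lemma Sp_outer (h : BW B u g A P) {f0 N : X → ℝ} (hf0 : IsT f0) (hN : IsT N) {q : Lp ℝ 2 μ}
    (hq : q ∈ B.V) (hq0 : ∀ᵐ x ∂μ, 0 ≤ q x)
    {ρ : ℝ} (hκ : 0 ≤ κ) (hρ : 8 * κ * ρ ^ 2 ≤ 1) (hu : u = tL hf0 - ρ ^ 2 • q)
    (hg : g = tL hN - q) :
    ∀ᵐ x ∂μ, -(2 * |N x| + 4 * κ * ‖B.G f0 x‖ ^ 2 + 2 * ‖B.G N x‖ * ‖B.G f0 x‖ +
      2 * ρ ^ 2 * ‖B.G N x‖ ^ 2) ≤ Sp B u q A N ρ x := by
  have hDu : B.D u = B.D (tL hf0) - ρ ^ 2 • B.D q := by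
    rw [hu, B.D_sub (B.tL_mem hf0) (B.V.smul_mem _ hq), B.D_smul _ hq]
  filter_upwards [B.Ric_lb, Lp.coeFn_sub (B.D (tL hf0)) (ρ ^ 2 • B.D q),
    Lp.coeFn_smul (ρ ^ 2) (B.D q), B.D_tL hf0, h.four_q_sub hN (ρ := ρ) hg, hq0]
    with x a1 a5 a6 a7 a8 a9
  have hDx : B.D u x = B.G f0 x - ρ ^ 2 • B.D q x := by
    rw [hDu, a5, Pi.sub_apply, a6, Pi.smul_apply, a7]
  have hn : ‖B.D u x‖ ≤ ‖B.G f0 x‖ + ρ ^ 2 * ‖B.D q x‖ := by
    rw [hDx]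
    refine (norm_sub_le _ _).trans ?_
    rw [norm_smul, Real.norm_of_nonneg (sq_nonneg ρ)]
  exact outer_arith hκ hρ (sq_nonneg ‖A x‖) a9 (a1 (B.D u x)) (norm_nonneg _) (norm_nonneg _)
    (norm_nonneg _) hn (abs_real_inner_le_norm _ _) a8

/-! ### the integrated Hessian inequality -/


end BW

end Crest.Agent.R247.Hes124
end
end

-- ▼ part R247/Gb4_593

/-!
R247, block (5-GB) (helper593), part 4: `P = |Du|²/2 ∈ V` with `DP = mv A (Du)` (GB3) and the weak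
Bochner identity for all bounded `p ∈ V` (GB4).
-/

set_option autoImplicit false
set_option linter.unusedSectionVars false

open MeasureTheory Filter Topology Set
open scoped RealInnerProductSpace ENNReal NNReal

noncomputable section

namespace Crest.Agent.R247.Gb593

open Crest.Agent.R247.Dir593 Crest.Agent.R247.Dir593.GradS Crest.Agent.R247.Hes124
  Crest.Agent.R247.Hes124.BochS

variable {n : ℕ} {κ : ℝ} {X : Type*} [MetricSpace X] [MeasurableSpace X] [BorelSpace X]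
  {μ : Measure X} [IsFiniteMeasureOnCompacts μ]
variable {B : BochS n κ X μ} {u : Lp ℝ 2 μ} {S0 : ℝ} {w : ℕ → X → ℝ} {A : X → S n}
variable {θ : ℝ → ℝ} {Θ M R : ℝ}

/-! ### `P ∈ V` -/

theorem memLp_P (hR : ∀ᵐ x ∂μ, ‖B.D u x‖ ≤ R) : MemLp (P B u) 2 μ := by
  have h1 : MemLp (fun x => (R / 2) • ‖B.D u x‖) 2 μ := ((Lp.memLp (B.D u)).norm).const_smul (R / 2)
  refine h1.mono (aesm_P B u) ?_
  filter_upwards [hR] with x hx
  have h0 : 0 ≤ R := (norm_nonneg _).trans hx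
  rw [Real.norm_of_nonneg (by unfold P; positivity), Real.norm_of_nonneg (by
    rw [smul_eq_mul]; positivity)]
  unfold P
  rw [smul_eq_mul]
  nlinarith [norm_nonneg (B.D u x)]

theorem memLp_mvA (hA : MemLp A 2 μ) (hR : ∀ᵐ x ∂μ, ‖B.D u x‖ ≤ R) :
    MemLp (fun x => mv (A x) (B.D u x)) 2 μ :=
  memLp_mv hA (Lp.aestronglyMeasurable _) hR

/-- (GB3) -/
theorem P_mem [ProperSpace X] (h : HD B u S0 w A) (hA : MemLp A 2 μ)
    (hR : ∀ᵐ x ∂μ, ‖B.D u x‖ ≤ R) :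
    (memLp_P hR).toLp (P B u) ∈ B.V ∧
      (B.D ((memLp_P hR).toLp (P B u)) : X → F n) =ᵐ[μ] fun x => mv (A x) (B.D u x) := by
  obtain ⟨c, hc⟩ := exists_cut B.toGradS
  set a : ℝ := R ^ 2 / 2 with ha
  have ha0 : 0 ≤ a := by positivity
  have hPa : ∀ᵐ x ∂μ, P B u x ≤ a := by
    filter_upwards [hR] with x hx
    have := pow_le_pow_left₀ (norm_nonneg _) hx 2
    unfold P; rw [ha]; linarith
  have hθ := tr_idt ha0
  set v : Lp ℝ 2 μ := (memLp_P hR).toLp (P B u) with hv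
  have hvc : (v : X → ℝ) =ᵐ[μ] P B u := MemLp.coeFn_toLp _
  set g : Lp (F n) 2 μ := (memLp_mvA hA hR).toLp _ with hg
  have hgc : (g : X → F n) =ᵐ[μ] fun x => mv (A x) (B.D u x) := MemLp.coeFn_toLp _
  set p : ℕ → Lp ℝ 2 μ := fun k => (memLp_p (B := B) (u := u) hθ (hc.T k)).toLp _ with hp
  have hpc : ∀ᵐ x ∂μ, ∀ k, p k x = c k x ^ 2 * idt a (P B u x) :=
    ae_all_iff.2 fun k => MemLp.coeFn_toLp _
  have hm : ∀ k, p k ∈ B.V := fun k => (trunc_mem h hθ (hc.T k)).1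
  have hD : ∀ᵐ x ∂μ, ∀ k, B.D (p k) x = DP B u A (idt a) (c k) x :=
    ae_all_iff.2 fun k => (trunc_mem h hθ (hc.T k)).2
  have hG1 : ∀ᵐ x ∂μ, ∀ k, ‖B.G (c k) x‖ ≤ 1 := ae_all_iff.2 hc.G1
  have t1 : Tendsto p atTop (𝓝 v) := by
    refine tendsto_dom (b := fun x => ‖P B u x‖) (memLp_P hR).norm (fun k => ?_) ?_
    · filter_upwards [hpc, hvc, hPa] with x e1 e2 e3
      rw [e1 k, e2, idt_eq e3]
      have e4 : c k x ^ 2 * P B u x - P B u x = (c k x ^ 2 - 1) * P B u x := by ring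
      rw [e4, norm_mul]
      refine mul_le_of_le_one_left (norm_nonneg _) ?_
      rw [Real.norm_eq_abs, abs_le]
      have e5 := pow_le_one₀ (n := 2) (hc.nn k x) (hc.le1 k x)
      have e6 := sq_nonneg (c k x)
      constructor <;> linarith
    · filter_upwards [hpc, hvc, hPa] with x e1 e2 e3
      simp only [e1, e2, idt_eq e3]
      have := ((hc.tendsto1 x).pow 2).mul_const (P B u x)
      simpa using this
  have t2 : Tendsto (fun k => B.D (p k)) atTop (𝓝 g) := by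
    have hb : MemLp (fun x => ‖mv (A x) (B.D u x)‖ + 2 * ‖P B u x‖) 2 μ :=
      (memLp_mvA hA hR).norm.add ((memLp_P hR).norm.const_mul 2)
    refine tendsto_dom hb (fun k => ?_) ?_
    · filter_upwards [hD, hgc, hPa, hG1] with x e1 e2 e3 e4
      rw [e1 k, e2]
      simp only [DP]
      rw [idt_eq e3, deriv_idt_eq e3, mul_one]
      have e5 : c k x ^ 2 • mv (A x) (B.D u x) + (2 * c k x * P B u x) • B.G (c k) x -
          mv (A x) (B.D u x) = (c k x ^ 2 - 1) • mv (A x) (B.D u x) +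
            (2 * c k x * P B u x) • B.G (c k) x := by module
      rw [e5]
      refine (norm_add_le _ _).trans (add_le_add ?_ ?_)
      · rw [norm_smul]
        refine mul_le_of_le_one_left (norm_nonneg _) ?_
        rw [Real.norm_eq_abs, abs_le]
        have e5 := pow_le_one₀ (n := 2) (hc.nn k x) (hc.le1 k x)
        have e6 := sq_nonneg (c k x)
        constructor <;> linarith
      · rw [norm_smul, norm_mul, norm_mul, Real.norm_of_nonneg (by norm_num : (0:ℝ) ≤ 2),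
          Real.norm_of_nonneg (hc.nn k x)]
        have e6 := e4 k
        have e7 := hc.le1 k x
        have e8 := hc.nn k x
        calc 2 * c k x * ‖P B u x‖ * ‖B.G (c k) x‖ ≤ 2 * 1 * ‖P B u x‖ * 1 := by gcongr
          _ = 2 * ‖P B u x‖ := by ring
    · filter_upwards [hD, hgc, hPa, hc.tendsto0] with x e1 e2 e3 e4
      simp only [e1, e2, DP, idt_eq e3, deriv_idt_eq e3, mul_one]
      have h1 := ((hc.tendsto1 x).pow 2).smul_const (mv (A x) (B.D u x))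
      have h2 := (((hc.tendsto1 x).const_mul 2).mul_const (P B u x)).smul e4
      have h3 := h1.add h2
      simpa using h3
  obtain ⟨h1, h2⟩ := B.D_closed hm t1 t2
  exact ⟨h1, by rw [h2]; exact hgc⟩

/-! ### weak Bochner -/

/-- density of the Bochner measure -/
def bm (B : BochS n κ X μ) (u : Lp ℝ 2 μ) (A : X → S n) (x : X) : ℝ :=
  ‖A x‖ ^ 2 + ⟪mv (B.Ric x) (B.D u x), B.D u x⟫

theorem aesm_bm (h : HD B u S0 w A) : AEStronglyMeasurable (bm B u A) μ :=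
  (h.Am.norm.pow 2).add ((aesm_mv B.Ric_meas (Lp.aestronglyMeasurable _)).inner
    (Lp.aestronglyMeasurable _))

/-- the density is bounded below by `‖A‖² - κ |Du|²` -/
theorem bm_ge (B : BochS n κ X μ) (u : Lp ℝ 2 μ) (A : X → S n) :
    ∀ᵐ x ∂μ, ‖A x‖ ^ 2 - κ * ‖B.D u x‖ ^ 2 ≤ bm B u A x := by
  filter_upwards [B.Ric_lb] with x hx
  have := hx (B.D u x)
  unfold bm
  linarith

theorem tr_one : Tr (fun _ => (1:ℝ)) 1 0 where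
  cd := contDiff_const
  Θ0 := zero_le_one
  M0 := le_rfl
  b := fun _ _ => by simp
  b' := fun _ _ => by simp
  z := fun _ _ => by simp

/-- bounded exhausting integrals give integrability -/
theorem integrable_of_cut {S : GradS X (F n) μ} {c : ℕ → X → ℝ} (hc : Cut S c) {g : X → ℝ}
    (hg : AEStronglyMeasurable g μ) (h0 : ∀ᵐ x ∂μ, 0 ≤ g x)
    (hi : ∀ k, Integrable (fun x => c k x ^ 2 * g x) μ) {C : ℝ}
    (hC : ∀ k, ∫ x, c k x ^ 2 * g x ∂μ ≤ C) : Integrable g μ := by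
  refine ⟨hg, ?_⟩
  rw [HasFiniteIntegral]
  have h5 : ∫⁻ x, ‖g x‖ₑ ∂μ ≤ liminf (fun k => ∫⁻ x, ‖c k x ^ 2 * g x‖ₑ ∂μ) atTop := by
    have e : ∀ x, ‖g x‖ₑ = liminf (fun k => ‖c k x ^ 2 * g x‖ₑ) atTop := fun x => by
      refine (Tendsto.liminf_eq ?_).symm
      refine tendsto_const_nhds.congr' ?_
      filter_upwards [hc.ev1 x] with k hk
      rw [hk]; simp
    simp only [e]
    refine lintegral_liminf_le' fun k => ?_
    exact (hi k).aestronglyMeasurable.enorm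
  refine lt_of_le_of_lt (h5.trans ?_) (ENNReal.ofReal_lt_top (r := C))
  refine liminf_le_of_le ⟨0, Eventually.of_forall fun _ => bot_le⟩ fun b hb => ?_
  obtain ⟨k, hk⟩ := hb.exists
  refine hk.trans ?_
  have h7 : 0 ≤ᵐ[μ] fun x => c k x ^ 2 * g x := by
    filter_upwards [h0] with x hx
    exact mul_nonneg (sq_nonneg _) hx
  have h6 : ∫⁻ x, ‖c k x ^ 2 * g x‖ₑ ∂μ = ENNReal.ofReal (∫ x, c k x ^ 2 * g x ∂μ) := by
    rw [ofReal_integral_eq_lintegral_ofReal (hi k) h7]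
    refine lintegral_congr_ae ?_
    filter_upwards [h7] with x hx
    rw [Real.enorm_eq_ofReal hx]
  rw [h6]
  exact ENNReal.ofReal_le_ofReal (hC k)

/-- the Bochner density is integrable -/
theorem int_bm [ProperSpace X] (h : HD B u S0 w A) (hκ : 0 ≤ κ) {f : Lp ℝ 2 μ} {C : ℝ}
    (hE : Eqn B u f C A) (hA : MemLp A 2 μ) : Integrable (bm B u A) μ := by
  obtain ⟨c, hc⟩ := exists_cut B.toGradS
  have iD := int_Du u B
  have iAD : Integrable (fun x => ‖A x‖ * ‖B.D u x‖) μ := int_norm_mul hA (Lp.memLp (B.D u))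
  have iff : Integrable (fun x => (⟪B.D f x, B.D u x⟫ : ℝ)) μ := L2.integrable_inner (𝕜 := ℝ) _ _
  have iff' : Integrable (fun x => |(⟪B.D f x, B.D u x⟫ : ℝ)|) μ := iff.abs
  set g : X → ℝ := fun x => bm B u A x + κ * ‖B.D u x‖ ^ 2 with hg
  have hgm : AEStronglyMeasurable g μ := (aesm_bm h).add (iD.1.const_mul κ)
  have hg0 : ∀ᵐ x ∂μ, 0 ≤ g x := by
    filter_upwards [bm_ge B u A] with x hx
    have := sq_nonneg ‖A x‖
    simp only [hg]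
    linarith
  have hcm : ∀ k, AEStronglyMeasurable (c k) μ := fun k =>
    (hc.T k).1.continuous.aestronglyMeasurable
  have hcb : ∀ k x, ‖c k x ^ 2‖ ≤ 1 := fun k x => by
    rw [Real.norm_of_nonneg (sq_nonneg _)]
    exact pow_le_one₀ (hc.nn k x) (hc.le1 k x)
  have iX : ∀ k, Integrable (fun x => 2 * c k x * ⟪B.G (c k) x, mv (A x) (B.D u x)⟫) μ ∧
      ∫ x, |2 * c k x * ⟪B.G (c k) x, mv (A x) (B.D u x)⟫| ∂μ ≤
        ∫ x, 2 * (‖A x‖ * ‖B.D u x‖) ∂μ := fun k => by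
    have hb : ∀ᵐ x ∂μ, |2 * c k x * ⟪B.G (c k) x, mv (A x) (B.D u x)⟫| ≤
        2 * (‖A x‖ * ‖B.D u x‖) := by
      filter_upwards [hc.G1 k] with x hx
      rw [abs_mul, abs_mul, abs_of_pos (by norm_num : (0:ℝ) < 2), abs_of_nonneg (hc.nn k x)]
      have g1 : |⟪B.G (c k) x, mv (A x) (B.D u x)⟫| ≤ 1 * (‖A x‖ * ‖B.D u x‖) :=
        (abs_real_inner_le_norm _ _).trans (mul_le_mul hx (norm_mv_le _ _) (norm_nonneg _)
          zero_le_one)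
      have g2 := hc.le1 k x
      have g3 := hc.nn k x
      calc 2 * c k x * |⟪B.G (c k) x, mv (A x) (B.D u x)⟫|
          ≤ 2 * 1 * (1 * (‖A x‖ * ‖B.D u x‖)) := by gcongr
        _ = 2 * (‖A x‖ * ‖B.D u x‖) := by ring
    have hi : Integrable (fun x => 2 * c k x * ⟪B.G (c k) x, mv (A x) (B.D u x)⟫) μ :=
      (iAD.const_mul 2).mono' (((hcm k).const_mul 2).mul
        ((B.meas (hc.T k).1).inner (aesm_mv h.Am (Lp.aestronglyMeasurable _)))) hb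
    exact ⟨hi, integral_mono_ae hi.abs (iAD.const_mul 2) hb⟩
  -- `E2` with `θ = 1`
  have hE2 : ∀ k, Integrable (fun x => c k x ^ 2 * (bm B u A x + ⟪B.D f x, B.D u x⟫) +
      2 * c k x * ⟪B.G (c k) x, mv (A x) (B.D u x)⟫) μ ∧
      ∫ x, (c k x ^ 2 * (bm B u A x + ⟪B.D f x, B.D u x⟫) +
      2 * c k x * ⟪B.G (c k) x, mv (A x) (B.D u x)⟫) ∂μ = 0 := fun k => by
    obtain ⟨i1, e1⟩ := E2 h hE tr_one (hc.T k)
    have e : ∀ x, c k x ^ 2 * 1 * (‖A x‖ ^ 2 +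
        ⟪mv (B.Ric x) (B.D u x), B.D u x⟫ + ⟪B.D f x, B.D u x⟫) +
        ⟪DP B u A (fun _ => (1:ℝ)) (c k) x, mv (A x) (B.D u x)⟫ =
        c k x ^ 2 * (bm B u A x + ⟪B.D f x, B.D u x⟫) +
      2 * c k x * ⟪B.G (c k) x, mv (A x) (B.D u x)⟫ := fun x => by
      simp only [DP, bm]
      rw [deriv_const, mul_zero, zero_smul, zero_add, mul_one, real_inner_smul_left, mul_one]
    refine ⟨i1.congr (Eventually.of_forall e), ?_⟩
    rw [← e1]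
    exact integral_congr_ae (Eventually.of_forall fun x => (e x).symm)
  have i2 : ∀ k, Integrable (fun x => c k x ^ 2 * (⟪B.D f x, B.D u x⟫ : ℝ)) μ := fun k =>
    iff.bdd_mul ((hcm k).pow 2) (c := 1) (Eventually.of_forall (hcb k))
  have i3 : ∀ k, Integrable (fun x => c k x ^ 2 * (κ * ‖B.D u x‖ ^ 2)) μ := fun k =>
    (iD.const_mul κ).bdd_mul ((hcm k).pow 2) (c := 1) (Eventually.of_forall (hcb k))
  have e4 : ∀ k x, c k x ^ 2 * g x = (c k x ^ 2 * (bm B u A x + ⟪B.D f x, B.D u x⟫) +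
      2 * c k x * ⟪B.G (c k) x, mv (A x) (B.D u x)⟫) + (c k x ^ 2 * (κ * ‖B.D u x‖ ^ 2) -
        c k x ^ 2 * (⟪B.D f x, B.D u x⟫ : ℝ) - 2 * c k x * ⟪B.G (c k) x, mv (A x) (B.D u x)⟫) :=
    fun k x => by simp only [hg]; ring
  have i5 : ∀ k, Integrable (fun x => c k x ^ 2 * (κ * ‖B.D u x‖ ^ 2) -
        c k x ^ 2 * (⟪B.D f x, B.D u x⟫ : ℝ) -
          2 * c k x * ⟪B.G (c k) x, mv (A x) (B.D u x)⟫) μ := fun k =>
    ((i3 k).sub (i2 k)).sub (iX k).1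
  have i4 : ∀ k, Integrable (fun x => c k x ^ 2 * g x) μ := fun k =>
    ((hE2 k).1.add (i5 k)).congr (Eventually.of_forall fun x => (e4 k x).symm)
  have hgi : Integrable g μ := by
    refine integrable_of_cut hc hgm hg0 i4 (C := κ * ∫ x, ‖B.D u x‖ ^ 2 ∂μ +
      ∫ x, |(⟪B.D f x, B.D u x⟫ : ℝ)| ∂μ + ∫ x, 2 * (‖A x‖ * ‖B.D u x‖) ∂μ) fun k => ?_
    have e6 : ∫ x, c k x ^ 2 * g x ∂μ = ∫ x, (c k x ^ 2 * (κ * ‖B.D u x‖ ^ 2) -
        c k x ^ 2 * (⟪B.D f x, B.D u x⟫ : ℝ) -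
          2 * c k x * ⟪B.G (c k) x, mv (A x) (B.D u x)⟫) ∂μ := by
      rw [integral_congr_ae (Eventually.of_forall (e4 k)), integral_add (hE2 k).1 (i5 k),
        (hE2 k).2, zero_add]
    rw [e6]
    have e7 : ∫ x, (c k x ^ 2 * (κ * ‖B.D u x‖ ^ 2) -
        c k x ^ 2 * (⟪B.D f x, B.D u x⟫ : ℝ) -
          2 * c k x * ⟪B.G (c k) x, mv (A x) (B.D u x)⟫) ∂μ ≤
        ∫ x, (κ * ‖B.D u x‖ ^ 2 + |(⟪B.D f x, B.D u x⟫ : ℝ)| +
          |2 * c k x * ⟪B.G (c k) x, mv (A x) (B.D u x)⟫|) ∂μ := by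
      refine integral_mono (i5 k) (((iD.const_mul κ).add iff').add (iX k).1.abs) fun x => ?_
      have f1 : c k x ^ 2 ≤ 1 := pow_le_one₀ (hc.nn k x) (hc.le1 k x)
      have f2 : c k x ^ 2 * (κ * ‖B.D u x‖ ^ 2) ≤ κ * ‖B.D u x‖ ^ 2 :=
        mul_le_of_le_one_left (by positivity) f1
      have f3 : -(c k x ^ 2 * (⟪B.D f x, B.D u x⟫ : ℝ)) ≤ |(⟪B.D f x, B.D u x⟫ : ℝ)| := by
        refine (neg_le_abs _).trans ?_
        rw [abs_mul, abs_of_nonneg (sq_nonneg _)]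
        exact mul_le_of_le_one_left (abs_nonneg _) f1
      have f4 := neg_le_abs (2 * c k x * (⟪B.G (c k) x, mv (A x) (B.D u x)⟫ : ℝ))
      show c k x ^ 2 * (κ * ‖B.D u x‖ ^ 2) - c k x ^ 2 * (⟪B.D f x, B.D u x⟫ : ℝ) -
          2 * c k x * ⟪B.G (c k) x, mv (A x) (B.D u x)⟫ ≤ κ * ‖B.D u x‖ ^ 2 +
          |(⟪B.D f x, B.D u x⟫ : ℝ)| + |2 * c k x * ⟪B.G (c k) x, mv (A x) (B.D u x)⟫|
      linarith
    refine e7.trans ?_
    have e8 : ∫ x, (κ * ‖B.D u x‖ ^ 2 + |(⟪B.D f x, B.D u x⟫ : ℝ)| +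
          |2 * c k x * ⟪B.G (c k) x, mv (A x) (B.D u x)⟫|) ∂μ =
        κ * ∫ x, ‖B.D u x‖ ^ 2 ∂μ + ∫ x, |(⟪B.D f x, B.D u x⟫ : ℝ)| ∂μ +
          ∫ x, |2 * c k x * ⟪B.G (c k) x, mv (A x) (B.D u x)⟫| ∂μ := by
      have j1 : Integrable (fun x => κ * ‖B.D u x‖ ^ 2) μ := iD.const_mul κ
      have j2 : Integrable (fun x => κ * ‖B.D u x‖ ^ 2 + |(⟪B.D f x, B.D u x⟫ : ℝ)|) μ :=
        j1.add iff'
      rw [integral_add j2 (iX k).1.abs, integral_add j1 iff', integral_const_mul]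
    rw [e8]
    have := (iX k).2
    linarith
  refine (hgi.sub (iD.const_mul κ)).congr (Eventually.of_forall fun x => ?_)
  simp only [hg, Pi.sub_apply]
  ring

/-- weak Bochner, test functions -/
theorem boch_test (h : HD B u S0 w A) {f : Lp ℝ 2 μ} {C : ℝ} (hE : Eqn B u f C A) {p : X → ℝ}
    (hp : IsT p) :
    ∫ x, p x * bm B u A x ∂μ + ∫ x, ⟪B.G p x, mv (A x) (B.D u x)⟫ ∂μ =
      - ∫ x, p x * ⟪B.D f x, B.D u x⟫ ∂μ := by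
  obtain ⟨i1, i2, i3, e1⟩ := h.boch hp
  obtain ⟨c, hc0, hc1, hc2, hc3⟩ := cut_const B hp
  have hpb : ∀ᵐ x ∂μ, |(tL hp : Lp ℝ 2 μ) x| ≤ max C c := by
    filter_upwards [coe_tL (μ := μ) hp] with x hx
    rw [hx]
    exact (hc1 x).trans (le_max_right _ _)
  obtain ⟨i4, e4⟩ := weak_fp hE.fV (le_max_of_le_left hE.C0 : 0 ≤ max C c)
    (hE.fb.mono fun x hx => hx.trans (le_max_left _ _)) hE.wk (B.tL_mem hp) hpb
  have iff : Integrable (fun x => (⟪B.D f x, B.D u x⟫ : ℝ)) μ := L2.integrable_inner (𝕜 := ℝ) _ _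
  have i5 : Integrable (fun x => p x * (⟪B.D f x, B.D u x⟫ : ℝ)) μ :=
    iff.bdd_mul hp.1.continuous.aestronglyMeasurable (c := c) (Eventually.of_forall hc1)
  have e5 : ∫ x, tr (A x) * (p x * tr (A x) + ⟪B.G p x, B.D u x⟫) ∂μ =
      - ∫ x, p x * ⟪B.D f x, B.D u x⟫ ∂μ := by
    rw [eq_neg_iff_add_eq_zero, ← integral_add i3 i5, ← e4]
    refine integral_congr_ae ?_
    filter_upwards [hE.tr, coe_tL (μ := μ) hp, B.D_tL hp] with x a1 a2 a3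
    rw [a1, a2, a3]
  rw [e5] at e1
  unfold bm
  rw [e1]
  ring

/-- (GB4) **weak Bochner for bounded `p ∈ V`**. -/
theorem boch_V (h : HD B u S0 w A) {f : Lp ℝ 2 μ} {C : ℝ} (hE : Eqn B u f C A)
    (hA : MemLp A 2 μ) (hb : Integrable (bm B u A) μ) (hR : ∀ᵐ x ∂μ, ‖B.D u x‖ ≤ R)
    {p : Lp ℝ 2 μ} (hp : p ∈ B.V) {C1 : ℝ} (hpb : ∀ᵐ x ∂μ, |p x| ≤ C1) :
    Integrable (fun x => p x * bm B u A x) μ ∧
    Integrable (fun x => ⟪B.D p x, mv (A x) (B.D u x)⟫) μ ∧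
    Integrable (fun x => p x * ⟪B.D f x, B.D u x⟫) μ ∧
    ∫ x, p x * bm B u A x ∂μ + ∫ x, ⟪B.D p x, mv (A x) (B.D u x)⟫ ∂μ =
      - ∫ x, p x * ⟪B.D f x, B.D u x⟫ ∂μ := by
  have hC1 : ∀ᵐ x ∂μ, |p x| ≤ |C1| := hpb.mono fun x hx => hx.trans (le_abs_self _)
  obtain ⟨q, hq, q1, q2, q3, q4⟩ := B.exists_seq_Icc hp (a := -|C1|) (b := |C1|)
    (by simp) (abs_nonneg _) (hC1.mono fun x hx => (abs_le.1 hx).1)
    (hC1.mono fun x hx => (abs_le.1 hx).2)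
  have hqb : ∀ k x, |q k x| ≤ |C1| := fun k x => abs_le.2 (q1 k x)
  have iff : Integrable (fun x => (⟪B.D f x, B.D u x⟫ : ℝ)) μ := L2.integrable_inner (𝕜 := ℝ) _ _
  set g : Lp (F n) 2 μ := (memLp_mvA hA hR).toLp _ with hg
  have hgc : (g : X → F n) =ᵐ[μ] fun x => mv (A x) (B.D u x) := MemLp.coeFn_toLp _
  have hpm : AEStronglyMeasurable (p : X → ℝ) μ := Lp.aestronglyMeasurable p
  have I1 : Integrable (fun x => p x * bm B u A x) μ :=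
    hb.bdd_mul hpm (c := |C1|) hC1
  have I2 : Integrable (fun x => (⟪B.D p x, mv (A x) (B.D u x)⟫ : ℝ)) μ := by
    have := L2.integrable_inner (𝕜 := ℝ) (B.D p) g
    refine this.congr ?_
    filter_upwards [hgc] with x hx
    rw [hx]
  have I3 : Integrable (fun x => p x * (⟪B.D f x, B.D u x⟫ : ℝ)) μ :=
    iff.bdd_mul hpm (c := |C1|) hC1
  refine ⟨I1, I2, I3, ?_⟩
  have l1 : Tendsto (fun k => ∫ x, q k x * bm B u A x ∂μ) atTop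
      (𝓝 (∫ x, p x * bm B u A x ∂μ)) := by
    refine tendsto_integral_of_dominated_convergence (fun x => |C1| * ‖bm B u A x‖)
      (fun k => ((hq k).1.continuous.aestronglyMeasurable).mul hb.1) (hb.norm.const_mul _)
      (fun k => Eventually.of_forall fun x => ?_) ?_
    · rw [norm_mul]
      exact mul_le_mul_of_nonneg_right (hqb k x) (norm_nonneg _)
    · filter_upwards [q4] with x hx
      exact hx.mul_const _
  have l3 : Tendsto (fun k => ∫ x, q k x * ⟪B.D f x, B.D u x⟫ ∂μ) atTop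
      (𝓝 (∫ x, p x * ⟪B.D f x, B.D u x⟫ ∂μ)) := by
    refine tendsto_integral_of_dominated_convergence (fun x => |C1| * ‖(⟪B.D f x, B.D u x⟫ : ℝ)‖)
      (fun k => ((hq k).1.continuous.aestronglyMeasurable).mul iff.1) (iff.norm.const_mul _)
      (fun k => Eventually.of_forall fun x => ?_) ?_
    · rw [norm_mul]
      exact mul_le_mul_of_nonneg_right (hqb k x) (norm_nonneg _)
    · filter_upwards [q4] with x hx
      exact hx.mul_const _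
  have l2 : Tendsto (fun k => ∫ x, ⟪B.G (q k) x, mv (A x) (B.D u x)⟫ ∂μ) atTop
      (𝓝 (∫ x, ⟪B.D p x, mv (A x) (B.D u x)⟫ ∂μ)) := by
    have e1 : ∀ k, (⟪B.D (tL (hq k)), g⟫ : ℝ) = ∫ x, ⟪B.G (q k) x, mv (A x) (B.D u x)⟫ ∂μ :=
      fun k => by
        rw [L2.inner_def]
        refine integral_congr_ae ?_
        filter_upwards [hgc, B.D_tL (hq k)] with x a1 a2
        rw [a1, a2]
    have e2 : (⟪B.D p, g⟫ : ℝ) = ∫ x, ⟪B.D p x, mv (A x) (B.D u x)⟫ ∂μ := by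
      rw [L2.inner_def]
      refine integral_congr_ae ?_
      filter_upwards [hgc] with x a1
      rw [a1]
    rw [← e2]
    have l : Tendsto (fun k => (⟪B.D (tL (hq k)), g⟫ : ℝ)) atTop (𝓝 ⟪B.D p, g⟫) :=
      q3.inner tendsto_const_nhds
    exact l.congr e1
  refine tendsto_nhds_unique (l1.add l2) ?_
  refine l3.neg.congr fun k => ?_
  exact (boch_test h hE (hq k)).symm

/-- everything known about `u` with weak Laplacian `f` -/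
structure Reg (B : BochS n κ X μ) (u f : Lp ℝ 2 μ) (R : ℝ) (A : X → S n) : Prop where
  uV : u ∈ B.V
  fV : f ∈ B.V
  wk : ∀ p : Lp ℝ 2 μ, p ∈ B.V → ∫ x, ⟪B.D u x, B.D p x⟫ ∂μ = - ∫ x, f x * p x ∂μ
  A2 : MemLp A 2 μ
  tr : ∀ᵐ x ∂μ, tr (A x) = f x
  R0 : 0 ≤ R
  Du : ∀ᵐ x ∂μ, ‖B.D u x‖ ≤ R
  P2 : MemLp (P B u) 2 μ
  PV : P2.toLp (P B u) ∈ B.V
  DPV : (B.D (P2.toLp (P B u)) : X → F n) =ᵐ[μ] fun x => mv (A x) (B.D u x)
  bi : Integrable (bm B u A) μ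
  boch : ∀ (p : Lp ℝ 2 μ) (C1 : ℝ), p ∈ B.V → (∀ᵐ x ∂μ, |p x| ≤ C1) →
    Integrable (fun x => p x * bm B u A x) μ ∧
    Integrable (fun x => ⟪B.D p x, mv (A x) (B.D u x)⟫) μ ∧
    Integrable (fun x => p x * ⟪B.D f x, B.D u x⟫) μ ∧
    ∫ x, p x * bm B u A x ∂μ + ∫ x, ⟪B.D p x, mv (A x) (B.D u x)⟫ ∂μ =
      - ∫ x, p x * ⟪B.D f x, B.D u x⟫ ∂μ


end Crest.Agent.R247.Gb593
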