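import Mathlib
import Crest.Agent.R247.Dir6_593
import Crest.Agent.R247.Smv0_126

-- ▼ part R247/Obj0_554
section

/-!
R247, block P6a (helper554), scalar part: the macroscopic cut-off in the variable
`s = f_x = d_x² / 2`: `eta = 1` for `s ≤ S0 = 32²/2`, `eta = 0` for `s ≥ S1 = 64²/2`,
`Phi s = ∫_0^s eta`, and `Nfun n κ s = (n + 2κs) eta s + 2 s eta' s`.
-/

set_option autoImplicit false

open MeasureTheory Filter Topology Set
open scoped ContDiff

noncomputable section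

namespace Crest.Agent.R247.Obj554

/-- inner cut-off value `32² / 2` -/
def S0 : ℝ := 512
/-- outer cut-off value `64² / 2` -/
def S1 : ℝ := 2048

/-- the cut-off function -/
def eta (s : ℝ) : ℝ := Real.smoothTransition ((S1 - s) / (S1 - S0))

lemma eta_one {s : ℝ} (h : s ≤ S0) : eta s = 1 := by
  unfold eta
  apply Real.smoothTransition.one_of_one_le
  rw [le_div_iff₀ (by norm_num [S0, S1])]
  linarith

lemma eta_zero {s : ℝ} (h : S1 ≤ s) : eta s = 0 := by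
  unfold eta
  apply Real.smoothTransition.zero_of_nonpos
  exact div_nonpos_of_nonpos_of_nonneg (by linarith) (by norm_num [S0, S1])

lemma eta_nonneg (s : ℝ) : 0 ≤ eta s := Real.smoothTransition.nonneg _

lemma eta_le_one (s : ℝ) : eta s ≤ 1 := Real.smoothTransition.le_one _

lemma contDiff_eta {m : ℕ∞} : ContDiff ℝ m eta := by
  unfold eta
  refine Real.smoothTransition.contDiff.comp ?_
  fun_prop

lemma continuous_eta : Continuous eta := (contDiff_eta (m := 0)).continuous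

lemma hasDerivAt_eta (s : ℝ) : HasDerivAt eta (deriv eta s) s :=
  ((contDiff_eta (m := 1)).differentiable (by norm_num) s).hasDerivAt

lemma contDiff_deriv_eta {m : ℕ} : ContDiff ℝ m (deriv eta) := by
  have h0 : ContDiff ℝ ((m : WithTop ℕ∞) + 1) eta := by
    exact_mod_cast contDiff_eta (m := ((m + 1 : ℕ) : ℕ∞))
  exact (contDiff_succ_iff_deriv.1 h0).2.2

lemma continuous_deriv_eta : Continuous (deriv eta) := (contDiff_deriv_eta (m := 0)).continuous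

lemma deriv_eta_zero_left {s : ℝ} (h : s < S0) : deriv eta s = 0 := by
  have h1 : eta =ᶠ[𝓝 s] fun _ => (1 : ℝ) := by
    filter_upwards [Iio_mem_nhds h] with t ht
    exact eta_one (le_of_lt ht)
  rw [h1.deriv_eq]
  simp

lemma deriv_eta_zero_right {s : ℝ} (h : S1 < s) : deriv eta s = 0 := by
  have h1 : eta =ᶠ[𝓝 s] fun _ => (0 : ℝ) := by
    filter_upwards [Ioi_mem_nhds h] with t ht
    exact eta_zero (le_of_lt ht)
  rw [h1.deriv_eq]
  simp

lemma deriv_eta_zero_left' {s : ℝ} (h : s ≤ S0) : deriv eta s = 0 := by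
  have h1 : IsClosed {t | deriv eta t = 0} := isClosed_eq continuous_deriv_eta continuous_const
  have h2 : Iio S0 ⊆ {t | deriv eta t = 0} := fun t ht => deriv_eta_zero_left ht
  have h3 := h1.closure_subset_iff.2 h2
  rw [closure_Iio] at h3
  exact h3 h

lemma deriv_eta_zero_right' {s : ℝ} (h : S1 ≤ s) : deriv eta s = 0 := by
  have h1 : IsClosed {t | deriv eta t = 0} := isClosed_eq continuous_deriv_eta continuous_const
  have h2 : Ioi S1 ⊆ {t | deriv eta t = 0} := fun t ht => deriv_eta_zero_right ht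
  have h3 := h1.closure_subset_iff.2 h2
  rw [closure_Ioi] at h3
  exact h3 h

lemma exists_Ceta : ∃ C : ℝ, 0 ≤ C ∧ ∀ s, |deriv eta s| ≤ C := by
  obtain ⟨C, hC⟩ := (isCompact_Icc (a := S0) (b := S1)).exists_bound_of_continuousOn
    continuous_deriv_eta.continuousOn
  refine ⟨max C 0, le_max_right _ _, fun s => ?_⟩
  by_cases h1 : s < S0
  · rw [deriv_eta_zero_left h1, abs_zero]; exact le_max_right _ _
  · by_cases h2 : S1 < s
    · rw [deriv_eta_zero_right h2, abs_zero]; exact le_max_right _ _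
    · exact (hC s ⟨not_lt.1 h1, not_lt.1 h2⟩).trans (le_max_left _ _)

/-- a bound for `eta'` -/
def Ceta : ℝ := exists_Ceta.choose

lemma Ceta_nonneg : 0 ≤ Ceta := exists_Ceta.choose_spec.1

lemma abs_deriv_eta_le (s : ℝ) : |deriv eta s| ≤ Ceta := exists_Ceta.choose_spec.2 s

/-- the antiderivative of `eta` -/
def Phi (s : ℝ) : ℝ := ∫ t in (0 : ℝ)..s, eta t

lemma hasDerivAt_Phi (s : ℝ) : HasDerivAt Phi (eta s) s :=
  intervalIntegral.integral_hasDerivAt_right (continuous_eta.intervalIntegrable _ _)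
    (continuous_eta.stronglyMeasurableAtFilter _ _) continuous_eta.continuousAt

lemma deriv_Phi : deriv Phi = eta := funext fun s => (hasDerivAt_Phi s).deriv

lemma contDiff_Phi {m : ℕ} : ContDiff ℝ (m + 1 : ℕ) Phi := by
  have h : ContDiff ℝ ((m : WithTop ℕ∞) + 1) Phi := by
    rw [contDiff_succ_iff_deriv]
    refine ⟨fun s => (hasDerivAt_Phi s).differentiableAt, by simp, ?_⟩
    rw [deriv_Phi]
    exact_mod_cast contDiff_eta (m := (m : ℕ∞))
  exact_mod_cast h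

lemma continuous_Phi : Continuous Phi := (contDiff_Phi (m := 0)).continuous

lemma monotone_Phi : Monotone Phi :=
  monotone_of_deriv_nonneg (fun s => (hasDerivAt_Phi s).differentiableAt)
    fun s => by rw [deriv_Phi]; exact eta_nonneg s

lemma Phi_zero : Phi 0 = 0 := by simp [Phi]

lemma Phi_eq {s : ℝ} (h : s ≤ S0) : Phi s = s := by
  unfold Phi
  have h1 : ∀ t ∈ uIcc 0 s, eta t = 1 := by
    intro t ht
    apply eta_one
    have h2 : t ≤ max 0 s := ht.2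
    exact h2.trans (max_le (by norm_num [S0]) h)
  rw [intervalIntegral.integral_congr h1]
  simp

lemma Phi_const {s : ℝ} (h : S1 ≤ s) : Phi s = Phi S1 := by
  have h1 : Phi s - Phi S1 = ∫ t in S1..s, eta t := by
    unfold Phi
    rw [intervalIntegral.integral_interval_sub_left (continuous_eta.intervalIntegrable _ _)
      (continuous_eta.intervalIntegrable _ _)]
  have h2 : ∫ t in S1..s, eta t = 0 := by
    rw [intervalIntegral.integral_congr (g := fun _ => (0 : ℝ))]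
    · simp
    · intro t ht
      rw [uIcc_of_le h] at ht
      exact eta_zero ht.1
  linarith

lemma Phi_le {s : ℝ} (h : 0 ≤ s) : Phi s ≤ s := by
  have h1 : MonotoneOn (fun s => s - Phi s) univ := by
    refine (monotone_of_deriv_nonneg (f := fun s => s - Phi s) ?_ ?_).monotoneOn _
    · exact fun s => differentiableAt_id.sub (hasDerivAt_Phi s).differentiableAt
    · intro s
      have h2 : HasDerivAt (fun s => s - Phi s) (1 - eta s) s := (hasDerivAt_id s).sub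
        (hasDerivAt_Phi s)
      rw [h2.deriv]
      linarith [eta_le_one s]
  have h2 := h1 (mem_univ 0) (mem_univ s) h
  simp only [Phi_zero] at h2
  linarith

lemma Phi_nonneg {s : ℝ} (h : 0 ≤ s) : 0 ≤ Phi s := by
  have := monotone_Phi h
  rwa [Phi_zero] at this

/-- the value at infinity -/
def cinf : ℝ := Phi S1

lemma Phi_le_cinf (s : ℝ) : Phi s ≤ cinf := by
  unfold cinf
  by_cases h : s ≤ S1
  · exact monotone_Phi h
  · rw [Phi_const (not_le.1 h).le]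

lemma S0_le_cinf : S0 ≤ cinf := by
  have h := Phi_le_cinf S0
  rwa [Phi_eq le_rfl] at h

lemma cinf_pos : 0 < cinf := lt_of_lt_of_le (by norm_num [S0]) S0_le_cinf

lemma cinf_le : cinf ≤ S1 := Phi_le (by norm_num [S1])

/-- `S0 ≤ Phi s` for `s ≥ S0` -/
lemma S0_le_Phi {s : ℝ} (h : S0 ≤ s) : S0 ≤ Phi s := by
  have := monotone_Phi h
  rwa [Phi_eq le_rfl] at this

/-- the comparison Laplacian of `Phi(f_x)` as a function of `s = f_x` -/
def Nfun (n : ℕ) (κ s : ℝ) : ℝ := (n + 2 * κ * s) * eta s + 2 * s * deriv eta s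

lemma contDiff_Nfun (n : ℕ) (κ : ℝ) {m : ℕ} : ContDiff ℝ m (Nfun n κ) := by
  unfold Nfun
  have h1 : ContDiff ℝ (m : WithTop ℕ∞) eta := by exact_mod_cast contDiff_eta (m := (m : ℕ∞))
  have h2 : ContDiff ℝ (m : WithTop ℕ∞) (deriv eta) := contDiff_deriv_eta
  fun_prop

lemma Nfun_eq (n : ℕ) (κ : ℝ) {s : ℝ} (h : s ≤ S0) : Nfun n κ s = n + 2 * κ * s := by
  unfold Nfun
  rw [eta_one h, deriv_eta_zero_left' h]; ring

lemma Nfun_zero (n : ℕ) (κ : ℝ) {s : ℝ} (h : S1 ≤ s) : Nfun n κ s = 0 := by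
  unfold Nfun
  rw [eta_zero h, deriv_eta_zero_right' h]; ring

/-- bound of `|N|` -/
def CN (n : ℕ) (κ : ℝ) : ℝ := n + 2 * κ * S1 + 2 * S1 * Ceta

lemma CN_nonneg (n : ℕ) {κ : ℝ} (hκ : 0 ≤ κ) : 0 ≤ CN n κ := by
  unfold CN
  have h1 := Ceta_nonneg
  have h2 : (0 : ℝ) ≤ n := Nat.cast_nonneg n
  have h3 : (0 : ℝ) ≤ S1 := by norm_num [S1]
  positivity

lemma CN_mono (n : ℕ) {κ κ' : ℝ} (h : κ ≤ κ') : CN n κ ≤ CN n κ' := by
  unfold CN
  have h3 : (0 : ℝ) ≤ S1 := by norm_num [S1]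
  nlinarith

lemma abs_Nfun_le (n : ℕ) {κ : ℝ} (hκ : 0 ≤ κ) {s : ℝ} (hs : 0 ≤ s) : |Nfun n κ s| ≤ CN n κ := by
  by_cases h : S1 ≤ s
  · rw [Nfun_zero n κ h, abs_zero]; exact CN_nonneg n hκ
  · push Not at h
    unfold Nfun CN
    have h1 := Ceta_nonneg
    have h2 : (0 : ℝ) ≤ n := Nat.cast_nonneg n
    have h3 : (0 : ℝ) ≤ S1 := by norm_num [S1]
    refine (abs_add_le _ _).trans (add_le_add ?_ ?_)
    · rw [abs_mul, abs_of_nonneg (eta_nonneg s), abs_of_nonneg (by positivity)]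
      calc (n + 2 * κ * s) * eta s ≤ (n + 2 * κ * s) * 1 :=
            mul_le_mul_of_nonneg_left (eta_le_one s) (by positivity)
        _ ≤ n + 2 * κ * S1 := by nlinarith
    · rw [abs_mul, abs_of_nonneg (by positivity : (0:ℝ) ≤ 2 * s)]
      exact mul_le_mul (by linarith) (abs_deriv_eta_le s) (abs_nonneg _) (by positivity)

end Crest.Agent.R247.Obj554
end
end

-- ▼ part R247/Obj1_554

/-!
R247, block P6a (helper554): the objects `f0 = h - c_∞`, `N`, the functional `l = N - Δ h`,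
`q = R l`, `u = f0 - ρ² q = R (f0 - ρ² N)` over helper593's `GradS` and helper126's `WLap`.
-/

set_option autoImplicit false
set_option linter.unusedSectionVars false

open MeasureTheory Filter Topology Set
open scoped RealInnerProductSpace ENNReal NNReal

noncomputable section

namespace Crest.Agent.R247.Obj554

open Crest.Agent.R242 Crest.Agent.R247.Dir593 Crest.Agent.R247.Dir593.GradS
open Crest.Agent.R247.Smv126

section Defs

variable {X : Type*} [MetricSpace X]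

/-- `f0 x = h - c_∞`, `h = Phi (d_x²/2)` (`= d_x²/2` for `d_x ≤ 32`) -/
def f0 (x z : X) : ℝ := Phi (hf x z) - cinf

/-- `h x = Phi (d_x²/2)` -/
def hh (x z : X) : ℝ := Phi (hf x z)

/-- the comparison Laplacian `N` of `h` -/
def Nf (n : ℕ) (κ : ℝ) (x z : X) : ℝ := Nfun n κ (hf x z)

/-- the cut-off `eta (d_x²/2)` -/
def et (x z : X) : ℝ := eta (hf x z)

lemma hf_nonneg (x z : X) : 0 ≤ hf x z := by unfold hf; positivity

lemma hf_le_S0 {x z : X} (h : dist x z ≤ 32) : hf x z ≤ S0 := by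
  unfold hf S0
  nlinarith [dist_nonneg (x := x) (y := z)]

lemma S1_le_hf {x z : X} (h : 64 ≤ dist x z) : S1 ≤ hf x z := by
  unfold hf S1
  nlinarith [dist_nonneg (x := x) (y := z)]

lemma hh_eq {x z : X} (h : dist x z ≤ 32) : hh x z = dist x z ^ 2 / 2 :=
  Phi_eq (hf_le_S0 h)

lemma f0_eq {x z : X} (h : dist x z ≤ 32) : f0 x z = dist x z ^ 2 / 2 - cinf := by
  unfold f0
  rw [Phi_eq (hf_le_S0 h)]; rfl

lemma hh_eq_f0 (x z : X) : hh x z = f0 x z + cinf := by unfold hh f0; ring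

lemma Nf_eq (n : ℕ) (κ : ℝ) {x z : X} (h : dist x z ≤ 32) : Nf n κ x z = n + κ * dist x z ^ 2 := by
  unfold Nf
  rw [Nfun_eq n κ (hf_le_S0 h)]
  unfold hf
  ring

lemma f0_nonpos (x z : X) : f0 x z ≤ 0 := by
  unfold f0
  linarith [Phi_le_cinf (hf x z)]

lemma neg_cinf_le_f0 (x z : X) : -cinf ≤ f0 x z := by
  unfold f0
  linarith [Phi_nonneg (hf_nonneg x z)]

lemma abs_Nf_le (n : ℕ) {κ : ℝ} (hκ : 0 ≤ κ) (x z : X) : |Nf n κ x z| ≤ CN n κ :=
  abs_Nfun_le n hκ (hf_nonneg x z)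

lemma hh_nonneg (x z : X) : 0 ≤ hh x z := Phi_nonneg (hf_nonneg x z)

lemma hh_le (x z : X) : hh x z ≤ dist x z ^ 2 / 2 := Phi_le (hf_nonneg x z)

variable [ProperSpace X] [MeasurableSpace X]

lemma isT_radial' (x : X) {χ : ℝ → ℝ} (hχ : ContDiff ℝ 1 χ) (h0 : ∀ s, S1 ≤ s → χ s = 0) :
    IsT fun z => χ (hf x z) := by
  refine ⟨hχ.locallyLipschitz.comp (locLip_hf x), ?_⟩
  refine HasCompactSupport.intro (isCompact_closedBall x 64) fun z hz => ?_
  rw [Metric.mem_closedBall, not_le, dist_comm] at hz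
  exact h0 _ (S1_le_hf hz.le)

lemma contDiff_f0 : ContDiff ℝ 1 (fun s => Phi s - cinf) :=
  (contDiff_Phi (m := 0)).sub contDiff_const

lemma isT_f0 (x : X) : IsT (f0 x) :=
  isT_radial' x contDiff_f0 fun s hs => by
    show Phi s - cinf = 0
    rw [Phi_const hs]; unfold cinf; ring

lemma isT_Nf (n : ℕ) (κ : ℝ) (x : X) : IsT (Nf n κ x) :=
  isT_radial' x (contDiff_Nfun n κ (m := 1)) fun _ hs => Nfun_zero n κ hs

lemma contDiff_eta1 : ContDiff ℝ 1 eta := contDiff_eta (m := 1)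

lemma isT_et (x : X) : IsT (et x) :=
  isT_radial' x contDiff_eta1 fun _ hs => eta_zero hs

end Defs

variable {X : Type*} [MetricSpace X] [ProperSpace X] [MeasurableSpace X] [BorelSpace X]
  {F : Type*} [NormedAddCommGroup F] [InnerProductSpace ℝ F] {μ : Measure X}
  [IsFiniteMeasureOnCompacts μ] (S : GradS X F μ)

section Grad

lemma G_f0 (x : X) : ∀ᵐ z ∂μ, S.G (f0 x) z = et x z • S.G (hf x) z := by
  filter_upwards [S.comp (locLip_hf x) contDiff_f0] with z hz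
  have e : deriv (fun s => Phi s - cinf) (hf x z) = et x z := by
    rw [deriv_sub_const, deriv_Phi]; rfl
  rw [e] at hz
  exact hz

lemma G_et (x : X) : ∀ᵐ z ∂μ, S.G (et x) z = deriv eta (hf x z) • S.G (hf x) z :=
  S.comp (locLip_hf x) contDiff_eta1

lemma G_Nf (n : ℕ) (κ : ℝ) (x : X) :
    ∀ᵐ z ∂μ, S.G (Nf n κ x) z = deriv (Nfun n κ) (hf x z) • S.G (hf x) z :=
  S.comp (locLip_hf x) (contDiff_Nfun n κ (m := 1))

variable {S}

lemma _root_.Crest.Agent.R247.Smv126.WLap.normSq_G_hf {n : ℕ} {κ : ℝ} (W : WLap S n κ) (x : X) :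
    ∀ᵐ z ∂μ, ‖S.G (hf x) z‖ ^ 2 = dist x z ^ 2 := by
  filter_upwards [G_hf S x, W.unit x] with z e1 e2
  rw [e1, norm_smul, e2, mul_one, Real.norm_of_nonneg dist_nonneg]

end Grad

variable [CompleteSpace F]

/-- the Dirichlet form of the space -/
abbrev QF : CForm (Lp ℝ 2 μ) := S.form S.dense_V

/-- the functional `l = N - Δ h` -/
def lx (n : ℕ) (κ : ℝ) (x : X) : Fnl (QF S) :=
  S.fnl S.dense_V (tL (isT_Nf n κ x)) (S.D (tL (isT_f0 x)))

/-- `q = R_ρ l` -/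
def qL (n : ℕ) (κ : ℝ) (x : X) (ρ : ℝ) : Lp ℝ 2 μ := resD (QF S) (ρ ^ 2) (lx S n κ x)

/-- `u = f0 - ρ² q` -/
def uL (n : ℕ) (κ : ℝ) (x : X) (ρ : ℝ) : Lp ℝ 2 μ := tL (isT_f0 x) - ρ ^ 2 • qL S n κ x ρ

variable {S}

/-- `l` on test functions: the comparison functional at `φ = eta(f_x) p`. -/
theorem lx_tL {n : ℕ} {κ : ℝ} (W : WLap S n κ) (x : X) {p : X → ℝ} (hp : IsT p) :
    (lx S n κ x).f (tL hp) =
      ∫ z, ((n + κ * dist x z ^ 2) * (et x z * p z) +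
        ⟪S.G (hf x) z, S.G (fun y => et x y * p y) z⟫) ∂μ := by
  unfold lx
  rw [fnl_apply]
  have i1 : Integrable (fun z => (tL (isT_Nf n κ x) : Lp ℝ 2 μ) z * (tL hp : Lp ℝ 2 μ) z) μ :=
    (Lp.memLp _).integrable_mul (Lp.memLp _)
  have i2 : Integrable (fun z => (⟪S.D (tL (isT_f0 x)) z, S.D (tL hp) z⟫ : ℝ)) μ :=
    L2.integrable_inner _ _
  rw [← integral_add i1 i2]
  refine integral_congr_ae ?_
  filter_upwards [coe_tL (μ := μ) (isT_Nf n κ x), coe_tL (μ := μ) hp, S.D_tL (isT_f0 x), S.D_tL hp,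
    G_f0 S x, G_et S x, S.mul (isT_et x).1 hp.1, W.normSq_G_hf x] with z a1 a2 a3 a4 a5 a6 a7 a8
  rw [a1, a2, a3, a4, a5, a7, a6, real_inner_smul_left, inner_add_right, real_inner_smul_right,
    real_inner_smul_right, real_inner_smul_right, real_inner_self_eq_norm_sq, a8]
  unfold Nf Nfun et hf
  ring

/-- positivity of `l` -/
theorem lx_nonneg {n : ℕ} {κ : ℝ} (W : WLap S n κ) (x : X) :
    ∀ w ∈ (QF S).dom, 0 ≤ᵐ[μ] (w : X → ℝ) → 0 ≤ (lx S n κ x).f w := by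
  intro w hw hw0
  refine Fnl.nonneg_of_test (l := lx S n κ x) (fun p hp hp0 => ?_) hw hw0
  rw [lx_tL W x hp]
  exact W.lap x ((isT_et x).mul hp.1) fun z => mul_nonneg (eta_nonneg _) (hp0 z)

section Q

variable {n : ℕ} {κ : ℝ} {ρ : ℝ}

theorem qL_mem (hρ : 0 < ρ) (x : X) : qL S n κ x ρ ∈ S.V :=
  resD_mem (Q := QF S) (h := ρ ^ 2) (by positivity) _

theorem uL_mem (hρ : 0 < ρ) (x : X) : uL S n κ x ρ ∈ S.V :=
  S.V.sub_mem (S.tL_mem _) (S.V.smul_mem _ (qL_mem hρ x))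

/-- weak equation of `q` -/
theorem qL_eq (hρ : 0 < ρ) (x : X) {p : Lp ℝ 2 μ} (hp : p ∈ S.V) :
    ρ ^ 2 * ⟪S.D (qL S n κ x ρ), S.D p⟫ + ⟪qL S n κ x ρ, p⟫ =
      ⟪(tL (isT_Nf n κ x) : Lp ℝ 2 μ), p⟫ + ⟪S.D (tL (isT_f0 x)), S.D p⟫ :=
  resD_eq (Q := QF S) (h := ρ ^ 2) (by positivity) (lx S n κ x) hp

theorem qL_nonneg (W : WLap S n κ) (hρ : 0 < ρ) (x : X) : ∀ᵐ z ∂μ, 0 ≤ qL S n κ x ρ z :=
  (S.markov S.dense_V).resD_nonneg (by positivity) (lx_nonneg W x)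

theorem D_uL (hρ : 0 < ρ) (x : X) :
    S.D (uL S n κ x ρ) = S.D (tL (isT_f0 x)) - ρ ^ 2 • S.D (qL S n κ x ρ) := by
  unfold uL
  rw [S.D_sub (S.tL_mem _) (S.V.smul_mem _ (qL_mem hρ x)), S.D_smul _ (qL_mem hρ x)]

/-- **weak equation `Δ u = N - q`** -/
theorem uL_weak (hρ : 0 < ρ) (x : X) {p : Lp ℝ 2 μ} (hp : p ∈ S.V) :
    (⟪S.D (uL S n κ x ρ), S.D p⟫ : ℝ) =
      -⟪(tL (isT_Nf n κ x) : Lp ℝ 2 μ) - qL S n κ x ρ, p⟫ := by
  rw [D_uL hρ x, inner_sub_left, real_inner_smul_left, inner_sub_left]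
  have := qL_eq (S := S) (n := n) (κ := κ) hρ x hp
  linarith

/-- `u = R_ρ (f0 - ρ² N)` -/
theorem uL_eq_res (hρ : 0 < ρ) (x : X) :
    uL S n κ x ρ = (QF S).res (ρ ^ 2)
      ((tL (isT_f0 x) : Lp ℝ 2 μ) - ρ ^ 2 • (tL (isT_Nf n κ x) : Lp ℝ 2 μ)) := by
  have h0 : (0:ℝ) < ρ ^ 2 := by positivity
  rw [← resD_ofInner h0]
  refine eq_resD h0 (uL_mem hρ x) fun p hp => ?_
  show ρ ^ 2 * ⟪S.D (uL S n κ x ρ), S.D p⟫ + ⟪uL S n κ x ρ, p⟫ = ⟪_, p⟫
  rw [uL_weak hρ x hp]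
  unfold uL
  rw [inner_sub_left, inner_sub_left, inner_sub_left, real_inner_smul_left, real_inner_smul_left]
  ring

/-! ### bounds -/

lemma coe_tL_le {p : X → ℝ} (hp : IsT p) {a : ℝ} (h : ∀ z, p z ≤ a) :
    ∀ᵐ z ∂μ, (tL hp : Lp ℝ 2 μ) z ≤ a := by
  filter_upwards [coe_tL (μ := μ) hp] with z hz
  rw [hz]; exact h z

lemma le_coe_tL {p : X → ℝ} (hp : IsT p) {a : ℝ} (h : ∀ z, a ≤ p z) :
    ∀ᵐ z ∂μ, a ≤ (tL hp : Lp ℝ 2 μ) z := by
  filter_upwards [coe_tL (μ := μ) hp] with z hz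
  rw [hz]; exact h z

variable (S) in
/-- two-sided maximum principle -/
lemma res_ge {h : ℝ} (hh : 0 < h) {a : ℝ} (ha : 0 ≤ a) {f : Lp ℝ 2 μ}
    (hf : ∀ᵐ x ∂μ, -a ≤ f x) : ∀ᵐ x ∂μ, -a ≤ (QF S).res h f x := by
  have h1 : ∀ᵐ x ∂μ, (-f : Lp ℝ 2 μ) x ≤ a := by
    filter_upwards [Lp.coeFn_neg f, hf] with x e1 e2
    rw [e1, Pi.neg_apply]
    linarith
  have h2 := (S.markov S.dense_V).res_le hh ha h1
  rw [map_neg] at h2
  filter_upwards [Lp.coeFn_neg ((QF S).res h f), h2] with x e1 e2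
  rw [e1, Pi.neg_apply] at e2
  linarith

/-- `ρ² q = f0 - R f0 + ρ² R N` -/
theorem qL_formula (hρ : 0 < ρ) (x : X) :
    ρ ^ 2 • qL S n κ x ρ = (tL (isT_f0 x) : Lp ℝ 2 μ) - (QF S).res (ρ ^ 2) (tL (isT_f0 x)) +
      ρ ^ 2 • (QF S).res (ρ ^ 2) (tL (isT_Nf n κ x)) := by
  have h1 : ρ ^ 2 • qL S n κ x ρ = (tL (isT_f0 x) : Lp ℝ 2 μ) - uL S n κ x ρ := by
    unfold uL; abel
  rw [h1, uL_eq_res hρ x, map_sub, map_smul]
  abel

/-- **`ρ² q ≤ h + C ρ²`** -/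
theorem qL_le (hκ : 0 ≤ κ) (hρ : 0 < ρ) (x : X) :
    ∀ᵐ z ∂μ, ρ ^ 2 * qL S n κ x ρ z ≤ hh x z + CN n κ * ρ ^ 2 := by
  have h0 : (0:ℝ) < ρ ^ 2 := by positivity
  have h1 := res_ge S h0 cinf_pos.le (le_coe_tL (μ := μ) (isT_f0 x) (neg_cinf_le_f0 x))
  have h2 := (S.markov S.dense_V).res_le h0 (CN_nonneg n hκ)
    (coe_tL_le (μ := μ) (isT_Nf n κ x) fun z => (le_abs_self _).trans (abs_Nf_le n hκ x z))
  have h3 := qL_formula (S := S) (n := n) (κ := κ) hρ x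
  filter_upwards [h1, h2, Lp.coeFn_smul (ρ ^ 2) (qL S n κ x ρ),
    Lp.coeFn_add ((tL (isT_f0 x) : Lp ℝ 2 μ) - (QF S).res (ρ ^ 2) (tL (isT_f0 x)))
      (ρ ^ 2 • (QF S).res (ρ ^ 2) (tL (isT_Nf n κ x))),
    Lp.coeFn_sub (tL (isT_f0 x) : Lp ℝ 2 μ) ((QF S).res (ρ ^ 2) (tL (isT_f0 x))),
    Lp.coeFn_smul (ρ ^ 2) ((QF S).res (ρ ^ 2) (tL (isT_Nf n κ x))),
    coe_tL (μ := μ) (isT_f0 x)] with z a1 a2 a3 a4 a5 a6 a7
  rw [h3, a4, Pi.add_apply, a5, Pi.sub_apply, a6, Pi.smul_apply, Pi.smul_apply, smul_eq_mul,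
    smul_eq_mul, a7] at a3
  rw [← a3, hh_eq_f0]
  nlinarith [mul_le_mul_of_nonneg_left a2 h0.le]

end Q

end Crest.Agent.R247.Obj554
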