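import Crest.Agent.R247.Smv0_126
import Crest.Agent.R247.Dir6_593
import Crest.Agent.R247.Far0_553

-- ▼ part R247/Smv1_126
section

/-!
R247, block (5-M) (helper126): (SM) mean value inequality for nonnegative supersolutions
`v - h Δ v ≥ 0`: radial test functions.
-/

set_option autoImplicit false
set_option linter.unusedSectionVars false

open MeasureTheory Filter Topology Set
open scoped RealInnerProductSpace ENNReal NNReal

noncomputable section

namespace Crest.Agent.R247.Smv126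

open Crest.Agent.R247.Dir593 Crest.Agent.R247.Dir593.GradS

/-! ### auxiliary one-dimensional functions -/

/-- bump -/
def qb (ε τ : ℝ) : ℝ := 48 / ε ^ 3 * max 0 ((τ - ε / 2) * (ε - τ))

theorem continuous_qb (ε : ℝ) : Continuous (qb ε) := by unfold qb; fun_prop

theorem qb_nonneg {ε : ℝ} (hε : 0 < ε) (τ : ℝ) : 0 ≤ qb ε τ := by
  unfold qb
  exact mul_nonneg (by positivity) (le_max_left _ _)

theorem qb_zero_left {ε : ℝ} (hε : 0 < ε) {τ : ℝ} (h : τ ≤ ε / 2) : qb ε τ = 0 := by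
  unfold qb
  rw [max_eq_left, mul_zero]
  nlinarith

theorem qb_zero_right {ε : ℝ} (hε : 0 < ε) {τ : ℝ} (h : ε ≤ τ) : qb ε τ = 0 := by
  unfold qb
  rw [max_eq_left, mul_zero]
  nlinarith

theorem qb_le {ε : ℝ} (hε : 0 < ε) (τ : ℝ) : qb ε τ ≤ 3 / ε := by
  unfold qb
  have h1 : max 0 ((τ - ε / 2) * (ε - τ)) ≤ ε ^ 2 / 16 := by
    refine max_le (by positivity) ?_
    nlinarith [sq_nonneg (τ - 3 * ε / 4)]
  calc 48 / ε ^ 3 * max 0 ((τ - ε / 2) * (ε - τ)) ≤ 48 / ε ^ 3 * (ε ^ 2 / 16) := by gcongr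
    _ = 3 / ε := by field_simp; ring

/-- smooth step: `0` for `s ≤ ε/2`, `1` for `s ≥ ε` -/
def psi (ε s : ℝ) : ℝ := ∫ τ in (0:ℝ)..s, qb ε τ

theorem hasDerivAt_psi (ε s : ℝ) : HasDerivAt (psi ε) (qb ε s) s :=
  intervalIntegral.integral_hasDerivAt_right ((continuous_qb ε).intervalIntegrable _ _)
    ((continuous_qb ε).stronglyMeasurableAtFilter _ _) (continuous_qb ε).continuousAt

theorem contDiff_psi (ε : ℝ) : ContDiff ℝ 1 (psi ε) := by
  refine contDiff_one_iff_deriv.2 ⟨fun s => (hasDerivAt_psi ε s).differentiableAt, ?_⟩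
  have : deriv (psi ε) = qb ε := funext fun s => (hasDerivAt_psi ε s).deriv
  rw [this]
  exact continuous_qb ε

theorem psi_zero {ε : ℝ} (hε : 0 < ε) {s : ℝ} (h : s ≤ ε / 2) : psi ε s = 0 := by
  unfold psi
  rw [intervalIntegral.integral_congr (g := fun _ => 0)]
  · simp
  · intro τ hτ
    refine qb_zero_left hε ?_
    rcases le_total 0 s with h0 | h0
    · rw [uIcc_of_le h0] at hτ
      exact hτ.2.trans h
    · rw [uIcc_of_ge h0] at hτ
      exact hτ.2.trans (by positivity)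

theorem psi_mono {ε : ℝ} (hε : 0 < ε) : Monotone (psi ε) :=
  monotone_of_deriv_nonneg (fun s => (hasDerivAt_psi ε s).differentiableAt) fun s => by
    rw [(hasDerivAt_psi ε s).deriv]; exact qb_nonneg hε s

theorem psi_one {ε : ℝ} (hε : 0 < ε) {s : ℝ} (h : ε ≤ s) : psi ε s = 1 := by
  have h1 : psi ε s = psi ε ε := by
    unfold psi
    rw [← intervalIntegral.integral_add_adjacent_intervals (b := ε)
      ((continuous_qb ε).intervalIntegrable _ _) ((continuous_qb ε).intervalIntegrable _ _)]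
    rw [intervalIntegral.integral_congr (a := ε) (b := s) (g := fun _ => 0)]
    · simp
    · intro τ hτ
      rw [uIcc_of_le h] at hτ
      exact qb_zero_right hε hτ.1
  rw [h1]
  have h2 : psi ε ε = psi ε (ε / 2) + ∫ τ in (ε / 2)..ε, qb ε τ := by
    unfold psi
    rw [intervalIntegral.integral_add_adjacent_intervals
      ((continuous_qb ε).intervalIntegrable _ _) ((continuous_qb ε).intervalIntegrable _ _)]
  rw [h2, psi_zero hε le_rfl, zero_add]
  have h3 : ∫ τ in (ε / 2)..ε, qb ε τ =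
      ∫ τ in (ε / 2)..ε, (48 / ε ^ 3 * ((τ - ε / 2) * (ε - τ))) := by
    refine intervalIntegral.integral_congr fun τ hτ => ?_
    rw [uIcc_of_le (by linarith)] at hτ
    simp only [qb]
    rw [max_eq_right (mul_nonneg (by linarith [hτ.1]) (by linarith [hτ.2]))]
  rw [h3]
  have h4 : ∀ τ ∈ uIcc (ε / 2) ε, HasDerivAt
      (fun τ : ℝ => 48 / ε ^ 3 * (3 * ε / 4 * τ ^ 2 - τ ^ 3 / 3 - ε ^ 2 / 2 * τ))
      (48 / ε ^ 3 * ((τ - ε / 2) * (ε - τ))) τ := by
    intro τ _
    have a1 : HasDerivAt (fun τ : ℝ => τ ^ 2) ((2:ℕ) * τ ^ (2 - 1)) τ := hasDerivAt_pow 2 τ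
    have a2 : HasDerivAt (fun τ : ℝ => τ ^ 3) ((3:ℕ) * τ ^ (3 - 1)) τ := hasDerivAt_pow 3 τ
    have a3 := (((a1.const_mul (3 * ε / 4)).sub (a2.div_const 3)).sub
      ((hasDerivAt_id τ).const_mul (ε ^ 2 / 2))).const_mul (48 / ε ^ 3)
    refine a3.congr_deriv ?_
    norm_num
    left
    ring
  rw [intervalIntegral.integral_eq_sub_of_hasDerivAt h4
    ((by fun_prop : Continuous fun τ : ℝ => 48 / ε ^ 3 * ((τ - ε / 2) * (ε - τ))).intervalIntegrable
      _ _)]
  field_simp
  ring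

theorem psi_nonneg {ε : ℝ} (hε : 0 < ε) (s : ℝ) : 0 ≤ psi ε s := by
  rcases le_total s (ε / 2) with h | h
  · rw [psi_zero hε h]
  · have := psi_mono hε h
    rwa [psi_zero hε le_rfl] at this

theorem psi_le_one {ε : ℝ} (hε : 0 < ε) (s : ℝ) : psi ε s ≤ 1 := by
  rcases le_total ε s with h | h
  · rw [psi_one hε h]
  · have := psi_mono hε h
    rwa [psi_one hε le_rfl] at this

/-- cut at `b` -/
def ub (k : ℕ) (b s : ℝ) : ℝ := max 0 (min 1 (k * (b - s)))

theorem continuous_ub (k : ℕ) (b : ℝ) : Continuous (ub k b) := by unfold ub; fun_prop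

theorem ub_nonneg (k : ℕ) (b s : ℝ) : 0 ≤ ub k b s := le_max_left _ _

theorem ub_le_one (k : ℕ) (b s : ℝ) : ub k b s ≤ 1 := max_le zero_le_one (min_le_left _ _)

theorem ub_zero (k : ℕ) {b s : ℝ} (h : b ≤ s) : ub k b s = 0 := by
  unfold ub
  rw [max_eq_left]
  refine (min_le_right _ _).trans ?_
  exact mul_nonpos_of_nonneg_of_nonpos (Nat.cast_nonneg k) (by linarith)

theorem tendsto_ub {b s : ℝ} (h : s < b) : Tendsto (fun k => ub k b s) atTop (𝓝 1) := by
  obtain ⟨k0, hk0⟩ := exists_nat_gt (1 / (b - s))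
  have hpos : 0 < b - s := by linarith
  refine tendsto_const_nhds.congr' ?_
  filter_upwards [eventually_ge_atTop k0] with k hk
  unfold ub
  have h1 : 1 ≤ (k:ℝ) * (b - s) := by
    rw [div_lt_iff₀ hpos] at hk0
    have : (k0:ℝ) ≤ k := Nat.cast_le.2 hk
    nlinarith
  rw [min_eq_left h1, max_eq_right zero_le_one]

/-- `A(s) = ∫_s^b τ^m u` -/
def Ab (m k : ℕ) (b s : ℝ) : ℝ := ∫ τ in s..b, τ ^ m * ub k b τ

theorem continuous_Ai (m k : ℕ) (b : ℝ) : Continuous fun τ => τ ^ m * ub k b τ :=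
  (continuous_pow m).mul (continuous_ub k b)

theorem hasDerivAt_Ab (m k : ℕ) (b s : ℝ) : HasDerivAt (Ab m k b) (-(s ^ m * ub k b s)) s :=
  intervalIntegral.integral_hasDerivAt_left ((continuous_Ai m k b).intervalIntegrable _ _)
    ((continuous_Ai m k b).stronglyMeasurableAtFilter _ _) (continuous_Ai m k b).continuousAt

theorem contDiff_Ab (m k : ℕ) (b : ℝ) : ContDiff ℝ 1 (Ab m k b) := by
  refine contDiff_one_iff_deriv.2 ⟨fun s => (hasDerivAt_Ab m k b s).differentiableAt, ?_⟩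
  have : deriv (Ab m k b) = fun s => -(s ^ m * ub k b s) :=
    funext fun s => (hasDerivAt_Ab m k b s).deriv
  rw [this]
  exact (continuous_Ai m k b).neg

theorem Ab_zero (m k : ℕ) {b s : ℝ} (h : b ≤ s) : Ab m k b s = 0 := by
  unfold Ab
  rw [intervalIntegral.integral_congr (g := fun _ => 0)]
  · simp
  · intro τ hτ
    rw [uIcc_of_ge h] at hτ
    simp only
    rw [ub_zero k hτ.1, mul_zero]

theorem Ab_nonneg (m k : ℕ) {b s : ℝ} (h0 : 0 ≤ s) : 0 ≤ Ab m k b s := by
  rcases le_total b s with h | h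
  · rw [Ab_zero m k h]
  · unfold Ab
    refine intervalIntegral.integral_nonneg h fun τ hτ => ?_
    exact mul_nonneg (pow_nonneg (h0.trans hτ.1) m) (ub_nonneg k b τ)

theorem Ab_le (m k : ℕ) {b s : ℝ} (h0 : 0 ≤ s) (hb : 0 ≤ b) :
    Ab m k b s ≤ b ^ (m + 1) / (m + 1) := by
  rcases le_total b s with h | h
  · rw [Ab_zero m k h]; positivity
  · unfold Ab
    have h1 : ∫ τ in s..b, τ ^ m * ub k b τ ≤ ∫ τ in s..b, τ ^ m := by
      refine intervalIntegral.integral_mono_on h ((continuous_Ai m k b).intervalIntegrable _ _)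
        ((continuous_pow m).intervalIntegrable _ _) fun τ hτ => ?_
      have := pow_nonneg (h0.trans hτ.1) m
      calc τ ^ m * ub k b τ ≤ τ ^ m * 1 := by gcongr; exact ub_le_one k b τ
        _ = τ ^ m := mul_one _
    refine h1.trans ?_
    rw [integral_pow]
    have : 0 ≤ s ^ (m + 1) := pow_nonneg h0 _
    gcongr
    linarith

/-- the Gaussian power weight -/
def wb (m : ℕ) (κ s : ℝ) : ℝ := (s ^ (m + 1))⁻¹ * Real.exp (-(κ * s ^ 2 / 2))

/-- the test profile -/
def zb (m k : ℕ) (κ ε b s : ℝ) : ℝ := wb m κ s * (psi ε s * Ab m k b s)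

theorem zb_zero_left {m k : ℕ} {κ ε b s : ℝ} (hε : 0 < ε) (h : s ≤ ε / 2) :
    zb m k κ ε b s = 0 := by
  unfold zb; rw [psi_zero hε h]; ring

theorem zb_zero_right {m k : ℕ} {κ ε b s : ℝ} (h : b ≤ s) : zb m k κ ε b s = 0 := by
  unfold zb; rw [Ab_zero m k h]; ring

theorem wb_nonneg {m : ℕ} {κ s : ℝ} (h : 0 ≤ s) : 0 ≤ wb m κ s := by
  unfold wb; positivity

theorem zb_nonneg {m k : ℕ} {κ ε b : ℝ} (hε : 0 < ε) (s : ℝ) : 0 ≤ zb m k κ ε b s := by
  rcases le_total s (ε / 2) with h | h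
  · rw [zb_zero_left hε h]
  · have h0 : 0 ≤ s := (by positivity : 0 ≤ ε / 2).trans h
    exact mul_nonneg (wb_nonneg h0) (mul_nonneg (psi_nonneg hε s) (Ab_nonneg m k h0))

theorem hasDerivAt_wb {m : ℕ} {κ s : ℝ} (h : 0 < s) :
    HasDerivAt (wb m κ) (-((m + 1 + κ * s ^ 2) / s) * wb m κ s) s := by
  have a1 : HasDerivAt (fun s : ℝ => (s ^ (m + 1))⁻¹)
      (-(((m + 1 : ℕ) : ℝ) * s ^ (m + 1 - 1)) / (s ^ (m + 1)) ^ 2) s :=
    (hasDerivAt_pow (m + 1) s).fun_inv (by positivity)
  have a2 : HasDerivAt (fun s : ℝ => Real.exp (-(κ * s ^ 2 / 2)))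
      (Real.exp (-(κ * s ^ 2 / 2)) * (-(κ * ((2:ℕ) * s ^ (2 - 1)) / 2))) s :=
    ((((hasDerivAt_pow 2 s).const_mul κ).div_const 2).neg).exp
  refine (a1.mul a2).congr_deriv ?_
  unfold wb
  have : s ^ (m + 1 - 1) = s ^ m := by simp
  rw [this]
  push_cast
  field_simp
  ring

theorem hasDerivAt_zb {m k : ℕ} {κ ε b s : ℝ} (h : 0 < s) :
    HasDerivAt (zb m k κ ε b) (-((m + 1 + κ * s ^ 2) / s) * zb m k κ ε b s +
      wb m κ s * (qb ε s * Ab m k b s - psi ε s * (s ^ m * ub k b s))) s := by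
  refine ((hasDerivAt_wb h).mul ((hasDerivAt_psi ε s).mul (hasDerivAt_Ab m k b s))).congr_deriv ?_
  unfold zb
  simp only [Pi.mul_apply]
  ring

theorem contDiff_zb {m k : ℕ} {κ ε b : ℝ} (hε : 0 < ε) : ContDiff ℝ 1 (zb m k κ ε b) := by
  rw [contDiff_iff_contDiffAt]
  intro s
  rcases lt_or_ge s (ε / 2) with h | h
  · refine (contDiffAt_const (c := (0:ℝ))).congr_of_eventuallyEq ?_
    filter_upwards [Iio_mem_nhds h] with t ht
    exact zb_zero_left hε (le_of_lt ht)
  · have hs : 0 < s := lt_of_lt_of_le (by positivity) h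
    have h1 : ContDiffAt ℝ 1 (wb m κ) s := by
      unfold wb
      refine ContDiffAt.mul (ContDiffAt.inv (by fun_prop) (by positivity)) ?_
      exact (by fun_prop : ContDiff ℝ 1 fun s : ℝ => Real.exp (-(κ * s ^ 2 / 2))).contDiffAt
    exact h1.mul ((contDiff_psi ε).contDiffAt.mul (contDiff_Ab m k b).contDiffAt)

/-- the key identity -/
theorem zb_key {m k : ℕ} {κ ε b s : ℝ} (hε : 0 < ε) (hs : 0 ≤ s) :
    ((m + 1 : ℕ) + κ * s ^ 2) * zb m k κ ε b s + s * deriv (zb m k κ ε b) s =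
      s * wb m κ s * (qb ε s * Ab m k b s) -
        Real.exp (-(κ * s ^ 2 / 2)) * (psi ε s * ub k b s) := by
  rcases eq_or_lt_of_le hs with h | h
  · rw [← h, zb_zero_left hε (by positivity), psi_zero hε (by positivity)]; ring
  · rw [(hasDerivAt_zb h).deriv]
    have e : s * wb m κ s * s ^ m = Real.exp (-(κ * s ^ 2 / 2)) := by
      unfold wb; field_simp; ring
    rw [← e]
    push_cast
    field_simp
    ring

/-- the second profile -/
def eb (m k : ℕ) (κ ε b s : ℝ) : ℝ := ∫ τ in s..b, τ * zb m k κ ε b τ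

theorem continuous_ei {m k : ℕ} {κ ε b : ℝ} (hε : 0 < ε) :
    Continuous fun τ => τ * zb m k κ ε b τ := continuous_id.mul (contDiff_zb hε).continuous

theorem hasDerivAt_eb {m k : ℕ} {κ ε b : ℝ} (hε : 0 < ε) (s : ℝ) :
    HasDerivAt (eb m k κ ε b) (-(s * zb m k κ ε b s)) s :=
  intervalIntegral.integral_hasDerivAt_left ((continuous_ei hε).intervalIntegrable _ _)
    ((continuous_ei hε).stronglyMeasurableAtFilter _ _) (continuous_ei hε).continuousAt

theorem contDiff_eb {m k : ℕ} {κ ε b : ℝ} (hε : 0 < ε) : ContDiff ℝ 1 (eb m k κ ε b) := by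
  refine contDiff_one_iff_deriv.2 ⟨fun s => (hasDerivAt_eb hε s).differentiableAt, ?_⟩
  have : deriv (eb m k κ ε b) = fun s => -(s * zb m k κ ε b s) :=
    funext fun s => (hasDerivAt_eb hε s).deriv
  rw [this]
  exact (continuous_ei hε).neg

theorem eb_zero {m k : ℕ} {κ ε b s : ℝ} (h : b ≤ s) : eb m k κ ε b s = 0 := by
  unfold eb
  rw [intervalIntegral.integral_congr (g := fun _ => 0)]
  · simp
  · intro τ hτ
    rw [uIcc_of_ge h] at hτ
    simp only
    rw [zb_zero_right hτ.1, mul_zero]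

theorem eb_nonneg {m k : ℕ} {κ ε b s : ℝ} (hε : 0 < ε) (h0 : 0 ≤ s) : 0 ≤ eb m k κ ε b s := by
  rcases le_total b s with h | h
  · rw [eb_zero h]
  · unfold eb
    exact intervalIntegral.integral_nonneg h fun τ hτ =>
      mul_nonneg (h0.trans hτ.1) (zb_nonneg hε τ)

/-! ### the radial inequality -/

section Main

variable {X : Type*} [MetricSpace X] [MeasurableSpace X] {F : Type*}
  [NormedAddCommGroup F] [InnerProductSpace ℝ F] {μ : Measure X} [BorelSpace X]
  [IsFiniteMeasureOnCompacts μ]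

/-- weak supersolution `v - h Δ v ≥ 0`, `v ∈ V` -/
def Sup (S : GradS X F μ) (h : ℝ) (v : Lp ℝ 2 μ) : Prop :=
  ∀ φ : X → ℝ, IsT φ → (∀ z, 0 ≤ φ z) → 0 ≤ ∫ z, (v z * φ z + h * ⟪S.D v z, S.G φ z⟫) ∂μ

variable {S : GradS X F μ}

theorem integrable_vφ (v : Lp ℝ 2 μ) {φ : X → ℝ} (hφ : IsT φ) :
    Integrable (fun z => v z * φ z) μ := (Lp.memLp v).integrable_mul hφ.memLp

theorem integrable_DG (v : Lp F 2 μ) {φ : X → ℝ} (hφ : IsT φ) :
    Integrable (fun z => ⟪v z, S.G φ z⟫) μ := by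
  have h1 := L2.integrable_inner (𝕜 := ℝ) v ((hφ.memLpG S).toLp (S.G φ))
  refine h1.congr ?_
  filter_upwards [MemLp.coeFn_toLp (hφ.memLpG S)] with z hz
  rw [hz]

/-- the radial inequality -/
theorem radial_ineq [ProperSpace X] {n : ℕ} {κ : ℝ} (W : WLap S n κ) (y : X) {v : Lp ℝ 2 μ}
    (hv : v ∈ S.V) (h0 : 0 ≤ᵐ[μ] (v : X → ℝ)) {h : ℝ} (hh : 0 ≤ h) (hsup : Sup S h v)
    {ζ η : ℝ → ℝ} (hζ : ContDiff ℝ 1 ζ) (hη : ContDiff ℝ 1 η) (hd : ∀ s, deriv η s = -(s * ζ s))
    (hζ0 : ∀ s, 0 ≤ s → 0 ≤ ζ s) (hη0 : ∀ s, 0 ≤ s → 0 ≤ η s) {b : ℝ} (hb1 : ∀ s, b ≤ s → ζ s = 0)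
    (hb2 : ∀ s, b ≤ s → η s = 0) :
    0 ≤ ∫ z, (η (dist y z) + h * ((n + κ * dist y z ^ 2) * ζ (dist y z) +
      dist y z * deriv ζ (dist y z))) * v z ∂μ := by
  have Tζ : IsT fun z => ζ (dist y z) := isT_radial y hζ hb1
  have Tη : IsT fun z => η (dist y z) := isT_radial y hη hb2
  have k1 := hsup _ Tη fun z => hη0 _ dist_nonneg
  obtain ⟨i1, i2, k2⟩ := W.lapV y hv h0 Tζ fun z => hζ0 _ dist_nonneg
  have k3 : 0 ≤ ∫ z, (v z * η (dist y z) + h * ⟪S.D v z, S.G (fun z => η (dist y z)) z⟫) ∂μ +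
      h * ∫ z, (((n + κ * dist y z ^ 2) * ζ (dist y z) +
        ⟪S.G (hf y) z, S.G (fun z => ζ (dist y z)) z⟫) * v z +
        ζ (dist y z) * ⟪S.G (hf y) z, S.D v z⟫) ∂μ := add_nonneg k1 (mul_nonneg hh k2)
  have j1 : Integrable (fun z => v z * η (dist y z) +
      h * ⟪S.D v z, S.G (fun z => η (dist y z)) z⟫) μ :=
    (integrable_vφ v Tη).add ((integrable_DG (S.D v) Tη).const_mul h)
  have j2 : Integrable (fun z => h * (((n + κ * dist y z ^ 2) * ζ (dist y z) +
        ⟪S.G (hf y) z, S.G (fun z => ζ (dist y z)) z⟫) * v z +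
        ζ (dist y z) * ⟪S.G (hf y) z, S.D v z⟫)) μ := (i1.add i2).const_mul h
  rw [← integral_const_mul, ← integral_add j1 j2] at k3
  refine k3.trans_eq (integral_congr_ae ?_)
  filter_upwards [W.inner_radial y hζ, G_comp S y hη, G_hf S y] with z e1 e2 e3
  rw [e1, e2, e3, hd, real_inner_smul_left, real_inner_smul_right, real_inner_comm]
  ring

end Main

end Crest.Agent.R247.Smv126
end
end

-- ▼ part R247/Smv2_126
section

/-!
R247, block (5-M) (helper126): (SM) mean value inequality for nonnegative supersolutions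
`v - h Δ v ≥ 0` in `V`.
-/

set_option autoImplicit false
set_option linter.unusedSectionVars false

open MeasureTheory Filter Topology Set
open scoped RealInnerProductSpace ENNReal NNReal

noncomputable section

namespace Crest.Agent.R247.Smv126

open Crest.Agent.R247.Dir593 Crest.Agent.R247.Dir593.GradS

variable {X : Type*} [MetricSpace X] [MeasurableSpace X] {F : Type*}
  [NormedAddCommGroup F] [InnerProductSpace ℝ F] {μ : Measure X} [BorelSpace X]
  [IsFiniteMeasureOnCompacts μ] [ProperSpace X]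

/-- Gaussian weight -/
def gw (κ : ℝ) (y z : X) : ℝ := Real.exp (-(κ * dist y z ^ 2 / 2))

theorem gw_pos (κ : ℝ) (y z : X) : 0 < gw κ y z := Real.exp_pos _

theorem gw_le_one {κ : ℝ} (hκ : 0 ≤ κ) (y z : X) : gw κ y z ≤ 1 := by
  unfold gw
  rw [Real.exp_le_one_iff]
  have : 0 ≤ κ * dist y z ^ 2 / 2 := by positivity
  linarith

theorem continuous_gw (κ : ℝ) (y : X) : Continuous (gw κ y) := by unfold gw; fun_prop

/-- weighted mass of the open ball -/
def NN (μ : Measure X) (κ : ℝ) (y : X) (v : X → ℝ) (τ : ℝ) : ℝ :=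
  ∫ z in Metric.ball y τ, gw κ y z * v z ∂μ

/-- weighted mass of the closed ball -/
def NC (μ : Measure X) (κ : ℝ) (y : X) (v : X → ℝ) (τ : ℝ) : ℝ :=
  ∫ z in Metric.closedBall y τ, gw κ y z * v z ∂μ

theorem integrable_radial (y : X) {g : ℝ → ℝ} {b : ℝ} (hg : Continuous g)
    (h0 : ∀ s, b ≤ s → g s = 0) (v : Lp ℝ 2 μ) : Integrable (fun z => g (dist y z) * v z) μ := by
  have h1 : HasCompactSupport fun z => g (dist y z) :=
    HasCompactSupport.intro (isCompact_closedBall y b) fun z hz => by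
      rw [Metric.mem_closedBall, not_le, dist_comm] at hz
      exact h0 _ hz.le
  have h2 : MemLp (fun z => g (dist y z)) 2 μ :=
    (hg.comp (continuous_const.dist continuous_id)).memLp_of_hasCompactSupport h1
  exact h2.integrable_mul (Lp.memLp v)

theorem integrableOn_gw (κ : ℝ) (y : X) (τ : ℝ) (v : Lp ℝ 2 μ) :
    IntegrableOn (fun z => gw κ y z * v z) (Metric.closedBall y τ) μ := by
  have hK := isCompact_closedBall y τ
  have h1 : IntegrableOn v (Metric.closedBall y τ) μ :=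
    integrableOn_of_L2 v Metric.isClosed_closedBall.measurableSet hK.measure_lt_top.ne
  exact h1.continuousOn_mul (continuous_gw κ y).continuousOn hK

theorem NN_nonneg {κ : ℝ} {y : X} {v : Lp ℝ 2 μ} (h0 : 0 ≤ᵐ[μ] (v : X → ℝ)) (τ : ℝ) :
    0 ≤ NN μ κ y v τ := by
  refine integral_nonneg_of_ae (ae_restrict_of_ae ?_)
  filter_upwards [h0] with z hz
  exact mul_nonneg (gw_pos κ y z).le hz

theorem NC_nonneg {κ : ℝ} {y : X} {v : Lp ℝ 2 μ} (h0 : 0 ≤ᵐ[μ] (v : X → ℝ)) (τ : ℝ) :
    0 ≤ NC μ κ y v τ := by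
  refine integral_nonneg_of_ae (ae_restrict_of_ae ?_)
  filter_upwards [h0] with z hz
  exact mul_nonneg (gw_pos κ y z).le hz

theorem NN_mono {κ : ℝ} {y : X} {v : Lp ℝ 2 μ} (h0 : 0 ≤ᵐ[μ] (v : X → ℝ)) {s t : ℝ}
    (hst : s ≤ t) : NN μ κ y v s ≤ NN μ κ y v t := by
  refine setIntegral_mono_set ((integrableOn_gw κ y t v).mono_set Metric.ball_subset_closedBall)
    (ae_restrict_of_ae ?_) (Metric.ball_subset_ball hst).eventuallyLE
  filter_upwards [h0] with z hz
  exact mul_nonneg (gw_pos κ y z).le hz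

theorem NN_le_NC {κ : ℝ} {y : X} {v : Lp ℝ 2 μ} (h0 : 0 ≤ᵐ[μ] (v : X → ℝ)) {s t : ℝ}
    (hst : s ≤ t) : NN μ κ y v s ≤ NC μ κ y v t := by
  refine setIntegral_mono_set (integrableOn_gw κ y t v)
    (ae_restrict_of_ae ?_)
    ((Metric.ball_subset_closedBall).trans (Metric.closedBall_subset_closedBall hst)).eventuallyLE
  filter_upwards [h0] with z hz
  exact mul_nonneg (gw_pos κ y z).le hz

variable {S : GradS X F μ}

/-- the inequality for the explicit profiles -/
theorem ineq_k {m k : ℕ} {κ : ℝ} (W : WLap S (m + 1) κ) (y : X) {v : Lp ℝ 2 μ}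
    (hv : v ∈ S.V) (h0 : 0 ≤ᵐ[μ] (v : X → ℝ)) {h : ℝ} (hh : 0 ≤ h) (hsup : Sup S h v)
    {ε b : ℝ} (hε : 0 < ε) (hb : 0 ≤ b) :
    h * ∫ z, (gw κ y z * (psi ε (dist y z) * ub k b (dist y z))) * v z ∂μ ≤
      h * ∫ z, (dist y z * wb m κ (dist y z) * (qb ε (dist y z) * Ab m k b (dist y z))) * v z ∂μ +
      ∫ z, eb m k κ ε b (dist y z) * v z ∂μ := by
  have hζ : ContDiff ℝ 1 (zb m k κ ε b) := contDiff_zb hε
  have key := radial_ineq W y hv h0 hh hsup hζ (contDiff_eb (m := m) (k := k) (κ := κ) (b := b) hε)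
    (fun s => (hasDerivAt_eb hε s).deriv) (fun s _ => zb_nonneg hε s) (fun s hs => eb_nonneg hε hs)
    (b := b) (fun s hs => zb_zero_right hs) (fun s hs => eb_zero hs)
  -- the three pieces
  have iY : Integrable (fun z => (gw κ y z * (psi ε (dist y z) * ub k b (dist y z))) * v z) μ := by
    refine integrable_radial (b := b) y (g := fun s => Real.exp (-(κ * s ^ 2 / 2)) *
      (psi ε s * ub k b s)) ?_ ?_ v
    · exact (by fun_prop : Continuous fun s : ℝ => Real.exp (-(κ * s ^ 2 / 2))).mul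
        ((contDiff_psi ε).continuous.mul (continuous_ub k b))
    · intro s hs
      rw [ub_zero k hs]; ring
  have hder : Continuous (deriv (zb m k κ ε b)) := hζ.continuous_deriv le_rfl
  have iX : Integrable (fun z => (dist y z * wb m κ (dist y z) *
      (qb ε (dist y z) * Ab m k b (dist y z))) * v z) μ := by
    have h1 := integrable_radial (b := b) y (g := fun s => ((m + 1 : ℕ) + κ * s ^ 2) *
      zb m k κ ε b (max s 0) + max s 0 * deriv (zb m k κ ε b) (max s 0) +
      Real.exp (-(κ * s ^ 2 / 2)) * (psi ε s * ub k b s)) ?_ ?_ v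
    · refine h1.congr (Filter.Eventually.of_forall fun z => ?_)
      have e := zb_key (m := m) (k := k) (κ := κ) (b := b) hε (dist_nonneg (x := y) (y := z))
      simp only [max_eq_left (dist_nonneg (x := y) (y := z))]
      rw [e]
      ring
    · have c0 : Continuous fun s : ℝ => max s 0 := continuous_id.max continuous_const
      exact (((by fun_prop : Continuous fun s : ℝ => ((m + 1 : ℕ) : ℝ) + κ * s ^ 2).mul
        (hζ.continuous.comp c0)).add (c0.mul (hder.comp c0))).add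
        ((by fun_prop : Continuous fun s : ℝ => Real.exp (-(κ * s ^ 2 / 2))).mul
        ((contDiff_psi ε).continuous.mul (continuous_ub k b)))
    · intro s hs
      have hs0 : 0 ≤ s := hb.trans hs
      have e := zb_key (m := m) (k := k) (κ := κ) (b := b) hε hs0
      simp only [max_eq_left hs0]
      rw [e, Ab_zero m k hs]; ring
  have iE : Integrable (fun z => eb m k κ ε b (dist y z) * v z) μ :=
    integrable_radial (b := b) y (contDiff_eb hε).continuous (fun s hs => eb_zero hs) v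
  have e1 : ∫ z, (eb m k κ ε b (dist y z) + h * (((m + 1 : ℕ) + κ * dist y z ^ 2) *
      zb m k κ ε b (dist y z) + dist y z * deriv (zb m k κ ε b) (dist y z))) * v z ∂μ =
      ∫ z, eb m k κ ε b (dist y z) * v z ∂μ +
      (h * ∫ z, (dist y z * wb m κ (dist y z) * (qb ε (dist y z) * Ab m k b (dist y z))) * v z ∂μ -
      h * ∫ z, (gw κ y z * (psi ε (dist y z) * ub k b (dist y z))) * v z ∂μ) := by
    have j1 : Integrable (fun z => h * (dist y z * wb m κ (dist y z) *
        (qb ε (dist y z) * Ab m k b (dist y z)) * v z) -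
        h * (gw κ y z * (psi ε (dist y z) * ub k b (dist y z)) * v z)) μ :=
      (iX.const_mul h).sub (iY.const_mul h)
    rw [← integral_const_mul, ← integral_const_mul, ← integral_sub (iX.const_mul h)
      (iY.const_mul h), ← integral_add iE j1]
    refine integral_congr_ae (Filter.Eventually.of_forall fun z => ?_)
    simp only
    rw [zb_key hε dist_nonneg]
    unfold gw
    ring
  rw [e1] at key
  linarith

/-- bound of the first right hand side term -/
theorem X_le {m k : ℕ} {κ : ℝ} (y : X) {v : Lp ℝ 2 μ} (h0 : 0 ≤ᵐ[μ] (v : X → ℝ))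
    {ε b : ℝ} (hε : 0 < ε) (hb : 0 ≤ b) :
    ∫ z, (dist y z * wb m κ (dist y z) * (qb ε (dist y z) * Ab m k b (dist y z))) * v z ∂μ ≤
      (3 * 2 ^ m / ε ^ (m + 1) * (b ^ (m + 1) / (m + 1))) * NC μ κ y v ε := by
  unfold NC
  rw [← integral_const_mul, ← integral_indicator Metric.isClosed_closedBall.measurableSet]
  refine integral_mono_of_nonneg ?_ ?_ ?_
  · filter_upwards [h0] with z hz
    refine mul_nonneg (mul_nonneg (mul_nonneg dist_nonneg (wb_nonneg dist_nonneg))
      (mul_nonneg (qb_nonneg hε _) (Ab_nonneg m k dist_nonneg))) hz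
  · rw [integrable_indicator_iff Metric.isClosed_closedBall.measurableSet]
    exact (integrableOn_gw κ y ε v).const_mul _
  · filter_upwards [h0] with z hz
    have hz0 : (0:ℝ) ≤ v z := hz
    set d := dist y z with hd
    have hd0 : 0 ≤ d := dist_nonneg
    by_cases h1 : z ∈ Metric.closedBall y ε
    · rw [indicator_of_mem h1]
      rcases le_total d (ε / 2) with h2 | h2
      · rw [qb_zero_left hε h2]
        have : 0 ≤ 3 * 2 ^ m / ε ^ (m + 1) * (b ^ (m + 1) / (m + 1)) * (gw κ y z * v z) :=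
          mul_nonneg (by positivity) (mul_nonneg (gw_pos κ y z).le hz0)
        simpa using this
      · have hdp : 0 < d := lt_of_lt_of_le (by positivity) h2
        have a1 : d * wb m κ d = (d ^ m)⁻¹ * gw κ y z := by
          unfold wb gw
          rw [← hd, pow_succ]
          field_simp
        have a2 : (d ^ m)⁻¹ ≤ 2 ^ m / ε ^ m := by
          rw [inv_le_comm₀ (by positivity) (by positivity), inv_div, ← div_pow]
          exact pow_le_pow_left₀ (by positivity) h2 m
        have a3 := qb_le hε d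
        have a4 := Ab_le m k hd0 hb
        rw [a1]
        have g0 := (gw_pos κ y z).le
        have q0 := qb_nonneg hε d
        have A0 := Ab_nonneg m k (b := b) hd0
        calc (d ^ m)⁻¹ * gw κ y z * (qb ε d * Ab m k b d) * v z
            ≤ 2 ^ m / ε ^ m * gw κ y z * (3 / ε * (b ^ (m + 1) / (m + 1))) * v z := by gcongr
          _ = 3 * 2 ^ m / ε ^ (m + 1) * (b ^ (m + 1) / (m + 1)) * (gw κ y z * v z) := by
            rw [pow_succ ε m]; field_simp
    · rw [indicator_of_notMem h1]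
      rw [Metric.mem_closedBall, not_le, dist_comm] at h1
      rw [qb_zero_right hε h1.le]
      simp

/-- Tonelli bound of the second right hand side term -/
theorem E_le [SFinite μ] {m k : ℕ} {κ : ℝ} (hκ : 0 ≤ κ) (y : X) {v : Lp ℝ 2 μ}
    (h0 : 0 ≤ᵐ[μ] (v : X → ℝ)) {h : ℝ} (hh : 0 < h) {ε b M : ℝ} (hε : 0 < ε) (hb : 0 ≤ b)
    (hM : 0 ≤ M) (hN : ∀ τ, ε / 2 ≤ τ → τ ≤ b → NN μ κ y v τ ≤ M * τ ^ (m + 1) *
      Real.exp (τ ^ 2 / h)) :
    ∫ z, eb m k κ ε b (dist y z) * v z ∂μ ≤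
      (b ^ (m + 1) / (m + 1)) * M * (h / 2) * Real.exp (b ^ 2 / h) := by
  set c : ℝ := (b ^ (m + 1) / (m + 1)) * M with hc
  have hc0 : 0 ≤ c := by positivity
  have hvm : Measurable (v : X → ℝ) := (Lp.stronglyMeasurable v).measurable
  have hdm : Measurable fun z : X => dist y z := (continuous_const.dist continuous_id).measurable
  have hgc : Continuous fun τ => τ * zb m k κ ε b τ := continuous_ei hε
  have hg0 : ∀ τ, 0 ≤ τ * zb m k κ ε b τ := by
    intro τ
    rcases le_total τ (ε / 2) with h1 | h1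
    · rw [zb_zero_left hε h1, mul_zero]
    · exact mul_nonneg ((by positivity : 0 ≤ ε / 2).trans h1) (zb_nonneg hε τ)
  have hE0 : ∀ z : X, 0 ≤ eb m k κ ε b (dist y z) := fun z => eb_nonneg hε dist_nonneg
  rw [integral_eq_lintegral_of_nonneg_ae ?_ ?_]
  rotate_left
  · filter_upwards [h0] with z hz
    exact mul_nonneg (hE0 z) hz
  · exact (((contDiff_eb hε).continuous.measurable.comp hdm).mul hvm).aestronglyMeasurable
  refine ENNReal.toReal_le_of_le_ofReal (by positivity) ?_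
  -- the double integral
  set Φ : X → ℝ → ℝ≥0∞ := fun z τ =>
    (Ioc (dist y z) b).indicator (fun τ => ENNReal.ofReal (τ * zb m k κ ε b τ)) τ *
      ENNReal.ofReal (v z) with hΦ
  have s1 : ∫⁻ z, ENNReal.ofReal (eb m k κ ε b (dist y z) * v z) ∂μ =
      ∫⁻ z, (∫⁻ τ, Φ z τ) ∂μ := by
    refine lintegral_congr fun z => ?_
    rw [hΦ]
    simp only
    rw [lintegral_mul_const _ ((hgc.measurable.ennreal_ofReal).indicator measurableSet_Ioc),
      lintegral_indicator measurableSet_Ioc, ENNReal.ofReal_mul (hE0 z)]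
    congr 1
    rcases le_total b (dist y z) with hz | hz
    · rw [eb_zero hz, Ioc_eq_empty (not_lt.2 hz)]; simp
    · unfold eb
      rw [intervalIntegral.integral_of_le hz, ofReal_integral_eq_lintegral_ofReal]
      · exact (hgc.integrableOn_Icc).mono_set Ioc_subset_Icc_self
      · exact Filter.Eventually.of_forall fun τ => hg0 τ
  have hmeas : Measurable (Function.uncurry Φ) := by
    have hs : MeasurableSet {p : X × ℝ | dist y p.1 < p.2 ∧ p.2 ≤ b} :=
      (measurableSet_lt (hdm.comp measurable_fst) measurable_snd).inter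
        (measurableSet_le measurable_snd measurable_const)
    have e : Function.uncurry Φ = fun p : X × ℝ =>
        ({p : X × ℝ | dist y p.1 < p.2 ∧ p.2 ≤ b}).indicator
          (fun p => ENNReal.ofReal (p.2 * zb m k κ ε b p.2)) p * ENNReal.ofReal (v p.1) := by
      funext p
      obtain ⟨z, τ⟩ := p
      simp only [Function.uncurry_apply_pair, hΦ]
      congr 1
    rw [e]
    exact (((hgc.measurable.comp measurable_snd).ennreal_ofReal).indicator hs).mul
      ((hvm.comp measurable_fst).ennreal_ofReal)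
  rw [s1, lintegral_lintegral_swap hmeas.aemeasurable]
  -- pointwise bound in `τ`
  have s2 : ∀ τ : ℝ, ∫⁻ z, Φ z τ ∂μ ≤
      (Ioc 0 b).indicator (fun τ => ENNReal.ofReal (c * (τ * Real.exp (τ ^ 2 / h)))) τ := by
    intro τ
    by_cases hτb : τ ≤ b
    swap
    · have : ∀ z, Φ z τ = 0 := fun z => by
        simp only [hΦ]
        rw [indicator_of_notMem (fun h => hτb h.2), zero_mul]
      simp only [this, lintegral_zero]
      exact zero_le
    rcases le_total τ (ε / 2) with hτ | hτ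
    · have : ∀ z, Φ z τ = 0 := fun z => by
        simp only [hΦ]
        by_cases hz : τ ∈ Ioc (dist y z) b
        · rw [indicator_of_mem hz, zb_zero_left hε hτ]; simp
        · rw [indicator_of_notMem hz, zero_mul]
      simp only [this, lintegral_zero]
      exact zero_le
    have hτ0 : 0 < τ := lt_of_lt_of_le (by positivity) hτ
    rw [indicator_of_mem (show τ ∈ Ioc (0:ℝ) b from ⟨hτ0, hτb⟩)]
    have e1 : ∀ z, Φ z τ = ENNReal.ofReal (τ * zb m k κ ε b τ) *
        (Metric.ball y τ).indicator (fun z => ENNReal.ofReal (v z)) z := fun z => by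
      simp only [hΦ]
      by_cases hz : z ∈ Metric.ball y τ
      · rw [indicator_of_mem hz, indicator_of_mem]
        exact ⟨Metric.mem_ball'.1 hz, hτb⟩
      · rw [indicator_of_notMem hz, indicator_of_notMem, zero_mul, mul_zero]
        exact fun h => hz (Metric.mem_ball'.2 h.1)
    simp only [e1]
    rw [lintegral_const_mul _ (hvm.ennreal_ofReal.indicator Metric.isOpen_ball.measurableSet),
      lintegral_indicator Metric.isOpen_ball.measurableSet]
    -- compare with the weighted mass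
    have e2 : ∫⁻ z in Metric.ball y τ, ENNReal.ofReal (v z) ∂μ ≤
        ENNReal.ofReal (Real.exp (κ * τ ^ 2 / 2) * NN μ κ y v τ) := by
      unfold NN
      rw [← integral_const_mul, ofReal_integral_eq_lintegral_ofReal]
      · refine setLIntegral_mono_ae' Metric.isOpen_ball.measurableSet ?_
        filter_upwards [h0] with z hz hzb
        refine ENNReal.ofReal_le_ofReal ?_
        have hz0 : (0:ℝ) ≤ v z := hz
        have hd : dist y z ≤ τ := (Metric.mem_ball'.1 hzb).le
        have hd0 : 0 ≤ dist y z := dist_nonneg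
        have h3 : 1 ≤ Real.exp (κ * τ ^ 2 / 2) * gw κ y z := by
          unfold gw
          rw [← Real.exp_add, Real.one_le_exp_iff]
          have : dist y z ^ 2 ≤ τ ^ 2 := pow_le_pow_left₀ hd0 hd 2
          nlinarith
        calc v z = 1 * v z := (one_mul _).symm
          _ ≤ (Real.exp (κ * τ ^ 2 / 2) * gw κ y z) * v z := by gcongr
          _ = _ := by ring
      · exact ((integrableOn_gw κ y τ v).mono_set Metric.ball_subset_closedBall).const_mul _
      · refine ae_restrict_of_ae ?_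
        filter_upwards [h0] with z hz
        exact mul_nonneg (Real.exp_pos _).le (mul_nonneg (gw_pos κ y z).le hz)
    refine (mul_le_mul_right e2 _).trans ?_
    rw [← ENNReal.ofReal_mul (hg0 τ)]
    refine ENNReal.ofReal_le_ofReal ?_
    have h4 := hN τ hτ hτb
    have h5 : τ * zb m k κ ε b τ ≤ (τ ^ m)⁻¹ * Real.exp (-(κ * τ ^ 2 / 2)) *
        (b ^ (m + 1) / (m + 1)) := by
      have a1 : τ * wb m κ τ = (τ ^ m)⁻¹ * Real.exp (-(κ * τ ^ 2 / 2)) := by
        unfold wb
        rw [pow_succ]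
        field_simp
      unfold zb
      rw [← mul_assoc, a1]
      have a4 := Ab_le m k hτ0.le hb
      have A0 := Ab_nonneg m k (b := b) hτ0.le
      have a5 : psi ε τ * Ab m k b τ ≤ 1 * (b ^ (m + 1) / (m + 1)) :=
        mul_le_mul (psi_le_one hε τ) a4 A0 zero_le_one
      rw [one_mul] at a5
      gcongr
    have hN0 := NN_nonneg (κ := κ) (y := y) h0 τ
    calc τ * zb m k κ ε b τ * (Real.exp (κ * τ ^ 2 / 2) * NN μ κ y v τ)
        ≤ ((τ ^ m)⁻¹ * Real.exp (-(κ * τ ^ 2 / 2)) * (b ^ (m + 1) / (m + 1))) *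
          (Real.exp (κ * τ ^ 2 / 2) * (M * τ ^ (m + 1) * Real.exp (τ ^ 2 / h))) := by gcongr
      _ = (Real.exp (-(κ * τ ^ 2 / 2)) * Real.exp (κ * τ ^ 2 / 2)) *
          (c * (((τ ^ m)⁻¹ * τ ^ (m + 1)) * Real.exp (τ ^ 2 / h))) := by rw [hc]; ring
      _ = c * (τ * Real.exp (τ ^ 2 / h)) := by
        rw [← Real.exp_add, neg_add_cancel, Real.exp_zero, one_mul]
        congr 2
        rw [pow_succ]
        field_simp
  refine (lintegral_mono s2).trans ?_
  rw [lintegral_indicator measurableSet_Ioc]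
  have hcont : Continuous fun τ : ℝ => c * (τ * Real.exp (τ ^ 2 / h)) := by fun_prop
  rw [← ofReal_integral_eq_lintegral_ofReal ((hcont.integrableOn_Icc).mono_set Ioc_subset_Icc_self)]
  · refine ENNReal.ofReal_le_ofReal ?_
    rw [← intervalIntegral.integral_of_le hb]
    have hder : ∀ τ ∈ uIcc 0 b, HasDerivAt (fun τ : ℝ => c * (h / 2 * Real.exp (τ ^ 2 / h)))
        (c * (τ * Real.exp (τ ^ 2 / h))) τ := by
      intro τ _
      have a1 : HasDerivAt (fun τ : ℝ => τ ^ 2 / h) ((2:ℕ) * τ ^ (2 - 1) / h) τ :=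
        (hasDerivAt_pow 2 τ).div_const h
      refine ((a1.exp.const_mul (h / 2)).const_mul c).congr_deriv ?_
      simp only [Nat.add_one_sub_one, pow_one, Nat.cast_ofNat]
      field_simp
    rw [intervalIntegral.integral_eq_sub_of_hasDerivAt hder (hcont.intervalIntegrable _ _)]
    have : 0 ≤ c * (h / 2 * Real.exp ((0:ℝ) ^ 2 / h)) := by positivity
    nlinarith
  · exact (ae_restrict_iff' measurableSet_Ioc).2 (Filter.Eventually.of_forall fun τ hτ =>
      mul_nonneg hc0 (mul_nonneg hτ.1.le (Real.exp_pos _).le))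

end Crest.Agent.R247.Smv126
end
end

-- ▼ part R247/Smv3_126
section

/-!
R247, block (5-M) (helper126): (SM), final form, all centres; a.e. form.
-/

set_option autoImplicit false
set_option linter.unusedSectionVars false

open MeasureTheory Filter Topology Set
open scoped RealInnerProductSpace ENNReal NNReal

noncomputable section

namespace Crest.Agent.R247.Smv126

open Crest.Agent.R247.Dir593 Crest.Agent.R247.Dir593.GradS

variable {X : Type*} [MetricSpace X] [MeasurableSpace X] {F : Type*}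
  [NormedAddCommGroup F] [InnerProductSpace ℝ F] {μ : Measure X} [BorelSpace X]
  [IsFiniteMeasureOnCompacts μ] [ProperSpace X] {S : GradS X F μ}

/-- one improvement step -/
theorem sm_step [SFinite μ] {m : ℕ} {κ : ℝ} (W : WLap S (m + 1) κ) (hκ : 0 ≤ κ) (y : X)
    {v : Lp ℝ 2 μ} (hv : v ∈ S.V) (h0 : 0 ≤ᵐ[μ] (v : X → ℝ)) {h : ℝ} (hh : 0 < h)
    (hsup : Sup S h v) {ε b M : ℝ} (hε : 0 < ε) (hb : ε ≤ b) (hM : 0 ≤ M)
    (hN : ∀ τ, ε / 2 ≤ τ → τ ≤ b → NN μ κ y v τ ≤ M * τ ^ (m + 1) * Real.exp (τ ^ 2 / h)) :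
    NN μ κ y v b ≤ b ^ (m + 1) * Real.exp (b ^ 2 / h) *
      (2 ^ (m + 2) * (NC μ κ y v ε / ε ^ (m + 1)) + M / 2) := by
  have hb0 : 0 < b := lt_of_lt_of_le hε hb
  have hC0 : 0 ≤ NC μ κ y v ε := NC_nonneg h0 ε
  -- the limit in `k`
  have h1 : ∀ k : ℕ, h * ∫ z, (gw κ y z * (psi ε (dist y z) * ub k b (dist y z))) * v z ∂μ ≤
      h * ((3 * 2 ^ m / ε ^ (m + 1) * (b ^ (m + 1) / (m + 1))) * NC μ κ y v ε) +
      (b ^ (m + 1) / (m + 1)) * M * (h / 2) * Real.exp (b ^ 2 / h) := by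
    intro k
    refine (ineq_k W y hv h0 hh.le hsup hε hb0.le).trans (add_le_add ?_ ?_)
    · exact mul_le_mul_of_nonneg_left (X_le y h0 hε hb0.le) hh.le
    · exact E_le hκ y h0 hh hε hb0.le hM hN
  have h2 : Tendsto (fun k : ℕ => ∫ z, (gw κ y z * (psi ε (dist y z) * ub k b (dist y z))) * v z ∂μ)
      atTop (𝓝 (∫ z, (Metric.ball y b).indicator (fun z => gw κ y z * psi ε (dist y z) * v z) z
        ∂μ)) := by
    refine tendsto_integral_of_dominated_convergence
      ((Metric.closedBall y b).indicator fun z => gw κ y z * v z) (fun k => ?_) ?_ (fun k => ?_) ?_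
    · refine ((((continuous_gw κ y).mul
        (((contDiff_psi ε).continuous.comp (continuous_const.dist continuous_id)).mul
        ((continuous_ub k b).comp (continuous_const.dist
          continuous_id)))).aestronglyMeasurable).mul
        (Lp.aestronglyMeasurable v))
    · rw [integrable_indicator_iff Metric.isClosed_closedBall.measurableSet]
      exact integrableOn_gw κ y b v
    · filter_upwards [h0] with z hz
      have hz0 : (0:ℝ) ≤ v z := hz
      have g0 := (gw_pos κ y z).le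
      have p0 := psi_nonneg hε (dist y z)
      have p1 := psi_le_one hε (dist y z)
      have u0 := ub_nonneg k b (dist y z)
      have u1 := ub_le_one k b (dist y z)
      rw [Real.norm_of_nonneg (by positivity)]
      by_cases h3 : z ∈ Metric.closedBall y b
      · rw [indicator_of_mem h3]
        calc gw κ y z * (psi ε (dist y z) * ub k b (dist y z)) * v z
            ≤ gw κ y z * (1 * 1) * v z := by gcongr
          _ = gw κ y z * v z := by ring
      · rw [indicator_of_notMem h3]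
        rw [Metric.mem_closedBall, not_le, dist_comm] at h3
        rw [ub_zero k h3.le]; simp
    · refine Filter.Eventually.of_forall fun z => ?_
      by_cases h3 : z ∈ Metric.ball y b
      · rw [indicator_of_mem h3]
        have h4 := tendsto_ub (Metric.mem_ball'.1 h3)
        have h5 := ((h4.const_mul (psi ε (dist y z))).const_mul (gw κ y z)).mul_const (v z)
        rw [mul_one] at h5
        exact h5
      · rw [indicator_of_notMem h3]
        have h4 : b ≤ dist y z := not_lt.1 fun h => h3 (Metric.mem_ball'.2 h)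
        refine tendsto_const_nhds.congr fun k => ?_
        rw [ub_zero k h4]; simp
  have h3 := le_of_tendsto' (h2.const_mul h) h1
  rw [integral_indicator Metric.isOpen_ball.measurableSet] at h3
  set J : ℝ := ∫ z in Metric.ball y b, gw κ y z * psi ε (dist y z) * v z ∂μ with hJ
  -- splitting
  have iB : IntegrableOn (fun z => gw κ y z * v z) (Metric.ball y b) μ :=
    (integrableOn_gw κ y b v).mono_set Metric.ball_subset_closedBall
  have iP : IntegrableOn (fun z => gw κ y z * psi ε (dist y z) * v z) (Metric.ball y b) μ := by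
    refine iB.mono' ?_ ?_
    · exact ((((continuous_gw κ y).mul ((contDiff_psi ε).continuous.comp
        (continuous_const.dist continuous_id))).aestronglyMeasurable).mul
        (Lp.aestronglyMeasurable v)).restrict
    · refine ae_restrict_of_ae ?_
      filter_upwards [h0] with z hz
      have hz0 : (0:ℝ) ≤ v z := hz
      have g0 := (gw_pos κ y z).le
      have p0 := psi_nonneg hε (dist y z)
      have p1 := psi_le_one hε (dist y z)
      rw [Real.norm_of_nonneg (by positivity)]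
      calc gw κ y z * psi ε (dist y z) * v z ≤ gw κ y z * 1 * v z := by gcongr
        _ = gw κ y z * v z := by ring
  have h4 : NN μ κ y v b ≤ NC μ κ y v ε + J := by
    have e1 : NN μ κ y v b - J = ∫ z in Metric.ball y b, gw κ y z * (1 - psi ε (dist y z)) * v z
        ∂μ := by
      unfold NN
      rw [hJ, ← integral_sub iB iP]
      refine integral_congr_ae (Filter.Eventually.of_forall fun z => ?_)
      simp only
      ring
    have e2 : ∫ z in Metric.ball y b, gw κ y z * (1 - psi ε (dist y z)) * v z ∂μ ≤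
        NC μ κ y v ε := by
      unfold NC
      rw [← integral_indicator Metric.isOpen_ball.measurableSet,
        ← integral_indicator Metric.isClosed_closedBall.measurableSet]
      refine integral_mono_of_nonneg ?_ ?_ ?_
      · filter_upwards [h0] with z hz
        have hz0 : (0:ℝ) ≤ v z := hz
        have g0 := (gw_pos κ y z).le
        have p1 := psi_le_one hε (dist y z)
        by_cases h6 : z ∈ Metric.ball y b
        · rw [indicator_of_mem h6]
          exact mul_nonneg (mul_nonneg g0 (by linarith)) hz0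
        · rw [indicator_of_notMem h6]; exact le_rfl
      · rw [integrable_indicator_iff Metric.isClosed_closedBall.measurableSet]
        exact integrableOn_gw κ y ε v
      · filter_upwards [h0] with z hz
        have hz0 : (0:ℝ) ≤ v z := hz
        have g0 := (gw_pos κ y z).le
        have p0 := psi_nonneg hε (dist y z)
        have p1 := psi_le_one hε (dist y z)
        by_cases h5 : z ∈ Metric.closedBall y ε
        · rw [indicator_of_mem h5]
          by_cases h6 : z ∈ Metric.ball y b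
          · rw [indicator_of_mem h6]
            calc gw κ y z * (1 - psi ε (dist y z)) * v z ≤ gw κ y z * 1 * v z := by
                  gcongr; linarith
              _ = gw κ y z * v z := by ring
          · rw [indicator_of_notMem h6]; positivity
        · rw [indicator_of_notMem h5]
          rw [Metric.mem_closedBall, not_le, dist_comm] at h5
          by_cases h6 : z ∈ Metric.ball y b
          · rw [indicator_of_mem h6, psi_one hε h5.le]; simp
          · rw [indicator_of_notMem h6]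
    linarith
  -- arithmetic
  have hm : (0:ℝ) < (m:ℝ) + 1 := by positivity
  have h6 : J ≤ (3 * 2 ^ m / ε ^ (m + 1) * (b ^ (m + 1) / (m + 1))) * NC μ κ y v ε +
      (b ^ (m + 1) / (m + 1)) * M * (1 / 2) * Real.exp (b ^ 2 / h) := by
    have : h * J ≤ h * ((3 * 2 ^ m / ε ^ (m + 1) * (b ^ (m + 1) / (m + 1))) * NC μ κ y v ε +
      (b ^ (m + 1) / (m + 1)) * M * (1 / 2) * Real.exp (b ^ 2 / h)) := by
      refine h3.trans_eq ?_
      ring
    exact le_of_mul_le_mul_left this hh
  have hE1 : 1 ≤ Real.exp (b ^ 2 / h) := Real.one_le_exp (by positivity)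
  have hbε : 1 ≤ b ^ (m + 1) / ε ^ (m + 1) := by
    rw [one_le_div (by positivity)]
    exact pow_le_pow_left₀ hε.le hb _
  have hbm : b ^ (m + 1) / (m + 1) ≤ b ^ (m + 1) := by
    rw [div_le_iff₀ hm]
    have : 0 ≤ b ^ (m + 1) * m := by positivity
    nlinarith
  set G : ℝ := NC μ κ y v ε / ε ^ (m + 1) with hG
  have hG0 : 0 ≤ G := by positivity
  have hCG : NC μ κ y v ε = G * ε ^ (m + 1) := by rw [hG]; field_simp
  have a1 : NC μ κ y v ε ≤ b ^ (m + 1) * G := by
    calc NC μ κ y v ε = 1 * NC μ κ y v ε := (one_mul _).symm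
      _ ≤ b ^ (m + 1) / ε ^ (m + 1) * NC μ κ y v ε := by gcongr
      _ = b ^ (m + 1) * G := by rw [hG]; ring
  have a2 : (3 * 2 ^ m / ε ^ (m + 1) * (b ^ (m + 1) / (m + 1))) * NC μ κ y v ε ≤
      3 * 2 ^ m * (b ^ (m + 1) * G) := by
    calc (3 * 2 ^ m / ε ^ (m + 1) * (b ^ (m + 1) / (m + 1))) * NC μ κ y v ε
        = 3 * 2 ^ m * ((b ^ (m + 1) / (m + 1)) * G) := by rw [hG]; field_simp
      _ ≤ 3 * 2 ^ m * (b ^ (m + 1) * G) := by gcongr
  have a3 : (b ^ (m + 1) / (m + 1)) * M * (1 / 2) * Real.exp (b ^ 2 / h) ≤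
      b ^ (m + 1) * Real.exp (b ^ 2 / h) * (M / 2) := by
    calc (b ^ (m + 1) / (m + 1)) * M * (1 / 2) * Real.exp (b ^ 2 / h)
        ≤ b ^ (m + 1) * M * (1 / 2) * Real.exp (b ^ 2 / h) := by gcongr
      _ = _ := by ring
  have a4 : (1 + 3 * 2 ^ m) * (b ^ (m + 1) * G) ≤
      b ^ (m + 1) * Real.exp (b ^ 2 / h) * (2 ^ (m + 2) * G) := by
    have h7 : (1:ℝ) ≤ 2 ^ m := one_le_pow₀ (by norm_num)
    have h8 : (2:ℝ) ^ (m + 2) = 4 * 2 ^ m := by rw [pow_add]; ring
    rw [h8]
    have h9 : 0 ≤ b ^ (m + 1) * G := by positivity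
    calc (1 + 3 * 2 ^ m) * (b ^ (m + 1) * G) ≤ (4 * 2 ^ m) * (b ^ (m + 1) * G) := by
          gcongr; linarith
      _ = 1 * ((4 * 2 ^ m) * (b ^ (m + 1) * G)) := (one_mul _).symm
      _ ≤ Real.exp (b ^ 2 / h) * ((4 * 2 ^ m) * (b ^ (m + 1) * G)) := by gcongr
      _ = _ := by ring
  calc NN μ κ y v b ≤ NC μ κ y v ε + J := h4
    _ ≤ b ^ (m + 1) * G + (3 * 2 ^ m * (b ^ (m + 1) * G) +
        b ^ (m + 1) * Real.exp (b ^ 2 / h) * (M / 2)) := by linarith
    _ ≤ b ^ (m + 1) * Real.exp (b ^ 2 / h) * (2 ^ (m + 2) * G) +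
        b ^ (m + 1) * Real.exp (b ^ 2 / h) * (M / 2) := by linarith
    _ = _ := by ring

/-- **(SM)**: mean value inequality at every centre, for all radii. -/
theorem sm [SFinite μ] {n : ℕ} (hn : 1 ≤ n) {κ : ℝ} (W : WLap S n κ) (hκ : 0 ≤ κ) (y : X)
    {v : Lp ℝ 2 μ} (hv : v ∈ S.V) (h0 : 0 ≤ᵐ[μ] (v : X → ℝ)) {h : ℝ} (hh : 0 < h)
    (hsup : Sup S h v) {ε b : ℝ} (hε : 0 < ε) (hb : ε ≤ b) :
    NN μ κ y v b ≤ 2 ^ (n + 2) * Real.exp (b ^ 2 / h) * (b / ε) ^ n * NC μ κ y v ε := by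
  obtain ⟨m, rfl⟩ : ∃ m, n = m + 1 := ⟨n - 1, by omega⟩
  have hb0 : 0 < b := lt_of_lt_of_le hε hb
  have hC0 : 0 ≤ NC μ κ y v ε := NC_nonneg h0 ε
  set A : ℝ := 2 ^ (m + 2) * (NC μ κ y v ε / ε ^ (m + 1)) with hA
  have hA0 : 0 ≤ A := by positivity
  let P : ℝ → Prop := fun M => ∀ τ, ε / 2 ≤ τ → τ ≤ b →
    NN μ κ y v τ ≤ M * τ ^ (m + 1) * Real.exp (τ ^ 2 / h)
  have step : ∀ M, 0 ≤ M → P M → P (A + M / 2) := by
    intro M hM hP τ h1 h2
    rcases le_total τ ε with h3 | h3
    · have hτ0 : 0 < τ := lt_of_lt_of_le (by positivity) h1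
      have h4 : NN μ κ y v τ ≤ NC μ κ y v ε := NN_le_NC h0 h3
      have h5 : NC μ κ y v ε ≤ A * τ ^ (m + 1) := by
        have h6 : ε ^ (m + 1) ≤ 2 ^ (m + 1) * τ ^ (m + 1) := by
          rw [← mul_pow]
          exact pow_le_pow_left₀ hε.le (by linarith) _
        rw [hA]
        have h7 : NC μ κ y v ε = (NC μ κ y v ε / ε ^ (m + 1)) * ε ^ (m + 1) := by field_simp
        have h8 : (2:ℝ) ^ (m + 1) ≤ 2 ^ (m + 2) := pow_le_pow_right₀ (by norm_num) (by omega)
        have h9 : 0 ≤ NC μ κ y v ε / ε ^ (m + 1) := by positivity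
        calc NC μ κ y v ε = (NC μ κ y v ε / ε ^ (m + 1)) * ε ^ (m + 1) := h7
          _ ≤ (NC μ κ y v ε / ε ^ (m + 1)) * (2 ^ (m + 2) * τ ^ (m + 1)) := by
            gcongr
            exact h6.trans (by gcongr)
          _ = _ := by ring
      have hE1 : 1 ≤ Real.exp (τ ^ 2 / h) := Real.one_le_exp (by positivity)
      calc NN μ κ y v τ ≤ A * τ ^ (m + 1) := h4.trans h5
        _ ≤ (A + M / 2) * τ ^ (m + 1) := by gcongr; linarith
        _ = (A + M / 2) * τ ^ (m + 1) * 1 := (mul_one _).symm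
        _ ≤ _ := by gcongr
    · have := sm_step W hκ y hv h0 hh hsup hε h3 hM fun τ' a1 a2 => hP τ' a1 (a2.trans h2)
      rw [← hA] at this
      calc NN μ κ y v τ ≤ _ := this
        _ = _ := by ring
  -- the initial constant
  set M0 : ℝ := NN μ κ y v b / (ε / 2) ^ (m + 1) with hM0
  have hNb : 0 ≤ NN μ κ y v b := NN_nonneg h0 b
  have hM00 : 0 ≤ M0 := by positivity
  have hP0 : P M0 := by
    intro τ h1 h2
    have hτ0 : 0 < τ := lt_of_lt_of_le (by positivity) h1
    have hE1 : 1 ≤ Real.exp (τ ^ 2 / h) := Real.one_le_exp (by positivity)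
    have h3 : (ε / 2) ^ (m + 1) ≤ τ ^ (m + 1) := pow_le_pow_left₀ (by positivity) h1 _
    calc NN μ κ y v τ ≤ NN μ κ y v b := NN_mono h0 h2
      _ = M0 * (ε / 2) ^ (m + 1) := by rw [hM0]; field_simp
      _ ≤ M0 * τ ^ (m + 1) := by gcongr
      _ = M0 * τ ^ (m + 1) * 1 := (mul_one _).symm
      _ ≤ _ := by gcongr
  -- iteration
  have hit : ∀ j : ℕ, 0 ≤ 2 * A + (M0 - 2 * A) / 2 ^ j ∧ P (2 * A + (M0 - 2 * A) / 2 ^ j) := by
    intro j
    induction j with
    | zero => simpa using ⟨hM00, hP0⟩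
    | succ j ih =>
      have e : 2 * A + (M0 - 2 * A) / 2 ^ (j + 1) = A + (2 * A + (M0 - 2 * A) / 2 ^ j) / 2 := by
        rw [pow_succ]; field_simp; ring
      rw [e]
      exact ⟨by have := ih.1; positivity, step _ ih.1 ih.2⟩
  have hlim : Tendsto (fun j : ℕ => (2 * A + (M0 - 2 * A) / 2 ^ j) * b ^ (m + 1) *
      Real.exp (b ^ 2 / h)) atTop (𝓝 ((2 * A + 0) * b ^ (m + 1) * Real.exp (b ^ 2 / h))) := by
    refine ((tendsto_const_nhds.add ?_).mul_const _).mul_const _
    have h1 : Tendsto (fun j : ℕ => (M0 - 2 * A) * ((1 / 2 : ℝ) ^ j)) atTop (𝓝 ((M0 - 2 * A) * 0)) :=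
      (tendsto_pow_atTop_nhds_zero_of_lt_one (by norm_num) (by norm_num)).const_mul _
    rw [mul_zero] at h1
    refine h1.congr fun j => ?_
    rw [div_pow, one_pow]; ring
  have hfin := ge_of_tendsto' hlim fun j => (hit j).2 b (by linarith) le_rfl
  refine hfin.trans_eq ?_
  rw [hA]
  have : (2:ℝ) ^ (m + 1 + 2) = 2 * 2 ^ (m + 2) := by rw [pow_succ]; ring
  rw [this, div_pow, add_zero]
  field_simp

end Crest.Agent.R247.Smv126
end
end

-- ▼ part R247/Smv4_126

/-!
R247, block (5-M) (helper126): (SM) almost everywhere, lower barrier for `R 1_B`, and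
(R2): `(R_h φ)(y) ≥ c b⁻ⁿ ∫_{B(y,b/2)} φ` for a.e. `y`.
-/

set_option autoImplicit false
set_option linter.unusedSectionVars false

open MeasureTheory Filter Topology Set
open scoped RealInnerProductSpace ENNReal NNReal

noncomputable section

namespace Crest.Agent.R247.Smv126

open Crest.Agent.R242
open Crest.Agent.R247.Dir593 Crest.Agent.R247.Dir593.GradS

/-- doubling from a `Rad` structure -/
theorem doubling_of_rad {n : ℕ} {κ : ℝ} {X : Type*} [MetricSpace X] [MeasurableSpace X]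
    [BorelSpace X] {μ : Measure X} (C : Mcp688.Rad n κ X μ) (hκ : 0 ≤ κ) :
    IsUnifLocDoublingMeasure μ := by
  refine ⟨⟨Real.toNNReal (Real.exp (2 * κ) * 2 ^ n), ?_⟩⟩
  filter_upwards [Ioo_mem_nhdsGT (zero_lt_one' ℝ)] with ε hε x
  have h1 := C.measure_closedBall_le hκ x hε.1 (R := 2 * ε) (by linarith [hε.1])
  refine h1.trans ?_
  have e : ((Real.toNNReal (Real.exp (2 * κ) * 2 ^ n) : ℝ≥0) : ℝ≥0∞) =
      ENNReal.ofReal (Real.exp (2 * κ) * 2 ^ n) := rfl
  rw [e]
  have hε0 : ε ≠ 0 := hε.1.ne'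
  have h2 : 2 * ε / ε = 2 := by field_simp
  rw [h2]
  refine mul_le_mul_left (ENNReal.ofReal_le_ofReal ?_) _
  have h3 : κ * (2 * ε) ^ 2 / 2 ≤ 2 * κ := by
    have : ε ^ 2 ≤ 1 := pow_le_one₀ hε.1.le hε.2.le
    nlinarith
  have h4 : Real.exp (κ * (2 * ε) ^ 2 / 2) ≤ Real.exp (2 * κ) := Real.exp_le_exp.2 h3
  exact mul_le_mul_of_nonneg_right h4 (by positivity)

variable {X : Type*} [MetricSpace X] [MeasurableSpace X] {F : Type*}
  [NormedAddCommGroup F] [InnerProductSpace ℝ F] {μ : Measure X} [BorelSpace X]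
  [IsFiniteMeasureOnCompacts μ] [ProperSpace X] {S : GradS X F μ}

/-- supersolutions in the sense of the form -/
theorem sup_of_form [CompleteSpace F] {hd : Dense (S.V : Set (Lp ℝ 2 μ))} {v : Lp ℝ 2 μ} {h : ℝ}
    (hs : ∀ w ∈ S.V, 0 ≤ᵐ[μ] (w : X → ℝ) → 0 ≤ h * (S.form hd).E v w + ⟪v, w⟫) : Sup S h v := by
  intro φ hφ h0
  have h1 := hs (tL hφ) (S.tL_mem hφ) (by
    filter_upwards [coe_tL (μ := μ) hφ] with z hz
    rw [hz]; exact h0 z)
  refine h1.trans_eq ?_
  rw [form_E, L2.inner_def, integral_add (integrable_vφ v hφ)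
    ((integrable_DG (S.D v) hφ).const_mul h), integral_const_mul, add_comm]
  congr 1
  · refine integral_congr_ae ?_
    filter_upwards [coe_tL (μ := μ) hφ] with z hz
    rw [hz]; simp [mul_comm]
  · congr 1
    refine integral_congr_ae ?_
    filter_upwards [S.D_tL hφ] with z hz
    rw [hz]

/-- **(SM)** at almost every point. -/
theorem sm_ae [SFinite μ] [IsUnifLocDoublingMeasure μ] {n : ℕ} (hn : 1 ≤ n) {κ : ℝ}
    (W : WLap S n κ) (hκ : 0 ≤ κ) {v : Lp ℝ 2 μ} (hv : v ∈ S.V) (h0 : 0 ≤ᵐ[μ] (v : X → ℝ))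
    {h : ℝ} (hh : 0 < h) (hsup : Sup S h v) :
    ∀ᵐ y ∂μ, ∀ v1 : ℝ, 0 ≤ v1 →
      (∀ᶠ ε in 𝓝[>] (0:ℝ), μ (Metric.closedBall y ε) ≤ ENNReal.ofReal (v1 * ε ^ n)) →
      ∀ b : ℝ, 0 < b → ∫ z in Metric.ball y b, v z ∂μ ≤
        2 ^ (n + 2) * Real.exp (b ^ 2 / h + κ * b ^ 2 / 2) * v1 * b ^ n * v y := by
  have : IsLocallyFiniteMeasure μ := isLocallyFiniteMeasure_of_isFiniteMeasureOnCompacts
  have hloc : LocallyIntegrable (v : X → ℝ) μ := (Lp.memLp v).locallyIntegrable (by norm_num)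
  filter_upwards [IsUnifLocDoublingMeasure.ae_tendsto_average μ hloc 1] with y hy v1 hv1 hup b hb
  have hA : Tendsto (fun ε : ℝ => ⨍ z in Metric.closedBall y ε, v z ∂μ) (𝓝[>] 0) (𝓝 (v y)) := by
    refine hy (fun _ => y) (fun ε => ε) tendsto_id ?_
    filter_upwards [self_mem_nhdsWithin] with ε hε
    rw [Metric.mem_closedBall, dist_self, one_mul]
    exact le_of_lt hε
  have hvb : IntegrableOn v (Metric.closedBall y b) μ :=
    integrableOn_of_L2 v Metric.isClosed_closedBall.measurableSet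
      (isCompact_closedBall y b).measure_lt_top.ne
  -- first the weighted mass
  have h1 : NN μ κ y v b ≤ 2 ^ (n + 2) * Real.exp (b ^ 2 / h) * b ^ n * (v1 * v y) := by
    refine ge_of_tendsto ((hA.const_mul v1).const_mul _) ?_
    filter_upwards [hup, Ioc_mem_nhdsGT hb] with ε e1 e2
    have hε : 0 < ε := e2.1
    have h2 := sm hn W hκ y hv h0 hh hsup hε e2.2
    have hvε : IntegrableOn v (Metric.closedBall y ε) μ :=
      hvb.mono_set (Metric.closedBall_subset_closedBall e2.2)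
    have h3 : NC μ κ y v ε ≤ ∫ z in Metric.closedBall y ε, v z ∂μ := by
      unfold NC
      refine integral_mono_of_nonneg ?_ hvε ?_
      · refine ae_restrict_of_ae ?_
        filter_upwards [h0] with z hz
        exact mul_nonneg (gw_pos κ y z).le hz
      · refine ae_restrict_of_ae ?_
        filter_upwards [h0] with z hz
        have hz0 : (0:ℝ) ≤ v z := hz
        calc gw κ y z * v z ≤ 1 * v z := by gcongr; exact gw_le_one hκ y z
          _ = v z := one_mul _
    have hI0 : 0 ≤ ∫ z in Metric.closedBall y ε, v z ∂μ :=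
      integral_nonneg_of_ae (ae_restrict_of_ae h0)
    have hfin : μ (Metric.closedBall y ε) ≠ ∞ := (isCompact_closedBall y ε).measure_lt_top.ne
    have h4 : ∫ z in Metric.closedBall y ε, v z ∂μ =
        μ.real (Metric.closedBall y ε) * ⨍ z in Metric.closedBall y ε, v z ∂μ := by
      rw [← smul_eq_mul, measure_smul_setAverage _ hfin]
    have hav0 : 0 ≤ ⨍ z in Metric.closedBall y ε, v z ∂μ := by
      rw [setAverage_eq, smul_eq_mul]
      exact mul_nonneg (by positivity) hI0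
    have h5 : μ.real (Metric.closedBall y ε) ≤ v1 * ε ^ n :=
      ENNReal.toReal_le_of_le_ofReal (by positivity) e1
    have h6 : NC μ κ y v ε ≤ v1 * ε ^ n * ⨍ z in Metric.closedBall y ε, v z ∂μ := by
      refine h3.trans ?_
      rw [h4]
      gcongr
    calc NN μ κ y v b ≤ 2 ^ (n + 2) * Real.exp (b ^ 2 / h) * (b / ε) ^ n * NC μ κ y v ε := h2
      _ ≤ 2 ^ (n + 2) * Real.exp (b ^ 2 / h) * (b / ε) ^ n *
          (v1 * ε ^ n * ⨍ z in Metric.closedBall y ε, v z ∂μ) := by gcongr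
      _ = 2 ^ (n + 2) * Real.exp (b ^ 2 / h) * b ^ n *
          (v1 * ⨍ z in Metric.closedBall y ε, v z ∂μ) := by
        rw [div_pow]; field_simp
  have h2 : ∫ z in Metric.ball y b, v z ∂μ ≤ Real.exp (κ * b ^ 2 / 2) * NN μ κ y v b := by
    unfold NN
    rw [← integral_const_mul]
    refine setIntegral_mono_on_ae (hvb.mono_set Metric.ball_subset_closedBall)
      (((integrableOn_gw κ y b v).mono_set Metric.ball_subset_closedBall).const_mul _)
      Metric.isOpen_ball.measurableSet ?_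
    filter_upwards [h0] with z hz hzb
    have hz0 : (0:ℝ) ≤ v z := hz
    have hd : dist y z ≤ b := (Metric.mem_ball'.1 hzb).le
    have h3 : 1 ≤ Real.exp (κ * b ^ 2 / 2) * gw κ y z := by
      unfold gw
      rw [← Real.exp_add, Real.one_le_exp_iff]
      have : dist y z ^ 2 ≤ b ^ 2 := pow_le_pow_left₀ dist_nonneg hd 2
      nlinarith
    calc v z = 1 * v z := (one_mul _).symm
      _ ≤ (Real.exp (κ * b ^ 2 / 2) * gw κ y z) * v z := by gcongr
      _ = _ := by ring
  refine h2.trans ((mul_le_mul_of_nonneg_left h1 (Real.exp_pos _).le).trans_eq ?_)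
  rw [Real.exp_add]
  ring

/-! ### the lower barrier -/

/-- `(1 - s²/b²)⁺` -/
def r1 (b s : ℝ) : ℝ := max (1 - s ^ 2 / b ^ 2) 0

theorem hasDerivAt_p (b s : ℝ) :
    HasDerivAt (fun s : ℝ => 1 - s ^ 2 / b ^ 2) (-(2 * s / b ^ 2)) s := by
  have := ((hasDerivAt_pow 2 s).div_const (b ^ 2)).const_sub 1
  simpa using this

theorem hasDerivAt_c2 (b s : ℝ) :
    HasDerivAt (fun s => r1 b s ^ 2) (-(4 * s / b ^ 2) * r1 b s) s := by
  have h1 := (hasDerivAt_sq_max (1 - s ^ 2 / b ^ 2)).comp s (hasDerivAt_p b s)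
  refine h1.congr_deriv ?_
  unfold r1; ring

theorem r1_mul (b s : ℝ) : r1 b s * (1 - s ^ 2 / b ^ 2) = r1 b s ^ 2 := by
  unfold r1
  rcases le_total (1 - s ^ 2 / b ^ 2) 0 with h | h
  · rw [max_eq_right h]; ring
  · rw [max_eq_left h]; ring

theorem c3_eq (b s : ℝ) : r1 b s ^ 3 = r1 b s ^ 2 * (1 - s ^ 2 / b ^ 2) := by
  rw [pow_succ (r1 b s) 2, pow_two, mul_assoc, mul_assoc, ← pow_two, ← r1_mul]

theorem hasDerivAt_c3 (b s : ℝ) :
    HasDerivAt (fun s => r1 b s ^ 3) (-(6 * s / b ^ 2) * r1 b s ^ 2) s := by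
  have e : (fun s => r1 b s ^ 3) = fun s => r1 b s ^ 2 * (1 - s ^ 2 / b ^ 2) :=
    funext fun s => c3_eq b s
  rw [e]
  refine ((hasDerivAt_c2 b s).mul (hasDerivAt_p b s)).congr_deriv ?_
  have := r1_mul b s
  calc -(4 * s / b ^ 2) * r1 b s * (1 - s ^ 2 / b ^ 2) + r1 b s ^ 2 * -(2 * s / b ^ 2)
      = -(4 * s / b ^ 2) * (r1 b s * (1 - s ^ 2 / b ^ 2)) + r1 b s ^ 2 * -(2 * s / b ^ 2) := by ring
    _ = _ := by rw [this]; ring

theorem continuous_r1 (b : ℝ) : Continuous (r1 b) := by unfold r1; fun_prop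

theorem contDiff_c2 (b : ℝ) : ContDiff ℝ 1 (fun s => r1 b s ^ 2) := by
  refine contDiff_one_iff_deriv.2 ⟨fun s => (hasDerivAt_c2 b s).differentiableAt, ?_⟩
  have : deriv (fun s => r1 b s ^ 2) = fun s => -(4 * s / b ^ 2) * r1 b s :=
    funext fun s => (hasDerivAt_c2 b s).deriv
  rw [this]
  exact (by fun_prop : Continuous fun s : ℝ => -(4 * s / b ^ 2)).mul (continuous_r1 b)

theorem contDiff_c3 (b : ℝ) : ContDiff ℝ 1 (fun s => r1 b s ^ 3) := by
  refine contDiff_one_iff_deriv.2 ⟨fun s => (hasDerivAt_c3 b s).differentiableAt, ?_⟩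
  have : deriv (fun s => r1 b s ^ 3) = fun s => -(6 * s / b ^ 2) * r1 b s ^ 2 :=
    funext fun s => (hasDerivAt_c3 b s).deriv
  rw [this]
  exact (by fun_prop : Continuous fun s : ℝ => -(6 * s / b ^ 2)).mul ((continuous_r1 b).pow 2)

theorem r1_zero {b s : ℝ} (hb : 0 < b) (h : b ≤ s) : r1 b s = 0 := by
  unfold r1
  rw [max_eq_right]
  have : 1 ≤ s ^ 2 / b ^ 2 := by
    rw [one_le_div (by positivity)]
    exact pow_le_pow_left₀ hb.le h 2
  linarith

theorem r1_nonneg (b s : ℝ) : 0 ≤ r1 b s := le_max_right _ _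

theorem r1_le_one {b s : ℝ} (hb : 0 < b) : r1 b s ≤ 1 := by
  unfold r1
  refine max_le ?_ zero_le_one
  have : 0 ≤ s ^ 2 / b ^ 2 := by positivity
  linarith

theorem r1_half {b s : ℝ} (hb : 0 < b) (h0 : 0 ≤ s) (h : s ≤ b / 2) : 3 / 4 ≤ r1 b s := by
  unfold r1
  refine le_max_of_le_left ?_
  have : s ^ 2 / b ^ 2 ≤ 1 / 4 := by
    rw [div_le_iff₀ (by positivity)]
    nlinarith
  linarith

/-- **lower barrier**: `(1 - d_y²/b²)₊³ ≤ (1 + 6 h (n + κ b²)/b²) R_h 1_{B(y,b)}` -/
theorem barrier [CompleteSpace F] (hd : Dense (S.V : Set (Lp ℝ 2 μ))) {n : ℕ} {κ : ℝ}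
    (W : WLap S n κ) (hκ : 0 ≤ κ) (y : X) {h b : ℝ} (hh : 0 < h) (hb : 0 < b)
    (hB : MeasurableSet (Metric.ball y b)) (hμ : μ (Metric.ball y b) ≠ ∞) :
    ∀ᵐ z ∂μ, r1 b (dist y z) ^ 3 ≤ (1 + 6 * h * (n + κ * b ^ 2) / b ^ 2) *
      (S.form hd).res h (ind hB hμ) z := by
  have T3 : IsT fun z => r1 b (dist y z) ^ 3 :=
    isT_radial y (contDiff_c3 b) (R := b) fun s hs => by rw [r1_zero hb hs]; norm_num
  have T2 : IsT fun z => r1 b (dist y z) ^ 2 :=
    isT_radial y (contDiff_c2 b) (R := b) fun s hs => by rw [r1_zero hb hs]; norm_num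
  set Q := S.form hd with hQ
  set c : ℝ := 1 + 6 * h * (n + κ * b ^ 2) / b ^ 2 with hc
  have key := (S.markov hd).le_resD_sub hh (l := (Fnl.ofInner Q (ind hB hμ)).smul c)
    (v := tL T3) (S.tL_mem T3) ?_
  · rw [resD_smul hh, resD_ofInner hh] at key
    filter_upwards [key, coe_tL (μ := μ) T3, Lp.coeFn_smul c (Q.res h (ind hB hμ))] with z e1 e2 e3
    rw [e2, e3, Pi.smul_apply, smul_eq_mul] at e1
    exact e1
  · intro w hw hw0
    obtain ⟨i1, i2, k2⟩ := W.lapV y hw hw0 T2 fun z => sq_nonneg _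
    rw [integral_add i1 i2] at k2
    have iw : IntegrableOn w (Metric.ball y b) μ := integrableOn_of_L2 w hB hμ
    have hIw0 : 0 ≤ ∫ z in Metric.ball y b, w z ∂μ :=
      integral_nonneg_of_ae (ae_restrict_of_ae hw0)
    -- the zeroth order term
    have k3 : ∫ z, (((n:ℝ) + κ * dist y z ^ 2) * r1 b (dist y z) ^ 2 +
        ⟪S.G (hf y) z, S.G (fun z => r1 b (dist y z) ^ 2) z⟫) * w z ∂μ ≤
        (n + κ * b ^ 2) * ∫ z in Metric.ball y b, w z ∂μ := by
      rw [← integral_const_mul, ← integral_indicator hB]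
      refine integral_mono_ae i1 ((integrable_indicator_iff hB).2 (iw.const_mul _)) ?_
      filter_upwards [W.inner_radial y (contDiff_c2 b), hw0] with z e1 e2
      have e20 : (0:ℝ) ≤ w z := e2
      rw [e1, (hasDerivAt_c2 b (dist y z)).deriv]
      have d0 : 0 ≤ dist y z := dist_nonneg
      have r0 := r1_nonneg b (dist y z)
      by_cases hz : z ∈ Metric.ball y b
      · rw [indicator_of_mem hz]
        have hzb : dist y z ≤ b := (Metric.mem_ball'.1 hz).le
        have a1 : dist y z * (-(4 * dist y z / b ^ 2) * r1 b (dist y z)) ≤ 0 := by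
          have : 0 ≤ dist y z * ((4 * dist y z / b ^ 2) * r1 b (dist y z)) := by positivity
          linarith
        have a2 : ((n:ℝ) + κ * dist y z ^ 2) * r1 b (dist y z) ^ 2 ≤ (n + κ * b ^ 2) * 1 := by
          have := r1_le_one (s := dist y z) hb
          have h1 : r1 b (dist y z) ^ 2 ≤ 1 := pow_le_one₀ r0 this
          gcongr
        have a3 := add_le_add a2 a1
        calc _ ≤ ((n + κ * b ^ 2) * 1 + 0) * w z := by gcongr
          _ = _ := by ring
      · rw [indicator_of_notMem hz]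
        have hzb : b ≤ dist y z := not_lt.1 fun h => hz (Metric.mem_ball'.2 h)
        rw [r1_zero hb hzb]; simp
    -- the energy
    have k4 : Q.E (tL T3) w = -(6 / b ^ 2) * ∫ z, r1 b (dist y z) ^ 2 *
        ⟪S.G (hf y) z, S.D w z⟫ ∂μ := by
      rw [hQ, form_E, ← integral_const_mul]
      refine integral_congr_ae ?_
      filter_upwards [S.D_tL T3, G_comp S y (contDiff_c3 b), G_hf S y] with z e1 e2 e3
      rw [e1, e2, e3, (hasDerivAt_c3 b (dist y z)).deriv, real_inner_smul_left,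
        real_inner_smul_left]
      ring
    have k5 : (⟪(tL T3 : Lp ℝ 2 μ), w⟫ : ℝ) ≤ ∫ z in Metric.ball y b, w z ∂μ := by
      rw [L2.inner_def, ← integral_indicator hB]
      refine integral_mono_ae (L2.integrable_inner _ _) ((integrable_indicator_iff hB).2 iw) ?_
      filter_upwards [coe_tL (μ := μ) T3, hw0] with z e1 e2
      have e20 : (0:ℝ) ≤ w z := e2
      rw [e1]
      have e3 : (inner ℝ (r1 b (dist y z) ^ 3) (w z) : ℝ) = r1 b (dist y z) ^ 3 * w z := by
        simp [mul_comm]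
      rw [e3]
      by_cases hz : z ∈ Metric.ball y b
      · rw [indicator_of_mem hz]
        have h1 : r1 b (dist y z) ^ 3 ≤ 1 := pow_le_one₀ (r1_nonneg _ _) (r1_le_one hb)
        calc r1 b (dist y z) ^ 3 * w z ≤ 1 * w z := by gcongr
          _ = w z := one_mul _
      · rw [indicator_of_notMem hz]
        have hzb : b ≤ dist y z := not_lt.1 fun h => hz (Metric.mem_ball'.2 h)
        rw [r1_zero hb hzb]; simp
    show h * Q.E (tL T3) w + ⟪(tL T3 : Lp ℝ 2 μ), w⟫ ≤ c * ⟪ind hB hμ, w⟫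
    have k6 : (⟪ind hB hμ, w⟫ : ℝ) = ∫ z in Metric.ball y b, w z ∂μ := by
      rw [real_inner_comm, inner_ind]
    rw [k6, k4]
    set I2 : ℝ := ∫ z, r1 b (dist y z) ^ 2 * ⟪S.G (hf y) z, S.D w z⟫ ∂μ with hI2
    set Iw : ℝ := ∫ z in Metric.ball y b, w z ∂μ with hIw
    have h7 : -I2 ≤ (n + κ * b ^ 2) * Iw := by linarith
    have h8 : h * (-(6 / b ^ 2) * I2) ≤ (6 * h / b ^ 2) * ((n + κ * b ^ 2) * Iw) := by
      have e : h * (-(6 / b ^ 2) * I2) = (6 * h / b ^ 2) * (-I2) := by ring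
      rw [e]
      gcongr
    have e9 : c * Iw = Iw + (6 * h / b ^ 2) * ((n + κ * b ^ 2) * Iw) := by rw [hc]; ring
    rw [e9]
    linarith

/-- **(R2)**: lower bound of the resolvent by local means, at almost every point. -/
theorem r2 [SFinite μ] [IsUnifLocDoublingMeasure μ] [CompleteSpace F]
    (hd : Dense (S.V : Set (Lp ℝ 2 μ))) {n : ℕ} (hn : 1 ≤ n) {κ : ℝ}
    (W : WLap S n κ) (hκ : 0 ≤ κ) {φ : Lp ℝ 2 μ} (h0 : 0 ≤ᵐ[μ] (φ : X → ℝ))
    {h : ℝ} (hh : 0 < h) :
    ∀ᵐ y ∂μ, ∀ v1 : ℝ, 0 ≤ v1 →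
      (∀ᶠ ε in 𝓝[>] (0:ℝ), μ (Metric.closedBall y ε) ≤ ENNReal.ofReal (v1 * ε ^ n)) →
      ∀ b : ℝ, 0 < b → ∫ z in Metric.ball y (b / 2), φ z ∂μ ≤
        64 / 27 * (1 + 6 * h * (n + κ * b ^ 2) / b ^ 2) *
        (2 ^ (n + 2) * Real.exp (b ^ 2 / h + κ * b ^ 2 / 2) * v1 * b ^ n) *
        (S.form hd).res h φ y := by
  set v : Lp ℝ 2 μ := (S.form hd).res h φ with hvdef
  have hv : v ∈ S.V := (S.form hd).res_mem hh φ
  have hv0 : 0 ≤ᵐ[μ] (v : X → ℝ) := (S.markov hd).res_nonneg hh h0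
  have hsup : Sup S h v := by
    refine sup_of_form (hd := hd) fun w hw hw0 => ?_
    have h1 := (S.form hd).res_eq hh φ hw
    rw [← hvdef] at h1
    have h2 : (0:ℝ) ≤ ⟪φ, w⟫ := by
      rw [L2.inner_def]
      refine integral_nonneg_of_ae ?_
      filter_upwards [h0, hw0] with z e1 e2
      have : (inner ℝ (φ z) (w z) : ℝ) = φ z * w z := by simp [mul_comm]
      simp only [Pi.zero_apply]
      rw [this]
      exact mul_nonneg e1 e2
    rw [h1]
    exact h2
  filter_upwards [sm_ae hn W hκ hv hv0 hh hsup] with y hy v1 hv1 hup b hb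
  have h1 := hy v1 hv1 hup b hb
  have hB : MeasurableSet (Metric.ball y b) := Metric.isOpen_ball.measurableSet
  have hμ : μ (Metric.ball y b) ≠ ∞ :=
    ((measure_mono Metric.ball_subset_closedBall).trans_lt
      (isCompact_closedBall y b).measure_lt_top).ne
  have h2 := barrier hd W hκ y hh hb hB hμ
  set c : ℝ := 1 + 6 * h * (n + κ * b ^ 2) / b ^ 2 with hc
  have hc0 : 0 ≤ c := by positivity
  -- symmetry
  have h3 : ∫ z in Metric.ball y b, v z ∂μ = ⟪(S.form hd).res h (ind hB hμ), φ⟫ := by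
    rw [← inner_ind _ hB hμ, hvdef, (S.form hd).res_symm, real_inner_comm]
  have h4 : ∫ z in Metric.ball y (b / 2), φ z ∂μ ≤
      64 / 27 * (c * ⟪(S.form hd).res h (ind hB hμ), φ⟫) := by
    rw [L2.inner_def, ← integral_const_mul, ← integral_const_mul,
      ← integral_indicator Metric.isOpen_ball.measurableSet]
    refine integral_mono_ae ?_ ((((L2.integrable_inner _ _).const_mul c)).const_mul _) ?_
    · refine (integrable_indicator_iff Metric.isOpen_ball.measurableSet).2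
        (integrableOn_of_L2 φ Metric.isOpen_ball.measurableSet ?_)
      exact ((measure_mono Metric.ball_subset_closedBall).trans_lt
        (isCompact_closedBall y (b / 2)).measure_lt_top).ne
    · filter_upwards [h2, h0] with z e1 e2
      have e20 : (0:ℝ) ≤ φ z := e2
      have e3 : (inner ℝ ((S.form hd).res h (ind hB hμ) z) (φ z) : ℝ) =
          (S.form hd).res h (ind hB hμ) z * φ z := by simp [mul_comm]
      rw [e3, ← mul_assoc c]
      by_cases hz : z ∈ Metric.ball y (b / 2)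
      · rw [indicator_of_mem hz]
        have h5 := r1_half hb (dist_nonneg (x := y) (y := z)) (Metric.mem_ball'.1 hz).le
        have h6 : (27:ℝ) / 64 ≤ r1 b (dist y z) ^ 3 := by
          have : ((3:ℝ) / 4) ^ 3 ≤ r1 b (dist y z) ^ 3 := pow_le_pow_left₀ (by norm_num) h5 3
          linarith [this, (by norm_num : ((3:ℝ) / 4) ^ 3 = 27 / 64)]
        have h7 : (27:ℝ) / 64 ≤ c * (S.form hd).res h (ind hB hμ) z := h6.trans e1
        calc φ z = 64 / 27 * ((27 / 64) * φ z) := by ring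
          _ ≤ 64 / 27 * ((c * (S.form hd).res h (ind hB hμ) z) * φ z) := by gcongr
      · rw [indicator_of_notMem hz]
        have h6 : 0 ≤ r1 b (dist y z) ^ 3 := pow_nonneg (r1_nonneg _ _) 3
        have h7 : 0 ≤ c * (S.form hd).res h (ind hB hμ) z := h6.trans e1
        positivity
  rw [← h3] at h4
  calc ∫ z in Metric.ball y (b / 2), φ z ∂μ ≤ 64 / 27 * (c * ∫ z in Metric.ball y b, v z ∂μ) := h4
    _ ≤ 64 / 27 * (c * (2 ^ (n + 2) * Real.exp (b ^ 2 / h + κ * b ^ 2 / 2) * v1 * b ^ n * v y)) := by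
      gcongr
    _ = _ := by ring

end Crest.Agent.R247.Smv126
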