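import Crest.Agent.R247.Sv5_436
import Crest.Agent.R247.Smv4_126
import Crest.Agent.R247.Obj1_554
import Crest.Agent.R247.Fd0_656
import Crest.Agent.R247.Obj2_554
import Crest.Agent.R247.Dec3_386
import Crest.Agent.R247.Gb4_593_Mg
import Crest.Agent.R247.Obj3_554
import Crest.Agent.R247.Hes6_124

-- ▼ part R247/Sv6_436
section

/-! # R247, leaf (1-S): assembly of `LocIn` from the resolvent side, and the literal `d1a` / input
of `d1b` of `FarD`. -/

set_option autoImplicit false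
set_option linter.unusedSectionVars false
open MeasureTheory Set Filter Topology Metric TopologicalSpace
open scoped ENNReal NNReal

noncomputable section
namespace Crest.Agent.R247.Sv436

open Crest.Agent.R247.Mcp688 Crest.Agent.R247.Far553

variable {n : ℕ} {κ : ℝ} {X : Type*} [MetricSpace X] [MeasurableSpace X] [BorelSpace X]
  {μ : Measure X}

/-- survival bound along the rays for a continuous `Q`: every fraction -/
theorem surv_ray_cont [SeparableSpace X] [SFinite μ] (C : Rad n κ X μ)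
    {h : X → X → ℝ} {R0 : ℝ}
    (H : HalfSq h R0) {x : X} {Q : X → ℝ} {A C0 : ℝ} (hS : SurvIn μ h x Q A C0)
    (hQ : ∀ R, ∃ L, ∀ y z, dist x y ≤ R → dist x z ≤ R → |Q y - Q z| ≤ L * dist y z) :
    ∀ᵐ v ∂μ, 0 < dist x v → dist x v < R0 → ∀ t ∈ Ioo (0 : ℝ) 1,
      Q (C.T x t v) ≤ C0 / (1 - t) := by
  filter_upwards [surv_ray C H hS, C.ae_U x] with v hv hU h0 hR t ht
  obtain ⟨L, hL⟩ := hQ (dist x v)
  have hae := hv h0 hR
  -- continuity of `t ↦ Q (T x t v)` on `(0,1)`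
  have hcont : ContinuousOn (fun t : ℝ => Q (C.T x t v)) (Ioo 0 1) := by
    have hlip : LipschitzOnWith (Real.toNNReal (|L| * dist x v))
        (fun t : ℝ => Q (C.T x t v)) (Ioo 0 1) := by
      apply LipschitzOnWith.of_dist_le_mul
      intro a ha b hb
      have ha' : a ∈ Icc (0 : ℝ) 1 := ⟨ha.1.le, ha.2.le⟩
      have hb' : b ∈ Icc (0 : ℝ) 1 := ⟨hb.1.le, hb.2.le⟩
      rw [Real.coe_toNNReal _ (by positivity), Real.dist_eq, Real.dist_eq]
      have h1 : ∀ s ∈ Icc (0 : ℝ) 1, dist x (C.T x s v) ≤ dist x v := by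
        intro s hs
        rw [C.dist_left hU hs]
        calc s * dist x v ≤ 1 * dist x v := by gcongr; exact hs.2
          _ = _ := one_mul _
      calc |Q (C.T x a v) - Q (C.T x b v)| ≤ L * dist (C.T x a v) (C.T x b v) :=
            hL _ _ (h1 a ha') (h1 b hb')
        _ ≤ |L| * dist (C.T x a v) (C.T x b v) := by gcongr; exact le_abs_self L
        _ = _ := by rw [C.dist_T x v hU a ha' b hb']; ring
    exact hlip.continuousOn
  have hcont2 : ContinuousOn (fun t : ℝ => C0 / (1 - t)) (Ioo 0 1) := by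
    refine ContinuousOn.div continuousOn_const
      (f := fun _ => C0) (g := fun s : ℝ => 1 - s) (by fun_prop) fun s hs => ?_
    have h2 := hs.2
    exact (sub_pos.2 h2).ne'
  by_contra hcon
  push Not at hcon
  have hopen : IsOpen {s : ℝ | s ∈ Ioo (0 : ℝ) 1 ∧ C0 / (1 - s) < Q (C.T x s v)} := by
    have : {s : ℝ | s ∈ Ioo (0 : ℝ) 1 ∧ C0 / (1 - s) < Q (C.T x s v)} =
        Ioo (0 : ℝ) 1 ∩ (fun s => Q (C.T x s v) - C0 / (1 - s)) ⁻¹' Ioi 0 := by
      ext s
      simp [sub_pos]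
    rw [this]
    exact (hcont.sub hcont2).isOpen_inter_preimage isOpen_Ioo isOpen_Ioi
  have hne : {s : ℝ | s ∈ Ioo (0 : ℝ) 1 ∧ C0 / (1 - s) < Q (C.T x s v)}.Nonempty :=
    ⟨t, ht, hcon⟩
  have hpos := hopen.measure_pos (volume : Measure ℝ) hne
  have hzero : volume {s : ℝ | s ∈ Ioo (0 : ℝ) 1 ∧ C0 / (1 - s) < Q (C.T x s v)} = 0 := by
    have h1 := (ae_restrict_iff' measurableSet_Ioo).1 hae
    refine measure_mono_null ?_ h1
    rintro s ⟨hs1, hs2⟩
    simp only [mem_compl_iff, mem_ofPred_eq, not_forall]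
    exact ⟨hs1, not_le.2 hs2⟩
  rw [hzero] at hpos
  exact lt_irrefl _ hpos

/-- **`LocIn` from the resolvent side**: `q` (= representative of `q_ρ`), `rq` (= `R q_ρ`),
`er ≥ 0` (all error terms), `S` with `F² ≤ S`,
`P E = R 1_E`, `(hHF)` the integrated identity (inequality) tested with indicators, `(hR2)` the
lower bound for the resolvent, `(hSq)`, `(hSr)` the survival inputs. -/
theorem locIn_of [SecondCountableTopology X] [SFinite μ] [SigmaFinite μ] (C : Rad n κ X μ)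
    {x : X} {h : X → X → ℝ} {R0 K ρ cK V A C0 CE CS : ℝ} (hρ : 0 < ρ)
    (hcK : 0 < cK) (hV : 0 ≤ V) (hCE : 0 ≤ CE) (hCS : 0 ≤ CS)
    (H : HalfSq h R0) {F S q D rq er : X → ℝ}
    (hF : Measurable F) (hF0 : ∀ z, 0 ≤ F z) (hS : Measurable S) (hFS : ∀ z, F z ^ 2 ≤ S z)
    (hvol : ∀ y, dist x y ≤ R0 → μ (ball y (K * ρ)) ≤ ENNReal.ofReal (V * ρ ^ n))
    (hq : Measurable q) (hq0 : ∀ z, 0 ≤ q z) (hrq : Measurable rq) (hrq0 : ∀ z, 0 ≤ rq z)
    (her : Measurable er) (her0 : ∀ z, 0 ≤ er z) (herC : ∀ z, dist x z ≤ R0 → er z ≤ CE)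
    (hRD : RD C x q D)
    (hlip : ∀ R, ∃ L, ∀ y z, dist x y ≤ R → dist x z ≤ R → |q y - q z| ≤ L * dist y z)
    (hrqb : ∃ M, ∀ᵐ z ∂μ, dist x z ≤ R0 → rq z ≤ M)
    (hint : IntegrableOn (fun z => D z - q z + (2 * rq z + er z)) (closedBall x R0) μ)
    (P : Set X → X → ℝ≥0∞)
    (hHF : ∀ E, MeasurableSet E → E ⊆ closedBall x R0 →
      ∫⁻ z, ENNReal.ofReal (S z) * P E z ∂μ ≤
        ENNReal.ofReal (CS * ∫ z in E, (D z - q z + (2 * rq z + er z)) ∂μ) ∧
      0 ≤ ∫ z in E, (D z - q z + (2 * rq z + er z)) ∂μ)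
    (hR2 : ∀ E, MeasurableSet E → E ⊆ closedBall x R0 →
      ∀ᵐ z ∂μ, ENNReal.ofReal cK * loc μ n K ρ (E.indicator fun _ => 1) z ≤ P E z)
    (hSq : SurvIn μ h x q A C0) (hSr : SurvIn μ h x rq A C0) (hC0 : 0 ≤ C0) :
    LocIn C x R0 K ρ (V * (cK⁻¹ * CS)) (2 * C0 + CE) F q D (fun z => 2 * rq z + er z) := by
  have hpl := ploc (μ := μ) n hcK hS (hint.const_mul CS) P (x := x) (K := K) (ρ := ρ)
    (g := fun z => CS * (D z - q z + (2 * rq z + er z))) (fun E hE hsub => by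
      obtain ⟨h1, h2⟩ := hHF E hE hsub
      rw [integral_const_mul]
      exact ⟨h1, mul_nonneg hCS h2⟩) hR2
  have hg0 : ∀ᵐ y ∂μ, dist x y ≤ R0 → 0 ≤ D y - q y + (2 * rq y + er y) := by
    have hB : MeasurableSet (closedBall x R0) := isClosed_closedBall.measurableSet
    have key3 : ∀ᵐ y ∂(μ.restrict (closedBall x R0)), 0 ≤ D y - q y + (2 * rq y + er y) := by
      refine ae_nonneg_of_forall_setIntegral_nonneg hint fun E hE _ => ?_
      rw [Measure.restrict_restrict hE]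
      exact (hHF _ (hE.inter hB) inter_subset_right).2
    filter_upwards [(ae_restrict_iff' hB).1 key3] with y hy hd
    exact hy (by rw [mem_closedBall, dist_comm]; exact hd)
  refine
    { F_meas := hF
      q_meas := hq
      B_meas := (hrq.const_mul 2).add her
      q_nonneg := hq0
      B_nonneg := fun y => by have := hrq0 y; have := her0 y; positivity
      c1_nonneg := by positivity
      C0_nonneg := by positivity
      rd := hRD
      lip := hlip
      bdd := ?_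
      pl := ?_
      q_surv := ?_
      B_surv := ?_ }
  · obtain ⟨M, hM⟩ := hrqb
    refine ⟨2 * M + CE, ?_⟩
    filter_upwards [hM] with y hy hd
    have h1 := hy hd
    have h2 := herC y hd
    have h3 := hrq0 y
    have h4 := her0 y
    rw [abs_of_nonneg (by positivity)]
    linarith
  · filter_upwards [hpl, hg0] with y hy hg hd
    refine ⟨hg hd, ?_⟩
    have h1 := loc_sq_le (μ := μ) n (K := K) (V := V) hρ hF hF0 hFS (hvol y hd)
    refine h1.trans ?_
    calc ENNReal.ofReal V * loc μ n K ρ S y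
        ≤ ENNReal.ofReal V * ENNReal.ofReal (cK⁻¹ * (CS * (D y - q y + (2 * rq y + er y)))) := by
          gcongr
          exact (hy hd).2
      _ = _ := by
          rw [← ENNReal.ofReal_mul hV]
          congr 1
          ring
  · filter_upwards [surv_ray_cont C H hSq hlip] with v hv h0 hR t ht
    refine (hv h0 hR t ht).trans ?_
    have : 0 < 1 - t := by linarith [ht.2]
    gcongr
    linarith
  · filter_upwards [surv_ray C H hSr, C.ae_U x] with v hv hU h0 hR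
    filter_upwards [hv h0 hR, ae_restrict_mem measurableSet_Ioo] with t ht htm
    have h1 : 0 < 1 - t := by linarith [htm.2]
    have h2 : er (C.T x t v) ≤ CE := by
      apply herC
      rw [C.dist_left hU ⟨htm.1.le, htm.2.le⟩]
      calc t * dist x v ≤ 1 * dist x v := by gcongr; exact htm.2.le
        _ ≤ R0 := by rw [one_mul]; exact hR.le
    have h3 : CE ≤ CE / (1 - t) := by
      rw [le_div_iff₀ h1]
      nlinarith [htm.1]
    calc 2 * rq (C.T x t v) + er (C.T x t v) ≤ 2 * (C0 / (1 - t)) + CE / (1 - t) := by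
          linarith
      _ = (2 * C0 + CE) / (1 - t) := by ring

/-- **the literal field `d1a` of `FarD`** from `LocIn` at every thickness, `R0 ≥ 12` -/
theorem d1a_of [SecondCountableTopology X] [SFinite μ] (C : Rad n κ X μ) (x : X)
    {R0 K C1 : ℝ} (hR0 : 12 ≤ R0) (c1 C0 : ℕ → ℝ)
    {F q D B : ℕ → X → ℝ} (I : ∀ k, LocIn C x R0 K (dy k) (c1 k) (C0 k) (F k) (q k) (D k) (B k))
    (hC1 : ∀ k, Real.sqrt (4 * c1 k * C0 k) ≤ C1) :
    ∀ᵐ v ∂μ, dist x v < 12 → ∀ k, ∀ a b : ℝ, 0 < a → a ≤ b → b < dist x v →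
      8 * (b - a) ≤ a → 8 * (b - a) ≤ dist x v - b → dy k ≤ b - a →
      ∫⁻ r in Icc a b, loc μ n K (dy k) (F k) (ray C x v r) ≤
        ENNReal.ofReal (C1 * a * Real.sqrt ((b - a) / min a (dist x v - b))) := by
  have h := ae_all_iff.2 fun k => d1a_core C x (I k)
  filter_upwards [h] with v hv h12 k a b ha hab hbl h8 _ _
  refine (hv k (ha.trans_le (hab.trans hbl.le)) (h12.trans_le hR0) a b ha hab hbl h8).trans ?_
  apply ENNReal.ofReal_le_ofReal
  have := hC1 k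
  gcongr

/-- **Sv5 in the literal form of `Bad1_644.d1b_of`** -/
theorem d1b_in [SecondCountableTopology X] [SFinite μ] (C : Rad n κ X μ) (x : X)
    {R0 K CK C2 : ℝ} (hR0 : 12 ≤ R0) (c1 C0 : ℕ → ℝ) (hCK : 0 ≤ CK)
    {F q D B : ℕ → X → ℝ} (I : ∀ k, LocIn C x R0 K (dy k) (c1 k) (C0 k) (F k) (q k) (D k) (B k))
    (hC1 : ∀ k, Real.sqrt (2 * c1 k) ≤ CK) (hC2 : ∀ k, 3 * C0 k ≤ C2) :
    ∀ j, 4 ≤ j → ∀ᵐ v ∂μ, 1 ≤ dist x v → dist x v < 12 → ∀ k, j ≤ k →
      ∫⁻ r in Icc (dy j) (2 * dy j), loc μ n K (dy k) (F k) (ray C x v r) ≤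
        ENNReal.ofReal (CK * dy j * √((dy j)⁻¹ * ∫ r in dy j..4 * dy j,
          min C2 (q k (ray C x v r) + B k (ray C x v r)))) := by
  intro j hj
  have h := ae_all_iff.2 fun k => d1b_core C x (I k)
  filter_upwards [h, ae_all_iff.2 fun k => (I k).B_surv] with v hv hBs h1 h12 k _
  have hs := dy_pos j
  have h16 : 16 * dy j ≤ dist x v := by
    have h2 := dy_anti hj
    have h3 : dy 4 = 1 / 16 := by unfold dy; norm_num
    rw [h3] at h2
    linarith
  refine (hv k (by linarith) (h12.trans_le hR0) (dy j) hs h16).trans ?_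
  apply ENNReal.ofReal_le_ofReal
  have hs4 : dy j ≤ 4 * dy j := by linarith
  have hInt : ∀ c, IntervalIntegrable (fun r => min c (q k (ray C x v r) + B k (ray C x v r)))
      volume (dy j) (4 * dy j) := by
    intro c
    have hm : Measurable fun z => min c (q k z + B k z) :=
      measurable_const.min ((I k).q_meas.add (I k).B_meas)
    refine intervalIntegrable_arc C (B := fun z => min c (q k z + B k z)) hm hs4 (M := |c|) ?_
    refine Eventually.of_forall fun r => ?_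
    have h3 : 0 ≤ q k (ray C x v r) + B k (ray C x v r) :=
      add_nonneg ((I k).q_nonneg _) ((I k).B_nonneg _)
    rw [abs_le]
    refine ⟨?_, (min_le_left _ _).trans (le_abs_self c)⟩
    rcases le_total c (q k (ray C x v r) + B k (ray C x v r)) with h4 | h4
    · rw [min_eq_left h4]; exact neg_abs_le c
    · rw [min_eq_right h4]
      have := abs_nonneg c
      linarith
  have hmono : ∫ r in dy j..4 * dy j, min (3 * C0 k) (q k (ray C x v r) + B k (ray C x v r)) ≤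
      ∫ r in dy j..4 * dy j, min C2 (q k (ray C x v r) + B k (ray C x v r)) := by
    apply intervalIntegral.integral_mono_on hs4 (hInt _) (hInt _)
    intro r _
    exact min_le_min_right _ (hC2 k)
  have := hC1 k
  gcongr

end Crest.Agent.R247.Sv436
end
end

-- ▼ part R247/Sv7_436
section

/-! # R247, leaf (1-S): (R2) and volume bounds in the form consumed by `Sv436.locIn_of` -/

set_option autoImplicit false
set_option linter.unusedSectionVars false
open MeasureTheory Set Filter Topology Metric TopologicalSpace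
open scoped ENNReal NNReal RealInnerProductSpace

noncomputable section
namespace Crest.Agent.R247.Sv436

open Crest.Agent.R247.Mcp688 Crest.Agent.R247.Far553 Crest.Agent.R242
open Crest.Agent.R247.Dir593 Crest.Agent.R247.Dir593.GradS Crest.Agent.R247.Smv126
open Crest.Agent.R247.Obj554

/-- volume of large multiples of small balls (Bishop–Gromov) -/
lemma hvol_of {n : ℕ} {κ : ℝ} {X : Type*} [MetricSpace X] [MeasurableSpace X] [BorelSpace X]
    {μ : Measure X} (C : Rad n κ X μ) (hκ : 0 ≤ κ) {K ρ V : ℝ} (hK : 1 ≤ K) (hρ : 0 < ρ)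
    (hρ1 : ρ ≤ 1) (hV : 0 ≤ V) {y : X} (h : μ (ball y ρ) ≤ ENNReal.ofReal (V * ρ ^ n)) :
    μ (ball y (K * ρ)) ≤ ENNReal.ofReal (Real.exp (κ * K ^ 2 / 2) * K ^ n * V * ρ ^ n) := by
  have h1 := C.mu_ball_le hκ y hρ (R := K * ρ) (by nlinarith)
  have e : K * ρ / ρ = K := by field_simp
  rw [e] at h1
  calc μ (ball y (K * ρ)) ≤ ENNReal.ofReal (Real.exp (κ * (K * ρ) ^ 2 / 2) * K ^ n) *
        ENNReal.ofReal (V * ρ ^ n) := h1.trans (by gcongr)
    _ = ENNReal.ofReal (Real.exp (κ * (K * ρ) ^ 2 / 2) * K ^ n * (V * ρ ^ n)) := by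
        rw [← ENNReal.ofReal_mul (by positivity)]
    _ ≤ _ := by
        apply ENNReal.ofReal_le_ofReal
        have h2 : (K * ρ) ^ 2 ≤ K ^ 2 := by
          rw [mul_pow]
          have : ρ ^ 2 ≤ 1 := by nlinarith
          nlinarith [sq_nonneg K]
        have h3 : Real.exp (κ * (K * ρ) ^ 2 / 2) ≤ Real.exp (κ * K ^ 2 / 2) := by gcongr
        calc Real.exp (κ * (K * ρ) ^ 2 / 2) * K ^ n * (V * ρ ^ n)
            ≤ Real.exp (κ * K ^ 2 / 2) * K ^ n * (V * ρ ^ n) := by gcongr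
          _ = _ := by ring

section R2

variable {X : Type*} [MetricSpace X] [ProperSpace X] [MeasurableSpace X] [BorelSpace X]
  {F : Type*} [NormedAddCommGroup F] [InnerProductSpace ℝ F] [CompleteSpace F] {μ : Measure X}
  [IsFiniteMeasureOnCompacts μ] (S : GradS X F μ)

/-- the class of the indicator of `E` (of `∅` if `E` is not admissible) -/
def cE (μ : Measure X) (E : Set X) : Lp ℝ 2 μ :=
  open Classical in
  if h : MeasurableSet E ∧ μ E ≠ ∞ then ind h.1 h.2 else 0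

lemma cE_eq {E : Set X} (hE : MeasurableSet E) (hμ : μ E ≠ ∞) : cE μ E = ind hE hμ := by
  unfold cE
  rw [dif_pos ⟨hE, hμ⟩]

/-- `R_ρ 1_E` as a nonnegative extended real function -/
def PE (ρ : ℝ) (E : Set X) (z : X) : ℝ≥0∞ := ENNReal.ofReal ((QF S).res (ρ ^ 2) (cE μ E) z)

variable {S}

/-- the constant of (R2) -/
def cR2 (n : ℕ) (κ K v1 : ℝ) : ℝ :=
  (64 / 27 * (1 + 6 * (n + κ * (4 * K ^ 2))) *
    (2 ^ (n + 2) * Real.exp (4 * K ^ 2 + κ * (4 * K ^ 2) / 2) * v1 * (2 * K) ^ n))⁻¹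

lemma cR2_pos {n : ℕ} {κ K v1 : ℝ} (hκ : 0 ≤ κ) (hK : 1 ≤ K) (hv1 : 0 < v1) :
    0 < cR2 n κ K v1 := by
  unfold cR2
  have : (0 : ℝ) ≤ n := Nat.cast_nonneg n
  positivity

/-- **(R2)** in the form `(hR2)` of `locIn_of` -/
theorem hR2_of {n : ℕ} (hn : 1 ≤ n) {κ : ℝ} (W : WLap S n κ) (C : Rad n κ X μ) (hκ : 0 ≤ κ)
    {v1 : ℝ} (hv1 : 0 < v1)
    (hd : ∀ y : X, ∀ᶠ ε in 𝓝[>] (0:ℝ), μ (closedBall y ε) ≤ ENNReal.ofReal (v1 * ε ^ n))
    {K ρ : ℝ} (hK : 1 ≤ K) (hρ : 0 < ρ) (hρ1 : ρ ≤ 1)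
    {E : Set X} (hE : MeasurableSet E) (hμ : μ E ≠ ∞) :
    ∀ᵐ z ∂μ, ENNReal.ofReal (cR2 n κ K v1) * Far553.loc μ n K ρ (E.indicator fun _ => 1) z ≤
      PE S ρ E z := by
  have := doubling_of_rad C hκ
  have h0 : 0 ≤ᵐ[μ] (cE μ E : X → ℝ) := by
    rw [cE_eq hE hμ]
    exact ind_nonneg hE hμ
  have hr := r2 (S := S) S.dense_V hn W hκ (φ := cE μ E) h0 (h := ρ ^ 2) (by positivity)
  have hc := coe_ind (μ := μ) hE hμ
  filter_upwards [hr] with y hy
  have h1 := hy v1 hv1.le (hd y) (2 * (K * ρ)) (by positivity)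
  have e0 : 2 * (K * ρ) / 2 = K * ρ := by ring
  rw [e0] at h1
  -- the local mean as a real integral
  have hball : μ (ball y (K * ρ)) ≠ ∞ := measure_ball_lt_top.ne
  have e1 : ∫ z in ball y (K * ρ), (cE μ E : X → ℝ) z ∂μ =
      ∫ z in ball y (K * ρ), E.indicator (fun _ => (1 : ℝ)) z ∂μ := by
    apply integral_congr_ae
    rw [cE_eq hE hμ]
    exact ae_restrict_of_ae hc
  have e2 : ∫⁻ z in ball y (K * ρ), ENNReal.ofReal (E.indicator (fun _ => (1 : ℝ)) z) ∂μ =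
      ENNReal.ofReal (∫ z in ball y (K * ρ), E.indicator (fun _ => (1 : ℝ)) z ∂μ) := by
    rw [ofReal_integral_eq_lintegral_ofReal]
    · have : IsFiniteMeasure (μ.restrict (ball y (K * ρ))) :=
        ⟨by rw [Measure.restrict_apply_univ]; exact hball.lt_top⟩
      exact (integrable_const (1 : ℝ)).indicator hE
    · exact Eventually.of_forall fun z => indicator_nonneg (fun _ _ => zero_le_one) z
  rw [e1] at h1
  unfold PE Far553.loc
  rw [e2, ← ENNReal.ofReal_mul (by positivity), ← ENNReal.ofReal_mul (cR2_pos hκ hK hv1).le]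
  apply ENNReal.ofReal_le_ofReal
  set I : ℝ := ∫ z in ball y (K * ρ), E.indicator (fun _ => (1 : ℝ)) z ∂μ with hI
  set v : ℝ := (QF S).res (ρ ^ 2) (cE μ E) y with hv
  have hn0 : (0 : ℝ) ≤ n := Nat.cast_nonneg n
  have hI0 : 0 ≤ I := by
    apply integral_nonneg
    exact fun z => indicator_nonneg (fun _ _ => zero_le_one) z
  have hρ2 : ρ ^ 2 ≤ 1 := by nlinarith
  have hK2 : (2 * (K * ρ)) ^ 2 = 4 * K ^ 2 * ρ ^ 2 := by ring
  -- nonnegativity of `v` follows from the inequality (the constants are positive)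
  set c1 : ℝ := 64 / 27 * (1 + 6 * ρ ^ 2 * (n + κ * (2 * (K * ρ)) ^ 2) / (2 * (K * ρ)) ^ 2) *
    (2 ^ (n + 2) * Real.exp ((2 * (K * ρ)) ^ 2 / ρ ^ 2 + κ * (2 * (K * ρ)) ^ 2 / 2) * v1 *
      (2 * (K * ρ)) ^ n) with hc1
  have hc1pos : 0 < c1 := by rw [hc1]; positivity
  have hv0 : 0 ≤ v := by
    by_contra hneg
    push Not at hneg
    have : c1 * v < 0 := mul_neg_of_pos_of_neg hc1pos hneg
    linarith
  set c2 : ℝ := 64 / 27 * (1 + 6 * (n + κ * (4 * K ^ 2))) *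
    (2 ^ (n + 2) * Real.exp (4 * K ^ 2 + κ * (4 * K ^ 2) / 2) * v1 * (2 * K) ^ n) with hc2
  have hc2pos : 0 < c2 := by rw [hc2]; positivity
  have hcc : c1 ≤ c2 * ρ ^ n := by
    have a1 : 6 * ρ ^ 2 * (n + κ * (2 * (K * ρ)) ^ 2) / (2 * (K * ρ)) ^ 2 ≤
        6 * (n + κ * (4 * K ^ 2)) := by
      rw [hK2]
      have b1 : 6 * ρ ^ 2 * (n + κ * (4 * K ^ 2 * ρ ^ 2)) / (4 * K ^ 2 * ρ ^ 2) =
          6 * (n + κ * (4 * K ^ 2 * ρ ^ 2)) / (4 * K ^ 2) := by
        field_simp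
      rw [b1, div_le_iff₀ (by positivity)]
      have b2 : κ * (4 * K ^ 2 * ρ ^ 2) ≤ κ * (4 * K ^ 2) := by
        have : 4 * K ^ 2 * ρ ^ 2 ≤ 4 * K ^ 2 := by nlinarith [sq_nonneg K]
        gcongr
      have b3 : (1 : ℝ) ≤ 4 * K ^ 2 := by nlinarith
      have b4 : 0 ≤ 6 * (n + κ * (4 * K ^ 2)) := by positivity
      nlinarith
    have a2 : Real.exp ((2 * (K * ρ)) ^ 2 / ρ ^ 2 + κ * (2 * (K * ρ)) ^ 2 / 2) ≤
        Real.exp (4 * K ^ 2 + κ * (4 * K ^ 2) / 2) := by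
      apply Real.exp_le_exp.2
      rw [hK2]
      have b1 : 4 * K ^ 2 * ρ ^ 2 / ρ ^ 2 = 4 * K ^ 2 := by field_simp
      rw [b1]
      have b2 : κ * (4 * K ^ 2 * ρ ^ 2) ≤ κ * (4 * K ^ 2) := by
        have : 4 * K ^ 2 * ρ ^ 2 ≤ 4 * K ^ 2 := by nlinarith [sq_nonneg K]
        gcongr
      linarith
    have a3 : (2 * (K * ρ)) ^ n = (2 * K) ^ n * ρ ^ n := by rw [← mul_pow]; ring
    calc c1 ≤ 64 / 27 * (1 + 6 * (n + κ * (4 * K ^ 2))) *
          (2 ^ (n + 2) * Real.exp (4 * K ^ 2 + κ * (4 * K ^ 2) / 2) * v1 *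
            ((2 * K) ^ n * ρ ^ n)) := by
          rw [hc1, ← a3]
          gcongr
      _ = _ := by rw [hc2]; ring
  have hfin : I ≤ c2 * ρ ^ n * v := h1.trans (mul_le_mul_of_nonneg_right hcc hv0)
  calc cR2 n κ K v1 * ((ρ⁻¹) ^ n * I) ≤ c2⁻¹ * ((ρ⁻¹) ^ n * (c2 * ρ ^ n * v)) := by
        have : cR2 n κ K v1 = c2⁻¹ := rfl
        rw [this]
        gcongr
    _ = v := by
        rw [inv_pow]
        field_simp

end R2

end Crest.Agent.R247.Sv436
end
end

-- ▼ part R247/Sv8_436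
section

/-! # R247, leaf (1-S): the integrated identity (hHF) of `Sv436.locIn_of` from the `k`-equation

`SP` is the right-hand side `S'` of the `k`-equation; `SP_ge` collects its sign properties
(`S' ≥ 2|A-I|² + (ρ²/2)|Dq|²` for `d_x < 32`, `S' ≥ 0` for `d_x > 64`, `S' ≥ -C` in between). -/

set_option autoImplicit false
set_option linter.unusedSectionVars false
open MeasureTheory Set Filter Topology Metric TopologicalSpace
open scoped ENNReal NNReal RealInnerProductSpace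

noncomputable section
namespace Crest.Agent.R247.Sv436

open Crest.Agent.R247.Mcp688 Crest.Agent.R247.Far553 Crest.Agent.R242
open Crest.Agent.R247.Dir593 Crest.Agent.R247.Dir593.GradS Crest.Agent.R247.Smv126
open Crest.Agent.R247.Obj554 Crest.Agent.R247.Hes124

section scalar

/-- `|∇h|² - 2h ≤ 0` as a function of `s = d²/2` -/
lemma two_mul_eta_sq_le {s : ℝ} (hs : 0 ≤ s) : s * eta s ^ 2 ≤ Phi s := by
  have hanti : ∀ a b : ℝ, a ≤ b → eta b ≤ eta a := by
    intro a b hab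
    unfold eta
    apply Real.smoothTransition.monotone
    have : (0:ℝ) < S1 - S0 := by norm_num [S1, S0]
    gcongr
  have h1 : s * eta s ≤ Phi s := by
    have h2 : ∫ t in (0:ℝ)..s, eta s ≤ ∫ t in (0:ℝ)..s, eta t := by
      apply intervalIntegral.integral_mono_on hs intervalIntegrable_const
        (continuous_eta.intervalIntegrable _ _)
      intro t ht
      exact hanti _ _ ht.2
    rw [intervalIntegral.integral_const, smul_eq_mul, sub_zero] at h2
    exact h2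
  have h3 : s * eta s ^ 2 ≤ s * eta s := by
    have h4 := eta_nonneg s
    have h5 := eta_le_one s
    have : eta s ^ 2 ≤ eta s := by nlinarith
    gcongr
  linarith



end scalar

variable {n : ℕ} {κ : ℝ} {X : Type*} [MetricSpace X] [ProperSpace X] [MeasurableSpace X]
  [BorelSpace X] {μ : Measure X} [IsFiniteMeasureOnCompacts μ]

/-- the right-hand side `S'` of the `k`-equation -/
def SP (B : BochS n κ X μ) (x : X) (ρ : ℝ) (A : X → Hes124.S n) (z : X) : ℝ :=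
  2 * ‖A z - idm n‖ ^ 2 +
    2 * ⟪mv (B.Ric z) (B.D (uL B.toGradS n κ x ρ) z), B.D (uL B.toGradS n κ x ρ) z⟫ +
    ρ ^ 2 * ‖B.D (qL B.toGradS n κ x ρ) z‖ ^ 2 +
    2 * ⟪B.G (Nf n κ x) z, B.D (uL B.toGradS n κ x ρ) z⟫ + 2 * (Nf n κ x z - n)







/-- pointwise value of `D u` -/
lemma D_uL_ae (B : BochS n κ X μ) {ρ : ℝ} (hρ : 0 < ρ) (x : X) :
    ∀ᵐ z ∂μ, B.D (uL B.toGradS n κ x ρ) z =
      et x z • B.G (hf x) z - ρ ^ 2 • B.D (qL B.toGradS n κ x ρ) z := by
  have h := D_uL (S := B.toGradS) (n := n) (κ := κ) hρ x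
  filter_upwards [Lp.coeFn_sub (B.D (tL (isT_f0 x))) (ρ ^ 2 • B.D (qL B.toGradS n κ x ρ)),
    Lp.coeFn_smul (ρ ^ 2) (B.D (qL B.toGradS n κ x ρ)), B.D_tL (isT_f0 x),
    G_f0 B.toGradS x] with z a1 a2 a3 a4
  rw [h, a1, Pi.sub_apply, a2, Pi.smul_apply, a3, a4]

/-- pointwise value of `u` -/
lemma uL_ae (B : BochS n κ X μ) {ρ : ℝ} (x : X) :
    ∀ᵐ z ∂μ, uL B.toGradS n κ x ρ z = f0 x z - ρ ^ 2 * qL B.toGradS n κ x ρ z := by
  filter_upwards [Lp.coeFn_sub (tL (isT_f0 x) : Lp ℝ 2 μ) (ρ ^ 2 • qL B.toGradS n κ x ρ),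
    Lp.coeFn_smul (ρ ^ 2) (qL B.toGradS n κ x ρ), coe_tL (μ := μ) (isT_f0 x)] with z a1 a2 a3
  unfold uL
  rw [a1, Pi.sub_apply, a2, Pi.smul_apply, a3, smul_eq_mul]



/-- the `k`-equation: `k = |Du|² - 2u`, `k - ρ² Δ k = |∇f₀|² - 2 f₀ + ρ² (4q - S')` -/
structure KEq (B : BochS n κ X μ) (x : X) (ρ : ℝ) (A : X → Hes124.S n) (k : Lp ℝ 2 μ) :
    Prop where
  mem : k ∈ B.V
  val : ∀ᵐ z ∂μ, k z = ‖B.D (uL B.toGradS n κ x ρ) z‖ ^ 2 - 2 * uL B.toGradS n κ x ρ z
  int : ∀ p ∈ B.V, ∀ c : ℝ, (∀ᵐ z ∂μ, |p z| ≤ c) → Integrable (fun z => p z * SP B x ρ A z) μ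
  eq : ∀ p ∈ B.V, ∀ c : ℝ, (∀ᵐ z ∂μ, |p z| ≤ c) →
    ρ ^ 2 * ⟪B.D k, B.D p⟫ + ⟪k, p⟫ =
      ∫ z, p z * (‖B.G (f0 x) z‖ ^ 2 - 2 * f0 x z) ∂μ +
        ρ ^ 2 * ∫ z, p z * (4 * qL B.toGradS n κ x ρ z - SP B x ρ A z) ∂μ

/-- `|∇f₀|² - 2f₀ ∈ [0, 2 c_∞]` -/
lemma E0_bounds (B : BochS n κ X μ) (W : WLap B.toGradS n κ) (x : X) :
    ∀ᵐ z ∂μ, 0 ≤ ‖B.G (f0 x) z‖ ^ 2 - 2 * f0 x z ∧
      ‖B.G (f0 x) z‖ ^ 2 - 2 * f0 x z ≤ 2 * cinf := by
  filter_upwards [G_f0 B.toGradS x, W.normSq_G_hf x] with z h1 h2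
  have h3 := f0_nonpos x z
  refine ⟨by have := sq_nonneg ‖B.G (f0 x) z‖; linarith, ?_⟩
  rw [h1, norm_smul, mul_pow, h2]
  have h4 := two_mul_eta_sq_le (hf_nonneg x z)
  have h5 : ‖et x z‖ ^ 2 = eta (hf x z) ^ 2 := by
    unfold et
    rw [Real.norm_eq_abs, sq_abs]
  rw [h5]
  have h6 : dist x z ^ 2 = 2 * hf x z := by unfold hf; ring
  rw [h6]
  unfold f0
  nlinarith

/-- `k` on `ball x 32` -/
lemma k_val (B : BochS n κ X μ) (W : WLap B.toGradS n κ) {ρ : ℝ} (hρ : 0 < ρ) (x : X)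
    {A : X → Hes124.S n} {k : Lp ℝ 2 μ} (K : KEq B x ρ A k) :
    ∀ᵐ z ∂μ, z ∈ ball x 32 → k z = 2 * cinf +
      ρ ^ 2 * (-2 * ⟪B.G (hf x) z, B.D (qL B.toGradS n κ x ρ) z⟫ +
        ρ ^ 2 * ‖B.D (qL B.toGradS n κ x ρ) z‖ ^ 2 + 2 * qL B.toGradS n κ x ρ z) := by
  filter_upwards [K.val, D_uL_ae B hρ x, uL_ae B x, W.normSq_G_hf x] with z h1 h2 h3 h4 hz
  rw [mem_ball, dist_comm] at hz
  have e1 : et x z = 1 := eta_one (hf_le_S0 hz.le)
  rw [e1, one_smul] at h2
  have hρ2 : 0 < ρ ^ 2 := by positivity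
  rw [h1, h2, h3, f0_eq hz.le, norm_sub_sq_real, real_inner_smul_right, norm_smul,
    Real.norm_of_nonneg hρ2.le, h4]
  ring

/-- **the integrated identity, inequality form** -/
theorem key_ineq [SigmaFinite μ] (B : BochS n κ X μ) (W : WLap B.toGradS n κ) {ρ : ℝ}
    (hρ : 0 < ρ) (x : X) {A : X → Hes124.S n} {k : Lp ℝ 2 μ} (K : KEq B x ρ A k)
    {E : Set X} (hE : MeasurableSet E) (hμ : μ E ≠ ∞) (hs : E ⊆ ball x 32) :
    ∫ z, (QF B.toGradS).res (ρ ^ 2) (ind hE hμ) z * SP B x ρ A z ∂μ ≤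
      2 * ∫ z in E, (⟪B.G (hf x) z, B.D (qL B.toGradS n κ x ρ) z⟫ - qL B.toGradS n κ x ρ z +
        2 * (QF B.toGradS).res (ρ ^ 2) (qL B.toGradS n κ x ρ) z) ∂μ := by
  have h0 : (0:ℝ) < ρ ^ 2 := by positivity
  set q := qL B.toGradS n κ x ρ with hq
  set φ := (QF B.toGradS).res (ρ ^ 2) (ind hE hμ) with hφ
  have M := B.markov B.dense_V
  have hfin : IsFiniteMeasure (μ.restrict E) := ⟨by rw [Measure.restrict_apply_univ]; exact hμ.lt_top⟩
  have φmem : φ ∈ B.V := (QF B.toGradS).res_mem h0 _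
  have φ0 : 0 ≤ᵐ[μ] (φ : X → ℝ) := M.res_nonneg h0 (ind_nonneg hE hμ)
  have φ1 : ∀ᵐ z ∂μ, φ z ≤ 1 := M.res_le h0 zero_le_one (ind_le_one hE hμ)
  have φb : ∀ᵐ z ∂μ, |φ z| ≤ 1 := by
    filter_upwards [φ0, φ1] with z h1 h2
    rw [abs_of_nonneg h1]; exact h2
  have iE : Integrable (ind hE hμ : X → ℝ) μ := by
    refine ((integrable_indicator_iff hE).2 (integrableOn_const (C := (1:ℝ)) (hs := hμ))).congr ?_
    exact (coe_ind hE hμ).symm
  have iφ : Integrable φ μ := (M.symMarkov_res h0).integrable (ind_nonneg hE hμ) iE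
  have iφle : ∫ z, φ z ∂μ ≤ μ.real E := by
    refine ((M.symMarkov_res h0).integral_le (ind_nonneg hE hμ) iE).trans (le_of_eq ?_)
    rw [integral_congr_ae (coe_ind hE hμ), integral_indicator hE, setIntegral_const,
      smul_eq_mul, mul_one]
  -- left-hand side
  have e1 : ρ ^ 2 * ⟪B.D k, B.D φ⟫ + ⟪k, φ⟫ = ∫ z in E, k z ∂μ := by
    have h1 := (QF B.toGradS).res_eq h0 (ind hE hμ) (v := k) K.mem
    have h2 : (QF B.toGradS).E φ k = ⟪B.D φ, B.D k⟫ := rfl
    rw [← hφ, h2, real_inner_comm, real_inner_comm k φ, real_inner_comm k (ind hE hμ)] at h1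
    rw [h1, inner_ind]
  have e2 := K.eq φ φmem 1 φb
  rw [e1] at e2
  -- `∫ φ q = ∫_E R q`
  have e3 : ∫ z, φ z * q z ∂μ = ∫ z in E, (QF B.toGradS).res (ρ ^ 2) q z ∂μ := by
    have h1 := (QF B.toGradS).res_symm (ρ ^ 2) (ind hE hμ) q
    rw [← hφ, real_inner_comm _ (ind hE hμ), inner_ind, L2.inner_def] at h1
    rw [← h1]
    refine integral_congr_ae (Eventually.of_forall fun z => ?_)
    simp [mul_comm]
  have iφq : Integrable (fun z => φ z * q z) μ := by
    refine (L2.integrable_inner (𝕜 := ℝ) q φ).congr (Eventually.of_forall fun z => ?_)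
    simp
  have iφS := K.int φ φmem 1 φb
  have e4 : ∫ z, φ z * (4 * q z - SP B x ρ A z) ∂μ =
      4 * (∫ z in E, (QF B.toGradS).res (ρ ^ 2) q z ∂μ) - ∫ z, φ z * SP B x ρ A z ∂μ := by
    rw [← e3, ← integral_const_mul, ← integral_sub (iφq.const_mul 4) iφS]
    refine integral_congr_ae (Eventually.of_forall fun z => ?_)
    simp only
    ring
  have e5 : ∫ z, φ z * (‖B.G (f0 x) z‖ ^ 2 - 2 * f0 x z) ∂μ ≤ 2 * cinf * μ.real E := by
    have h1 : ∫ z, φ z * (‖B.G (f0 x) z‖ ^ 2 - 2 * f0 x z) ∂μ ≤ ∫ z, 2 * cinf * φ z ∂μ := by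
      refine integral_mono_of_nonneg ?_ (iφ.const_mul _) ?_
      · filter_upwards [φ0, E0_bounds B W x] with z h1 h2
        exact mul_nonneg h1 h2.1
      · filter_upwards [φ0, E0_bounds B W x] with z h1 h2
        have h3 : (0:ℝ) ≤ φ z := h1
        show φ z * _ ≤ 2 * cinf * φ z
        rw [mul_comm]
        exact mul_le_mul_of_nonneg_right h2.2 h3
    rw [integral_const_mul] at h1
    have := cinf_pos
    exact h1.trans (mul_le_mul_of_nonneg_left iφle (by positivity))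
  -- integrability on `E`
  have iq : IntegrableOn q E μ := integrableOn_of_L2 q hE hμ
  have iRq : IntegrableOn ((QF B.toGradS).res (ρ ^ 2) q) E μ := integrableOn_of_L2 _ hE hμ
  have iDq : IntegrableOn (fun z => ‖B.D q z‖ ^ 2) E μ := (int_sq (Lp.memLp (B.D q))).integrableOn
  have ih : IntegrableOn (fun z => (⟪B.G (hf x) z, B.D q z⟫ : ℝ)) E μ := by
    have h1 : IntegrableOn (fun z => ‖B.D q z‖) E μ := by
      exact ((Lp.memLp (B.D q)).restrict E).norm.integrable (by norm_num)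
    refine Integrable.mono' (h1.const_mul 32) ?_ ?_
    · exact ((B.meas (locLip_hf x)).inner (Lp.aestronglyMeasurable (B.D q))).restrict
    · filter_upwards [ae_restrict_of_ae (W.normSq_G_hf x), ae_restrict_mem hE] with z h2 h3
      have h4 : dist x z < 32 := by
        have := hs h3
        rwa [mem_ball, dist_comm] at this
      have h5 : ‖B.G (hf x) z‖ ≤ 32 := by
        have h6 : ‖B.G (hf x) z‖ = dist x z := by
          have := congrArg Real.sqrt h2
          rwa [Real.sqrt_sq (norm_nonneg _), Real.sqrt_sq dist_nonneg] at this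
        rw [h6]; exact h4.le
      exact (norm_inner_le_norm _ _).trans (mul_le_mul_of_nonneg_right h5 (norm_nonneg _))
  -- value of `∫_E k`
  have e6 : ∫ z in E, k z ∂μ = 2 * cinf * μ.real E +
      ρ ^ 2 * (-2 * (∫ z in E, ⟪B.G (hf x) z, B.D q z⟫ ∂μ) +
        ρ ^ 2 * (∫ z in E, ‖B.D q z‖ ^ 2 ∂μ) + 2 * ∫ z in E, q z ∂μ) := by
    have h1 : ∫ z in E, k z ∂μ = ∫ z in E, (2 * cinf +
        ρ ^ 2 * (-2 * ⟪B.G (hf x) z, B.D q z⟫ + ρ ^ 2 * ‖B.D q z‖ ^ 2 + 2 * q z)) ∂μ := by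
      refine integral_congr_ae ?_
      filter_upwards [ae_restrict_of_ae (k_val B W hρ x K), ae_restrict_mem hE] with z h2 h3
      exact h2 (hs h3)
    have i1 : IntegrableOn (fun z => -2 * ⟪B.G (hf x) z, B.D q z⟫ + ρ ^ 2 * ‖B.D q z‖ ^ 2) E μ :=
      (ih.const_mul _).add (iDq.const_mul _)
    have i2 : IntegrableOn (fun z => -2 * ⟪B.G (hf x) z, B.D q z⟫ + ρ ^ 2 * ‖B.D q z‖ ^ 2 +
        2 * q z) E μ := i1.add (iq.const_mul _)
    rw [h1, integral_add (integrable_const _) (i2.const_mul _), setIntegral_const, smul_eq_mul,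
      integral_const_mul, integral_add i1 (iq.const_mul _),
      integral_add (ih.const_mul _) (iDq.const_mul _),
      integral_const_mul, integral_const_mul, integral_const_mul]
    ring
  have e7 : 0 ≤ ∫ z in E, ‖B.D q z‖ ^ 2 ∂μ := integral_nonneg fun z => by positivity
  have e8 : ∫ z in E, (⟪B.G (hf x) z, B.D q z⟫ - q z +
        2 * (QF B.toGradS).res (ρ ^ 2) q z) ∂μ =
      (∫ z in E, ⟪B.G (hf x) z, B.D q z⟫ ∂μ) - (∫ z in E, q z ∂μ) +
        2 * ∫ z in E, (QF B.toGradS).res (ρ ^ 2) q z ∂μ := by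
    have i3 : IntegrableOn (fun z => ⟪B.G (hf x) z, B.D q z⟫ - q z) E μ := ih.sub iq
    rw [integral_add i3 (iRq.const_mul _), integral_sub ih iq, integral_const_mul]
  rw [e8]
  rw [e4, e6] at e2
  have e9 : ρ ^ 2 * (-2 * (∫ z in E, ⟪B.G (hf x) z, B.D q z⟫ ∂μ) +
        ρ ^ 2 * (∫ z in E, ‖B.D q z‖ ^ 2 ∂μ) + 2 * ∫ z in E, q z ∂μ) ≤
      ρ ^ 2 * (4 * (∫ z in E, (QF B.toGradS).res (ρ ^ 2) q z ∂μ) -
        ∫ z, φ z * SP B x ρ A z ∂μ) := by linarith
  have e10 := le_of_mul_le_mul_left e9 h0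
  have e11 : 0 ≤ ρ ^ 2 * ∫ z in E, ‖B.D q z‖ ^ 2 ∂μ := mul_nonneg h0.le e7
  linarith

/-- duality `∫ R1_E · 1_G = ∫_E R 1_G` -/
lemma int_res_ind (B : BochS n κ X μ) (h : ℝ) {E G : Set X} (hE : MeasurableSet E)
    (hμ : μ E ≠ ∞) (hG : MeasurableSet G) (hμG : μ G ≠ ∞) :
    Integrable (fun z => (QF B.toGradS).res h (ind hE hμ) z * G.indicator (fun _ => (1:ℝ)) z) μ ∧
    ∫ z, (QF B.toGradS).res h (ind hE hμ) z * G.indicator (fun _ => (1:ℝ)) z ∂μ =
      ∫ z in E, (QF B.toGradS).res h (ind hG hμG) z ∂μ := by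
  have h1 : ⟪(QF B.toGradS).res h (ind hE hμ), ind hG hμG⟫ =
      ∫ z in E, (QF B.toGradS).res h (ind hG hμG) z ∂μ := by
    rw [(QF B.toGradS).res_symm h (ind hE hμ) (ind hG hμG), real_inner_comm, inner_ind]
  rw [L2.inner_def] at h1
  have h2 : (fun z => ⟪(QF B.toGradS).res h (ind hE hμ) z, ind hG hμG z⟫) =ᵐ[μ]
      fun z => (QF B.toGradS).res h (ind hE hμ) z * G.indicator (fun _ => (1:ℝ)) z := by
    filter_upwards [coe_ind hG hμG] with z hz
    rw [hz]
    simp [mul_comm]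
  constructor
  · exact (L2.integrable_inner (𝕜 := ℝ) _ _).congr h2
  · rw [← h1]
    exact (integral_congr_ae h2).symm


end Crest.Agent.R247.Sv436
end
end

-- ▼ part R247/Din_939
section

/-!
# R247, (R3in): exponential decay of resolvents INTO a ball  (helper939)

* `decay_in` : `(S.form hd).res (ρ²) f y ≤ 2 M exp (-(A - dist x y) / ((4 n + 6) ρ))` a.e., if
  `0 ≤ f ≤ M` and `f = 0` on `ball x A` (`κ ρ² ≤ 1`);
* `r3in` : the case `A = 32`, `dist x y ≤ 16`.
-/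

set_option autoImplicit false
set_option linter.unusedSectionVars false

open MeasureTheory Filter Topology Set
open scoped RealInnerProductSpace ENNReal NNReal

noncomputable section

namespace Crest.Agent.R247.Din939

open Crest.Agent.R242 Crest.Agent.R247.Dir593 Crest.Agent.R247.Dir593.GradS
open Crest.Agent.R247.Dec386

variable {X : Type*} [MetricSpace X] [MeasurableSpace X] {F : Type*}
  [NormedAddCommGroup F] [InnerProductSpace ℝ F] {μ : Measure X} (S : GradS X F μ)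
  [BorelSpace X] [IsFiniteMeasureOnCompacts μ] [ProperSpace X]

theorem decay_in_pow {n : ℕ} {κ : ℝ} (hL : LapC S n κ) (hκ : 0 ≤ κ) {v : Lp ℝ 2 μ} (hv : v ∈ S.V)
    (h0 : ∀ᵐ y ∂μ, 0 ≤ v y) {M : ℝ} (hM0 : 0 ≤ M) (hM : ∀ᵐ y ∂μ, v y ≤ M) {x₀ : X} {a₀ ρ : ℝ}
    (hρ : 0 < ρ) (hκρ : κ * ρ ^ 2 ≤ 1)
    (hsub : ∀ w ∈ S.V, (∀ᵐ y ∂μ, 0 ≤ w y) → (∀ᵐ y ∂μ, a₀ ≤ dist x₀ y → w y = 0) →
      ρ ^ 2 * ⟪S.D v, S.D w⟫ + ⟪v, w⟫ ≤ 0) (k : ℕ) :
    ∀ᵐ y ∂μ, dist x₀ y < a₀ - k * (3 / 2 * ρ) →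
      v y ≤ M * (1 - 3 / 4 * (1 / (2 * n + 3))) ^ k := by
  have hn : (0:ℝ) ≤ n := Nat.cast_nonneg n
  set a : ℝ := 1 / (2 * n + 3) with ha
  have ha0 : 0 < a := by rw [ha]; positivity
  have ha1 : a ≤ 1 := by rw [ha, div_le_one (by positivity)]; linarith
  have hθ0 : 0 ≤ 1 - 3 / 4 * a := by linarith
  have haeq : a * (1 + 2 * ρ ^ 2 * (n + κ * ρ ^ 2) / ρ ^ 2) ≤ 1 := by
    have e : 2 * ρ ^ 2 * (n + κ * ρ ^ 2) / ρ ^ 2 = 2 * (n + κ * ρ ^ 2) := by
      field_simp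
    rw [e, ha, one_div_mul_eq_div, div_le_one (by positivity)]
    linarith
  induction k with
  | zero =>
    filter_upwards [hM] with y hy _
    simpa using hy
  | succ k ih =>
    have : Nonempty X := ⟨x₀⟩
    have hk0 : (0:ℝ) ≤ k * (3 / 2 * ρ) := by positivity
    have hstep : ∀ b : X, dist x₀ b ≤ a₀ - k * (3 / 2 * ρ) - ρ →
        ∀ᵐ y ∂μ, dist b y < ρ / 2 → v y ≤ M * (1 - 3 / 4 * a) ^ (k + 1) := by
      intro b hb
      have h1 : ∀ᵐ y ∂μ, dist b y < ρ → v y ≤ M * (1 - 3 / 4 * a) ^ k := by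
        filter_upwards [ih] with y hy hyb
        refine hy ?_
        have := dist_triangle x₀ b y
        linarith
      have h2 := local_comp S hL hκ hv h0 (mul_nonneg hM0 (pow_nonneg hθ0 k)) (b := b) hρ h1
        (ρ := ρ) (fun w hw hw0 hwb => hsub w hw hw0 (by
          filter_upwards [hwb] with y hy hya
          refine hy ?_
          have := dist_triangle x₀ b y
          linarith)) ha0.le haeq
      filter_upwards [h2] with y hy hyb
      refine (hy (by linarith)).trans ?_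
      rw [pow_succ (1 - 3 / 4 * a) k, ← mul_assoc M]
      refine mul_le_mul_of_nonneg_left ?_ (mul_nonneg hM0 (pow_nonneg hθ0 k))
      have h3 : dist b y ^ 2 / ρ ^ 2 ≤ 1 / 4 := by
        rw [div_le_iff₀ (by positivity)]
        nlinarith [dist_nonneg (x := b) (y := y)]
      nlinarith
    have hall : ∀ᵐ y ∂μ, ∀ i : ℕ,
        dist x₀ (TopologicalSpace.denseSeq X i) ≤ a₀ - k * (3 / 2 * ρ) - ρ →
        dist (TopologicalSpace.denseSeq X i) y < ρ / 2 → v y ≤ M * (1 - 3 / 4 * a) ^ (k + 1) := by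
      refine ae_all_iff.2 fun i => ?_
      by_cases hi : dist x₀ (TopologicalSpace.denseSeq X i) ≤ a₀ - k * (3 / 2 * ρ) - ρ
      · filter_upwards [hstep _ hi] with y hy _ using hy
      · exact Eventually.of_forall fun y h => absurd h hi
    filter_upwards [hall] with y hy hyd
    obtain ⟨i, hi⟩ := (TopologicalSpace.denseRange_denseSeq X).exists_dist_lt y
      (show 0 < ρ / 2 by positivity)
    refine hy i ?_ (by rw [dist_comm]; exact hi)
    have := dist_triangle x₀ y (TopologicalSpace.denseSeq X i)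
    push_cast at hyd
    linarith

/-- **exponential decay into a ball** -/
theorem decay_in {n : ℕ} {κ : ℝ} (hL : LapC S n κ) (hκ : 0 ≤ κ) {v : Lp ℝ 2 μ} (hv : v ∈ S.V)
    (h0 : ∀ᵐ y ∂μ, 0 ≤ v y) {M : ℝ} (hM0 : 0 ≤ M) (hM : ∀ᵐ y ∂μ, v y ≤ M) {x₀ : X} {a₀ ρ : ℝ}
    (hρ : 0 < ρ) (hκρ : κ * ρ ^ 2 ≤ 1)
    (hsub : ∀ w ∈ S.V, (∀ᵐ y ∂μ, 0 ≤ w y) → (∀ᵐ y ∂μ, a₀ ≤ dist x₀ y → w y = 0) →
      ρ ^ 2 * ⟪S.D v, S.D w⟫ + ⟪v, w⟫ ≤ 0) :
    ∀ᵐ y ∂μ, v y ≤ 2 * M * Real.exp (-((a₀ - dist x₀ y) / ((4 * n + 6) * ρ))) := by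
  have hn : (0:ℝ) ≤ n := Nat.cast_nonneg n
  set a : ℝ := 1 / (2 * n + 3) with ha
  have ha0 : 0 < a := by rw [ha]; positivity
  have ha1 : a ≤ 1 / 3 := by
    rw [ha]; exact one_div_le_one_div_of_le (by norm_num) (by linarith)
  have hall := ae_all_iff.2 fun k => decay_in_pow S hL hκ hv h0 hM0 hM hρ hκρ hsub k
  filter_upwards [hall, hM] with y hy hyM
  by_cases hd : a₀ ≤ dist x₀ y
  · have h1 : 1 ≤ Real.exp (-((a₀ - dist x₀ y) / ((4 * n + 6) * ρ))) := by
      apply Real.one_le_exp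
      have : (a₀ - dist x₀ y) / ((4 * n + 6) * ρ) ≤ 0 :=
        div_nonpos_of_nonpos_of_nonneg (by linarith) (by positivity)
      linarith
    nlinarith
  · rw [not_le] at hd
    set s : ℝ := (a₀ - dist x₀ y) / (3 / 2 * ρ) with hs
    have hs0 : 0 < s := div_pos (by linarith) (by positivity)
    obtain ⟨k, hk1, hk2⟩ : ∃ k : ℕ, (k : ℝ) < s ∧ s - 1 ≤ k := by
      have h1 : 0 < ⌈s⌉₊ := Nat.ceil_pos.2 hs0
      refine ⟨⌈s⌉₊ - 1, ?_, ?_⟩
      · have := Nat.ceil_lt_add_one hs0.le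
        rw [Nat.cast_sub (by omega)]
        push_cast
        linarith
      · have := Nat.le_ceil s
        rw [Nat.cast_sub (by omega)]
        push_cast
        linarith
    have h2 := hy k (by
      have h3 : (k : ℝ) * (3 / 2 * ρ) < s * (3 / 2 * ρ) := by
        have : 0 < 3 / 2 * ρ := by positivity
        nlinarith
      have h4 : s * (3 / 2 * ρ) = a₀ - dist x₀ y := by rw [hs]; field_simp
      linarith)
    refine h2.trans ?_
    have h5 : (1 - 3 / 4 * a) ^ k ≤ Real.exp (-(3 / 4 * a)) ^ k := by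
      have h6 : 1 - 3 / 4 * a ≤ Real.exp (-(3 / 4 * a)) := by
        have := Real.add_one_le_exp (-(3 / 4 * a))
        linarith
      exact pow_le_pow_left₀ (by linarith) h6 k
    rw [← Real.exp_nat_mul] at h5
    have h6 : (k : ℝ) * -(3 / 4 * a) ≤ 3 / 4 * a + -((a₀ - dist x₀ y) / ((4 * n + 6) * ρ)) := by
      have h7 : (a₀ - dist x₀ y) / ((4 * n + 6) * ρ) = 3 / 4 * a * s := by
        rw [hs, ha]; field_simp; ring
      rw [h7]
      nlinarith
    have h8 : Real.exp (3 / 4 * a) ≤ 2 := by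
      have h9 : Real.exp (3 / 4 * a) ≤ Real.exp (1 / 4) := Real.exp_le_exp.2 (by linarith)
      have h10 : Real.exp (1 / 4 : ℝ) ≤ 2 := by
        have h11 : (1 / 4 : ℝ) ≤ Real.log 2 := by
          have := Real.log_two_gt_d9
          linarith
        have := (Real.le_log_iff_exp_le (by norm_num : (0:ℝ) < 2)).1 h11
        exact this
      exact h9.trans h10
    have h9 : (1 - 3 / 4 * a) ^ k ≤ 2 * Real.exp (-((a₀ - dist x₀ y) / ((4 * n + 6) * ρ))) := by
      refine h5.trans ((Real.exp_le_exp.2 h6).trans ?_)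
      rw [Real.exp_add]
      exact mul_le_mul_of_nonneg_right h8 (Real.exp_pos _).le
    calc M * (1 - 3 / 4 * a) ^ k
        ≤ M * (2 * Real.exp (-((a₀ - dist x₀ y) / ((4 * n + 6) * ρ)))) :=
          mul_le_mul_of_nonneg_left h9 hM0
      _ = _ := by ring

variable {S} [CompleteSpace F] (hd : Dense (S.V : Set (Lp ℝ 2 μ)))

/-- decay of the resolvent into a ball on which `f` vanishes -/
theorem res_decay_in {n : ℕ} {κ : ℝ} (W : Smv126.WLap S n κ) (hκ : 0 ≤ κ) {f : Lp ℝ 2 μ} {M : ℝ}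
    (hM0 : 0 ≤ M) (hf0 : ∀ᵐ y ∂μ, 0 ≤ f y) (hfM : ∀ᵐ y ∂μ, f y ≤ M) {x₀ : X} {a₀ ρ : ℝ}
    (hfs : ∀ᵐ y ∂μ, dist x₀ y < a₀ → f y = 0) (hρ : 0 < ρ) (hκρ : κ * ρ ^ 2 ≤ 1) :
    ∀ᵐ y ∂μ, (S.form hd).res (ρ ^ 2) f y ≤
      2 * M * Real.exp (-((a₀ - dist x₀ y) / ((4 * n + 6) * ρ))) := by
  have hQ := S.markov hd
  have hdom := S.form_dom hd
  have hρ2 : 0 < ρ ^ 2 := by positivity
  have hvd : (S.form hd).res (ρ ^ 2) f ∈ (S.form hd).dom := (S.form hd).res_mem hρ2 f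
  have hvV : (S.form hd).res (ρ ^ 2) f ∈ S.V := by rw [← hdom]; exact hvd
  refine decay_in S (lapC_of_wlap W) hκ hvV (hQ.res_nonneg hρ2 hf0) hM0
    (hQ.res_le hρ2 hM0 hfM) hρ hκρ ?_
  intro w hw hw0 hwb
  have h1 := (S.form hd).res_eq hρ2 f (v := w) (by rw [hdom]; exact hw)
  rw [S.form_E_inner hd] at h1
  rw [h1, L2.inner_def]
  refine (integral_eq_zero_of_ae ?_).le
  filter_upwards [hwb, hfs] with y h2 h3
  show (inner ℝ (f y) (w y) : ℝ) = 0
  by_cases hy : a₀ ≤ dist x₀ y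
  · rw [h2 hy, inner_zero_right]
  · rw [h3 (not_le.1 hy), inner_zero_left]


end Crest.Agent.R247.Din939
end
end

-- ▼ part R247/Sv9_436
section

/-! # R247, leaf (1-S): the `k`-equation for the literal objects, global (hHF)

* `bw_of`  : helper124's `BW` for `u_k`, `O.A k` (helper593's GB1–GB4);
* `keq_of` : `KEq` for the literal objects;
* `hHFg_of`: (hHF) for the global `F = |A - I| + ρ |Dq|`, error = a number. -/

set_option autoImplicit false
set_option linter.unusedSectionVars false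
open MeasureTheory Set Filter Topology Metric TopologicalSpace
open scoped ENNReal NNReal RealInnerProductSpace

noncomputable section
namespace Crest.Agent.R247.Sv436

open Crest.Agent.R247.Mcp688 Crest.Agent.R247.Far553 Crest.Agent.R242
open Crest.Agent.R247.Dir593 Crest.Agent.R247.Dir593.GradS Crest.Agent.R247.Smv126
open Crest.Agent.R247.Obj554 Crest.Agent.R247.Hes124 Crest.Agent.R247.Fd656

variable {n : ℕ} {κ : ℝ} {X : Type*} [MetricSpace X] [ProperSpace X] [MeasurableSpace X]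
  [BorelSpace X] {μ : Measure X} [IsFiniteMeasureOnCompacts μ]

/-- helper124's package for the literal objects -/
theorem bw_of {B : BochS n κ X μ} {x : X} (hκ : 0 ≤ κ) (hκ1 : 4 * κ ≤ 1)
    (W : WLap B.toGradS n κ) (O : HObj B x) (k : ℕ) :
    ∃ P : Lp ℝ 2 μ, BW B (uk B x k) (gL B.toGradS n κ x (dy k)) (O.A k) P := by
  have hE := Obj554.eqn hκ W O k
  have hA : MemLp (O.A k) 2 μ := Gb593.memLp_A (O.hd k) hκ (Lp.memLp _) hE.tr
  have hR := norm_Duk_le hκ hκ1 W O k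
  have hb := Gb593.int_bm (O.hd k) hκ hE hA
  obtain ⟨p1, p2⟩ := Gb593.P_mem (O.hd k) hA hR
  refine ⟨(Gb593.memLp_P hR).toLp (Gb593.P B (uk B x k)), ?_⟩
  exact
    { u_mem := uL_mem (dy_pos k) x
      g_mem := gL_mem (dy_pos k) x
      weak := fun p hp => uL_weak (S := B.toGradS) (n := n) (κ := κ) (dy_pos k) x hp
      trA := hE.tr
      A_memLp := hA
      P_mem := p1
      P_eq := by
        filter_upwards [(Gb593.memLp_P hR).coeFn_toLp] with z hz
        rw [hz]; rfl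
      DP := p2
      bdd := ⟨_, hR⟩
      int := hb
      boch := fun p hp ⟨C1, hpb⟩ => (Gb593.boch_V (O.hd k) hE hA hb hR hp hpb).2.2.2 }

/-- the function `|∇f₀|² - 2 f₀` -/
def th0 (x z : X) : ℝ := 2 * hf x z * eta (hf x z) ^ 2 - 2 * (Phi (hf x z) - cinf)

lemma isT_th0 (x : X) : IsT (th0 x) := by
  refine isT_radial' x (χ := fun s => 2 * s * eta s ^ 2 - 2 * (Phi s - cinf)) ?_ ?_
  · have h1 : ContDiff ℝ 1 eta := contDiff_eta1
    have h2 : ContDiff ℝ 1 (fun s => Phi s - cinf) := contDiff_f0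
    have h3 : ContDiff ℝ 1 (fun s : ℝ => 2 * s) := by fun_prop
    exact (h3.mul (h1.pow 2)).sub (contDiff_const.mul h2)
  · intro s hs
    show 2 * s * eta s ^ 2 - 2 * (Phi s - cinf) = 0
    rw [eta_zero hs, Phi_const hs]
    unfold cinf
    ring

lemma th0_ae {B : BochS n κ X μ} (W : WLap B.toGradS n κ) (x : X) :
    ∀ᵐ z ∂μ, th0 x z = ‖B.G (f0 x) z‖ ^ 2 - 2 * f0 x z := by
  filter_upwards [G_f0 B.toGradS x, W.normSq_G_hf x] with z h1 h2
  rw [h1, norm_smul, mul_pow, h2]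
  unfold th0 f0 et
  rw [Real.norm_eq_abs, sq_abs]
  have h6 : dist x z ^ 2 = 2 * hf x z := by unfold hf; ring
  rw [h6]
  ring

/-- **the un-cut `k`-equation for the literal objects** -/
theorem keq_of {B : BochS n κ X μ} {x : X} (hκ : 0 ≤ κ) (hκ1 : 4 * κ ≤ 1)
    (W : WLap B.toGradS n κ) (O : HObj B x) (k : ℕ) :
    ∃ kk : Lp ℝ 2 μ, KEq B x (dy k) (O.A k) kk := by
  obtain ⟨P, h⟩ := bw_of hκ hκ1 W O k
  have hT := isT_th0 x
  have hq : qL B.toGradS n κ x (dy k) ∈ B.V := qL_mem (dy_pos k) x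
  have hK : (2:ℝ) • P - (2:ℝ) • uk B x k ∈ B.V :=
    B.V.sub_mem (B.V.smul_mem _ h.P_mem) (B.V.smul_mem _ h.u_mem)
  have hi := h.int_four (isT_Nf n κ x) (ρ := dy k) (q := qL B.toGradS n κ x (dy k)) rfl
  refine ⟨(2:ℝ) • P - (2:ℝ) • uk B x k, hK, ?_, ?_, ?_⟩
  · filter_upwards [Lp.coeFn_sub ((2:ℝ) • P) ((2:ℝ) • uk B x k), Lp.coeFn_smul (2:ℝ) P,
      Lp.coeFn_smul (2:ℝ) (uk B x k), h.P_eq] with z a1 a2 a3 a4
    rw [a1, Pi.sub_apply, a2, a3, Pi.smul_apply, Pi.smul_apply, a4, smul_eq_mul, smul_eq_mul]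
    ring
  · intro p hp c hpb
    have i1 : Integrable (fun z => p z * (4 * qL B.toGradS n κ x (dy k) z)) μ := by
      refine ((int_mul (Lp.memLp p) (Lp.memLp (qL B.toGradS n κ x (dy k)))).const_mul 4).congr
        (Eventually.of_forall fun z => ?_)
      simp only
      ring
    have i2 := BochS.int_bdd_mul hi (Lp.aestronglyMeasurable p) hpb
    refine (i1.sub i2).congr (Eventually.of_forall fun z => ?_)
    simp only [Pi.sub_apply]
    show _ = p z * Sp B (uk B x k) (qL B.toGradS n κ x (dy k)) (O.A k) (Nf n κ x) (dy k) z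
    ring
  · intro p hp c hpb
    have e := h.keq (isT_f0 x) (isT_Nf n κ x) hT hq (ρ := dy k) rfl rfl (th0_ae W x) hp ⟨c, hpb⟩
    have e1 : BW.kL (uk B x k) P hT = ((2:ℝ) • P - (2:ℝ) • uk B x k) - tL hT := rfl
    rw [e1, B.D_sub hK (B.tL_mem hT), inner_sub_left, inner_sub_left] at e
    have e2 : (⟪B.D (tL hT), B.D p⟫ : ℝ) = ∫ z, ⟪B.G (th0 x) z, B.D p z⟫ ∂μ := by
      rw [L2.inner_def]
      refine integral_congr_ae ?_
      filter_upwards [B.D_tL hT] with z hz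
      rw [hz]
    have e3 : (⟪(tL hT : Lp ℝ 2 μ), p⟫ : ℝ) =
        ∫ z, p z * (‖B.G (f0 x) z‖ ^ 2 - 2 * f0 x z) ∂μ := by
      rw [L2.inner_def]
      refine integral_congr_ae ?_
      filter_upwards [coe_tL (μ := μ) hT, th0_ae W x] with z a1 a2
      rw [a1, ← a2]
      simp
    have e4 : ∫ z, (4 * qL B.toGradS n κ x (dy k) z -
          Sp B (uk B x k) (qL B.toGradS n κ x (dy k)) (O.A k) (Nf n κ x) (dy k) z) * p z ∂μ =
        ∫ z, p z * (4 * qL B.toGradS n κ x (dy k) z - SP B x (dy k) (O.A k) z) ∂μ := by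
      refine integral_congr_ae (Eventually.of_forall fun z => ?_)
      simp only
      rw [mul_comm]
      rfl
    rw [e2, e3, e4] at e
    linarith

end Crest.Agent.R247.Sv436
end
end

-- ▼ part R247/Sv10_436

/-! # R247, leaf (1-S): the global (hHF), error = a number -/

set_option autoImplicit false
set_option linter.unusedSectionVars false
open MeasureTheory Set Filter Topology Metric TopologicalSpace
open scoped ENNReal NNReal RealInnerProductSpace

noncomputable section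
namespace Crest.Agent.R247.Sv436

open Crest.Agent.R247.Mcp688 Crest.Agent.R247.Far553 Crest.Agent.R242
open Crest.Agent.R247.Dir593 Crest.Agent.R247.Dir593.GradS Crest.Agent.R247.Smv126
open Crest.Agent.R247.Obj554 Crest.Agent.R247.Hes124 Crest.Agent.R247.Fd656

variable {n : ℕ} {κ : ℝ} {X : Type*} [MetricSpace X] [ProperSpace X] [MeasurableSpace X]
  [BorelSpace X] {μ : Measure X} [IsFiniteMeasureOnCompacts μ]

/-- the error number `exp(-16/((4n+6)ρ))` -/
def eNum (n : ℕ) (ρ : ℝ) : ℝ := Real.exp (-(16 / ((4 * n + 6) * ρ)))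

lemma eNum_pos (n : ℕ) (ρ : ℝ) : 0 < eNum n ρ := Real.exp_pos _

lemma eNum_le_one (n : ℕ) {ρ : ℝ} (hρ : 0 < ρ) : eNum n ρ ≤ 1 := by
  unfold eNum
  apply Real.exp_le_one_iff.2
  have : 0 ≤ 16 / ((4 * (n:ℝ) + 6) * ρ) := by positivity
  linarith

/-- mass of `R 1_E` outside the ball of radius `32` -/
theorem res_outer [SigmaFinite μ] (B : BochS n κ X μ) (W : WLap B.toGradS n κ) (hκ : 0 ≤ κ)
    {ρ : ℝ} (hρ : 0 < ρ) (hκρ : κ * ρ ^ 2 ≤ 1) (x : X) {E : Set X} (hE : MeasurableSet E)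
    (hμ : μ E ≠ ∞) (hs : E ⊆ closedBall x 16) :
    Integrable (fun z => (QF B.toGradS).res (ρ ^ 2) (ind hE hμ) z *
      {z | 32 < dist x z}.indicator (fun _ => (1:ℝ)) z) μ ∧
    ∫ z, (QF B.toGradS).res (ρ ^ 2) (ind hE hμ) z *
      {z | 32 < dist x z}.indicator (fun _ => (1:ℝ)) z ∂μ ≤ 2 * eNum n ρ * μ.real E := by
  have h0 : (0:ℝ) < ρ ^ 2 := by positivity
  set φ := (QF B.toGradS).res (ρ ^ 2) (ind hE hμ) with hφ
  have M := B.markov B.dense_V
  have hfin : IsFiniteMeasure (μ.restrict E) := ⟨by rw [Measure.restrict_apply_univ]; exact hμ.lt_top⟩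
  have φ0 : 0 ≤ᵐ[μ] (φ : X → ℝ) := M.res_nonneg h0 (ind_nonneg hE hμ)
  have iE : Integrable (ind hE hμ : X → ℝ) μ := by
    refine ((integrable_indicator_iff hE).2 (integrableOn_const (C := (1:ℝ)) (hs := hμ))).congr ?_
    exact (coe_ind hE hμ).symm
  have iφ : Integrable φ μ := (M.symMarkov_res h0).integrable (ind_nonneg hE hμ) iE
  have hdm : Measurable fun z : X => dist x z := (continuous_const.dist continuous_id).measurable
  set G : Set X := {z | 32 < dist x z} with hG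
  have hGm : MeasurableSet G := hdm measurableSet_Ioi
  set Gm : ℕ → Set X := fun m => {z | 32 < dist x z ∧ dist x z ≤ m} with hGmdef
  have hGmm : ∀ m, MeasurableSet (Gm m) := fun m =>
    (hdm measurableSet_Ioi).inter (hdm measurableSet_Iic)
  have hGmf : ∀ m, μ (Gm m) ≠ ∞ := fun m => by
    have : Gm m ⊆ closedBall x m := fun z hz => by
      rw [mem_closedBall, dist_comm]; exact hz.2
    exact ((measure_mono this).trans_lt (isCompact_closedBall x _).measure_lt_top).ne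
  have e0 : ∀ (T : Set X), (fun z => φ z * T.indicator (fun _ => (1:ℝ)) z) =
      T.indicator (φ : X → ℝ) := by
    intro T
    funext z
    by_cases h : z ∈ T
    · rw [indicator_of_mem h, indicator_of_mem h, mul_one]
    · rw [indicator_of_notMem h, indicator_of_notMem h, mul_zero]
  rw [e0 G]
  refine ⟨iφ.indicator hGm, ?_⟩
  rw [integral_indicator hGm]
  have hmono : Monotone Gm := by
    intro a b hab z hz
    exact ⟨hz.1, hz.2.trans (by exact_mod_cast hab)⟩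
  have hU : ⋃ m, Gm m = G := by
    ext z
    simp only [hGmdef, mem_iUnion, hG]
    constructor
    · rintro ⟨m, h1, -⟩; exact h1
    · intro h1
      obtain ⟨m, hm⟩ := exists_nat_ge (dist x z)
      exact ⟨m, h1, hm⟩
  have hlim := tendsto_setIntegral_of_monotone hGmm hmono (f := (φ : X → ℝ)) (μ := μ)
    (iφ.integrableOn)
  rw [hU] at hlim
  refine le_of_tendsto' hlim fun m => ?_
  have h1 := (int_res_ind B (ρ ^ 2) hE hμ (hGmm m) (hGmf m)).2
  rw [← hφ, e0 (Gm m), integral_indicator (hGmm m)] at h1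
  rw [h1]
  have hdec := Din939.res_decay_in B.dense_V W hκ (f := ind (hGmm m) (hGmf m)) (M := 1) zero_le_one
    (ind_nonneg _ _) (ind_le_one _ _) (x₀ := x) (a₀ := 32) (ρ := ρ) (by
      filter_upwards [coe_ind (hGmm m) (hGmf m)] with z hz hd
      rw [hz, indicator_of_notMem]
      intro h
      exact absurd h.1 (not_lt.2 hd.le)) hρ hκρ
  have hle : ∫ z in E, (QF B.toGradS).res (ρ ^ 2) (ind (hGmm m) (hGmf m)) z ∂μ ≤
      ∫ _ in E, 2 * eNum n ρ ∂μ := by
    refine integral_mono_ae (integrableOn_of_L2 _ hE hμ) (integrable_const _) ?_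
    filter_upwards [ae_restrict_of_ae hdec, ae_restrict_mem hE] with z h2 h3
    refine h2.trans ?_
    rw [mul_one]
    have h4 : dist x z ≤ 16 := by
      have := hs h3
      rwa [mem_closedBall, dist_comm] at this
    unfold eNum
    have hn : (0:ℝ) ≤ n := Nat.cast_nonneg n
    have h5 : 16 / ((4 * (n:ℝ) + 6) * ρ) ≤ (32 - dist x z) / ((4 * n + 6) * ρ) := by
      gcongr
      linarith
    have h6 : Real.exp (-((32 - dist x z) / ((4 * n + 6) * ρ))) ≤
        Real.exp (-(16 / ((4 * (n:ℝ) + 6) * ρ))) := Real.exp_le_exp.2 (by linarith)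
    linarith
  refine hle.trans (le_of_eq ?_)
  rw [setIntegral_const, smul_eq_mul, mul_comm]

set_option maxHeartbeats 400000 in
/-- **(hHF), global form**: the input of `locIn_of` for `F = H + g`, `S = F²`. -/
theorem hHFg_of [SigmaFinite μ] {B : BochS n κ X μ} {x : X} (W : WLap B.toGradS n κ) (hκ : 0 ≤ κ)
    (hκ8 : 8 * κ ≤ 1) (O : HObj B x) (k : ℕ) {D qt rq : X → ℝ}
    (eD : ∀ᵐ z ∂μ, D z = ⟪B.G (hf x) z, B.D (qk B x k) z⟫)
    (eq : ∀ᵐ z ∂μ, qt z = qk B x k z)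
    (erq : ∀ᵐ z ∂μ, rq z = (QF B.toGradS).res (dy k ^ 2) (qk B x k) z)
    {E : Set X} (hE : MeasurableSet E) (hs : E ⊆ closedBall x 16) :
    ∫⁻ z, ENNReal.ofReal ((Hf O k z + gf B x k z) ^ 2) * PE B.toGradS (dy k) E z ∂μ ≤
        ENNReal.ofReal (10 * ∫ z in E, (D z - qt z + (2 * rq z + CE n * eNum n (dy k))) ∂μ) ∧
      0 ≤ ∫ z in E, (D z - qt z + (2 * rq z + CE n * eNum n (dy k))) ∂μ := by
  have hρ := dy_pos k
  have hρ1 := dy_le_one k
  have h0 : (0:ℝ) < dy k ^ 2 := by positivity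
  have hρ2 : dy k ^ 2 ≤ 1 := by nlinarith
  have hκρ : 8 * κ * dy k ^ 2 ≤ 1 := by nlinarith
  have hμ : μ E ≠ ∞ :=
    ((measure_mono hs).trans_lt (isCompact_closedBall x 16).measure_lt_top).ne
  have hfin : IsFiniteMeasure (μ.restrict E) := ⟨by rw [Measure.restrict_apply_univ]; exact hμ.lt_top⟩
  obtain ⟨kk, K⟩ := keq_of hκ (by linarith) W O k
  obtain ⟨P, hBW⟩ := bw_of hκ (by linarith) W O k
  have hF2 := Fx_sq_le hBW W hκ (by linarith) hρ hρ1 hκρ
  have hsub : E ⊆ ball x 32 := hs.trans (closedBall_subset_ball (by norm_num))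
  set q := qk B x k with hq
  set φ := (QF B.toGradS).res (dy k ^ 2) (ind hE hμ) with hφ
  have hCE := CE_nonneg n
  have M := B.markov B.dense_V
  have φ0 : 0 ≤ᵐ[μ] (φ : X → ℝ) := M.res_nonneg h0 (ind_nonneg hE hμ)
  have φ1 : ∀ᵐ z ∂μ, φ z ≤ 1 := M.res_le h0 zero_le_one (ind_le_one hE hμ)
  have φb : ∀ᵐ z ∂μ, |φ z| ≤ 1 := by
    filter_upwards [φ0, φ1] with z h1 h2
    rw [abs_of_nonneg h1]; exact h2
  have φmem : φ ∈ B.V := (QF B.toGradS).res_mem h0 _
  have iφS := K.int φ φmem 1 φb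
  obtain ⟨iout, eout⟩ := res_outer B W hκ hρ (by nlinarith) x hE hμ hs
  rw [← hφ] at iout eout
  have hFm : Measurable fun z => (Hf O k z + gf B x k z) ^ 2 :=
    ((Hf_meas B x O k).add (gf_meas B x k)).pow_const 2
  have hpt : ∀ᵐ z ∂μ, φ z * (Hf O k z + gf B x k z) ^ 2 ≤
      5 * (φ z * SP B x (dy k) (O.A k) z) +
      5 * CE n * (φ z * {z | 32 < dist x z}.indicator (fun _ => (1:ℝ)) z) := by
    filter_upwards [hF2, φ0] with z h1 h2
    have h3 : (0:ℝ) ≤ φ z := h2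
    have h4 := mul_le_mul_of_nonneg_left h1 h3
    have h5 : {z | 32 < dist x z}.indicator (fun _ => CE n) z =
        CE n * {z | 32 < dist x z}.indicator (fun _ => (1:ℝ)) z := by
      by_cases h : z ∈ {z | 32 < dist x z}
      · rw [indicator_of_mem h, indicator_of_mem h, mul_one]
      · rw [indicator_of_notMem h, indicator_of_notMem h, mul_zero]
    rw [h5] at h4
    have h6 : Fx B x (dy k) (O.A k) z = Hf O k z + gf B x k z := rfl
    have h7 : Spx B x (dy k) (O.A k) z = SP B x (dy k) (O.A k) z := rfl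
    rw [h6, h7] at h4
    linarith
  have iR : Integrable (fun z => 5 * (φ z * SP B x (dy k) (O.A k) z) +
      5 * CE n * (φ z * {z | 32 < dist x z}.indicator (fun _ => (1:ℝ)) z)) μ :=
    (iφS.const_mul 5).add (iout.const_mul _)
  have hφT0 : ∀ᵐ z ∂μ, 0 ≤ φ z * (Hf O k z + gf B x k z) ^ 2 := by
    filter_upwards [φ0] with z h1
    exact mul_nonneg h1 (sq_nonneg _)
  have iT : Integrable (fun z => φ z * (Hf O k z + gf B x k z) ^ 2) μ := by
    refine iR.mono' ((Lp.aestronglyMeasurable φ).mul hFm.aestronglyMeasurable) ?_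
    filter_upwards [hpt, hφT0] with z h1 h2
    rw [Real.norm_of_nonneg h2]; exact h1
  have h1 : ∫ z, φ z * (Hf O k z + gf B x k z) ^ 2 ∂μ ≤
      5 * ∫ z, φ z * SP B x (dy k) (O.A k) z ∂μ +
      5 * CE n * (2 * eNum n (dy k) * μ.real E) := by
    refine (integral_mono_ae iT iR hpt).trans ?_
    rw [integral_add (iφS.const_mul 5) (iout.const_mul _), integral_const_mul, integral_const_mul]
    gcongr
  have h2 := key_ineq B W hρ x K hE hμ hsub
  -- the right-hand side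
  have iq : IntegrableOn q E μ := integrableOn_of_L2 q hE hμ
  have iRq : IntegrableOn ((QF B.toGradS).res (dy k ^ 2) q) E μ := integrableOn_of_L2 _ hE hμ
  have ih : IntegrableOn (fun z => (⟪B.G (hf x) z, B.D q z⟫ : ℝ)) E μ := by
    have h1 : IntegrableOn (fun z => ‖B.D q z‖) E μ := by
      exact ((Lp.memLp (B.D q)).restrict E).norm.integrable (by norm_num)
    refine Integrable.mono' (h1.const_mul 32) ?_ ?_
    · exact ((B.meas (locLip_hf x)).inner (Lp.aestronglyMeasurable (B.D q))).restrict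
    · filter_upwards [ae_restrict_of_ae (W.normSq_G_hf x), ae_restrict_mem hE] with z h2 h3
      have h4 : dist x z < 32 := by
        have := hsub h3
        rwa [mem_ball, dist_comm] at this
      have h5 : ‖B.G (hf x) z‖ ≤ 32 := by
        have h6 : ‖B.G (hf x) z‖ = dist x z := by
          have := congrArg Real.sqrt h2
          rwa [Real.sqrt_sq (norm_nonneg _), Real.sqrt_sq dist_nonneg] at this
        rw [h6]; exact h4.le
      exact (norm_inner_le_norm _ _).trans (mul_le_mul_of_nonneg_right h5 (norm_nonneg _))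
  have i3 : IntegrableOn (fun z => (⟪B.G (hf x) z, B.D q z⟫ - q z +
      2 * (QF B.toGradS).res (dy k ^ 2) q z : ℝ)) E μ := (ih.sub iq).add (iRq.const_mul _)
  have h3 : ∫ z in E, (D z - qt z + (2 * rq z + CE n * eNum n (dy k))) ∂μ =
      (∫ z in E, (⟪B.G (hf x) z, B.D q z⟫ - q z + 2 * (QF B.toGradS).res (dy k ^ 2) q z) ∂μ) +
      CE n * eNum n (dy k) * μ.real E := by
    have e1 : CE n * eNum n (dy k) * μ.real E = ∫ _ in E, CE n * eNum n (dy k) ∂μ := by
      rw [setIntegral_const, smul_eq_mul, mul_comm]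
    rw [e1, ← integral_add i3 (integrable_const _)]
    refine integral_congr_ae ?_
    filter_upwards [ae_restrict_of_ae eD, ae_restrict_of_ae eq, ae_restrict_of_ae erq]
      with z a1 a2 a3
    rw [a1, a2, a3]
    ring
  have h4 : ∫ z, φ z * (Hf O k z + gf B x k z) ^ 2 ∂μ ≤
      10 * ∫ z in E, (D z - qt z + (2 * rq z + CE n * eNum n (dy k))) ∂μ := by
    rw [h3]
    have : 5 * CE n * (2 * eNum n (dy k) * μ.real E) =
      10 * (CE n * eNum n (dy k) * μ.real E) := by ring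
    linarith
  have h5 : 0 ≤ ∫ z, φ z * (Hf O k z + gf B x k z) ^ 2 ∂μ := integral_nonneg_of_ae hφT0
  refine ⟨?_, by linarith⟩
  refine le_trans (le_of_eq ?_) (ENNReal.ofReal_le_ofReal h4)
  rw [ofReal_integral_eq_lintegral_ofReal iT hφT0]
  refine lintegral_congr fun z => ?_
  unfold PE
  rw [cE_eq hE hμ, ← ENNReal.ofReal_mul (sq_nonneg _)]
  congr 1
  rw [← hφ]
  ring

end Crest.Agent.R247.Sv436
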