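import Crest.Agent.R247.Loc2_596_Mg
import Crest.Agent.R247.Pln7_923_Mg
import Crest.Agent.R247.Sv10_436
import Crest.Agent.R247.Far0_553
import Crest.Agent.R247.Max5_193
import Crest.Agent.R247.Fd2_656
import Crest.Agent.R247.Fv4_510
import Crest.Agent.R247.Fd0_656
import Crest.Agent.R247.Obj3_554

-- ▼ part R247/Last_550
section

/-!
# R247: S0381 from the package Prop `PkP n c` alone
-/

set_option autoImplicit false
noncomputable section
open Set Filter Topology MeasureTheory Metric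
open scoped ContDiff Manifold ENNReal NNReal
open Bundle Crest.GeometryTopology.CoordMetric Crest.GeometryTopology.ChartCurvature
  Crest.GeometryTopology.PointedLimit

namespace Crest.Agent.R247.Last550

universe u

/-- `GlueDataT 40 n` from the package. -/
theorem glue_of_pkP (n : ℕ) (h : 1 ≤ n → ∃ c : Far553.FarK, Q9550.PkP.{u} n c) :
    GluM923.GlueDataT.{u} 40 n := by
  refine Q9550.glueDataT_of' fun hn => ?_
  obtain ⟨c, hc⟩ := h hn
  exact ⟨c, hc, Ch111.farConcl c hn, Near710.nearP n hn, Loc596.locP n c, Pln923.plThm n⟩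

/-- **S0381** from the package. -/
theorem s0381_of_pkP (n : ℕ) (h : 1 ≤ n → ∃ c : Far553.FarK, Q9550.PkP.{u} n c) :
    ∃ L : ℝ, 1 ≤ L ∧
      ∀ (K : ℝ) (M : ℕ → Type u) [∀ k, MetricSpace (M k)] [∀ k, CompleteSpace (M k)]
        [∀ k, ConnectedSpace (M k)] [∀ k, ChartedSpace (EuclideanSpace ℝ (Fin n)) (M k)]
        [∀ k, IsManifold 𝓘(ℝ, EuclideanSpace ℝ (Fin n)) ∞ (M k)]
        [∀ k, RiemannianBundle (fun x : M k => TangentSpace 𝓘(ℝ, EuclideanSpace ℝ (Fin n)) x)]
        [∀ k, IsContMDiffRiemannianBundle 𝓘(ℝ, EuclideanSpace ℝ (Fin n)) ∞ (EuclideanSpace ℝ (Fin n))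
          (fun x : M k => TangentSpace 𝓘(ℝ, EuclideanSpace ℝ (Fin n)) x)]
        [∀ k, IsRiemannianManifold 𝓘(ℝ, EuclideanSpace ℝ (Fin n)) (M k)]
        [∀ k, MeasurableSpace (M k)] [∀ k, BorelSpace (M k)] (q : ∀ k, M k),
        (∀ k, HasRicciLowerBound n (M k) K) →
        (∃ v : ℝ, 0 < v ∧ ∀ k, ENNReal.ofReal v ≤
          MeasureTheory.Measure.euclideanHausdorffMeasure n (Metric.ball (q k) 1)) →
        ∀ (X : Type u) [MetricSpace X] [CompleteSpace X] (p : X),
          SeqPointedTendsto q p → RescalingsTendstoEuclidean p n →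
          ∃ U : Set X, IsOpen U ∧ p ∈ U ∧ ∃ F : X → EuclideanSpace ℝ (Fin n), IsOpen (F '' U) ∧
            ∀ x ∈ U, ∀ z ∈ U, L⁻¹ * dist x z ≤ dist (F x) (F z) ∧
              dist (F x) (F z) ≤ L * dist x z :=
  Top546.s0381_of_glue n (glue_of_pkP n h)

end Crest.Agent.R247.Last550
end
end

-- ▼ part R247/Sv11_436
section

/-! # R247, leaf (1-S): `LocIn` for the literal objects, every thickness; the field `d1a` -/

set_option autoImplicit false
set_option linter.unusedSectionVars false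
open MeasureTheory Set Filter Topology Metric TopologicalSpace
open scoped ENNReal NNReal RealInnerProductSpace

noncomputable section
namespace Crest.Agent.R247.Sv436

open Crest.Agent.R247.Mcp688 Crest.Agent.R247.Far553 Crest.Agent.R242
open Crest.Agent.R247.Dir593 Crest.Agent.R247.Dir593.GradS Crest.Agent.R247.Smv126
open Crest.Agent.R247.Obj554 Crest.Agent.R247.Hes124 Crest.Agent.R247.Fd656

section gen

variable {X : Type*} [MetricSpace X]

lemma HalfSq.mono {h : X → X → ℝ} {R R' : ℝ} (H : HalfSq h R) (h0 : 0 ≤ R') (hR : R' ≤ R) :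
    HalfSq h R' where
  near := fun y z hd => H.near y z (hd.trans hR)
  far := fun y z hd => by
    rcases le_total (dist y z) R with h1 | h1
    · rw [H.near y z h1]
      gcongr
    · refine le_trans ?_ (H.far y z h1)
      gcongr
  lip := H.lip

variable [MeasurableSpace X] {μ : Measure X}

lemma SurvIn.congr {h : X → X → ℝ} {x : X} {Q Q' : X → ℝ} {A C0 C0' : ℝ}
    (H : SurvIn μ h x Q A C0) (hQ : ∀ᵐ z ∂μ, Q' z = Q z) (hC : C0 ≤ C0') :
    SurvIn μ h x Q' A C0' := by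
  intro v β c hβ hc
  filter_upwards [H v β c hβ hc, hQ] with z h1 h2
  rw [h2]
  refine h1.trans ?_
  have : C0 * (1 + β) ≤ C0' * (1 + β) := by
    gcongr
  linarith

end gen

variable {n : ℕ} {κ : ℝ} {X : Type*} [MetricSpace X] [ProperSpace X] [MeasurableSpace X]
  [BorelSpace X] {μ : Measure X} [IsFiniteMeasureOnCompacts μ]


lemma cR2_anti {n : ℕ} {κ K v1 : ℝ} (hκ : 0 ≤ κ) (hκ1 : κ ≤ 1) (hK : 1 ≤ K) (hv1 : 0 < v1) :
    cR2 n 1 K v1 ≤ cR2 n κ K v1 := by
  unfold cR2
  have hn : (0 : ℝ) ≤ n := Nat.cast_nonneg n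
  gcongr

/-- integrability of the right-hand side -/
lemma int_rhs {B : BochS n κ X μ} {x : X} (W : WLap B.toGradS n κ) (k : ℕ) {D qt rq : X → ℝ}
    (eD : ∀ᵐ z ∂μ, D z = ⟪B.G (hf x) z, B.D (qk B x k) z⟫)
    (eq : ∀ᵐ z ∂μ, qt z = qk B x k z)
    (erq : ∀ᵐ z ∂μ, rq z = (QF B.toGradS).res (dy k ^ 2) (qk B x k) z) (c : ℝ) :
    IntegrableOn (fun z => D z - qt z + (2 * rq z + c)) (closedBall x 16) μ := by
  have hE : MeasurableSet (closedBall x 16) := isClosed_closedBall.measurableSet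
  have hμ : μ (closedBall x 16) ≠ ∞ := (isCompact_closedBall x 16).measure_lt_top.ne
  have hfin : IsFiniteMeasure (μ.restrict (closedBall x 16)) :=
    ⟨by rw [Measure.restrict_apply_univ]; exact hμ.lt_top⟩
  set q := qk B x k with hq
  set E := closedBall x (16:ℝ) with hEd
  have iq : IntegrableOn q E μ := integrableOn_of_L2 q hE hμ
  have iRq : IntegrableOn ((QF B.toGradS).res (dy k ^ 2) q) E μ := integrableOn_of_L2 _ hE hμ
  have ih : IntegrableOn (fun z => (⟪B.G (hf x) z, B.D q z⟫ : ℝ)) E μ := by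
    have h1 : IntegrableOn (fun z => ‖B.D q z‖) E μ := by
      exact ((Lp.memLp (B.D q)).restrict E).norm.integrable (by norm_num)
    refine Integrable.mono' (h1.const_mul 32) ?_ ?_
    · exact ((B.meas (locLip_hf x)).inner (Lp.aestronglyMeasurable (B.D q))).restrict
    · filter_upwards [ae_restrict_of_ae (W.normSq_G_hf x), ae_restrict_mem hE] with z h2 h3
      have h4 : dist x z ≤ 16 := by
        rwa [hEd, mem_closedBall, dist_comm] at h3
      have h5 : ‖B.G (hf x) z‖ ≤ 32 := by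
        have h6 : ‖B.G (hf x) z‖ = dist x z := by
          have := congrArg Real.sqrt h2
          rwa [Real.sqrt_sq (norm_nonneg _), Real.sqrt_sq dist_nonneg] at this
        rw [h6]; linarith
      exact (norm_inner_le_norm _ _).trans (mul_le_mul_of_nonneg_right h5 (norm_nonneg _))
  have i3 : IntegrableOn (fun z => (⟪B.G (hf x) z, B.D q z⟫ - q z +
      (2 * (QF B.toGradS).res (dy k ^ 2) q z + c) : ℝ)) E μ :=
    (ih.sub iq).add ((iRq.const_mul _).add (integrable_const _))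
  refine i3.congr ?_
  filter_upwards [ae_restrict_of_ae eD, ae_restrict_of_ae eq, ae_restrict_of_ae erq]
    with z a1 a2 a3
  rw [a1, a2, a3]

/-- the constant `c1` of `LocIn` -/
def c1c (n : ℕ) (K V v1 : ℝ) : ℝ :=
  Real.exp (K ^ 2 / 2) * K ^ n * V * ((cR2 n 1 K v1)⁻¹ * 10)

/-- the constant `C0` of `LocIn` -/
def C0c (n : ℕ) : ℝ := 2 * (2 * CN n 1) + CE n

lemma C0c_nonneg (n : ℕ) : 0 ≤ C0c n := by
  unfold C0c
  have := CN_nonneg n zero_le_one
  have := CE_nonneg n
  positivity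

/-- representative of `R q_k` -/
def rqf (B : BochS n κ X μ) (x : X) (k : ℕ) (z : X) : ℝ :=
  max ((QF B.toGradS).res (dy k ^ 2) (qk B x k) z) 0

lemma rqf_meas (B : BochS n κ X μ) (x : X) (k : ℕ) : Measurable (rqf B x k) :=
  ((Lp.stronglyMeasurable _).measurable).max measurable_const

lemma rqf_nonneg (B : BochS n κ X μ) (x : X) (k : ℕ) (z : X) : 0 ≤ rqf B x k z := le_max_right _ _

lemma rqf_ae {B : BochS n κ X μ} (W : WLap B.toGradS n κ) (x : X) (k : ℕ) :
    ∀ᵐ z ∂μ, rqf B x k z = (QF B.toGradS).res (dy k ^ 2) (qk B x k) z := by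
  have h0 : (0:ℝ) < dy k ^ 2 := by have := dy_pos k; positivity
  filter_upwards [(B.markov B.dense_V).res_nonneg h0 (qL_nonneg W (dy_pos k) x)] with z hz
  exact max_eq_left hz

/-- everything which `LocIn` needs about one thickness: the Lipschitz representative -/
structure QRep (B : BochS n κ X μ) (C : Rad n κ X μ) (x : X) (k : ℕ) (qc D : X → ℝ) : Prop where
  lip : LocallyLipschitz qc
  nonneg : ∀ z, 0 ≤ qc z
  ae_q : ∀ᵐ z ∂μ, qc z = qk B x k z
  ae_D : ∀ᵐ z ∂μ, D z = ⟪B.G (hf x) z, B.D (qk B x k) z⟫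
  rd : RD C x qc D

theorem exists_QRep {B : BochS n κ X μ} {C : Rad n κ X μ} {x : X} (hκ : 0 ≤ κ) (hκ1 : 4 * κ ≤ 1)
    (hL : LK B.toGradS C) (W : WLap B.toGradS n κ)
    (hpos : ∀ (x : X) (r : ℝ), 0 < r → μ (Metric.ball x r) ≠ 0) (O : HObj B x) (k : ℕ) :
    ∃ qc D, QRep B C x k qc D := by
  obtain ⟨qc, h1, h2, h3, h4, h5⟩ := exists_qc hκ hκ1 hL W hpos O k
  refine ⟨qc, fun z => ⟪B.G (hf x) z, B.G qc z⟫, h1, h2, ?_, ?_, h5 x⟩
  · filter_upwards [h3] with z hz
    exact hz.symm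
  · filter_upwards [h4] with z hz
    rw [hz]

set_option maxHeartbeats 400000 in
/-- **`LocIn` for the literal objects** -/
theorem locIn_k (hn : 1 ≤ n) {B : BochS n κ X μ} {C : Rad n κ X μ} {x : X}
    (W : WLap B.toGradS n κ) (hκ : 0 ≤ κ) (hκ8 : 8 * κ ≤ 1) (O : HObj B x) (k : ℕ)
    {qc D : X → ℝ} (hQ : QRep B C x k qc D) {v1 V : ℝ} (hv1 : 0 < v1)
    (hd : ∀ y : X, ∀ᶠ ε in 𝓝[>] (0:ℝ), μ (closedBall y ε) ≤ ENNReal.ofReal (v1 * ε ^ n))
    (hV : 0 ≤ V)
    (hvol : ∀ y r, dist x y ≤ 16 → 0 < r → r ≤ 1 → μ (ball y r) ≤ ENNReal.ofReal (V * r ^ n))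
    {K : ℝ} (hK : 1 ≤ K) :
    LocIn C x 16 K (dy k) (c1c n K V v1) (C0c n) (fun z => Hf O k z + gf B x k z) qc D
      (fun z => 2 * rqf B x k z + CE n * eNum n (dy k)) := by
  have hρ := dy_pos k
  have hρ1 := dy_le_one k
  have hκ1 : κ ≤ 1 := by linarith
  have h0 : (0:ℝ) < dy k ^ 2 := by positivity
  have hCN := CN_nonneg n hκ
  have hCN1 : CN n κ ≤ CN n 1 := CN_mono n hκ1
  have hCE := CE_nonneg n
  have M := B.markov B.dense_V
  have hrq := rqf_ae W x k
  have hrq' : ∀ᵐ z ∂μ, rqf B x k z = (QF B.toGradS).res (dy k ^ 2) (qk B x k) z := hrq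
  have hlip : ∀ R, ∃ L, ∀ y z, dist x y ≤ R → dist x z ≤ R → |qc y - qc z| ≤ L * dist y z := by
    intro R
    obtain ⟨L, hL⟩ := (hQ.lip.locallyLipschitzOn
      (s := closedBall x R)).exists_lipschitzOnWith_of_compact (isCompact_closedBall x R)
    refine ⟨L, fun y z hy hz => ?_⟩
    have := hL.dist_le_mul y (by rwa [mem_closedBall, dist_comm]) z
      (by rwa [mem_closedBall, dist_comm])
    rwa [Real.dist_eq] at this
  have hrqb : ∃ Mb, ∀ᵐ z ∂μ, dist x z ≤ 16 → rqf B x k z ≤ Mb := by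
    have hq : ∀ᵐ z ∂μ, qk B x k z ≤ (dy k ^ 2)⁻¹ * cinf + CN n κ := by
      filter_upwards [qL_le (S := B.toGradS) (n := n) hκ hρ x] with z h1
      have h2 : hh x z ≤ cinf := Phi_le_cinf _
      have h3 : dy k ^ 2 * qk B x k z ≤ cinf + CN n κ * dy k ^ 2 := h1.trans (by linarith)
      calc qk B x k z = (dy k ^ 2)⁻¹ * (dy k ^ 2 * qk B x k z) := by field_simp
        _ ≤ (dy k ^ 2)⁻¹ * (cinf + CN n κ * dy k ^ 2) :=
            mul_le_mul_of_nonneg_left h3 (inv_pos.2 h0).le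
        _ = _ := by field_simp
    have hc := cinf_pos
    refine ⟨(dy k ^ 2)⁻¹ * cinf + CN n κ, ?_⟩
    filter_upwards [M.res_le h0 (by positivity) hq, hrq] with z h1 h2 _
    rw [h2]
    exact h1
  have hsq : SurvIn μ hh x qc (dy k ^ 2)⁻¹ (2 * CN n 1) :=
    (survIn_q W hκ hρ x).congr hQ.ae_q (by linarith)
  have hsr : SurvIn μ hh x (rqf B x k) (dy k ^ 2)⁻¹ (2 * CN n 1) :=
    (survIn_Rq W hκ hρ x).congr hrq (by linarith)
  have hcpos : 0 < cR2 n 1 K v1 := cR2_pos zero_le_one hK hv1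
  have hCN1' : 0 ≤ CN n 1 := CN_nonneg n zero_le_one
  have key := locIn_of (μ := μ) C (x := x) (h := hh) (R0 := 16) (K := K) (ρ := dy k)
    (cK := cR2 n 1 K v1) (V := Real.exp (K ^ 2 / 2) * K ^ n * V) (A := (dy k ^ 2)⁻¹)
    (C0 := 2 * CN n 1) (CE := CE n) (CS := 10) hρ hcpos (by positivity) hCE (by norm_num)
    (halfSq_hh.mono (by norm_num) (by norm_num))
    (F := fun z => Hf O k z + gf B x k z) (S := fun z => (Hf O k z + gf B x k z) ^ 2)
    (q := qc) (D := D) (rq := rqf B x k) (er := fun _ => CE n * eNum n (dy k))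
    ((Hf_meas B x O k).add (gf_meas B x k))
    (fun z => add_nonneg (Hf_nonneg B x O k z) (gf_nonneg B x k z))
    (((Hf_meas B x O k).add (gf_meas B x k)).pow_const 2) (fun z => le_rfl)
    (fun y hy => by
      refine (hvol_of C hκ hK hρ hρ1 hV (hvol y _ hy hρ hρ1)).trans
        (ENNReal.ofReal_le_ofReal ?_)
      have h1 : Real.exp (κ * K ^ 2 / 2) ≤ Real.exp (K ^ 2 / 2) := by
        apply Real.exp_le_exp.2
        have : κ * K ^ 2 ≤ 1 * K ^ 2 := by gcongr
        linarith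
      gcongr)
    hQ.lip.continuous.measurable hQ.nonneg (rqf_meas B x k) (rqf_nonneg B x k)
    measurable_const (fun _ => mul_nonneg hCE (eNum_pos n _).le)
    (fun _ _ => by
      have := eNum_le_one n hρ
      nlinarith)
    hQ.rd hlip hrqb (int_rhs W k hQ.ae_D hQ.ae_q hrq' _) (PE B.toGradS (dy k))
    (fun E hE hs => hHFg_of W hκ hκ8 O k hQ.ae_D hQ.ae_q hrq' hE hs)
    (fun E hE hs => by
      have hμ : μ E ≠ ∞ :=
        ((measure_mono hs).trans_lt (isCompact_closedBall x 16).measure_lt_top).ne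
      filter_upwards [hR2_of hn W C hκ hv1 hd hK hρ hρ1 hE hμ] with z hz
      refine le_trans ?_ hz
      gcongr
      exact cR2_anti hκ hκ1 hK hv1)
    hsq hsr (by positivity)
  exact key

/-- the constant of `d1a` -/
def B1c (n : ℕ) (V v1 K : ℝ) : ℝ := Real.sqrt (4 * c1c n K V v1 * C0c n) + 1

/-- **field `d1a` of `FarD`** for `H := Hf O`, `g := gf B x` -/
theorem d1a_lit (hn : 1 ≤ n) {B : BochS n κ X μ} {C : Rad n κ X μ} {x : X}
    (W : WLap B.toGradS n κ) (hL : LK B.toGradS C) (hκ : 0 ≤ κ) (hκ8 : 8 * κ ≤ 1)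
    (hpos : ∀ (x : X) (r : ℝ), 0 < r → μ (Metric.ball x r) ≠ 0) (O : HObj B x)
    {v1 V : ℝ} (hv1 : 0 < v1)
    (hd : ∀ y : X, ∀ᶠ ε in 𝓝[>] (0:ℝ), μ (closedBall y ε) ≤ ENNReal.ofReal (v1 * ε ^ n))
    (hV : 0 ≤ V)
    (hvol : ∀ y r, dist x y ≤ 16 → 0 < r → r ≤ 1 → μ (ball y r) ≤ ENNReal.ofReal (V * r ^ n))
    {B1 : ℝ → ℝ} (hB1 : ∀ K, 1 ≤ K → B1c n V v1 K ≤ B1 K) :
    ∀ K, 1 ≤ K → ∀ᵐ v ∂μ, dist x v < 12 → ∀ k, ∀ a b : ℝ, 0 < a → a ≤ b → b < dist x v →
      8 * (b - a) ≤ a → 8 * (b - a) ≤ dist x v - b → dy k ≤ b - a →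
      ∫⁻ r in Icc a b, loc μ n K (dy k) (fun z => Hf O k z + gf B x k z) (ray C x v r) ≤
        ENNReal.ofReal (B1 K * a * Real.sqrt ((b - a) / min a (dist x v - b))) := by
  intro K hK
  have hex := fun k => exists_QRep (C := C) hκ (by linarith) hL W hpos O k
  choose qc D hQ using hex
  refine d1a_of C x (R0 := 16) (K := K) (C1 := B1 K) (by norm_num) (fun _ => c1c n K V v1)
    (fun _ => C0c n) (fun k => locIn_k hn W hκ hκ8 O k (hQ k) hv1 hd hV hvol hK) fun k => ?_
  refine le_trans ?_ (hB1 K hK)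
  unfold B1c
  linarith

end Crest.Agent.R247.Sv436
end
end

-- ▼ part R247/Bad1_644
section

/-!
# R247, leaf P11 (helper644): the measure of the rays with a bad scale (`FarD.d1b`)

Input: 436's energy inequality along rays (`Sv5`) and 193's maximal estimate.
-/

set_option autoImplicit false
set_option linter.unusedSectionVars false
open MeasureTheory Set Filter Topology Metric
open scoped ENNReal NNReal

noncomputable section
namespace Crest.Agent.R247.Bad644

open Crest.Agent.R247.Mcp688 Crest.Agent.R247.Far553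

/-- scaling of a one-dimensional lower integral -/
lemma lint_scale {l : ℝ} (hl : 0 < l) {f : ℝ → ℝ≥0∞} (hf : Measurable f) (a b : ℝ) :
    ∫⁻ r in Icc a b, f (r / l) = ENNReal.ofReal l * ∫⁻ t in Icc (a / l) (b / l), f t := by
  have h1 : Measure.map (fun r : ℝ => l⁻¹ * r) volume = ENNReal.ofReal l • (volume : Measure ℝ) := by
    rw [Real.map_volume_mul_left (inv_ne_zero hl.ne'), inv_inv, abs_of_pos hl]
  have h2 : ∫⁻ r in Icc a b, f (r / l) =
      ∫⁻ r, (Icc (a / l) (b / l)).indicator f (l⁻¹ * r) := by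
    rw [← lintegral_indicator measurableSet_Icc]
    refine lintegral_congr fun r => ?_
    by_cases h : r ∈ Icc a b
    · have h' : l⁻¹ * r ∈ Icc (a / l) (b / l) := by
        rw [mem_Icc] at h ⊢
        rw [inv_mul_eq_div]
        exact ⟨by gcongr; exact h.1, by gcongr; exact h.2⟩
      rw [indicator_of_mem h, indicator_of_mem h', inv_mul_eq_div]
    · have h' : l⁻¹ * r ∉ Icc (a / l) (b / l) := by
        intro h3
        apply h
        rw [mem_Icc, inv_mul_eq_div] at h3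
        exact ⟨(div_le_div_iff_of_pos_right hl).1 h3.1, (div_le_div_iff_of_pos_right hl).1 h3.2⟩
      rw [indicator_of_notMem h, indicator_of_notMem h']
  rw [h2, ← lintegral_map (f := (Icc (a / l) (b / l)).indicator f) (g := fun r : ℝ => l⁻¹ * r)
    (hf.indicator measurableSet_Icc) (measurable_const.mul measurable_id), h1,
    lintegral_smul_measure, lintegral_indicator measurableSet_Icc]
  rfl

variable {n : ℕ} {κ : ℝ} {X : Type*} [MetricSpace X] [MeasurableSpace X] [BorelSpace X]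
  {μ : Measure X}

lemma measurable_ray (C : Rad n κ X μ) (x : X) :
    Measurable fun p : X × ℝ => ray C x p.1 p.2 := by
  unfold ray
  have h1 : Measurable fun p : X × ℝ => dist x p.1 :=
    (continuous_const.dist continuous_id).measurable.comp measurable_fst
  exact (C.measT_x x).comp ((measurable_snd.div h1).prodMk measurable_fst)

lemma dist_ray (C : Rad n κ X μ) {x v : X} (hU : (x, v) ∈ C.U) {r : ℝ} (h0 : 0 ≤ r)
    (hr : r ≤ dist x v) (hv : 0 < dist x v) : dist x (ray C x v r) = r := by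
  unfold ray
  rw [C.dist_left hU ⟨div_nonneg h0 hv.le, (div_le_one hv).2 hr⟩, div_mul_cancel₀ _ hv.ne']

/-- law of the rays in the radius variable -/
lemma law_le (C : Rad n κ X μ) [SFinite μ] (hκ : 0 ≤ κ) (x : X) {s : ℝ} (hs : 0 < s)
    (hs4 : 4 * s ≤ 1) {E : Set X} (hE : MeasurableSet E) :
    ∫⁻ v in {v | 1 ≤ dist x v ∧ dist x v < 12},
        ∫⁻ r in Icc s (4 * s), E.indicator (fun _ => (1 : ℝ≥0∞)) (ray C x v r) ∂volume ∂μ ≤
      ENNReal.ofReal (48 * 12 ^ n * Real.exp (72 * κ) * s * (s⁻¹) ^ n) * μ E := by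
  have hd : Continuous fun v : X => dist x v := continuous_const.dist continuous_id
  have hA : MeasurableSet {v : X | 1 ≤ dist x v ∧ dist x v < 12} :=
    (measurableSet_le measurable_const hd.measurable).inter
      (measurableSet_lt hd.measurable measurable_const)
  have hg : Measurable (E.indicator (fun _ => (1 : ℝ≥0∞))) := measurable_const.indicator hE
  have h1 : ∀ v ∈ {v : X | 1 ≤ dist x v ∧ dist x v < 12},
      ∫⁻ r in Icc s (4 * s), E.indicator (fun _ => (1 : ℝ≥0∞)) (ray C x v r) ≤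
        12 * ∫⁻ t in Icc (s / 12) (4 * s), E.indicator (fun _ => (1 : ℝ≥0∞)) (C.T x t v) := by
    intro v hv
    have hl : 0 < dist x v := by linarith [hv.1]
    have hf : Measurable fun t : ℝ => E.indicator (fun _ => (1 : ℝ≥0∞)) (C.T x t v) :=
      hg.comp ((C.measT_x x).comp (measurable_id.prodMk measurable_const))
    have h2 := lint_scale hl hf s (4 * s)
    have h3 : ∫⁻ r in Icc s (4 * s), E.indicator (fun _ => (1 : ℝ≥0∞)) (ray C x v r) =
        ENNReal.ofReal (dist x v) * ∫⁻ t in Icc (s / dist x v) (4 * s / dist x v),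
          E.indicator (fun _ => (1 : ℝ≥0∞)) (C.T x t v) := h2
    rw [h3]
    refine mul_le_mul' ?_ ?_
    · calc ENNReal.ofReal (dist x v) ≤ ENNReal.ofReal 12 := ENNReal.ofReal_le_ofReal hv.2.le
        _ = 12 := by norm_num
    · refine lintegral_mono_set (Icc_subset_Icc ?_ ?_)
      · exact div_le_div_of_nonneg_left hs.le hl hv.2.le
      · rw [div_le_iff₀ hl]
        nlinarith [hv.1]
  calc _ ≤ ∫⁻ v in {v | 1 ≤ dist x v ∧ dist x v < 12},
        12 * ∫⁻ t in Icc (s / 12) (4 * s), E.indicator (fun _ => (1 : ℝ≥0∞)) (C.T x t v) ∂volume ∂μ :=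
        setLIntegral_mono' hA h1
    _ = 12 * ∫⁻ v in {v | 1 ≤ dist x v ∧ dist x v < 12},
        ∫⁻ t in Icc (s / 12) (4 * s), E.indicator (fun _ => (1 : ℝ≥0∞)) (C.T x t v) ∂volume ∂μ := by
        rw [lintegral_const_mul' _ _ (by norm_num)]
    _ ≤ 12 * (ENNReal.ofReal (Real.exp (κ * 12 ^ 2 / 2) * ((s / 12)⁻¹) ^ n * (4 * s - s / 12)) *
        ∫⁻ y in (univ : Set X), E.indicator (fun _ => (1 : ℝ≥0∞)) y ∂μ) := by
        gcongr
        exact C.ray_lintegral_le hκ x (by positivity) hs4 hA MeasurableSet.univ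
          (fun z hz => hz.2.le) (fun _ _ _ _ _ => mem_univ _) hg
    _ ≤ _ := by
        rw [Measure.restrict_univ, lintegral_indicator_const hE, one_mul, ← mul_assoc]
        gcongr
        rw [show (12 : ℝ≥0∞) = ENNReal.ofReal 12 by norm_num, ← ENNReal.ofReal_mul (by norm_num)]
        apply ENNReal.ofReal_le_ofReal
        have e1 : (s / 12)⁻¹ = 12 * s⁻¹ := by rw [inv_div]; rfl
        have e2 : κ * 12 ^ 2 / 2 = 72 * κ := by ring
        rw [e1, mul_pow, e2]
        have h5 : 0 ≤ Real.exp (72 * κ) * (12 ^ n * (s⁻¹) ^ n) := by positivity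
        nlinarith [mul_nonneg h5 hs.le]

/-- **(P11)** the measure of the rays with a bad scale -/
theorem d1b_of (C : Rad n κ X μ) [SFinite μ] (hκ : 0 ≤ κ) (x : X) {F N : ℕ → X → ℝ}
    (hN : ∀ k, Measurable (N k)) (hN0 : ∀ k z, 0 ≤ N k z) {j : ℕ} (hj : 4 ≤ j)
    {K ε CK C2 M : ℝ} (hε : 0 < ε) (hCK : 0 < CK) (hC2 : 0 < C2)
    (h5 : ∀ᵐ v ∂μ, 1 ≤ dist x v → dist x v < 12 → ∀ k, j ≤ k →
      ∫⁻ r in Icc (dy j) (2 * dy j), loc μ n K (dy k) (F k) (ray C x v r) ≤
        ENNReal.ofReal (CK * dy j * √((dy j)⁻¹ * ∫ r in dy j..4 * dy j,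
          min C2 (N k (ray C x v r)))))
    (hM : μ {y | y ∈ ball x (5 * dy j) ∧ ∃ k, j ≤ k ∧ (ε / CK) ^ 2 / 6 < N k y} ≤
      ENNReal.ofReal (M * dy j ^ n)) :
    μ {v | 1 ≤ dist x v ∧ dist x v < 12 ∧ bad C x F K ε j v} ≤
      ENNReal.ofReal (96 * 12 ^ n * Real.exp (72 * κ) * C2 / (ε / CK) ^ 2 * M) := by
  set s := dy j with hs
  have hs0 : 0 < s := dy_pos j
  have hs16 : s ≤ 1 / 16 := by
    have h1 := dy_anti hj
    have h2 : dy 4 = 1 / 16 := by unfold dy; norm_num
    rw [h2] at h1; exact h1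
  set c0 : ℝ := (ε / CK) ^ 2 with hc0
  have hc00 : 0 < c0 := by positivity
  set E : Set X := {y | y ∈ ball x (5 * s) ∧ ∃ k, j ≤ k ∧ c0 / 6 < N k y} with hEdef
  have hE : MeasurableSet E := by
    have e : E = ball x (5 * s) ∩ ⋃ k, ⋃ (_ : j ≤ k), {y | c0 / 6 < N k y} := by
      ext y
      simp only [hEdef, mem_inter_iff, mem_iUnion, exists_prop]; rfl
    rw [e]
    exact measurableSet_ball.inter (MeasurableSet.iUnion fun k => MeasurableSet.iUnion fun _ =>
      measurableSet_lt measurable_const (hN k))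
  have hd : Continuous fun v : X => dist x v := continuous_const.dist continuous_id
  have hA : MeasurableSet {v : X | 1 ≤ dist x v ∧ dist x v < 12} :=
    (measurableSet_le measurable_const hd.measurable).inter
      (measurableSet_lt hd.measurable measurable_const)
  set J : X → ℝ≥0∞ := fun v => ∫⁻ r in Icc s (4 * s), E.indicator (fun _ => (1 : ℝ≥0∞)) (ray C x v r)
    with hJ
  have hgm : Measurable (E.indicator (fun _ => (1 : ℝ≥0∞))) := measurable_const.indicator hE
  have hJm : Measurable J :=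
    Measurable.lintegral_prod_right' (f := fun p : X × ℝ =>
      E.indicator (fun _ => (1 : ℝ≥0∞)) (ray C x p.1 p.2)) (hgm.comp (measurable_ray C x))
  -- almost every bad ray spends a definite time in `E`
  have hbad : ∀ᵐ v ∂μ, v ∈ {v | 1 ≤ dist x v ∧ dist x v < 12 ∧ bad C x F K ε j v} →
      v ∈ {v | 1 ≤ dist x v ∧ dist x v < 12} ∩ {v | ENNReal.ofReal (c0 * s / (2 * C2)) ≤ J v} := by
    filter_upwards [h5, C.ae_U x] with v h5v hU hv
    obtain ⟨hv1, hv12, k, hk, hlt⟩ := hv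
    refine ⟨⟨hv1, hv12⟩, ?_⟩
    have hl : 0 < dist x v := by linarith
    have h6 := h5v hv1 hv12 k hk
    have h7 := hlt.trans_le h6
    rw [ENNReal.ofReal_lt_ofReal_iff_of_nonneg (by positivity)] at h7
    set Y : ℝ := s⁻¹ * ∫ r in s..4 * s, min C2 (N k (ray C x v r)) with hY
    have h8 : ε / CK < √Y := by
      rw [div_lt_iff₀ hCK]
      have : ε * s < (√Y * CK) * s := by linarith
      exact lt_of_mul_lt_mul_right this hs0.le
    have h9 : c0 < Y := by
      have h10 : 0 < √Y := lt_trans (by positivity) h8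
      have h11 : 0 < Y := Real.sqrt_pos.1 h10
      rw [hc0, ← Real.sq_sqrt h11.le]
      gcongr
    -- pointwise bound
    have hrm : Measurable fun r : ℝ => ray C x v r :=
      (measurable_ray C x).comp (measurable_const.prodMk measurable_id)
    have hNm : Measurable fun r : ℝ => min C2 (N k (ray C x v r)) :=
      measurable_const.min ((hN k).comp hrm)
    have hint : IntervalIntegrable (fun r => min C2 (N k (ray C x v r))) volume s (4 * s) := by
      rw [intervalIntegrable_iff]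
      refine Measure.integrableOn_of_bounded (M := C2) (by simp) hNm.aestronglyMeasurable ?_
      refine Eventually.of_forall fun r => ?_
      rw [Real.norm_eq_abs, abs_of_nonneg (le_min hC2.le (hN0 k _))]
      exact min_le_left _ _
    set e1 : ℝ → ℝ := fun r => E.indicator (fun _ => (1 : ℝ)) (ray C x v r) with he1
    have he1m : Measurable e1 := (measurable_const.indicator hE).comp hrm
    have he10 : ∀ r, 0 ≤ e1 r := fun r => indicator_nonneg (fun _ _ => zero_le_one) _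
    have he11 : ∀ r, e1 r ≤ 1 := fun r => by
      simp only [he1, indicator]
      split_ifs <;> norm_num
    have he1i : IntervalIntegrable e1 volume s (4 * s) := by
      rw [intervalIntegrable_iff]
      refine Measure.integrableOn_of_bounded (M := 1) (by simp) he1m.aestronglyMeasurable ?_
      refine Eventually.of_forall fun r => ?_
      rw [Real.norm_eq_abs, abs_of_nonneg (he10 r)]
      exact he11 r
    have hpt : ∀ r ∈ Icc s (4 * s), min C2 (N k (ray C x v r)) ≤ c0 / 6 + C2 * e1 r := by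
      intro r hr
      have hdr : dist x (ray C x v r) = r :=
        dist_ray C hU (hs0.le.trans hr.1) (by linarith [hr.2]) hl
      by_cases hc : c0 / 6 < N k (ray C x v r)
      · have hmem : ray C x v r ∈ E := by
          refine ⟨?_, k, hk, hc⟩
          rw [mem_ball, dist_comm, hdr]
          linarith [hr.2]
        have : e1 r = 1 := by simp only [he1]; rw [indicator_of_mem hmem]
        rw [this, mul_one]
        exact (min_le_left _ _).trans (by linarith)
      · have h12 := mul_nonneg hC2.le (he10 r)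
        exact (min_le_right _ _).trans (by linarith [not_lt.1 hc])
    have hI : ∫ r in s..4 * s, min C2 (N k (ray C x v r)) ≤
        3 * s * (c0 / 6) + C2 * ∫ r in s..4 * s, e1 r := by
      have h13 : ∫ r in s..4 * s, min C2 (N k (ray C x v r)) ≤
          ∫ r in s..4 * s, (c0 / 6 + C2 * e1 r) :=
        intervalIntegral.integral_mono_on (by linarith) hint
          (intervalIntegrable_const.add (he1i.const_mul C2)) hpt
      rw [intervalIntegral.integral_add intervalIntegrable_const (he1i.const_mul C2),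
        intervalIntegral.integral_const, intervalIntegral.integral_const_mul, smul_eq_mul] at h13
      linarith
    have hYs : Y * s = ∫ r in s..4 * s, min C2 (N k (ray C x v r)) := by
      rw [hY]; field_simp
    have h14 : c0 * s / (2 * C2) ≤ ∫ r in s..4 * s, e1 r := by
      rw [div_le_iff₀ (by positivity)]
      nlinarith [mul_lt_mul_of_pos_right h9 hs0]
    show ENNReal.ofReal (c0 * s / (2 * C2)) ≤ J v
    refine (ENNReal.ofReal_le_ofReal h14).trans ?_
    rw [intervalIntegral.integral_of_le (by linarith), ← integral_Icc_eq_integral_Ioc,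
      ofReal_integral_eq_lintegral_ofReal]
    · refine lintegral_mono fun r => ?_
      simp only [he1, indicator]
      split_ifs <;> simp
    · refine Measure.integrableOn_of_bounded (M := 1) (by simp) he1m.aestronglyMeasurable ?_
      refine Eventually.of_forall fun r => ?_
      rw [Real.norm_eq_abs, abs_of_nonneg (he10 r)]
      exact he11 r
    · exact Eventually.of_forall he10
  have hS : MeasurableSet {v | ENNReal.ofReal (c0 * s / (2 * C2)) ≤ J v} :=
    measurableSet_le measurable_const hJm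
  have h1 : μ {v | 1 ≤ dist x v ∧ dist x v < 12 ∧ bad C x F K ε j v} ≤
      μ ({v | 1 ≤ dist x v ∧ dist x v < 12} ∩ {v | ENNReal.ofReal (c0 * s / (2 * C2)) ≤ J v}) :=
    measure_mono_ae hbad
  have hc1 : 0 < c0 * s / (2 * C2) := by positivity
  have h2 : ENNReal.ofReal (c0 * s / (2 * C2)) *
      μ ({v | 1 ≤ dist x v ∧ dist x v < 12} ∩ {v | ENNReal.ofReal (c0 * s / (2 * C2)) ≤ J v}) ≤
      ∫⁻ v in {v | 1 ≤ dist x v ∧ dist x v < 12}, J v ∂μ := by
    have h3 := mul_meas_ge_le_lintegral (μ := μ.restrict {v | 1 ≤ dist x v ∧ dist x v < 12}) hJm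
      (ENNReal.ofReal (c0 * s / (2 * C2)))
    rw [Measure.restrict_apply hS, inter_comm] at h3
    exact h3
  have h3 := law_le C hκ x hs0 (by linarith) hE
  have h4 : μ E ≤ ENNReal.ofReal (M * s ^ n) := hM
  have h6 : ENNReal.ofReal (c0 * s / (2 * C2)) *
      μ {v | 1 ≤ dist x v ∧ dist x v < 12 ∧ bad C x F K ε j v} ≤
      ENNReal.ofReal (48 * 12 ^ n * Real.exp (72 * κ) * s * (s⁻¹) ^ n) *
        ENNReal.ofReal (M * s ^ n) :=
    calc _ ≤ _ := mul_le_mul' le_rfl h1
      _ ≤ _ := h2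
      _ ≤ _ := h3
      _ ≤ _ := mul_le_mul' le_rfl h4
  rw [← ENNReal.ofReal_mul (by positivity)] at h6
  have h7 : 48 * 12 ^ n * Real.exp (72 * κ) * s * (s⁻¹) ^ n * (M * s ^ n) =
      (c0 * s / (2 * C2)) * (96 * 12 ^ n * Real.exp (72 * κ) * C2 / c0 * M) := by
    have h8 : (s⁻¹) ^ n * s ^ n = 1 := by
      rw [← mul_pow, inv_mul_cancel₀ hs0.ne', one_pow]
    calc _ = 48 * 12 ^ n * Real.exp (72 * κ) * s * M * ((s⁻¹) ^ n * s ^ n) := by ring
      _ = _ := by rw [h8]; field_simp; ring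
  rw [h7, ENNReal.ofReal_mul hc1.le] at h6
  have hne : ENNReal.ofReal (c0 * s / (2 * C2)) ≠ 0 := by
    rw [Ne, ENNReal.ofReal_eq_zero]; linarith
  exact (ENNReal.mul_le_mul_iff_right hne ENNReal.ofReal_ne_top).1 h6

end Crest.Agent.R247.Bad644
end
end

-- ▼ part R247/Sv12_436
section

/-! # R247, leaf (1-S): the field `d1b` of `FarD` for the literal objects -/

set_option autoImplicit false
set_option linter.unusedSectionVars false
open MeasureTheory Set Filter Topology Metric TopologicalSpace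
open scoped ENNReal NNReal RealInnerProductSpace

noncomputable section
namespace Crest.Agent.R247.Sv436

open Crest.Agent.R247.Mcp688 Crest.Agent.R247.Far553 Crest.Agent.R242
open Crest.Agent.R247.Dir593 Crest.Agent.R247.Dir593.GradS Crest.Agent.R247.Smv126
open Crest.Agent.R247.Obj554 Crest.Agent.R247.Hes124 Crest.Agent.R247.Fd656
open Crest.Agent.R247.Max193

/-- `eNum` at a dyadic scale -/
lemma eNum_dy (n k : ℕ) : eNum n (dy k) = Real.exp (-(16 / (4 * n + 6) * 2 ^ k)) := by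
  unfold eNum dy
  congr 2
  have : (0:ℝ) < 4 * n + 6 := by positivity
  rw [one_div, inv_pow]
  field_simp

lemma cA_mono {C0 C0' C3 c3 : ℝ} (h : C0 ≤ C0') (hC3 : 0 ≤ C3) (hc3 : 0 < c3) :
    Max193.cA C0 C3 c3 ≤ Max193.cA C0' C3 c3 := by
  unfold Max193.cA
  have h1 : Real.exp (-(2 * c3)) < 1 := by
    rw [← Real.exp_zero]
    exact Real.exp_lt_exp.2 (by linarith)
  have h2 : 0 < 1 - Real.exp (-(2 * c3)) := by linarith
  have h3 : 0 ≤ C3 / (1 - Real.exp (-(2 * c3))) := by positivity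
  nlinarith

/-- volume of `closedBall x 64` -/
def V64 (n : ℕ) (V : ℝ) : ℝ := Real.exp (65 ^ 2 / 2) * 65 ^ n * V

/-- constants of `d1b` -/
def CKc (n : ℕ) (V v1 K : ℝ) : ℝ := Real.sqrt (2 * c1c n K V v1) + 1

def C2c (n : ℕ) : ℝ := 3 * C0c n + 1

def cNc (n : ℕ) (V c : ℝ) : ℝ :=
  256 * Max193.cA (CN n 1 * V64 n V) 2 (Max193.c3 n) / (3 * c) + 2 * CE n * (V * 5 ^ n) / c

/-- the constant of `d1b` -/
def B2c (n : ℕ) (V v1 K ε : ℝ) : ℝ :=
  96 * 12 ^ n * Real.exp 72 * C2c n / (ε / CKc n V v1 K) ^ 2 *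
    cNc n V ((ε / CKc n V v1 K) ^ 2 / 6)

variable {n : ℕ} {κ : ℝ} {X : Type*} [MetricSpace X] [ProperSpace X] [MeasurableSpace X]
  [BorelSpace X] {μ : Measure X} [IsFiniteMeasureOnCompacts μ]

lemma real_closedBall_64 (C : Rad n κ X μ) (hκ : 0 ≤ κ) (hκ1 : κ ≤ 1) {x : X} {V : ℝ}
    (hV : 0 ≤ V) (h : μ (ball x 1) ≤ ENNReal.ofReal V) :
    μ.real (closedBall x 64) ≤ V64 n V := by
  have h1 := hvol_of C hκ (K := 65) (ρ := 1) (V := V) (by norm_num) one_pos le_rfl hV (y := x)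
    (by simpa using h)
  have h2 : μ (closedBall x 64) ≤ μ (ball x (65 * 1)) := by
    apply measure_mono
    exact closedBall_subset_ball (by norm_num)
  have h3 : μ (closedBall x 64) ≤ ENNReal.ofReal (V64 n V) := by
    refine (h2.trans h1).trans (ENNReal.ofReal_le_ofReal ?_)
    unfold V64
    rw [one_pow, mul_one]
    gcongr
    nlinarith
  have h4 : 0 ≤ V64 n V := by unfold V64; positivity
  exact ENNReal.toReal_le_of_le_ofReal h4 h3

/-- **field `d1b` of `FarD`** for `H := Hf O`, `g := gf B x`, `ph := phat n κ μ x (c3 n / 64)` -/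
theorem d1b_lit (hn : 1 ≤ n) {B : BochS n κ X μ} {C : Rad n κ X μ} {x : X}
    (W : WLap B.toGradS n κ) (hL : LK B.toGradS C) (hκ : 0 ≤ κ) (hκ8 : 8 * κ ≤ 1)
    (hpos : ∀ (x : X) (r : ℝ), 0 < r → μ (Metric.ball x r) ≠ 0) (O : HObj B x)
    {v1 V : ℝ} (hv1 : 0 < v1)
    (hd : ∀ y : X, ∀ᶠ ε in 𝓝[>] (0:ℝ), μ (closedBall y ε) ≤ ENNReal.ofReal (v1 * ε ^ n))
    (hV : 0 ≤ V)
    (hvol : ∀ y r, dist x y ≤ 16 → 0 < r → r ≤ 1 → μ (ball y r) ≤ ENNReal.ofReal (V * r ^ n))
    {B2 : ℝ → ℝ → ℝ} (hB2 : ∀ K ε, 1 ≤ K → 0 < ε → B2c n V v1 K ε ≤ B2 K ε) :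
    ∀ K ε, 1 ≤ K → 0 < ε → ∀ j, 4 ≤ j →
      μ {v | 1 ≤ dist x v ∧ dist x v < 12 ∧
          bad C x (fun k z => Hf O k z + gf B x k z) K ε j v} ≤
        ENNReal.ofReal (B2 K ε * phat n κ μ x (Max193.c3 n / 64) j) := by
  intro K ε hK hε j hj
  have hκ1 : κ ≤ 1 := by linarith
  have hex := fun k => exists_QRep (C := C) hκ (by linarith) hL W hpos O k
  choose qc D hQ using hex
  have hCE := CE_nonneg n
  set N : ℕ → X → ℝ := fun k z => qc k z + (2 * rqf B x k z + CE n * eNum n (dy k)) with hN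
  have hNm : ∀ k, Measurable (N k) := fun k =>
    (hQ k).lip.continuous.measurable.add (((rqf_meas B x k).const_mul 2).add measurable_const)
  have hN0 : ∀ k z, 0 ≤ N k z := fun k z => by
    have h1 := (hQ k).nonneg z
    have h2 := rqf_nonneg B x k z
    have h3 := (eNum_pos n (dy k)).le
    have h4 := mul_nonneg hCE h3
    show 0 ≤ qc k z + (2 * rqf B x k z + CE n * eNum n (dy k))
    linarith
  have hC0c := C0c_nonneg n
  have hC2 : 0 < C2c n := by unfold C2c; linarith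
  have hCK : 0 < CKc n V v1 K := by unfold CKc; positivity
  have h5 := d1b_in C x (R0 := 16) (K := K) (CK := CKc n V v1 K) (C2 := C2c n) (by norm_num)
    (fun _ => c1c n K V v1) (fun _ => C0c n) hCK.le
    (fun k => locIn_k hn W hκ hκ8 O k (hQ k) hv1 hd hV hvol hK)
    (fun k => by unfold CKc; linarith) (fun k => by unfold C2c; linarith) j hj
  have hV1 : μ (ball x 1) ≤ ENNReal.ofReal V := by
    have := hvol x 1 (by rw [dist_self]; norm_num) one_pos le_rfl
    simpa using this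
  have h64 := real_closedBall_64 C hκ hκ1 hV hV1
  have hMx := Max193.maxIn_lx hL W hκ (by linarith) x h64
  have hdj := dy_pos j
  have hdj16 : dy j ≤ 1 / 16 := by
    have h1 := dy_anti hj
    have h2 : dy 4 = 1 / 16 := by unfold dy; norm_num
    rw [h2] at h1; exact h1
  set c : ℝ := (ε / CKc n V v1 K) ^ 2 / 6 with hc
  have hc0 : 0 < c := by rw [hc]; positivity
  have hn0 : (0:ℝ) ≤ n := Nat.cast_nonneg n
  have hMN := hMx.max_N (q := qc) (Rq := fun k => rqf B x k)
    (err := fun k _ => CE n * eNum n (dy k))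
    (fun k => (hQ k).ae_q) (fun k => rqf_ae W x k) (E := CE n) (b := 16 / (4 * n + 6))
    (Vb := V * 5 ^ n) hCE (by
      unfold Max193.c3
      rw [div_div, div_le_div_iff₀ (by positivity) (by positivity)]
      nlinarith) (by positivity)
    (fun k => Eventually.of_forall fun y _ => by
      show CE n * eNum n (dy k) ≤ _
      rw [eNum_dy]) hj (by
      have h1 := hvol x (5 * dy j) (by rw [dist_self]; norm_num) (by positivity) (by linarith)
      refine h1.trans (ENNReal.ofReal_le_ofReal (le_of_eq ?_))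
      rw [mul_pow]; ring) hc0
  have hph : 0 ≤ phat n κ μ x (Max193.c3 n / 64) j := hMx.phat_nonneg _ j
  have hM : μ {y | y ∈ ball x (5 * dy j) ∧ ∃ k, j ≤ k ∧ c < N k y} ≤
      ENNReal.ofReal (cNc n V c * phat n κ μ x (Max193.c3 n / 64) j * dy j ^ n) := by
    refine le_trans (measure_mono ?_) (hMN.trans (ENNReal.ofReal_le_ofReal ?_))
    · rintro y ⟨h1, k, h2, h3⟩
      refine ⟨h1, k, h2, ?_⟩
      have h4 : N k y = qc k y + (2 * rqf B x k y + CE n * eNum n (dy k)) := rfl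
      rw [h4] at h3
      show c < qc k y + 2 * rqf B x k y + CE n * eNum n (dy k)
      linarith
    · have hCN1 : CN n κ ≤ CN n 1 := CN_mono n hκ1
      have hV64 : 0 ≤ V64 n V := by unfold V64; positivity
      have h1 : MaxIn.cN (CN n κ * V64 n V) 2 (Max193.c3 n) (CE n) (V * 5 ^ n) c ≤
          cNc n V c := by
        unfold MaxIn.cN cNc
        have := cA_mono (C0 := CN n κ * V64 n V) (C0' := CN n 1 * V64 n V) (C3 := 2)
          (by gcongr) (by norm_num) (Max193.c3_pos n)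
        gcongr
      gcongr
  have hM' : μ {y | y ∈ ball x (5 * dy j) ∧
      ∃ k, j ≤ k ∧ (ε / CKc n V v1 K) ^ 2 / 6 < N k y} ≤
      ENNReal.ofReal (cNc n V c * phat n κ μ x (Max193.c3 n / 64) j * dy j ^ n) := hM
  have hfin := Bad644.d1b_of C hκ x hNm hN0 hj hε hCK hC2 h5 hM'
  refine hfin.trans (ENNReal.ofReal_le_ofReal ?_)
  have hcN : 0 ≤ cNc n V c := by
    unfold cNc
    have h1 : 0 < Max193.cA (CN n 1 * V64 n V) 2 (Max193.c3 n) := by
      have h2 := hMx.cA_pos
      have h3 := cA_mono (C0 := CN n κ * V64 n V) (C0' := CN n 1 * V64 n V) (C3 := 2)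
          (mul_le_mul_of_nonneg_right (CN_mono n hκ1) (by unfold V64; positivity))
          (by norm_num) (Max193.c3_pos n)
      linarith
    positivity
  calc 96 * 12 ^ n * Real.exp (72 * κ) * C2c n / (ε / CKc n V v1 K) ^ 2 *
        (cNc n V c * phat n κ μ x (Max193.c3 n / 64) j)
      ≤ 96 * 12 ^ n * Real.exp 72 * C2c n / (ε / CKc n V v1 K) ^ 2 *
        (cNc n V c * phat n κ μ x (Max193.c3 n / 64) j) := by
        gcongr
        linarith
    _ = B2c n V v1 K ε * phat n κ μ x (Max193.c3 n / 64) j := by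
        unfold B2c
        rw [← hc]
        ring
    _ ≤ B2 K ε * phat n κ μ x (Max193.c3 n / 64) j := by
        gcongr
        exact hB2 K ε hK hε

end Crest.Agent.R247.Sv436
end
end

-- ▼ part R247/Sv13_436
section

/-! # R247, leaf (1-S): `D1aP` and `D1bP` -/

set_option autoImplicit false
set_option linter.unusedSectionVars false
open MeasureTheory Set Filter Topology Metric TopologicalSpace
open scoped ENNReal NNReal RealInnerProductSpace

noncomputable section
namespace Crest.Agent.R247.Sv436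

universe u

open Crest.Agent.R247.Mcp688 Crest.Agent.R247.Far553 Crest.Agent.R242
open Crest.Agent.R247.Dir593 Crest.Agent.R247.Dir593.GradS Crest.Agent.R247.Smv126
open Crest.Agent.R247.Obj554 Crest.Agent.R247.Hes124 Crest.Agent.R247.Fd656

lemma om_pos' (n : ℕ) : 0 < om n :=
  ENNReal.toReal_pos (measure_ball_pos _ _ one_pos).ne' measure_ball_lt_top.ne

section env

variable {n : ℕ} {κ : ℝ} {X : Type u} [MetricSpace X] [ProperSpace X] [MeasurableSpace X]
    [BorelSpace X] {μ : Measure X} [IsFiniteMeasureOnCompacts μ] {B : BochS n κ X μ}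
    {C : Rad n κ X μ} {x : X} {δ : ℝ}

lemma env_hd (E : EnvF B C x δ) (y : X) :
    ∀ᶠ ε in 𝓝[>] (0:ℝ), μ (closedBall y ε) ≤ ENNReal.ofReal (2 * om n * ε ^ n) := by
  have h1 : Ioo (0:ℝ) 1 ∈ 𝓝[>] (0:ℝ) := Ioo_mem_nhdsGT one_pos
  filter_upwards [h1] with ε hε
  refine (E.bishop y ε hε.1).trans (ENNReal.ofReal_le_ofReal ?_)
  have h2 : Real.exp (κ * ε ^ 2 / 2) ≤ 2 := by
    have h3 : κ * ε ^ 2 / 2 ≤ 1 / 2 := by
      have h4 := E.κ_nonneg
      have h5 := E.κ_le
      have h6 : ε ^ 2 ≤ 1 := by nlinarith [hε.1, hε.2]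
      nlinarith
    have h7 : Real.exp (κ * ε ^ 2 / 2) ≤ Real.exp (1 / 2) := Real.exp_le_exp.2 h3
    have h8 : Real.exp (1 / 2 : ℝ) ≤ 2 := by
      have h9 : (1 / 2 : ℝ) ≤ Real.log 2 := by
        have := Real.log_two_gt_d9
        linarith
      exact (Real.le_log_iff_exp_le (by norm_num : (0:ℝ) < 2)).1 h9
    exact h7.trans h8
  have h3 := om_pos' n
  have h4 : 0 ≤ ε ^ n := pow_nonneg hε.1.le n
  calc Real.exp (κ * ε ^ 2 / 2) * ε ^ n * om n ≤ 2 * ε ^ n * om n := by gcongr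
    _ = _ := by ring

lemma env_hvol (E : EnvF B C x δ) : ∀ y r, dist x y ≤ 16 → 0 < r → r ≤ 1 →
    μ (ball y r) ≤ ENNReal.ofReal (2 * om n * r ^ n) := by
  intro y r hy hr hr1
  refine (E.vol_le y r (by linarith) hr (by linarith)).trans (ENNReal.ofReal_le_ofReal ?_)
  have h1 := E.δ_le
  have h3 := om_pos' n
  have h4 : 0 ≤ r ^ n := pow_nonneg hr.le n
  gcongr
  linarith

end env

/-- **(D1a)** -/
theorem d1aP (n : ℕ) : Fd656.D1aP.{u} n := by
  intro K hK
  refine ⟨B1c n (2 * om n) (2 * om n) K, by unfold B1c; positivity, ?_⟩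
  intro κ X _ _ _ _ μ _ B C x δ E O
  have hom := om_pos' n
  have h8 : 8 * κ ≤ 1 := by
    have h4 := E.κ_nonneg
    have h5 := E.κ_le
    linarith
  exact d1a_lit E.n_pos E.W E.hL E.κ_nonneg h8 E.pos O (by positivity) (env_hd E)
    (by positivity) (env_hvol E) (B1 := fun K => B1c n (2 * om n) (2 * om n) K)
    (fun K _ => le_rfl) K hK

/-- **(D1b)** -/
theorem d1bP (n : ℕ) : Fd656.D1bP.{u} n := by
  intro K ε hK hε
  refine ⟨max (B2c n (2 * om n) (2 * om n) K ε) 1, lt_max_of_lt_right one_pos, ?_⟩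
  intro κ X _ _ _ _ μ _ B C x δ E O j hj
  have hom := om_pos' n
  have h8 : 8 * κ ≤ 1 := by
    have h4 := E.κ_nonneg
    have h5 := E.κ_le
    linarith
  exact d1b_lit E.n_pos E.W E.hL E.κ_nonneg h8 E.pos O (by positivity) (env_hd E)
    (by positivity) (env_hvol E) (B2 := fun K ε => max (B2c n (2 * om n) (2 * om n) K ε) 1)
    (fun K ε _ _ => le_max_left _ _) K ε hK hε j hj

end Crest.Agent.R247.Sv436
end
end

-- ▼ part R247/D2b_62
section

/-!
# R247, leaf P13 (helper62): the field `d2_ball` of `FarD`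

At thickness `ρ = s = dy j` the local mean `loc μ n 40 s S y` at any `y ∈ B(x,24s)` already sees the
whole ball `B(x,16s)`.  So the ray inequality (436), used on the rays to the annulus
`16s ≤ d_x ≤ 24s` on the fractions `t ∈ [1/2,1]`, bounds `∫_{B(x,16s)} S` by the `L¹` norm of
`q + B` on `B(x,24s)`.
-/

set_option autoImplicit false
set_option linter.unusedSectionVars false
open MeasureTheory Set Filter Topology Metric
open scoped ENNReal NNReal

noncomputable section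
namespace Crest.Agent.R247.D2b62

open Crest.Agent.R247.Mcp688 Crest.Agent.R247.Far553

lemma ofReal_integral_le {α : Type*} [MeasurableSpace α] {ν : Measure α} (f : α → ℝ)
    (h0 : 0 ≤ᵐ[ν] f) : ENNReal.ofReal (∫ a, f a ∂ν) ≤ ∫⁻ a, ENNReal.ofReal (f a) ∂ν := by
  by_cases hi : Integrable f ν
  · rw [ofReal_integral_eq_lintegral_ofReal hi h0]
  · rw [integral_undef hi]
    simp

variable {n : ℕ} {κ : ℝ} {X : Type*} [MetricSpace X] [MeasurableSpace X] [BorelSpace X]
  {μ : Measure X} (C : Rad n κ X μ)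

lemma le_loc {x y : X} {s : ℝ} (S : X → ℝ) (hy : dist x y ≤ 24 * s) :
    ENNReal.ofReal ((s⁻¹) ^ n) * ∫⁻ z in ball x (16 * s), ENNReal.ofReal (S z) ∂μ ≤
      loc μ n 40 s S y := by
  unfold loc
  have h : ball x (16 * s) ⊆ ball y (40 * s) := ball_subset_ball' (by linarith)
  gcongr

lemma measurableSet_ann (x : X) (a b : ℝ) : MeasurableSet (ann x a b) := by
  have hd : Measurable fun z : X => dist x z := (continuous_const.dist continuous_id).measurable
  exact (measurableSet_le measurable_const hd).inter (measurableSet_le hd measurable_const)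

include C in
/-- the integrated form of the ray inequality on the annulus -/
theorem int_S_le [SFinite μ] (hκ : 0 ≤ κ) (x : X) {s : ℝ} {S q B : X → ℝ}
    (hqm : Measurable q) (hBm : Measurable B) (hq0 : ∀ z, 0 ≤ q z) (hB0 : ∀ z, 0 ≤ B z)
    {CK : ℝ} (hCK : 0 ≤ CK)
    (hray : ∀ᵐ v ∂μ, dist x v ≤ 24 * s →
      ∫⁻ t in Icc (1 / 2 : ℝ) 1, loc μ n 40 s S (C.T x t v) * ENNReal.ofReal t⁻¹ ≤
        ENNReal.ofReal (CK * (q (C.T x 1 v) + ∫ t in (1 / 2 : ℝ)..1, B (C.T x t v) / t))) :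
    μ (ann x (16 * s) (24 * s)) *
        (ENNReal.ofReal ((s⁻¹) ^ n) * ∫⁻ z in ball x (16 * s), ENNReal.ofReal (S z) ∂μ) ≤
      ENNReal.ofReal (2 * CK * (1 + 2 ^ n * Real.exp (κ * (24 * s) ^ 2 / 2))) *
        ∫⁻ z in closedBall x (24 * s), ENNReal.ofReal (q z + B z) ∂μ := by
  set I : ℝ≥0∞ := ENNReal.ofReal ((s⁻¹) ^ n) * ∫⁻ z in ball x (16 * s), ENNReal.ofReal (S z) ∂μ
    with hI
  set A : Set X := ann x (16 * s) (24 * s) with hA
  set W : Set X := closedBall x (24 * s) with hW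
  have hAm : MeasurableSet A := measurableSet_ann x _ _
  have hWm : MeasurableSet W := isClosed_closedBall.measurableSet
  have hmeas : Measurable (fun p : X × ℝ => ENNReal.ofReal (2 * B (C.T x p.2 p.1))) :=
    (((hBm.comp (C.measT.comp (measurable_const.prodMk
      (measurable_snd.prodMk measurable_fst)))).const_mul 2)).ennreal_ofReal
  -- pointwise
  have hpt : ∀ᵐ v ∂μ, v ∈ A → I * ENNReal.ofReal (1 / 2) ≤
      ENNReal.ofReal CK * (ENNReal.ofReal (q v) +
        ∫⁻ t in Icc (1 / 2 : ℝ) 1, ENNReal.ofReal (2 * B (C.T x t v))) := by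
    filter_upwards [hray, C.ae_U x] with v hv hU hvA
    have hvA1 : 16 * s ≤ dist x v := hvA.1
    have hvA2 : dist x v ≤ 24 * s := hvA.2
    have h1 : I * ENNReal.ofReal (1 / 2) ≤
        ∫⁻ t in Icc (1 / 2 : ℝ) 1, loc μ n 40 s S (C.T x t v) * ENNReal.ofReal t⁻¹ := by
      calc I * ENNReal.ofReal (1 / 2) = ∫⁻ _ in Icc (1 / 2 : ℝ) 1, I := by
            rw [setLIntegral_const, Real.volume_Icc]
            norm_num
        _ ≤ _ := by
            apply setLIntegral_mono_ae' measurableSet_Icc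
            refine Eventually.of_forall fun t ht => ?_
            have ht0 : 0 < t := by linarith [ht.1]
            have h2 : I ≤ loc μ n 40 s S (C.T x t v) := by
              apply le_loc
              rw [C.dist_left hU ⟨ht0.le, ht.2⟩]
              calc t * dist x v ≤ 1 * dist x v := by gcongr; exact ht.2
                _ ≤ _ := by linarith
            have h3 : (1 : ℝ≥0∞) ≤ ENNReal.ofReal t⁻¹ := by
              rw [← ENNReal.ofReal_one]
              exact ENNReal.ofReal_le_ofReal ((one_le_inv₀ ht0).2 ht.2)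
            calc I = I * 1 := (mul_one I).symm
              _ ≤ _ := by gcongr
    refine h1.trans ((hv hvA2).trans ?_)
    rw [ENNReal.ofReal_mul hCK, C.T_one x v hU]
    gcongr
    refine (ENNReal.ofReal_add_le).trans ?_
    gcongr
    rw [intervalIntegral.integral_of_le (by norm_num)]
    refine (ofReal_integral_le _ ?_).trans ?_
    · refine (ae_restrict_iff' measurableSet_Ioc).2 (Eventually.of_forall fun t ht => ?_)
      have ht0 : 0 < t := by linarith [ht.1]
      exact div_nonneg (hB0 _) ht0.le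
    · calc ∫⁻ t in Ioc (1 / 2 : ℝ) 1, ENNReal.ofReal (B (C.T x t v) / t)
          ≤ ∫⁻ t in Ioc (1 / 2 : ℝ) 1, ENNReal.ofReal (2 * B (C.T x t v)) := by
            apply setLIntegral_mono_ae' measurableSet_Ioc
            refine Eventually.of_forall fun t ht => ENNReal.ofReal_le_ofReal ?_
            have ht0 : 0 < t := by linarith [ht.1]
            rw [div_le_iff₀ ht0]
            have := hB0 (C.T x t v)
            nlinarith [ht.1]
        _ ≤ _ := lintegral_mono_set Ioc_subset_Icc_self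
  -- integrate
  have h1 : μ A * (I * ENNReal.ofReal (1 / 2)) ≤
      ∫⁻ v in A, ENNReal.ofReal CK * (ENNReal.ofReal (q v) +
        ∫⁻ t in Icc (1 / 2 : ℝ) 1, ENNReal.ofReal (2 * B (C.T x t v)) ∂volume) ∂μ := by
    calc μ A * (I * ENNReal.ofReal (1 / 2)) = ∫⁻ _ in A, I * ENNReal.ofReal (1 / 2) ∂μ := by
          rw [setLIntegral_const, mul_comm]
      _ ≤ _ := setLIntegral_mono_ae' hAm hpt
  have h2 : ∫⁻ v in A, ENNReal.ofReal CK * (ENNReal.ofReal (q v) +
        ∫⁻ t in Icc (1 / 2 : ℝ) 1, ENNReal.ofReal (2 * B (C.T x t v)) ∂volume) ∂μ =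
      ENNReal.ofReal CK * (∫⁻ v in A, ENNReal.ofReal (q v) ∂μ +
        ∫⁻ v in A, ∫⁻ t in Icc (1 / 2 : ℝ) 1, ENNReal.ofReal (2 * B (C.T x t v)) ∂volume ∂μ) := by
    rw [lintegral_const_mul' _ _ ENNReal.ofReal_ne_top, lintegral_add_left hqm.ennreal_ofReal]
  have h3 : ∫⁻ v in A, ∫⁻ t in Icc (1 / 2 : ℝ) 1, ENNReal.ofReal (2 * B (C.T x t v)) ∂volume ∂μ ≤
      ENNReal.ofReal (Real.exp (κ * (24 * s) ^ 2 / 2) * ((1 / 2 : ℝ)⁻¹) ^ n * (1 - 1 / 2)) *
        ∫⁻ y in W, ENNReal.ofReal (2 * B y) ∂μ := by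
    refine C.ray_lintegral_le hκ x (R := 24 * s) (by norm_num) le_rfl hAm hWm
      (fun z hz => hz.2) (fun z hz hU t ht => ?_) (g := fun y => ENNReal.ofReal (2 * B y))
      ((hBm.const_mul 2).ennreal_ofReal)
    rw [hW, mem_closedBall, dist_comm, C.dist_left hU ⟨by linarith [ht.1], ht.2⟩]
    calc t * dist x z ≤ 1 * dist x z := by gcongr; exact ht.2
      _ ≤ _ := by rw [one_mul]; exact hz.2
  have h4 : ∫⁻ v in A, ENNReal.ofReal (q v) ∂μ ≤ ∫⁻ z in W, ENNReal.ofReal (q z + B z) ∂μ := by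
    refine (lintegral_mono_set (t := W) fun z hz => ?_).trans ?_
    · rw [hW, mem_closedBall, dist_comm]; exact hz.2
    · exact lintegral_mono fun z => ENNReal.ofReal_le_ofReal (by linarith [hB0 z])
  have h5 : ∫⁻ y in W, ENNReal.ofReal (2 * B y) ∂μ ≤
      2 * ∫⁻ z in W, ENNReal.ofReal (q z + B z) ∂μ := by
    rw [← lintegral_const_mul' _ _ (by norm_num)]
    refine lintegral_mono fun z => ?_
    rw [ENNReal.ofReal_mul (by norm_num)]
    simp only [ENNReal.ofReal_ofNat]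
    gcongr
    linarith [hq0 z]
  set J : ℝ≥0∞ := ∫⁻ z in W, ENNReal.ofReal (q z + B z) ∂μ with hJ
  set E : ℝ := Real.exp (κ * (24 * s) ^ 2 / 2) with hE
  have hE0 : 0 < E := Real.exp_pos _
  have h6 : μ A * (I * ENNReal.ofReal (1 / 2)) ≤
      ENNReal.ofReal CK * (J + ENNReal.ofReal (E * 2 ^ n * (1 / 2)) * (2 * J)) := by
    refine h1.trans (h2.le.trans ?_)
    have e1 : ((1 / 2 : ℝ)⁻¹) ^ n = 2 ^ n := by norm_num
    have e2 : (1 : ℝ) - 1 / 2 = 1 / 2 := by norm_num
    rw [e1, e2] at h3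
    gcongr
    exact h3.trans (by gcongr)
  have h7 : μ A * I = 2 * (μ A * (I * ENNReal.ofReal (1 / 2))) := by
    have e3 : ENNReal.ofReal (1 / 2) * 2 = 1 := by
      rw [show (2 : ℝ≥0∞) = ENNReal.ofReal 2 by simp, ← ENNReal.ofReal_mul (by norm_num)]
      norm_num
    calc μ A * I = μ A * I * (ENNReal.ofReal (1 / 2) * 2) := by rw [e3, mul_one]
      _ = _ := by ring
  rw [h7]
  calc 2 * (μ A * (I * ENNReal.ofReal (1 / 2)))
      ≤ 2 * (ENNReal.ofReal CK * (J + ENNReal.ofReal (E * 2 ^ n * (1 / 2)) * (2 * J))) := by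
        gcongr
    _ = ENNReal.ofReal (2 * CK * (1 + 2 ^ n * E)) * J := by
        have e4 : (2 : ℝ≥0∞) = ENNReal.ofReal 2 := by simp
        rw [e4, ← mul_assoc, ← mul_assoc, ← ENNReal.ofReal_mul (by norm_num),
          ← ENNReal.ofReal_mul (by positivity)]
        have e5 : J + ENNReal.ofReal (E * 2 ^ n * (1 / 2) * 2) * J =
            ENNReal.ofReal (1 + 2 ^ n * E) * J := by
          rw [ENNReal.ofReal_add (by norm_num) (by positivity), ENNReal.ofReal_one, add_mul,
            one_mul]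
          congr 3
          ring
        rw [e5, ← mul_assoc, ← ENNReal.ofReal_mul (by positivity)]

omit [BorelSpace X] in
lemma ball_sub_ann (x : X) (a b : ℝ) : ball x b ⊆ ball x a ∪ ann x a b := by
  intro z hz
  rw [mem_ball, dist_comm] at hz
  rcases lt_or_ge (dist x z) a with h | h
  · left; rw [mem_ball, dist_comm]; exact h
  · right; exact ⟨h, hz.le⟩





end Crest.Agent.R247.D2b62
end
end

-- ▼ part R247/Sv14_436
section

/-! # R247 (helper436): `D2bP` (the field `d2_ball` of `FarD`), over helper62's `int_S_le`,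
helper193's `int_N` and the ray inequality. -/

set_option autoImplicit false
set_option linter.unusedSectionVars false
open MeasureTheory Set Filter Topology Metric TopologicalSpace
open scoped ENNReal NNReal RealInnerProductSpace

noncomputable section
namespace Crest.Agent.R247.Sv436

universe u

open Crest.Agent.R247.Mcp688 Crest.Agent.R247.Far553 Crest.Agent.R242
open Crest.Agent.R247.Dir593 Crest.Agent.R247.Dir593.GradS Crest.Agent.R247.Smv126
open Crest.Agent.R247.Obj554 Crest.Agent.R247.Hes124 Crest.Agent.R247.Fd656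
open Crest.Agent.R247.Max193

section ray

variable {n : ℕ} {κ : ℝ} {X : Type*} [MetricSpace X] [ProperSpace X] [MeasurableSpace X]
  [BorelSpace X] {μ : Measure X} [IsFiniteMeasureOnCompacts μ]

/-- the ray inequality for the local means of `(H + g)²` -/
theorem ray_S (hn : 1 ≤ n) {B : BochS n κ X μ} {C : Rad n κ X μ} {x : X}
    (W : WLap B.toGradS n κ) (hκ : 0 ≤ κ) (hκ8 : 8 * κ ≤ 1) (O : HObj B x) (k : ℕ)
    {qc D : X → ℝ} (hQ : QRep B C x k qc D) {v1 : ℝ} (hv1 : 0 < v1)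
    (hd : ∀ y : X, ∀ᶠ ε in 𝓝[>] (0:ℝ), μ (closedBall y ε) ≤ ENNReal.ofReal (v1 * ε ^ n))
    {K : ℝ} (hK : 1 ≤ K) :
    ∀ᵐ v ∂μ, dist x v ≤ 16 → ∀ a b : ℝ, 0 < a → a ≤ b → b ≤ 1 →
      ∫⁻ t in Icc a b, loc μ n K (dy k) (fun z => (Hf O k z + gf B x k z) ^ 2) (C.T x t v) *
          ENNReal.ofReal t⁻¹ ≤
        ENNReal.ofReal ((cR2 n 1 K v1)⁻¹ * 10 * (qc (C.T x b v) +
          ∫ t in a..b, (2 * rqf B x k (C.T x t v) + CE n * eNum n (dy k)) / t)) := by
  have hρ := dy_pos k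
  have hρ1 := dy_le_one k
  have hκ1 : κ ≤ 1 := by linarith
  have h0 : (0:ℝ) < dy k ^ 2 := by positivity
  have hCN := CN_nonneg n hκ
  have hCE := CE_nonneg n
  have M := B.markov B.dense_V
  have hrq := rqf_ae W x k
  have hcpos : 0 < cR2 n 1 K v1 := cR2_pos zero_le_one hK hv1
  have hlip : ∀ R, ∃ L, ∀ y z, dist x y ≤ R → dist x z ≤ R → |qc y - qc z| ≤ L * dist y z := by
    intro R
    obtain ⟨L, hL⟩ := (hQ.lip.locallyLipschitzOn
      (s := closedBall x R)).exists_lipschitzOnWith_of_compact (isCompact_closedBall x R)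
    refine ⟨L, fun y z hy hz => ?_⟩
    have := hL.dist_le_mul y (by rwa [mem_closedBall, dist_comm]) z
      (by rwa [mem_closedBall, dist_comm])
    rwa [Real.dist_eq] at this
  have hrqb : ∃ Mb, ∀ᵐ z ∂μ, dist x z ≤ 16 →
      |2 * rqf B x k z + CE n * eNum n (dy k)| ≤ Mb := by
    have hq : ∀ᵐ z ∂μ, qk B x k z ≤ (dy k ^ 2)⁻¹ * cinf + CN n κ := by
      filter_upwards [qL_le (S := B.toGradS) (n := n) hκ hρ x] with z h1
      have h2 : hh x z ≤ cinf := Phi_le_cinf _
      have h3 : dy k ^ 2 * qk B x k z ≤ cinf + CN n κ * dy k ^ 2 := h1.trans (by linarith)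
      calc qk B x k z = (dy k ^ 2)⁻¹ * (dy k ^ 2 * qk B x k z) := by field_simp
        _ ≤ (dy k ^ 2)⁻¹ * (cinf + CN n κ * dy k ^ 2) :=
            mul_le_mul_of_nonneg_left h3 (inv_pos.2 h0).le
        _ = _ := by field_simp
    have hc := cinf_pos
    refine ⟨2 * ((dy k ^ 2)⁻¹ * cinf + CN n κ) + CE n * eNum n (dy k), ?_⟩
    filter_upwards [M.res_le h0 (by positivity) hq, hrq] with z h1 h2 _
    have h3 := rqf_nonneg B x k z
    have h4 := (eNum_pos n (dy k)).le
    have h5 := mul_nonneg hCE h4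
    rw [abs_of_nonneg (by linarith), h2]
    linarith
  obtain ⟨Mb, hMb⟩ := hrqb
  have hint := int_rhs W k hQ.ae_D hQ.ae_q hrq (CE n * eNum n (dy k))
  have hSm : Measurable fun z => (Hf O k z + gf B x k z) ^ 2 :=
    ((Hf_meas B x O k).add (gf_meas B x k)).pow_const 2
  have hpl := ploc (μ := μ) n (K := K) (ρ := dy k) hcpos (x := x) (R0 := 16) hSm
    (hint.const_mul 10) (PE B.toGradS (dy k))
    (fun E hE hs => by
      obtain ⟨h1, h2⟩ := hHFg_of W hκ hκ8 O k hQ.ae_D hQ.ae_q hrq hE hs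
      rw [integral_const_mul]
      exact ⟨h1, by positivity⟩)
    (fun E hE hs => by
      have hμ : μ E ≠ ∞ :=
        ((measure_mono hs).trans_lt (isCompact_closedBall x 16).measure_lt_top).ne
      filter_upwards [hR2_of hn W C hκ hv1 hd hK hρ hρ1 hE hμ] with z hz
      refine le_trans ?_ hz
      gcongr
      exact cR2_anti hκ hκ1 hK hv1)
  have hri := ray_ineq C x (q := qc) (D := D)
    (B := fun z => 2 * rqf B x k z + CE n * eNum n (dy k)) (R0 := 16)
    (c1 := (cR2 n 1 K v1)⁻¹ * 10) (by positivity) hQ.rd hlip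
    (A := fun y => loc μ n K (dy k) (fun z => (Hf O k z + gf B x k z) ^ 2) y) (by
      filter_upwards [hpl] with y hy hd
      obtain ⟨h1, h2⟩ := hy hd
      refine ⟨by linarith, h2.trans (ENNReal.ofReal_le_ofReal (le_of_eq ?_))⟩
      ring) hQ.nonneg hQ.lip.continuous.measurable
    (((rqf_meas B x k).const_mul 2).add measurable_const) hMb
  filter_upwards [hri] with v hv hdv a b ha hab hb
  rw [Measure.restrict_congr_set (Ioc_ae_eq_Icc (a := a) (b := b) (μ := volume)).symm]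
  exact (hv hdv a b ha hab hb).2

end ray

section env

variable {n : ℕ} {κ : ℝ} {X : Type u} [MetricSpace X] [ProperSpace X] [MeasurableSpace X]
    [BorelSpace X] {μ : Measure X} [IsFiniteMeasureOnCompacts μ] {B : BochS n κ X μ}
    {C : Rad n κ X μ} {x : X} {δ : ℝ}

/-- volume of the annulus `16 s ≤ d ≤ 24 s` -/
lemma env_ann (E : EnvF B C x δ) {s : ℝ} (hs : 0 < s) (hs1 : s ≤ 1 / 16) :
    ENNReal.ofReal (om n * s ^ n) ≤ μ (ann x (16 * s) (24 * s)) := by
  have hom := om_pos' n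
  have hn := E.n_pos
  have h1 : μ (ball x (24 * s)) ≤ μ (ball x (16 * s)) + μ (ann x (16 * s) (24 * s)) :=
    (measure_mono (D2b62.ball_sub_ann x _ _)).trans (measure_union_le _ _)
  have h2 : ENNReal.ofReal (3 / 4 * om n * (24 * s) ^ n) ≤ μ (ball x (24 * s)) := by
    refine le_trans (ENNReal.ofReal_le_ofReal ?_) (E.vol_ge x (24 * s) (by rw [dist_self]; norm_num)
      (by positivity) (by linarith))
    have h3 := E.δ_le
    have h4 : 0 ≤ (24 * s) ^ n := by positivity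
    gcongr
    linarith
  have h3 : μ (ball x (16 * s)) ≤ ENNReal.ofReal (101 / 100 * om n * (16 * s) ^ n) := by
    refine (measure_mono ball_subset_closedBall).trans ((E.bishop x (16 * s) (by positivity)).trans
      (ENNReal.ofReal_le_ofReal ?_))
    have h4 : Real.exp (κ * (16 * s) ^ 2 / 2) ≤ 101 / 100 := by
      have h5 : κ * (16 * s) ^ 2 / 2 ≤ 1 / 2048 := by
        have h6 := E.κ_nonneg
        have h7 := E.κ_le
        have h8 : (16 * s) ^ 2 ≤ 1 := by
          have : 16 * s ≤ 1 := by linarith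
          have h9 : 0 ≤ 16 * s := by positivity
          nlinarith
        nlinarith
      have h6 : Real.exp (κ * (16 * s) ^ 2 / 2) ≤ Real.exp (1 / 2048) := Real.exp_le_exp.2 h5
      have h7 : Real.exp (1 / 2048 : ℝ) ≤ 101 / 100 := by
        have h8 := Real.one_sub_le_exp_neg (1 / 2048 : ℝ)
        have h9 : Real.exp (-(1 / 2048 : ℝ)) * Real.exp (1 / 2048) = 1 := by
          rw [← Real.exp_add]; simp
        have h10 := Real.exp_pos (1 / 2048 : ℝ)
        nlinarith
      exact h6.trans h7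
    have h5 : 0 ≤ (16 * s) ^ n := by positivity
    calc Real.exp (κ * (16 * s) ^ 2 / 2) * (16 * s) ^ n * om n
        ≤ 101 / 100 * (16 * s) ^ n * om n := by gcongr
      _ = _ := by ring
  have h4 : om n * s ^ n + 101 / 100 * om n * (16 * s) ^ n ≤ 3 / 4 * om n * (24 * s) ^ n := by
    rw [mul_pow, mul_pow]
    have h16 : (16 : ℝ) ≤ 16 ^ n := by
      calc (16 : ℝ) = 16 ^ 1 := by norm_num
        _ ≤ 16 ^ n := pow_le_pow_right₀ (by norm_num) hn
    have h15 : (3 / 2 : ℝ) ≤ (3 / 2) ^ n := by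
      calc (3 / 2 : ℝ) = (3 / 2) ^ 1 := by norm_num
        _ ≤ (3 / 2) ^ n := pow_le_pow_right₀ (by norm_num) hn
    have h24 : (24 : ℝ) ^ n = (3 / 2) ^ n * 16 ^ n := by rw [← mul_pow]; norm_num
    have h24' : (3 / 2) * (16 : ℝ) ^ n ≤ 24 ^ n := by
      rw [h24]
      gcongr
    have h5 : 1 + 101 / 100 * (16:ℝ) ^ n ≤ 3 / 4 * 24 ^ n := by nlinarith
    have h6 : 0 < om n * s ^ n := by positivity
    have h7 := mul_le_mul_of_nonneg_left h5 h6.le
    calc om n * s ^ n + 101 / 100 * om n * (16 ^ n * s ^ n)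
        = om n * s ^ n * (1 + 101 / 100 * 16 ^ n) := by ring
      _ ≤ om n * s ^ n * (3 / 4 * 24 ^ n) := h7
      _ = _ := by ring
  by_contra hcon
  rw [not_le] at hcon
  have h7 : μ (ball x (16 * s)) + μ (ann x (16 * s) (24 * s)) <
      ENNReal.ofReal (101 / 100 * om n * (16 * s) ^ n) + ENNReal.ofReal (om n * s ^ n) :=
    ENNReal.add_lt_add_of_le_of_lt (ne_top_of_le_ne_top ENNReal.ofReal_ne_top h3) h3 hcon
  rw [← ENNReal.ofReal_add (by positivity) (by positivity)] at h7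
  have h8 := h2.trans_lt (h1.trans_lt h7)
  rw [ENNReal.ofReal_lt_ofReal_iff_of_nonneg (by positivity)] at h8
  linarith

end env

/-- constants -/
def CK40 (n : ℕ) : ℝ := (cR2 n 1 40 (2 * om n))⁻¹ * 10

def C1d (n : ℕ) : ℝ :=
  12 * Max193.cA (CN n 1 * Fd656.V64 n) 2 (Max193.c3 n) + CE n * (2 * om n * 32 ^ n)

def Ad2 (n : ℕ) : ℝ := 2 * CK40 n * (1 + 2 ^ n * 2) / om n * C1d n + C1d n

lemma CK40_pos (n : ℕ) : 0 < CK40 n := by
  have h := cR2_pos (n := n) (κ := 1) (K := 40) (v1 := 2 * om n) zero_le_one (by norm_num)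
    (by have := om_pos' n; positivity)
  unfold CK40
  positivity

lemma V64_nonneg (n : ℕ) : 0 ≤ Fd656.V64 n := by
  have := om_pos' n
  unfold Fd656.V64
  positivity

lemma C1d_pos (n : ℕ) : 0 < C1d n := by
  have h1 := om_pos' n
  have h2 := CE_nonneg n
  have h3 : 0 < Max193.cA (CN n 1 * Fd656.V64 n) 2 (Max193.c3 n) := by
    unfold Max193.cA
    have h4 := V64_nonneg n
    have h5 := CN_nonneg n zero_le_one
    have h6 := Max193.c3_pos n
    have h7 : Real.exp (-(2 * Max193.c3 n)) < 1 := by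
      rw [← Real.exp_zero]
      exact Real.exp_lt_exp.2 (by linarith)
    have h8 : 0 < 1 - Real.exp (-(2 * Max193.c3 n)) := by linarith
    positivity
  unfold C1d
  positivity

lemma Ad2_pos (n : ℕ) : 0 < Ad2 n := by
  have h1 := om_pos' n
  have h2 := C1d_pos n
  have h3 := CK40_pos n
  unfold Ad2
  positivity

/-- **(D2')** -/
theorem d2bP (n : ℕ) : Fd656.D2bP.{u} n := by
  refine ⟨Ad2 n, Ad2_pos n, ?_⟩
  intro κ X _ _ _ _ μ _ B C x δ E O j hj
  have hom := om_pos' n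
  have hn := E.n_pos
  have hκ := E.κ_nonneg
  have hκ8 : 8 * κ ≤ 1 := by have := E.κ_le; linarith
  have hκ1 : κ ≤ 1 := by linarith
  have hdj := dy_pos j
  have hdj16 : dy j ≤ 1 / 16 := by
    have h1 := dy_anti hj
    have h2 : dy 4 = 1 / 16 := by unfold dy; norm_num
    rw [h2] at h1; exact h1
  set s := dy j with hs
  have hsn : 0 < s ^ n := by positivity
  obtain ⟨qc, D, hQ⟩ := exists_QRep (C := C) hκ (by linarith) E.hL E.W E.pos O j
  have hCE := CE_nonneg n
  have hCK := CK40_pos n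
  have hC1 := C1d_pos n
  -- `∫ (q + B)`
  have hMx := Max193.maxIn_lx E.hL E.W hκ (by linarith) x E.vol64
  have hn0 : (0:ℝ) ≤ n := Nat.cast_nonneg n
  have hph : 0 ≤ phx n κ μ x j := hMx.phat_nonneg _ j
  have hint := hMx.int_N (q := fun k => if k = j then qc else qk B x k) (Rq := fun k => rqf B x k)
    (err := fun k _ => CE n * eNum n (dy k))
    (fun k => by
      by_cases hk : k = j
      · subst hk
        simp only [if_true]
        exact hQ.ae_q
      · simp only [if_neg hk]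
        exact Eventually.of_forall fun _ => rfl)
    (fun k => rqf_ae E.W x k) (E := CE n) (b := 16 / (4 * n + 6))
    (Vb := 2 * om n * 32 ^ n) hCE (by
      unfold Max193.c3
      rw [div_div, div_le_div_iff₀ (by positivity) (by positivity)]
      nlinarith) (by positivity)
    (fun k => Eventually.of_forall fun y _ => by
      show CE n * eNum n (dy k) ≤ _
      rw [eNum_dy]) hj le_rfl (by
      have h1 := E.vol_le x (32 * dy j) (by rw [dist_self]; norm_num) (by positivity) (by linarith)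
      refine h1.trans (ENNReal.ofReal_le_ofReal ?_)
      rw [mul_pow]
      have h2 := E.δ_le
      have h3 : 0 ≤ (32:ℝ) ^ n * dy j ^ n := by positivity
      calc (1 + δ) * om n * (32 ^ n * dy j ^ n) ≤ 2 * om n * (32 ^ n * dy j ^ n) := by
            gcongr
            linarith
        _ = _ := by ring)
  simp only [if_true] at hint
  have hM : ∫⁻ z in closedBall x (24 * s),
      ENNReal.ofReal (qc z + (2 * rqf B x j z + CE n * eNum n s)) ∂μ ≤
      ENNReal.ofReal (C1d n * phx n κ μ x j * s ^ n) := by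
    have hsub : closedBall x (24 * s) ⊆ ball x (32 * s) := closedBall_subset_ball (by linarith)
    calc ∫⁻ z in closedBall x (24 * s),
          ENNReal.ofReal (qc z + (2 * rqf B x j z + CE n * eNum n s)) ∂μ
        ≤ ∫⁻ z in ball x (32 * s),
          ENNReal.ofReal (qc z + (2 * rqf B x j z + CE n * eNum n s)) ∂μ := lintegral_mono_set hsub
      _ = ∫⁻ z in ball x (32 * s),
          ENNReal.ofReal (qc z + 2 * rqf B x j z + CE n * eNum n s) ∂μ := by
          refine lintegral_congr fun z => ?_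
          rw [add_assoc]
      _ ≤ _ := hint
      _ ≤ _ := by
          apply ENNReal.ofReal_le_ofReal
          have hCN1 : CN n κ ≤ CN n 1 := CN_mono n hκ1
          have h1 := cA_mono (C0 := CN n κ * Fd656.V64 n) (C0' := CN n 1 * Fd656.V64 n) (C3 := 2)
            (mul_le_mul_of_nonneg_right hCN1 (V64_nonneg n)) (by norm_num) (Max193.c3_pos n)
          have h2 : 12 * Max193.cA (CN n κ * Fd656.V64 n) 2 (Max193.c3 n) +
              CE n * (2 * om n * 32 ^ n) ≤ C1d n := by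
            unfold C1d
            linarith
          have h3 : 0 ≤ phat n κ μ x (Max193.c3 n / 64) j := hph
          show _ * phat n κ μ x (Max193.c3 n / 64) j * s ^ n ≤
            C1d n * phat n κ μ x (Max193.c3 n / 64) j * s ^ n
          gcongr
  -- the ray inequality
  have hray := ray_S hn E.W hκ hκ8 O j hQ (v1 := 2 * om n) (by positivity) (env_hd E)
    (K := 40) (by norm_num)
  have hB0 : ∀ z, 0 ≤ 2 * rqf B x j z + CE n * eNum n s := fun z => by
    have h2 := rqf_nonneg B x j z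
    have h3 := (eNum_pos n s).le
    have h4 := mul_nonneg hCE h3
    linarith
  have hmain := D2b62.int_S_le C hκ x (s := s) (S := fun z => (Hf O j z + gf B x j z) ^ 2)
    (q := qc) (B := fun z => 2 * rqf B x j z + CE n * eNum n s)
    hQ.lip.continuous.measurable (((rqf_meas B x j).const_mul 2).add measurable_const)
    hQ.nonneg hB0 hCK.le (by
      filter_upwards [hray] with v hv hdv
      exact hv (by linarith) (1 / 2) 1 (by norm_num) (by norm_num) le_rfl)
  have hann := env_ann E hdj hdj16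
  set I : ℝ≥0∞ := ∫⁻ z in ball x (16 * s), ENNReal.ofReal ((Hf O j z + gf B x j z) ^ 2) ∂μ with hI
  have hE2 : Real.exp (κ * (24 * s) ^ 2 / 2) ≤ 2 := by
    have h3 : κ * (24 * s) ^ 2 / 2 ≤ 1 / 2 := by
      have h5 := E.κ_le
      have h6 : (24 * s) ^ 2 ≤ 9 / 4 := by
        have h7 : 24 * s ≤ 3 / 2 := by linarith
        have h8 : 0 ≤ 24 * s := by positivity
        nlinarith
      nlinarith
    have h7 : Real.exp (κ * (24 * s) ^ 2 / 2) ≤ Real.exp (1 / 2) := Real.exp_le_exp.2 h3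
    have h8 : Real.exp (1 / 2 : ℝ) ≤ 2 := by
      have h9 : (1 / 2 : ℝ) ≤ Real.log 2 := by
        have := Real.log_two_gt_d9
        linarith
      exact (Real.le_log_iff_exp_le (by norm_num : (0:ℝ) < 2)).1 h9
    exact h7.trans h8
  set P : ℝ := C1d n * phx n κ μ x j with hP
  have hP0 : 0 ≤ P := by positivity
  have h1 : ENNReal.ofReal (om n) * I ≤
      ENNReal.ofReal (2 * CK40 n * (1 + 2 ^ n * 2) * (P * s ^ n)) := by
    calc ENNReal.ofReal (om n) * I
        = ENNReal.ofReal (om n * s ^ n) * (ENNReal.ofReal ((s⁻¹) ^ n) * I) := by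
          rw [← mul_assoc, ← ENNReal.ofReal_mul (by positivity)]
          congr 2
          rw [inv_pow]
          field_simp
      _ ≤ μ (ann x (16 * s) (24 * s)) * (ENNReal.ofReal ((s⁻¹) ^ n) * I) := by gcongr
      _ ≤ ENNReal.ofReal (2 * CK40 n * (1 + 2 ^ n * Real.exp (κ * (24 * s) ^ 2 / 2))) *
          ENNReal.ofReal (P * s ^ n) := hmain.trans (by gcongr)
      _ ≤ ENNReal.ofReal (2 * CK40 n * (1 + 2 ^ n * 2)) * ENNReal.ofReal (P * s ^ n) := by gcongr
      _ = _ := by rw [← ENNReal.ofReal_mul (by positivity)]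
  have h2 : I ≤ ENNReal.ofReal (2 * CK40 n * (1 + 2 ^ n * 2) / om n * (P * s ^ n)) := by
    calc I = ENNReal.ofReal (om n)⁻¹ * (ENNReal.ofReal (om n) * I) := by
          rw [← mul_assoc, ← ENNReal.ofReal_mul (by positivity), inv_mul_cancel₀ hom.ne',
            ENNReal.ofReal_one, one_mul]
      _ ≤ ENNReal.ofReal (om n)⁻¹ *
          ENNReal.ofReal (2 * CK40 n * (1 + 2 ^ n * 2) * (P * s ^ n)) := by gcongr
      _ = _ := by
          rw [← ENNReal.ofReal_mul (by positivity)]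
          congr 1
          field_simp
  have h3 : ∫⁻ z in ball x (16 * s), ENNReal.ofReal (qf B x j z) ∂μ ≤
      ENNReal.ofReal (P * s ^ n) := by
    have e1 : ∫⁻ z in ball x (16 * s), ENNReal.ofReal (qf B x j z) ∂μ =
        ∫⁻ z in ball x (16 * s), ENNReal.ofReal (qc z) ∂μ := by
      refine lintegral_congr_ae (ae_restrict_of_ae ?_)
      filter_upwards [qf_ae x j E.W, hQ.ae_q] with z a1 a2
      rw [a1, a2]
    rw [e1]
    refine le_trans ?_ hM
    refine (lintegral_mono_set (t := closedBall x (24 * s)) fun z hz => ?_).trans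
      (lintegral_mono fun z => ENNReal.ofReal_le_ofReal (by linarith [hB0 z]))
    rw [mem_closedBall]
    rw [mem_ball] at hz
    linarith
  calc ∫⁻ z in ball x (16 * s), ENNReal.ofReal (Hf O j z ^ 2 + gf B x j z ^ 2 + qf B x j z) ∂μ
      ≤ ∫⁻ z in ball x (16 * s), (ENNReal.ofReal ((Hf O j z + gf B x j z) ^ 2) +
          ENNReal.ofReal (qf B x j z)) ∂μ := by
        refine lintegral_mono fun z => ?_
        rw [← ENNReal.ofReal_add (sq_nonneg _) (qf_nonneg B x j z)]
        apply ENNReal.ofReal_le_ofReal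
        have a1 := Hf_nonneg B x O j z
        have a2 := gf_nonneg B x j z
        nlinarith [mul_nonneg a1 a2]
    _ = I + ∫⁻ z in ball x (16 * s), ENNReal.ofReal (qf B x j z) ∂μ := by
        rw [lintegral_add_right _ (qf_meas B x j).ennreal_ofReal]
    _ ≤ ENNReal.ofReal (2 * CK40 n * (1 + 2 ^ n * 2) / om n * (P * s ^ n)) +
        ENNReal.ofReal (P * s ^ n) := by gcongr
    _ = ENNReal.ofReal (Ad2 n * phx n κ μ x j * s ^ n) := by
        rw [← ENNReal.ofReal_add (by positivity) (by positivity)]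
        congr 1
        unfold Ad2
        rw [hP]
        ring

end Crest.Agent.R247.Sv436
end
end

-- ▼ part R247/Fv5_510
section

/-!
R247, block (5-V) (helper510), part 5: calculus along one minimising segment (`AlongD`) for the
functions of `Fd0_656`.
-/

set_option autoImplicit false
set_option linter.unusedSectionVars false
open MeasureTheory Set Filter Topology
open scoped ENNReal NNReal RealInnerProductSpace

noncomputable section
namespace Crest.Agent.R247.Fv510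

open Crest.Agent.R247.Mcp688 Crest.Agent.R247.Hes124 Crest.Agent.R247.Dir593
  Crest.Agent.R247.Dir593.GradS
open Crest.Agent.R247.Smv126 (hf WLap)
open Crest.Agent.R247.Far553 Crest.Agent.R247.Fd656 Crest.Agent.R247.Obj554

/-! ### algebra -/

section alg

variable {n : ℕ}

lemma mv_idm (v : F n) : mv (idm n) v = v := by
  ext i
  simp [mv, idm]

lemma mv_smul_right (A : S n) (c : ℝ) (v : F n) : mv A (c • v) = c • mv A v := by
  ext i
  simp only [mv, PiLp.smul_apply, smul_eq_mul, Finset.mul_sum]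
  exact Finset.sum_congr rfl fun j _ => by ring

lemma e_alg (A : S n) (s : F n) (hs : ‖s‖ = 1) : |⟪mv A s, s⟫ - 1| ≤ ‖A - idm n‖ := by
  have e : ⟪mv A s, s⟫ - 1 = ⟪mv (A - idm n) s, s⟫ := by
    rw [mv_sub_left, mv_idm, inner_sub_left, real_inner_self_eq_norm_sq, hs]; norm_num
  rw [e]
  refine (abs_real_inner_le_norm _ _).trans ?_
  rw [hs, mul_one]
  exact norm_mv_one _ _ hs

lemma N_alg (s D : F n) (hs : ‖s‖ = 1) (τ : ℝ) :
    ‖τ • s - D‖ ^ 2 = τ ^ 2 - 2 * τ * ⟪D, s⟫ + ‖D‖ ^ 2 := by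
  rw [norm_sub_sq_real, norm_smul, hs, real_inner_smul_left, real_inner_comm, Real.norm_eq_abs,
    mul_one, sq_abs]
  ring

lemma K1_alg (A : S n) (s D : F n) (hs : ‖s‖ = 1) {τ : ℝ} (hτ : 0 < τ) :
    |(⟪mv A s, D⟫ + ⟪D, mv A s⟫ - 2 * ⟪D, s⟫) - 2 * τ * (⟪mv A s, s⟫ - 1)| ≤
      (2 * ‖mv (A - idm n) D‖) * ‖τ • s - D‖ / τ +
        2 * ‖A - idm n‖ * ‖τ • s - D‖ ^ 2 / τ := by
  set T : F n := τ • s - D with hT
  set A' : S n := A - idm n with hA'
  have h1 : mv A s = mv A' s + s := by rw [hA', mv_sub_left, mv_idm]; abel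
  have hss : ⟪s, s⟫ = (1 : ℝ) := by rw [real_inner_self_eq_norm_sq, hs]; norm_num
  have e1 : (⟪mv A s, D⟫ + ⟪D, mv A s⟫ - 2 * ⟪D, s⟫) - 2 * τ * (⟪mv A s, s⟫ - 1) =
      -(2 * ⟪mv A' s, T⟫) := by
    rw [real_inner_comm (mv A s) D, h1, inner_add_left, inner_add_left, hss, hT, inner_sub_right,
      real_inner_smul_right, real_inner_comm s D]
    ring
  have e2 : τ • s = T + D := by rw [hT]; abel
  have e3 : τ * ⟪mv A' s, T⟫ = ⟪mv A' T, T⟫ + ⟪mv A' D, T⟫ := by
    rw [← real_inner_smul_left, ← mv_smul_right, e2, mv_add_right, inner_add_left]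
  have e4 : |τ * ⟪mv A' s, T⟫| ≤ ‖A'‖ * ‖T‖ ^ 2 + ‖mv A' D‖ * ‖T‖ := by
    rw [e3]
    refine (abs_add_le _ _).trans (add_le_add ?_ (abs_real_inner_le_norm _ _))
    refine (abs_real_inner_le_norm _ _).trans ?_
    have := norm_mv_le A' T
    nlinarith [norm_nonneg T]
  rw [e1, abs_neg, abs_mul, abs_two, ← add_div, le_div_iff₀ hτ]
  rw [abs_mul, abs_of_pos hτ] at e4
  nlinarith

end alg

lemma Icc_div_mem {l τ : ℝ} (hl : 0 < l) (h : τ ∈ Icc (0 : ℝ) l) : τ / l ∈ Icc (0 : ℝ) 1 :=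
  ⟨by have := h.1; positivity, (div_le_one hl).2 h.2⟩

section along

variable {n : ℕ} {κ κ' : ℝ} {X : Type*} [MetricSpace X] [ProperSpace X] [MeasurableSpace X]
  [BorelSpace X] {μ : Measure X} [IsFiniteMeasureOnCompacts μ]
  {B : BochS n κ' X μ} {C : Rad n κ X μ} {x : X}

/-- the locally Lipschitz representative of `u_k` -/
structure Rep (B : BochS n κ' X μ) (x : X) (k : ℕ) (v : X → ℝ) : Prop where
  lip : LocallyLipschitz v
  ae_u : ∀ᵐ y ∂μ, uk B x k y = v y
  ae_D : ∀ᵐ y ∂μ, B.D (uk B x k) y = B.G v y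

/-- pointwise facts at scale `k` -/
structure PtF (B : BochS n κ' X μ) (x : X) (k : ℕ) (v : X → ℝ) (y : X) : Prop where
  u_eq : uk B x k y = v y
  q_eq : v y = f0 x y - dy k ^ 2 * qf B x k y
  D_eq : dist x y < 32 → B.D (uk B x k) y = B.G (hf x) y - dy k ^ 2 • B.D (qk B x k) y
  G_eq : B.D (uk B x k) y = B.G v y
  n_hf : ‖B.G (hf x) y‖ = dist x y

lemma ae_ptF (W : WLap B.toGradS n κ') {k : ℕ} {v : X → ℝ} (hv : Rep B x k v) :
    ∀ᵐ y ∂μ, PtF B x k v y := by
  have hD := D_uL (S := B.toGradS) (n := n) (κ := κ') (dy_pos k) x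
  filter_upwards [hv.ae_u, hv.ae_D, qf_ae x k W, G_f0 B.toGradS x, W.normSq_G_hf x,
    Lp.coeFn_sub (B.D (tL (isT_f0 x))) (dy k ^ 2 • B.D (qk B x k)),
    Lp.coeFn_smul (dy k ^ 2) (B.D (qk B x k)), B.D_tL (isT_f0 x),
    Lp.coeFn_sub (tL (isT_f0 x) : Lp ℝ 2 μ) (dy k ^ 2 • qk B x k),
    Lp.coeFn_smul (dy k ^ 2) (qk B x k), coe_tL (μ := μ) (isT_f0 x)]
    with y h1 h2 h3 h4 h5 h6 h7 h8 h9 h10 h11
  refine ⟨h1, ?_, fun hd => ?_, h2, ?_⟩
  · rw [← h1]
    show (uL B.toGradS n κ' x (dy k)) y = _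
    unfold uL
    rw [h9, Pi.sub_apply, h10, Pi.smul_apply, smul_eq_mul, h11, h3]
  · show B.D (uL B.toGradS n κ' x (dy k)) y = _
    rw [hD, h6, Pi.sub_apply, h7, Pi.smul_apply, h8, h4]
    have : et x y = 1 := eta_one (hf_le_S0 hd.le)
    rw [this, one_smul]
  · exact (sq_eq_sq₀ (norm_nonneg _) dist_nonneg).1 h5

variable (Q : SegS B C) (O : HObj B x) (k : ℕ)

theorem alongD_of {p : X × X} (hl : 0 < dist p.1 p.2) {v : X → ℝ} {U1 : ℝ → ℝ} {Dw : ℝ}
    (hU : SegU Q p v (B.D (uk B x k)) (O.A k) U1)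
    (hv : ContinuousOn (fun t => v (C.T p.1 t p.2)) (Icc 0 1))
    (h3 : IntervalIntegrable (fun t => dist p.1 p.2 *
        (⟪mv (O.A k (C.T p.1 t p.2)) (Q.s p t), B.D (uk B x k) (C.T p.1 t p.2)⟫ +
          ⟪B.D (uk B x k) (C.T p.1 t p.2), mv (O.A k (C.T p.1 t p.2)) (Q.s p t)⟫)) volume 0 1)
    {c₃ : ℝ} (h3' : ∀ᵐ t ∂(volume.restrict (Icc (0 : ℝ) 1)),
        ⟪B.D (uk B x k) (C.T p.1 t p.2), B.D (uk B x k) (C.T p.1 t p.2)⟫ =
        c₃ + ∫ r in (0 : ℝ)..t, dist p.1 p.2 *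
        (⟪mv (O.A k (C.T p.1 r p.2)) (Q.s p r), B.D (uk B x k) (C.T p.1 r p.2)⟫ +
          ⟪B.D (uk B x k) (C.T p.1 r p.2), mv (O.A k (C.T p.1 r p.2)) (Q.s p r)⟫))
    (hs : ∀ᵐ t ∂(volume.restrict (Icc (0 : ℝ) 1)), ‖Q.s p t‖ = 1)
    (hp : ∀ᵐ t ∂(volume.restrict (Icc (0 : ℝ) 1)), PtF B x k v (C.T p.1 t p.2))
    (hd : ∀ t ∈ Icc (0 : ℝ) 1, dist x (C.T p.1 t p.2) < 32)
    (hG : ∀ᵐ t ∂(volume.restrict (Ioo (0 : ℝ) 1)),
      HasDerivAt (fun t => hf x (C.T p.1 t p.2))
        (dist p.1 p.2 * ⟪B.G (hf x) (C.T p.1 t p.2), Q.s p t⟫) t)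
    (hH : IntervalIntegrable (fun t => Hf O k (C.T p.1 t p.2)) volume 0 1)
    (hn : IntervalIntegrable (fun t => nf O k (C.T p.1 t p.2)) volume 0 1)
    (hfirst : |U1 0 + Dw| ≤ dy k * gf B x k p.1) :
    Nonempty (AlongD (dist p.1 p.2) (dy k) (fun τ => dist x (ray C p.1 p.2 τ) ^ 2 / 2)
        (fun τ => qf B x k (ray C p.1 p.2 τ)) (fun τ => kf B x k (ray C p.1 p.2 τ))
        (fun τ => Hf O k (ray C p.1 p.2 τ)) (fun τ => gf B x k (ray C p.1 p.2 τ))
        (fun τ => nf O k (ray C p.1 p.2 τ)) Dw (gf B x k p.1)) := by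
  set l : ℝ := dist p.1 p.2 with hldef
  set y : ℝ → X := fun t => C.T p.1 t p.2 with hy
  set D : ℝ → F n := fun t => B.D (uk B x k) (y t) with hD
  set A : ℝ → S n := fun t => O.A k (y t) with hA
  set s : ℝ → F n := fun t => Q.s p t with hsdef
  set J : ℝ → ℝ := fun t => ⟪mv (A t) (s t), D t⟫ + ⟪D t, mv (A t) (s t)⟫ with hJ
  set V : ℝ → ℝ := fun t => v (y t) + cinf with hV
  set K3 : ℝ → ℝ := fun t => c₃ + ∫ r in (0 : ℝ)..t, l * J r with hK3
  have h01 : (0 : ℝ) ∈ Icc (0 : ℝ) 1 := ⟨le_refl _, zero_le_one⟩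
  have h3i : IntervalIntegrable (fun t => l * J t) volume 0 1 := h3
  have hK30 : K3 0 = c₃ := by simp [hK3]
  -- the function `N` in the variable `t`
  have hNae : ∀ᵐ t ∂(volume.restrict (Icc (0 : ℝ) 1)),
      (l * t) ^ 2 - 2 * (l * t) * U1 t + (K3 t - 2 * V t) + 2 * V t =
        ‖(l * t) • s t - D t‖ ^ 2 := by
    filter_upwards [hs, h3', hU.ae1] with t h1 h2 h4
    have h5 : ‖D t‖ ^ 2 = K3 t := by
      rw [← real_inner_self_eq_norm_sq]
      exact h2
    have h6 : ⟪D t, s t⟫ = U1 t := h4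
    rw [N_alg (s t) (D t) h1, h5, h6]
    ring
  have hK3c : ContinuousOn K3 (Icc 0 1) := by
    refine continuousOn_const.add ?_
    have := intervalIntegral.continuousOn_primitive_interval' (μ := volume) h3i
      (left_mem_uIcc (a := (0 : ℝ)) (b := 1))
    rwa [uIcc_of_le zero_le_one] at this
  have hVc : ContinuousOn V (Icc 0 1) := hv.add continuousOn_const
  have hN0 : ∀ t ∈ Icc (0 : ℝ) 1,
      0 ≤ (l * t) ^ 2 - 2 * (l * t) * U1 t + (K3 t - 2 * V t) + 2 * V t := by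
    have hc : ContinuousOn
        (fun t => (l * t) ^ 2 - 2 * (l * t) * U1 t + (K3 t - 2 * V t) + 2 * V t) (Icc 0 1) := by
      refine ((ContinuousOn.sub ?_ ?_).add ?_).add ?_
      · fun_prop
      · exact (by fun_prop : ContinuousOn (fun t : ℝ => 2 * (l * t)) (Icc 0 1)).mul hU.cont
      · exact hK3c.sub (continuousOn_const.mul hVc)
      · exact continuousOn_const.mul hVc
    have hmin : ContinuousOn (fun t => min
        ((l * t) ^ 2 - 2 * (l * t) * U1 t + (K3 t - 2 * V t) + 2 * V t) 0) (Icc 0 1) :=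
      ContinuousOn.inf hc continuousOn_const
    have h5 := eq_of_ae_of_continuousOn (a := (0 : ℝ)) (b := 1) zero_lt_one hmin
      (continuousOn_const (c := (0 : ℝ))) (by
        filter_upwards [hNae] with t ht
        rw [ht]
        exact min_eq_right (by positivity))
    intro t ht
    have := h5 t ht
    exact min_eq_right_iff.1 this
  -- the a.e. facts in the variable `τ`
  have hsc : ∀ τ : ℝ, l * (τ / l) = τ := fun τ => mul_div_cancel₀ τ hl.ne' |> fun h => by
    rw [mul_div_assoc'] ; exact (mul_div_cancel_left₀ τ hl.ne')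
  have aeI : ∀ᵐ τ ∂(volume.restrict (Ioo (0 : ℝ) l)), τ ∈ Ioo (0 : ℝ) l :=
    ae_restrict_mem measurableSet_Ioo
  have aes := ae_scale hl hs
  have aep := ae_scale hl hp
  have aeN := ae_scale hl hNae
  have ae1 := ae_scale hl hU.ae1
  have ae3 := ae_scale hl h3'
  have aeG := ae_scale hl (ae_Ioo_iff.1 hG)
  have hNsc : ∀ τ : ℝ, (l * (τ / l)) ^ 2 - 2 * (l * (τ / l)) * U1 (τ / l) +
      (K3 (τ / l) - 2 * V (τ / l)) + 2 * V (τ / l) =
      τ ^ 2 - 2 * τ * U1 (τ / l) + (K3 (τ / l) - 2 * V (τ / l)) + 2 * V (τ / l) := fun τ => by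
    rw [hsc]
  have hsqrt : ∀ᵐ τ ∂(volume.restrict (Ioo (0 : ℝ) l)),
      Real.sqrt (τ ^ 2 - 2 * τ * U1 (τ / l) + (K3 (τ / l) - 2 * V (τ / l)) + 2 * V (τ / l)) =
        ‖τ • s (τ / l) - D (τ / l)‖ := by
    filter_upwards [aeN] with τ h1
    rw [← hNsc, h1, hsc, Real.sqrt_sq (norm_nonneg _)]
  refine ⟨{
    U := fun τ => V (τ / l)
    U1 := fun τ => U1 (τ / l)
    K := fun τ => K3 (τ / l) - 2 * V (τ / l)
    e := fun τ => ⟪mv (A (τ / l)) (s (τ / l)), s (τ / l)⟫ - 1
    K1 := fun τ => J (τ / l) - 2 * U1 (τ / l)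
    hU := ?_
    hK := ?_
    e_int := ?_
    K1_int := ?_
    Hs_int := ii_scale hl hH
    nks_int := ii_scale hl hn
    U1_cont := ?_
    ftc_U := ?_
    ftc_U1 := ?_
    ftc_K := ?_
    N_nonneg := ?_
    e_le := ?_
    K1_le := ?_
    N_le := ?_
    first := ?_ }⟩
  · -- hU
    filter_upwards [aep, aeI] with τ h1 hτ
    have h2 := hd (τ / l) (Icc_div_mem hl (Ioo_subset_Icc_self hτ))
    have h4 := f0_eq (x := x) (z := y (τ / l)) h2.le
    show v (y (τ / l)) + cinf = dist x (y (τ / l)) ^ 2 / 2 - dy k ^ 2 * qf B x k (y (τ / l))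
    rw [h1.q_eq, h4]
    ring
  · -- hK
    filter_upwards [aep, ae3] with τ h1 h2
    show K3 (τ / l) - 2 * V (τ / l) = ‖D (τ / l)‖ ^ 2 - 2 * (uk B x k (y (τ / l)) + cinf)
    have h5 : ‖D (τ / l)‖ ^ 2 = K3 (τ / l) := by
      rw [← real_inner_self_eq_norm_sq]
      exact h2
    rw [h5, h1.u_eq]
  · -- e_int
    have h1 : IntervalIntegrable (fun t => ⟪mv (A t) (s t), s t⟫) volume 0 1 := by
      have h2 := hU.int2.const_mul l⁻¹
      refine h2.congr fun t _ => ?_
      show l⁻¹ * (l * ⟪mv (A t) (s t), s t⟫) = ⟪mv (A t) (s t), s t⟫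
      rw [inv_mul_cancel_left₀ hl.ne']
    exact (ii_scale hl h1).sub intervalIntegrable_const
  · -- K1_int
    have h1 : IntervalIntegrable J volume 0 1 := by
      have h2 := h3i.const_mul l⁻¹
      refine h2.congr fun t _ => ?_
      show l⁻¹ * (l * J t) = J t
      rw [inv_mul_cancel_left₀ hl.ne']
    have h2 : IntervalIntegrable U1 volume 0 1 :=
      hU.cont.intervalIntegrable_of_Icc zero_le_one
    exact (ii_scale hl h1).sub ((ii_scale hl h2).const_mul 2)
  · -- U1_cont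
    refine hU.cont.comp (by fun_prop) ?_
    intro τ hτ
    exact Icc_div_mem hl hτ
  · -- ftc_U
    intro a ha b hb
    have h1 := ftc_scale (F := fun t => v (y t)) (f := U1) hl
      ((hU.cont.intervalIntegrable_of_Icc zero_le_one).const_mul l) hU.ftc0 a ha b hb
    rw [← h1]
    show v (y (b / l)) + cinf - (v (y (a / l)) + cinf) = _
    ring
  · -- ftc_U1
    intro a ha b hb
    have h1 := ftc_scale (F := U1) (f := fun t => ⟪mv (A t) (s t), s t⟫) hl hU.int2 hU.ftc1
      a ha b hb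
    rw [h1]
    refine intervalIntegral.integral_congr fun τ _ => ?_
    show ⟪mv (A (τ / l)) (s (τ / l)), s (τ / l)⟫ = 1 + (⟪mv (A (τ / l)) (s (τ / l)), s (τ / l)⟫ - 1)
    ring
  · -- ftc_K
    intro a ha b hb
    have h1 := ftc_scale (F := fun t => v (y t)) (f := U1) hl
      ((hU.cont.intervalIntegrable_of_Icc zero_le_one).const_mul l) hU.ftc0 a ha b hb
    have h2 := ftc_scale (F := K3) (f := J) hl h3i (fun t _ => by rw [hK30]) a ha b hb
    have hJi : IntervalIntegrable J volume 0 1 := by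
      have h2 := h3i.const_mul l⁻¹
      refine h2.congr fun t _ => ?_
      show l⁻¹ * (l * J t) = J t
      rw [inv_mul_cancel_left₀ hl.ne']
    have hUi : IntervalIntegrable U1 volume 0 1 :=
      hU.cont.intervalIntegrable_of_Icc zero_le_one
    have hsub : uIcc a b ⊆ uIcc 0 l := by
      rw [uIcc_of_le hl.le]
      exact uIcc_subset_Icc ha hb
    have hJi' := (ii_scale hl hJi).mono_set hsub
    have hUi' := ((ii_scale hl hUi).const_mul 2).mono_set hsub
    rw [intervalIntegral.integral_sub hJi' hUi', intervalIntegral.integral_const_mul, ← h1, ← h2]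
    show K3 (b / l) - 2 * (v (y (b / l)) + cinf) - (K3 (a / l) - 2 * (v (y (a / l)) + cinf)) = _
    ring
  · -- N_nonneg
    intro τ hτ
    have := hN0 (τ / l) (Icc_div_mem hl hτ)
    rw [hNsc] at this
    exact this
  · -- e_le
    filter_upwards [aes] with τ h1
    exact e_alg (A (τ / l)) (s (τ / l)) h1
  · -- K1_le
    filter_upwards [aes, hsqrt, aeI, aeN, ae1] with τ h1 h2 h4 h5 h6
    have h7 := K1_alg (A (τ / l)) (s (τ / l)) (D (τ / l)) h1 h4.1
    have h8 : ⟪D (τ / l), s (τ / l)⟫ = U1 (τ / l) := h6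
    rw [h8] at h7
    rw [hNsc, hsc] at h5
    rw [h2, h5]
    exact h7
  · -- N_le
    filter_upwards [aes, hsqrt, aeI, aep, aeG] with τ h1 h2 h4 h5 h6
    have h7 := hd (τ / l) (Icc_div_mem hl (Ioo_subset_Icc_self h4))
    have h8 : HasDerivAt (fun τ => dist x (ray C p.1 p.2 τ) ^ 2 / 2)
        ⟪B.G (hf x) (y (τ / l)), s (τ / l)⟫ τ := by
      have h9 : HasDerivAt (fun τ : ℝ => τ / l) (1 / l) τ := (hasDerivAt_id τ).div_const l
      have h10 := HasDerivAt.comp τ h6 h9
      have e : l * ⟪B.G (hf x) (C.T p.1 (τ / l) p.2), Q.s p (τ / l)⟫ * (1 / l) =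
          ⟪B.G (hf x) (y (τ / l)), s (τ / l)⟫ := by
        rw [mul_comm l, mul_assoc, mul_one_div_cancel hl.ne', mul_one]
      rw [e] at h10
      exact h10
    rw [h2, h8.deriv]
    have e1 : τ ^ 2 - 2 * τ * ⟪B.G (hf x) (y (τ / l)), s (τ / l)⟫ +
        2 * (dist x (ray C p.1 p.2 τ) ^ 2 / 2) =
        ‖τ • s (τ / l) - B.G (hf x) (y (τ / l))‖ ^ 2 := by
      rw [N_alg _ _ h1, h5.n_hf]
      show _ = τ ^ 2 - 2 * τ * ⟪B.G (hf x) (y (τ / l)), s (τ / l)⟫ + dist x (y (τ / l)) ^ 2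
      show τ ^ 2 - 2 * τ * ⟪B.G (hf x) (y (τ / l)), s (τ / l)⟫ +
        2 * (dist x (y (τ / l)) ^ 2 / 2) = _
      ring
    rw [e1, Real.sqrt_sq (norm_nonneg _)]
    have e2 : τ • s (τ / l) - D (τ / l) = (τ • s (τ / l) - B.G (hf x) (y (τ / l))) +
        dy k ^ 2 • B.D (qk B x k) (y (τ / l)) := by
      have := h5.D_eq h7
      rw [show D (τ / l) = B.D (uk B x k) (y (τ / l)) from rfl, this]
      abel
    rw [e2]
    refine (norm_add_le _ _).trans ?_
    gcongr
    rw [norm_smul, Real.norm_of_nonneg (by have := dy_pos k; positivity)]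
    show _ ≤ dy k * (dy k * ‖B.D (qk B x k) (y (τ / l))‖)
    apply le_of_eq
    ring
  · -- first
    show |U1 (0 / l) + Dw| ≤ _
    rw [zero_div]
    exact hfirst

end along

end Crest.Agent.R247.Fv510
end
end

-- ▼ part R247/Fv6_510
section

/-!
R247, block (5-V) (helper510), part 6: the literal fields `d3` and `pe` of `Far553.FarD` for the
functions of `Fd0_656`.
-/

set_option autoImplicit false
set_option linter.unusedSectionVars false
open MeasureTheory Set Filter Topology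
open scoped ENNReal NNReal RealInnerProductSpace

noncomputable section
namespace Crest.Agent.R247.Fv510

open Crest.Agent.R247.Mcp688 Crest.Agent.R247.Hes124 Crest.Agent.R247.Dir593
  Crest.Agent.R247.Dir593.GradS
open Crest.Agent.R247.Smv126 (hf WLap locLip_hf)
open Crest.Agent.R247.Far553 Crest.Agent.R247.Fd656 Crest.Agent.R247.Obj554

variable {n : ℕ} {κ κ' : ℝ} {X : Type*} [MetricSpace X] [ProperSpace X] [MeasurableSpace X]
  [BorelSpace X] {μ : Measure X} [IsFiniteMeasureOnCompacts μ]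
  {B : BochS n κ' X μ} {C : Rad n κ X μ} {x : X}

lemma Rep.h2 {k : ℕ} {v : X → ℝ} (hv : Rep B x k v) (O : HObj B x) :
    H2 B (O.w k) v (B.D (uk B x k)) (O.A k) where
  core := (O.hd k).core
  toU := fun K hK => L2To.congr_right ((O.hd k).toU K hK) (ae_restrict_of_ae hv.ae_u)
  toD := (O.hd k).toD
  toA := (O.hd k).toA

lemma Hf_integrableOn (O : HObj B x) (k : ℕ) {K : Set X} (hK : IsCompact K) :
    IntegrableOn (Hf O k) K μ := by
  have := fin_restrict (μ := μ) hK
  have h1 : MemLp (fun y => O.A k y - idm n) 2 (μ.restrict K) :=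
    ((O.hd k).toA K hK).mem'.sub (memLp_const _)
  exact (h1.integrable (by norm_num)).norm

lemma nf_integrableOn (O : HObj B x) (k : ℕ) {K : Set X} (hK : IsCompact K) :
    IntegrableOn (nf O k) K μ := by
  have := fin_restrict (μ := μ) hK
  have h1 : MemLp (fun y => O.A k y - idm n) 2 (μ.restrict K) :=
    ((O.hd k).toA K hK).mem'.sub (memLp_const _)
  have h2 : MemLp (fun y => B.D (uk B x k) y) 2 (μ.restrict K) := ((O.hd k).toD K hK).mem'
  have h3 := (int_norm_mul h1 h2).const_mul 2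
  refine h3.mono' (nf_meas B x O k).aestronglyMeasurable ?_
  refine Eventually.of_forall fun y => ?_
  rw [Real.norm_of_nonneg (nf_nonneg B x O k y)]
  unfold nf
  have := norm_mv_le (O.A k y - idm n) (B.D (uk B x k) y)
  linarith

/-- everything which is used along one segment -/
structure Pk (Q : SegS B C) (O : HObj B x) (k : ℕ) (v : X → ℝ) (p : X × X) : Prop where
  mem : p ∈ C.U
  seg : ∃ U1, SegU Q p v (B.D (uk B x k)) (O.A k) U1
  start : p.1 ≠ p.2 → ∀ U1, SegU Q p v (B.D (uk B x k)) (O.A k) U1 →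
      U1 0 = -⟪B.G v p.1, B.G (dist p.2) p.1⟫
  end' : p.1 ≠ p.2 → ∀ U1, SegU Q p v (B.D (uk B x k)) (O.A k) U1 →
      U1 1 = ⟪B.G v p.2, B.G (dist p.1) p.2⟫
  norm_s : ∀ᵐ t ∂(volume.restrict (Icc (0 : ℝ) 1)), ‖Q.s p t‖ = 1
  p1 : PtF B x k v p.1
  p2 : PtF B x k v p.2
  g1 : ‖B.G (dist p.2) p.1‖ ≤ 1
  g2 : ‖B.G (dist p.1) p.2‖ ≤ 1
  intH : IntervalIntegrable (fun t => Hf O k (C.T p.1 t p.2)) volume 0 1

lemma ae_Pk [SFinite μ] (Q : SegS B C) (hκ : 0 ≤ κ) (W : WLap B.toGradS n κ') (O : HObj B x)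
    {k : ℕ} {v : X → ℝ} (hv : Rep B x k v) : ∀ᵐ p ∂(μ.prod μ), Pk Q O k v p := by
  have hP := ae_ptF (x := x) W hv
  filter_upwards [ae_mem_U (C := C), (hv.h2 O).segU hv.lip.continuous Q hκ,
    segU_start (Du := B.D (uk B x k)) (A := O.A k) Q hv.lip,
    segU_end (Du := B.D (uk B x k)) (A := O.A k) Q hv.lip, Q.ae_norm_s,
    Measure.quasiMeasurePreserving_fst.ae hP, Measure.quasiMeasurePreserving_snd.ae hP,
    Q.norm_gd, ae_swap Q.norm_gd,
    seg_integrable (C := C) hκ (Hf_meas B x O k) (fun K hK => Hf_integrableOn O k hK)]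
    with p h1 h2 h3 h4 h5 h6 h7 h8 h9 h10
  exact ⟨h1, h2, h3, h4, h5, h6, h7, h8, h9, h10⟩

lemma dist_T_lt {p : X × X} (hp : p ∈ C.U) {a b : ℝ} (h1 : dist x p.1 < a) (h2 : dist x p.2 < b) :
    ∀ t ∈ Icc (0 : ℝ) 1, dist x (C.T p.1 t p.2) < 2 * a + b := by
  intro t ht
  have h3 := C.dist_left hp ht
  have h4 : t * dist p.1 p.2 ≤ 1 * dist p.1 p.2 := by gcongr; exact ht.2
  have h5 := dist_triangle_left p.1 p.2 x
  have h6 := dist_triangle x p.1 (C.T p.1 t p.2)
  linarith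

variable {k : ℕ} {v : X → ℝ}

/-- difference of the radial derivatives of `f_x` and `u_k` -/
lemma abs_inner_diff {y : X} (h : PtF B x k v y) (hd : dist x y < 32) {g : F n} (hg : ‖g‖ ≤ 1) :
    |⟪B.G (hf x) y, g⟫ - ⟪B.G v y, g⟫| ≤ dy k * gf B x k y := by
  rw [← h.G_eq, h.D_eq hd, inner_sub_left, sub_sub_cancel]
  refine (abs_real_inner_le_norm _ _).trans ?_
  have hρ := dy_pos k
  rw [norm_smul, Real.norm_of_nonneg (by positivity)]
  unfold gf
  calc dy k ^ 2 * ‖B.D (qk B x k) y‖ * ‖g‖ ≤ dy k ^ 2 * ‖B.D (qk B x k) y‖ * 1 := by gcongr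
    _ = _ := by ring

/-- **field `d3` of `FarD`** -/
theorem d3 [SFinite μ] (Q : SegS B C) (hκ : 0 ≤ κ) (W : WLap B.toGradS n κ') (O : HObj B x)
    (hR : ∀ k, ∃ v, Rep B x k v) :
    ∀ k, ∀ᵐ p ∂(μ.prod μ), dist x p.1 < 2 → dist x p.2 < 12 → p.1 ≠ p.2 →
    ∃ Dw : ℝ, HasDerivWithinAt (fun t : ℝ => dist (C.T x t p.1) p.2) Dw (Iio 1) 1 ∧
      HasDerivWithinAt (fun τ : ℝ => dist x (ray C p.1 p.2 τ) ^ 2 / 2) (-Dw) (Ici 0) 0 ∧
      Nonempty (AlongD (dist p.1 p.2) (dy k) (fun τ => dist x (ray C p.1 p.2 τ) ^ 2 / 2)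
        (fun τ => qf B x k (ray C p.1 p.2 τ)) (fun τ => kf B x k (ray C p.1 p.2 τ))
        (fun τ => Hf O k (ray C p.1 p.2 τ)) (fun τ => gf B x k (ray C p.1 p.2 τ))
        (fun τ => nf O k (ray C p.1 p.2 τ)) Dw (gf B x k p.1)) := by
  intro k
  obtain ⟨v, hv⟩ := hR k
  have hP := ae_ptF (x := x) W hv
  filter_upwards [ae_Pk Q hκ W O hv, H2.seg3 (hv.h2 O) (hv.h2 O) Q hκ, ae_seg_all C hκ hP,
    Q.dl (locLip_hf x), Q.dl0 (locLip_hf x), Q.rdw x,
    seg_integrable (C := C) hκ (nf_meas B x O k) (fun K hK => nf_integrableOn O k hK)]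
    with p hp h3 hpt hdl hdl0 hrdw hnf hx1 hx2 hne
  obtain ⟨U1, hU⟩ := hp.seg
  obtain ⟨h3i, c₃, h3'⟩ := h3
  have hl : 0 < dist p.1 p.2 := dist_pos.2 hne
  refine ⟨⟪B.G (hf x) p.1, B.G (dist p.2) p.1⟫, hrdw, ?_, ?_⟩
  · have h9 : HasDerivWithinAt (fun τ : ℝ => τ / dist p.1 p.2) (1 / dist p.1 p.2) (Ici 0) 0 :=
      ((hasDerivAt_id (0 : ℝ)).div_const (dist p.1 p.2)).hasDerivWithinAt
    have h8 : HasDerivWithinAt (fun t => hf x (C.T p.1 t p.2))
        (-(dist p.1 p.2 * ⟪B.G (hf x) p.1, B.G (dist p.2) p.1⟫)) (Ici 0)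
        ((fun τ : ℝ => τ / dist p.1 p.2) 0) := by
      simpa using hdl0
    have h10 := HasDerivWithinAt.comp (h := fun τ : ℝ => τ / dist p.1 p.2) (0 : ℝ) h8 h9
      (fun τ hτ => by
        simp only [mem_Ici] at hτ ⊢
        positivity)
    have e : -(dist p.1 p.2 * ⟪B.G (hf x) p.1, B.G (dist p.2) p.1⟫) * (1 / dist p.1 p.2) =
        -⟪B.G (hf x) p.1, B.G (dist p.2) p.1⟫ := by
      rw [neg_mul, mul_comm (dist p.1 p.2), mul_assoc, mul_one_div_cancel hl.ne', mul_one]
    rw [e] at h10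
    exact h10
  · refine alongD_of Q O k hl hU (hv.lip.continuous.comp_continuousOn (continuousOn_T hp.mem)) h3i
      h3' hp.norm_s hpt (fun t ht => ?_) hdl hp.intH hnf ?_
    · have := dist_T_lt hp.mem hx1 hx2 t ht
      linarith
    · rw [hp.start hne U1 hU, neg_add_eq_sub]
      exact abs_inner_diff hp.p1 (by linarith) hp.g1

/-- **field `pe` of `FarD`** -/
theorem pe [SFinite μ] (Q : SegS B C) (hκ : 0 ≤ κ) (W : WLap B.toGradS n κ') (O : HObj B x)
    (hR : ∀ k, ∃ v, Rep B x k v) :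
    ∀ k, ∀ᵐ p ∂(μ.prod μ), dist x p.1 < 12 → dist x p.2 < 12 →
    ∃ A : ℝ, HasDerivWithinAt (fun t : ℝ => dist (C.T x t p.1) (C.T x t p.2)) A (Iio 1) 1 ∧
      ENNReal.ofReal |A - dist p.1 p.2| ≤ err C (dy k) (Hf O k) (gf B x k) p.1 p.2 := by
  intro k
  obtain ⟨v, hv⟩ := hR k
  filter_upwards [ae_Pk Q hκ W O hv, Q.pe0 x] with p hp hpe hx1 hx2
  refine ⟨_, hpe, ?_⟩
  by_cases hne : p.1 = p.2
  · have h0 : HasDerivWithinAt (fun t : ℝ => dist (C.T x t p.1) (C.T x t p.2)) 0 (Iio 1) 1 := by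
      rw [hne]
      simpa using hasDerivWithinAt_const (1 : ℝ) (Iio 1) (0 : ℝ)
    have h1 := (uniqueDiffWithinAt_Iio (1 : ℝ)).eq_deriv _ hpe h0
    rw [h1, hne, dist_self, sub_zero, abs_zero, ENNReal.ofReal_zero]
    exact zero_le
  obtain ⟨U1, hU⟩ := hp.seg
  have hl : 0 < dist p.1 p.2 := dist_pos.2 hne
  have e0 := hp.start hne U1 hU
  have e1 := hp.end' hne U1 hU
  have e2 := hU.ftc1 1 ⟨zero_le_one, le_refl _⟩
  have a1 := abs_inner_diff hp.p1 (by linarith) hp.g1
  have a2 := abs_inner_diff hp.p2 (by linarith) hp.g2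
  -- the integral
  have hI : IntervalIntegrable (fun t => ⟪mv (O.A k (C.T p.1 t p.2)) (Q.s p t), Q.s p t⟫)
      volume 0 1 := by
    have h2 := hU.int2.const_mul (dist p.1 p.2)⁻¹
    refine h2.congr fun t _ => ?_
    show (dist p.1 p.2)⁻¹ * (dist p.1 p.2 * _) = _
    rw [inv_mul_cancel_left₀ hl.ne']
  have e3 : ∫ r in (0 : ℝ)..1,
      dist p.1 p.2 * ⟪mv (O.A k (C.T p.1 r p.2)) (Q.s p r), Q.s p r⟫ =
      dist p.1 p.2 + dist p.1 p.2 *
        ∫ r in (0 : ℝ)..1, (⟪mv (O.A k (C.T p.1 r p.2)) (Q.s p r), Q.s p r⟫ - 1) := by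
    rw [intervalIntegral.integral_sub hI intervalIntegrable_const,
      intervalIntegral.integral_const_mul, intervalIntegral.integral_const]
    simp only [sub_zero, smul_eq_mul, mul_one]
    ring
  have a3 : |∫ r in (0 : ℝ)..1, (⟪mv (O.A k (C.T p.1 r p.2)) (Q.s p r), Q.s p r⟫ - 1)| ≤
      ∫ r in (0 : ℝ)..1, Hf O k (C.T p.1 r p.2) := by
    rw [← Real.norm_eq_abs]
    refine intervalIntegral.norm_integral_le_of_norm_le zero_le_one ?_ hp.intH
    have := (ae_restrict_iff' measurableSet_Icc).1 hp.norm_s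
    filter_upwards [this] with t ht hm
    rw [Real.norm_eq_abs]
    exact e_alg _ _ (ht (Ioc_subset_Icc_self hm))
  have key : |⟪B.G (hf x) p.1, B.G (dist p.2) p.1⟫ + ⟪B.G (hf x) p.2, B.G (dist p.1) p.2⟫ -
      dist p.1 p.2| ≤ dist p.1 p.2 * (∫ r in (0 : ℝ)..1, Hf O k (C.T p.1 r p.2)) +
        dy k * (gf B x k p.1 + gf B x k p.2) := by
    have e4 : ⟪B.G (hf x) p.1, B.G (dist p.2) p.1⟫ + ⟪B.G (hf x) p.2, B.G (dist p.1) p.2⟫ -
      dist p.1 p.2 = dist p.1 p.2 *
        (∫ r in (0 : ℝ)..1, (⟪mv (O.A k (C.T p.1 r p.2)) (Q.s p r), Q.s p r⟫ - 1)) +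
        ((⟪B.G (hf x) p.1, B.G (dist p.2) p.1⟫ - ⟪B.G v p.1, B.G (dist p.2) p.1⟫) +
        (⟪B.G (hf x) p.2, B.G (dist p.1) p.2⟫ - ⟪B.G v p.2, B.G (dist p.1) p.2⟫)) := by
      rw [e3, e0, e1] at e2
      linarith
    rw [e4]
    refine (abs_add_le _ _).trans (add_le_add ?_ ?_)
    · rw [abs_mul, abs_of_pos hl]
      gcongr
    · refine (abs_add_le _ _).trans ?_
      rw [mul_add]
      exact add_le_add a1 a2
  refine (ENNReal.ofReal_le_ofReal key).trans ?_
  have hρ := dy_pos k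
  have hH0 : 0 ≤ ∫ r in (0 : ℝ)..1, Hf O k (C.T p.1 r p.2) :=
    intervalIntegral.integral_nonneg zero_le_one fun t _ => Hf_nonneg B x O k _
  rw [ENNReal.ofReal_add (by positivity) (mul_nonneg hρ.le
    (add_nonneg (gf_nonneg B x k _) (gf_nonneg B x k _)))]
  unfold err
  gcongr
  rw [ENNReal.ofReal_mul hl.le]
  gcongr
  rw [intervalIntegral.integral_of_le zero_le_one, ← integral_Icc_eq_integral_Ioc]
  rw [ofReal_integral_eq_lintegral_ofReal]
  · exact (intervalIntegrable_iff_integrableOn_Icc_of_le zero_le_one).1 hp.intH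
  · exact Eventually.of_forall fun t => Hf_nonneg B x O k _

end Crest.Agent.R247.Fv510
end
end

-- ▼ part R247/Fv7_510
section

/-!
R247, block (5-V) (helper510), part 7: fields `d3`, `pe` with the Lipschitz representatives of
`u_k` taken from `Obj3_554`.
-/

set_option autoImplicit false
set_option linter.unusedSectionVars false
open MeasureTheory Set Filter Topology
open scoped ENNReal NNReal RealInnerProductSpace

noncomputable section
namespace Crest.Agent.R247.Fv510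

open Crest.Agent.R247.Mcp688 Crest.Agent.R247.Hes124 Crest.Agent.R247.Dir593
  Crest.Agent.R247.Dir593.GradS
open Crest.Agent.R247.Smv126 (hf WLap locLip_hf)
open Crest.Agent.R247.Far553 Crest.Agent.R247.Fd656 Crest.Agent.R247.Obj554

variable {n : ℕ} {κ : ℝ} {X : Type*} [MetricSpace X] [ProperSpace X] [MeasurableSpace X]
  [BorelSpace X] {μ : Measure X} [IsFiniteMeasureOnCompacts μ] [SFinite μ]
  {B : BochS n κ X μ} {C : Rad n κ X μ} {x : X}

theorem exists_rep (hκ : 0 ≤ κ) (hκ1 : 4 * κ ≤ 1) (hL : LK B.toGradS C) (W : WLap B.toGradS n κ)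
    (hpos : ∀ (x : X) (r : ℝ), 0 < r → μ (Metric.ball x r) ≠ 0) (O : HObj B x) (k : ℕ) :
    ∃ v, Rep B x k v := by
  obtain ⟨v, h1, h2, h3⟩ := exists_uc hκ hκ1 hL W hpos O k
  exact ⟨v, h1.locallyLipschitz, h2, h3⟩

/-- **field `d3` of `FarD`** -/
theorem d3' (Q : SegS B C) (hκ : 0 ≤ κ) (hκ1 : 4 * κ ≤ 1) (hL : LK B.toGradS C)
    (W : WLap B.toGradS n κ) (hpos : ∀ (x : X) (r : ℝ), 0 < r → μ (Metric.ball x r) ≠ 0)
    (O : HObj B x) :
    ∀ k, ∀ᵐ p ∂(μ.prod μ), dist x p.1 < 2 → dist x p.2 < 12 → p.1 ≠ p.2 →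
    ∃ Dw : ℝ, HasDerivWithinAt (fun t : ℝ => dist (C.T x t p.1) p.2) Dw (Iio 1) 1 ∧
      HasDerivWithinAt (fun τ : ℝ => dist x (ray C p.1 p.2 τ) ^ 2 / 2) (-Dw) (Ici 0) 0 ∧
      Nonempty (AlongD (dist p.1 p.2) (dy k) (fun τ => dist x (ray C p.1 p.2 τ) ^ 2 / 2)
        (fun τ => qf B x k (ray C p.1 p.2 τ)) (fun τ => kf B x k (ray C p.1 p.2 τ))
        (fun τ => Hf O k (ray C p.1 p.2 τ)) (fun τ => gf B x k (ray C p.1 p.2 τ))
        (fun τ => nf O k (ray C p.1 p.2 τ)) Dw (gf B x k p.1)) :=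
  d3 Q hκ W O (fun k => exists_rep hκ hκ1 hL W hpos O k)

/-- **field `pe` of `FarD`** -/
theorem pe' (Q : SegS B C) (hκ : 0 ≤ κ) (hκ1 : 4 * κ ≤ 1) (hL : LK B.toGradS C)
    (W : WLap B.toGradS n κ) (hpos : ∀ (x : X) (r : ℝ), 0 < r → μ (Metric.ball x r) ≠ 0)
    (O : HObj B x) :
    ∀ k, ∀ᵐ p ∂(μ.prod μ), dist x p.1 < 12 → dist x p.2 < 12 →
    ∃ A : ℝ, HasDerivWithinAt (fun t : ℝ => dist (C.T x t p.1) (C.T x t p.2)) A (Iio 1) 1 ∧
      ENNReal.ofReal |A - dist p.1 p.2| ≤ err C (dy k) (Hf O k) (gf B x k) p.1 p.2 :=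
  pe Q hκ W O (fun k => exists_rep hκ hκ1 hL W hpos O k)

end Crest.Agent.R247.Fv510
end
end

-- ▼ part R247/Fv8_510

/-!
R247, block (5-V) (helper510), part 8: `PeP n`, `D3P n` of `Fd2_656`.
-/

set_option autoImplicit false
set_option linter.unusedSectionVars false
open MeasureTheory Set Filter Topology
open scoped ENNReal NNReal RealInnerProductSpace

noncomputable section
namespace Crest.Agent.R247.Fv510

universe u

open Crest.Agent.R247.Mcp688 Crest.Agent.R247.Hes124 Crest.Agent.R247.Dir593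
  Crest.Agent.R247.Dir593.GradS
open Crest.Agent.R247.Far553 Crest.Agent.R247.Fd656 Crest.Agent.R247.Obj554

theorem peP (n : ℕ) : Fd656.PeP.{u} n := by
  intro κ X _ _ _ _ μ _ B C x δ E O
  obtain ⟨Q⟩ := E.Q
  have h1 : 4 * κ ≤ 1 := by linarith [E.κ_le, E.κ_nonneg]
  exact pe' Q E.κ_nonneg h1 E.hL E.W E.pos O

theorem d3P (n : ℕ) : Fd656.D3P.{u} n := by
  intro κ X _ _ _ _ μ _ B C x δ E O
  obtain ⟨Q⟩ := E.Q
  have h1 : 4 * κ ≤ 1 := by linarith [E.κ_le, E.κ_nonneg]
  exact d3' Q E.κ_nonneg h1 E.hL E.W E.pos O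

end Crest.Agent.R247.Fv510
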