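import Crest.Agent.R247.Vel4_338
import Crest.Agent.R247.Sm5_879
import Crest.Agent.R247.Fd3_656
import Crest.Agent.R247.Bs7_342_Mg
import Crest.Agent.R247.Loc3_710
import Crest.Agent.R247.Gs2_939
import Crest.Agent.R247.Q9_550
import Crest.Agent.R247.Sli1_554
import Crest.Agent.R247.Rdg4_879
import Crest.Agent.R247.Bgr_546
import Crest.Agent.R247.Fv4_510
import Crest.Agent.R247.Ray5_97
import Crest.Agent.R247.Rdg5_879
import Crest.Agent.R247.Rdg6_879

-- ▼ part R247/Vel5_338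
section

/-!
R247 (helper338), leaf (1-V), file 5: the field `vel` of `Far553.FarD` (version 2, product form).
-/

set_option autoImplicit false
set_option maxSynthPendingDepth 3
set_option linter.unusedSectionVars false

open Bundle Set Filter Topology MeasureTheory
open scoped Manifold ContDiff NNReal
open Crest.Agent.R247.Sm879 Crest.Agent.R247.Mcp688

namespace Crest.Agent.R247.Vel338

section
variable {n : ℕ} {M : Type*} [MetricSpace M] [ChartedSpace (EuclideanSpace ℝ (Fin n)) M]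
  [IsManifold (𝓡 n) ∞ M]
  [RiemannianBundle (fun p : M => TangentSpace (𝓡 n) p)]
  [IsContMDiffRiemannianBundle (𝓡 n) ∞ (EuclideanSpace ℝ (Fin n)) (fun p : M => TangentSpace (𝓡 n) p)]
  [IsRiemannianManifold (𝓡 n) M] [ProperSpace M]

variable [MeasurableSpace M] [BorelSpace M] {κ : ℝ} {μ : Measure M} [IsFiniteMeasureOnCompacts μ]

/-- pointwise form of (VEL) with the cosine, all degenerate cases included -/
theorem vel_cos (hm : ExM M) (C : Rad n κ M μ) {x y P : M} (hxU : (x, P) ∈ C.U)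
    (hyU : (y, P) ∈ C.U) (hIx : x ≠ P → P ∈ Int' x) (hIy : y ≠ P → P ∈ Int' y) :
    ∃ cs ∈ Icc (-1 : ℝ) 1,
      HasDerivWithinAt (fun t : ℝ => dist x (C.T y t P)) (cs * dist y P) (Iio 1) 1 ∧
      ∀ a b : ℝ, 0 ≤ a → 0 ≤ b →
        Tendsto (fun ε : ℝ => dist (C.T x (1 - a * ε) P) (C.T y (1 - b * ε) P) / ε) (𝓝[>] 0)
          (𝓝 (Real.sqrt ((a * dist x P) ^ 2 + (b * dist y P) ^ 2
            - 2 * (a * dist x P) * (b * dist y P) * cs))) := by
  have hα : ∀ t ∈ Icc (0 : ℝ) 1, dist x (C.T x t P) = t * dist x P ∧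
      dist (C.T x t P) P = (1 - t) * dist x P :=
    fun t ht => ⟨C.dist_left hxU ht, C.dist_right hxU ht⟩
  have hβ : ∀ t ∈ Icc (0 : ℝ) 1, dist y (C.T y t P) = t * dist y P ∧
      dist (C.T y t P) P = (1 - t) * dist y P :=
    fun t ht => ⟨C.dist_left hyU ht, C.dist_right hyU ht⟩
  have hev : ∀ c : ℝ, 0 ≤ c → ∀ᶠ ε : ℝ in 𝓝[>] 0, 1 - c * ε ∈ Icc (0 : ℝ) 1 := by
    intro c hc
    have : Tendsto (fun h : ℝ => c * h) (𝓝 0) (𝓝 (c * 0)) :=
      (continuous_const.mul continuous_id).tendsto 0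
    rw [mul_zero] at this
    filter_upwards [mem_nhdsWithin_of_mem_nhds (this.eventually (gt_mem_nhds one_pos)),
      self_mem_nhdsWithin] with h hh h0
    have h0' : 0 < h := h0
    have : 0 ≤ c * h := by positivity
    exact ⟨by linarith, by linarith⟩
  have hIoo : Ioo (0 : ℝ) 1 ∈ 𝓝[<] (1 : ℝ) := Ioo_mem_nhdsLT (by norm_num)
  by_cases hxP : x = P
  · -- `P = x`
    subst hxP
    refine ⟨-1, by constructor <;> norm_num, ?_, ?_⟩
    · have h1 : HasDerivAt (fun t : ℝ => (1 - t) * dist y x) (-1 * dist y x) (1 : ℝ) := by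
        have : HasDerivAt (fun t : ℝ => 1 - t) (-1) (1 : ℝ) := by
          simpa using (hasDerivAt_id (1 : ℝ)).const_sub 1
        exact this.mul_const _
      refine h1.hasDerivWithinAt.congr_of_eventuallyEq ?_ ?_
      · filter_upwards [hIoo] with t ht
        rw [dist_comm, (hβ t ⟨ht.1.le, ht.2.le⟩).2]
      · show dist x (C.T y 1 x) = (1 - (1 : ℝ)) * dist y x
        rw [dist_comm, (hβ 1 ⟨zero_le_one, le_rfl⟩).2]
    · intro a b ha hb
      have e : Real.sqrt ((a * dist x x) ^ 2 + (b * dist y x) ^ 2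
            - 2 * (a * dist x x) * (b * dist y x) * (-1)) = b * dist y x := by
        rw [dist_self, mul_zero]
        rw [show (0 : ℝ) ^ 2 + (b * dist y x) ^ 2 - 2 * 0 * (b * dist y x) * (-1) =
          (b * dist y x) ^ 2 by ring]
        exact Real.sqrt_sq (by positivity)
      rw [e]
      refine tendsto_const_nhds.congr' ?_
      filter_upwards [hev a ha, hev b hb, self_mem_nhdsWithin] with ε h1 h2 h3
      have h3' : 0 < ε := h3
      have e1 : C.T x (1 - a * ε) x = x := by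
        have := (hα _ h1).2
        rw [dist_self, mul_zero] at this
        exact dist_eq_zero.1 this
      have e2 : dist x (C.T y (1 - b * ε) x) = b * ε * dist y x := by
        rw [dist_comm, (hβ _ h2).2]; ring
      rw [e1, e2]
      field_simp
  by_cases hyP : y = P
  · subst hyP
    refine ⟨0, by constructor <;> norm_num, ?_, ?_⟩
    · rw [dist_self, mul_zero]
      have hc : ∀ t ∈ Icc (0 : ℝ) 1, C.T y t y = y := by
        intro t ht
        have := (hβ _ ht).2
        rw [dist_self, mul_zero] at this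
        exact dist_eq_zero.1 this
      refine (hasDerivWithinAt_const (1 : ℝ) (Iio 1) (dist x y)).congr_of_eventuallyEq ?_ ?_
      · filter_upwards [hIoo] with t ht
        rw [hc t ⟨ht.1.le, ht.2.le⟩]
      · show dist x (C.T y 1 y) = _
        rw [hc 1 ⟨zero_le_one, le_rfl⟩]
    · intro a b ha hb
      have e : Real.sqrt ((a * dist x y) ^ 2 + (b * dist y y) ^ 2
            - 2 * (a * dist x y) * (b * dist y y) * 0) = a * dist x y := by
        rw [dist_self, mul_zero, mul_zero, sub_zero]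
        rw [show (a * dist x y) ^ 2 + (0 : ℝ) ^ 2 = (a * dist x y) ^ 2 by ring]
        exact Real.sqrt_sq (by positivity)
      rw [e]
      refine tendsto_const_nhds.congr' ?_
      filter_upwards [hev a ha, hev b hb, self_mem_nhdsWithin] with ε h1 h2 h3
      have h3' : 0 < ε := h3
      have e1 : C.T y (1 - b * ε) y = y := by
        have := (hβ _ h2).2
        rw [dist_self, mul_zero] at this
        exact dist_eq_zero.1 this
      have e2 : dist (C.T x (1 - a * ε) y) y = a * ε * dist x y := by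
        rw [(hα _ h1).2]; ring
      rw [e1, e2]
      field_simp
  -- main case
  obtain ⟨Γ, hΓ, h1, -, h2⟩ := vel_pair n hm hxP hyP (hIx hxP) (hIy hyP) hα hβ
  have hx0 : 0 < dist x P := dist_pos.2 hxP
  have hy0 : 0 < dist y P := dist_pos.2 hyP
  refine ⟨Γ / (dist x P * dist y P), ?_, ?_, ?_⟩
  · rw [mem_Icc, ← abs_le, abs_div, abs_of_pos (by positivity : 0 < dist x P * dist y P),
      div_le_one (by positivity)]
    exact hΓ
  · have h3 : HasDerivWithinAt (fun t : ℝ => 2 * (dist x (C.T y t P) ^ 2 / 2)) (2 * Γ) (Iio 1) 1 :=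
      h1.const_mul 2
    have hT1 : C.T y 1 P = P := by
      have := (hβ 1 ⟨zero_le_one, le_rfl⟩).2
      rw [sub_self, zero_mul] at this
      exact dist_eq_zero.1 this
    have h4 := h3.sqrt (by
      simp only [hT1]
      positivity)
    simp only [hT1] at h4
    have e1 : √(2 * (dist x P ^ 2 / 2)) = dist x P := by
      rw [mul_div_cancel₀ _ (two_ne_zero)]
      exact Real.sqrt_sq hx0.le
    rw [e1] at h4
    have e2 : 2 * Γ / (2 * dist x P) = Γ / (dist x P * dist y P) * dist y P := by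
      field_simp
    rw [e2] at h4
    refine h4.congr (fun t _ => ?_) ?_
    · rw [mul_div_cancel₀ _ (two_ne_zero), Real.sqrt_sq dist_nonneg]
    · rw [mul_div_cancel₀ _ (two_ne_zero), Real.sqrt_sq dist_nonneg]
  · intro a b ha hb
    have h5 := h2 a b ha hb
    have e : (a * dist x P) ^ 2 + (b * dist y P) ^ 2
            - 2 * (a * dist x P) * (b * dist y P) * (Γ / (dist x P * dist y P)) =
        a ^ 2 * dist x P ^ 2 + b ^ 2 * dist y P ^ 2 - 2 * a * b * Γ := by
      field_simp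
    rw [e]
    exact h5

/-- **the field `vel` of `Far553.FarD`** (product form) -/
theorem vel_prod (hm : ExM M) (hκ : 0 ≤ κ) (C : Rad n κ M μ) (x : M) :
    ∀ᵐ p ∂(μ.prod μ), ∃ cs ∈ Icc (-1 : ℝ) 1,
      HasDerivWithinAt (fun t : ℝ => dist x (C.T p.1 t p.2)) (cs * dist p.1 p.2) (Iio 1) 1 ∧
      ∀ a b : ℝ, 0 ≤ a → 0 ≤ b →
        Tendsto (fun ε : ℝ => dist (C.T x (1 - a * ε) p.2) (C.T p.1 (1 - b * ε) p.2) / ε) (𝓝[>] 0)
          (𝓝 (Real.sqrt ((a * dist x p.2) ^ 2 + (b * dist p.1 p.2) ^ 2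
            - 2 * (a * dist x p.2) * (b * dist p.1 p.2) * cs))) := by
  have k1 : ∀ᵐ p ∂(μ.prod μ), (x, p.2) ∈ C.U ∧ (x ≠ p.2 → p.2 ∈ Int' x) := by
    have := (C.ae_U x).and (ae_int C hκ x)
    exact Measure.quasiMeasurePreserving_snd.ae this
  have hOm : MeasurableSet (Om M) := (isOpen_Om n hm).measurableSet
  have hdiag : MeasurableSet {p : M × M | p.1 ≠ p.2} := by
    have : {p : M × M | p.1 ≠ p.2} = (diagonal M)ᶜ := by ext p; simp [mem_diagonal_iff]
    rw [this]
    exact isClosed_diagonal.measurableSet.compl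
  have k2 : ∀ᵐ p ∂(μ.prod μ), (p.1, p.2) ∈ C.U ∧ (p.1 ≠ p.2 → (p.1, p.2) ∈ Om M) := by
    have hms : MeasurableSet {p : M × M | (p.1, p.2) ∈ C.U ∧ (p.1 ≠ p.2 → (p.1, p.2) ∈ Om M)} := by
      have : {p : M × M | (p.1, p.2) ∈ C.U ∧ (p.1 ≠ p.2 → (p.1, p.2) ∈ Om M)} =
          C.U ∩ ({p : M × M | p.1 ≠ p.2}ᶜ ∪ Om M) := by
        ext p
        simp only [mem_inter_iff, mem_union, mem_compl_iff, mem_ofPred_eq]
        tauto
      rw [this]
      exact C.measU.inter (hdiag.compl.union hOm)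
    refine (Measure.ae_prod_iff_ae_ae hms).2 (Filter.Eventually.of_forall fun y => ?_)
    filter_upwards [C.ae_U y, ae_int C hκ y] with P h1 h2
    exact ⟨h1, h2⟩
  filter_upwards [k1, k2] with p h1 h2
  exact vel_cos hm C h1.1 h2.1 h1.2 h2.2

end

end Crest.Agent.R247.Vel338
end

-- ▼ part R247/Fd5_656
section

/-!
# R247, FD-ASM (6) (helper656): `PkP n c` from the fields and the environment
-/

set_option autoImplicit false
set_option linter.unusedSectionVars false
set_option linter.unusedVariables false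

open Bundle Bornology Set MeasureTheory Manifold Filter Metric Topology
open scoped ENNReal ContDiff Topology NNReal
open Crest.GeometryTopology.CoordMetric Crest.GeometryTopology.ChartCurvature
open Crest.GeometryTopology.PointedLimit Crest.Agent.R247.Sm879

noncomputable section

namespace Crest.Agent.R247.Fd656

universe u

open Crest.Agent.R247.Dir593 Crest.Agent.R247.Dir593.GradS
open Crest.Agent.R247.Smv126 Crest.Agent.R247.Obj554 Crest.Agent.R247.Hes124
open Crest.Agent.R247.Far553 Crest.Agent.R247.Mcp688 Crest.Agent.R247.Max193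
open Crest.Agent.R247.Num824

/-- the environment exists at the centres of every pinched manifold -/
def EnvP (n : ℕ) : Prop := ∀ δ : ℝ, 0 < δ → 4096 * δ ≤ 1 →
  ∀ (M : Type u) [MetricSpace M] [CompleteSpace M] [ConnectedSpace M]
    [ChartedSpace (EuclideanSpace ℝ (Fin n)) M]
    [IsManifold 𝓘(ℝ, EuclideanSpace ℝ (Fin n)) ∞ M]
    [RiemannianBundle (fun x : M => TangentSpace 𝓘(ℝ, EuclideanSpace ℝ (Fin n)) x)]
    [IsContMDiffRiemannianBundle 𝓘(ℝ, EuclideanSpace ℝ (Fin n)) ∞ (EuclideanSpace ℝ (Fin n))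
      (fun x : M => TangentSpace 𝓘(ℝ, EuclideanSpace ℝ (Fin n)) x)]
    [IsRiemannianManifold 𝓘(ℝ, EuclideanSpace ℝ (Fin n)) M]
    [MeasurableSpace M] [BorelSpace M] [ProperSpace M] [SecondCountableTopology M] [Nonempty M]
    [IsFiniteMeasureOnCompacts (Measure.euclideanHausdorffMeasure n : Measure M)] (q : M)
    (hk : HasRicciLowerBound n M (-δ)),
    (∀ x ∈ ball q 50, ∀ r : ℝ, 0 < r → r ≤ 40 →
      ENNReal.ofReal (1 - δ) * volume (ball (0 : EuclideanSpace ℝ (Fin n)) r) ≤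
        Measure.euclideanHausdorffMeasure n (ball x r)) →
    ∀ (C : Rad n δ M (Measure.euclideanHausdorffMeasure n)) (x : M), dist x q < 1 →
      EnvF (Gs939.boch hk) C x (1024 * δ)

theorem pkP {n : ℕ} (hn : 1 ≤ n) (F : Fields.{u} n) (hE : EnvP.{u} n) (hR : Bgr546.RAD.{u} n) :
    ∃ c, Q9550.PkP.{u} n c := by
  obtain ⟨c, hc, hfar⟩ := exists_farD F
  obtain ⟨b, hb0, hb⟩ := F.d2b
  refine ⟨c, ?_⟩
  have hom := om_pos n
  have ha : 0 < c3 n / 64 := div_pos (c3_pos n) (by norm_num)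
  set a : ℝ := c3 n / 64 with hadef
  set A1 : ℝ := Loc710.AL2 n (2 * om n) (om n / 2) * Real.sqrt (2 * b) with hA1
  have hCt := Ct_nonneg n ha hom.le
  set A : ℝ := 1024 + 1024 * Ct n a (om n) + Real.exp (16 * a) + |A1| with hA
  have he := Real.exp_pos (16 * a)
  have hA1' := abs_nonneg A1
  refine ⟨A, by linarith, 1 / 4096, by norm_num, by norm_num, ?_⟩
  intro δ hδ hδ0 M _ _ _ _ _ _ _ _ _ _ q hk hpin
  have := HR216.properSpace_of_riemannian n M
  have := HR216.secondCountable_of_riemannian n M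
  have : Nonempty M := ⟨q⟩
  have := Gs939.finOnCompacts (n := n) (M := M)
  have hm : ExM M := Rdg879.exM_block n M
  obtain ⟨C⟩ := hR δ hδ.le M hk
  have hδ' : 4096 * δ ≤ 1 := by linarith
  have E : ∀ x : M, dist x q < 1 → EnvF (Gs939.boch hk) C x (1024 * δ) :=
    fun x hx => hE δ hδ hδ' M q hk hpin C x hx
  obtain ⟨G, hG⟩ := Rdg879.grep_block hn C
  have hqq : dist q q < 1 := by rw [dist_self]; norm_num
  have O : ∀ x : M, HObj (Gs939.boch hk) x := fun x =>
    Classical.choice (exists_HObj x (E q hqq).hA hδ.le)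
  have hMf : ∀ x : M, MFld C x (3200 * ((n : ℝ) + 12)) := fun x =>
    { sym := Vel338.sym_field hm hδ.le C
      vel := Vel338.vel_prod hm hδ.le C x
      base := Bs342.base hm (by linarith) hk C (le_refl _) x }
  have hph : ∀ (x : M) (j : ℕ), 0 ≤ phx n δ (μHE[n] : Measure M) x j :=
    fun x j => phat_nonneg' C hδ.le x _ j
  have htail : ∀ x : M, dist x q < 1 →
      Summable (phat n δ (μHE[n] : Measure M) x a) ∧
      ∀ i, ∑' j, phat n δ (μHE[n] : Measure M) x a (i + j) ≤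
        Ct n a (om n) * (1024 * δ + dy i ^ 2) := by
    intro x hx
    refine phat_tail C hδ.le x ha (by linarith) hom.le (by nlinarith) ?_ ?_
    · refine le_vr_pinch (by norm_num) ?_
      have h1 := hpin x (by rw [mem_ball]; linarith) (2 * 16) (by norm_num) (by norm_num)
      rw [vol_ball n (by norm_num), ← ENNReal.ofReal_mul (by linarith)] at h1
      refine (ENNReal.ofReal_le_ofReal ?_).trans h1
      have h2 : 0 ≤ om n * (2 * 16) ^ n := by positivity
      nlinarith
    · intro s hs0 hs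
      exact vr_le_pinch C hδ.le (by linarith) x hs0 hs
  refine ⟨C, G, phx n δ (μHE[n] : Measure M), ?_⟩
  refine
    { n_pos := hn
      sing := (E q hqq).sing
      grep := hG
      far := fun x hx => ?_
      ph_nonneg := fun x _ j => hph x j
      summ := fun x hx => (htail x hx).1
      tail := fun x hx i _ => ?_
      drop_le := fun x hx j _ => ?_
      L2 := ?_ }
  · obtain ⟨D⟩ := hfar δ M μHE[n] (Gs939.boch hk) C x (1024 * δ) (E x hx) (O x) (hMf x)
    exact ⟨D.mono (by nlinarith)⟩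
  · refine ((htail x hx).2 i).trans ?_
    have h1 : 0 ≤ dy i ^ 2 := by positivity
    have h2 : Ct n a (om n) * (1024 * δ + dy i ^ 2) ≤ (1024 * Ct n a (om n)) * (δ + dy i ^ 2) := by
      nlinarith
    refine h2.trans ?_
    have h3 : 0 ≤ δ + dy i ^ 2 := by linarith
    exact mul_le_mul_of_nonneg_right (by linarith) h3
  · refine (drop_le_phat C hδ.le x a j).trans ?_
    have h1 := hph x j
    have h2 : 0 ≤ phx n δ (μHE[n] : Measure M) x j * dy j ^ n :=
      mul_nonneg h1 (pow_pos (dy_pos j) n).le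
    rw [mul_assoc, mul_assoc]
    exact mul_le_mul_of_nonneg_right (by linarith) h2
  · have hRDG : Loc710.RDG (Gs939.boch hk).toGradS C := fun x φ hφ =>
      Sli554.LK.locLip (E q hqq).hL x hφ
    refine Loc710.L2_pk (Gs939.boch hk) C hδ.le (by linarith) hRDG hG (q := q) O
      (ph := phx n δ (μHE[n] : Measure M)) (b := b) (V := 2 * om n) (v := om n / 2) (A := A)
      hb0.le (by positivity) (by positivity) ?_ ?_ (fun x _ j => hph x j) ?_ ?_
    · intro x hx s hs0 hs1
      refine ((E x hx).vol_le x s (by rw [dist_self]; norm_num) hs0 (by linarith)).trans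
        (ENNReal.ofReal_le_ofReal ?_)
      have : 0 ≤ om n * s ^ n := by positivity
      nlinarith
    · intro x hx s hs0 hs1
      refine (ENNReal.ofReal_le_ofReal ?_).trans
        ((E x hx).vol_ge x s (by rw [dist_self]; norm_num) hs0 (by linarith))
      have : 0 ≤ om n * s ^ n := by positivity
      nlinarith
    · intro x hx k hk4
      exact hb δ M μHE[n] (Gs939.boch hk) C x (1024 * δ) (E x hx) (O x) k hk4
    · have := le_abs_self A1
      linarith

end Crest.Agent.R247.Fd656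
end
end

-- ▼ part R247/FvsA_681
section

/-!
# R247, P5 / V1 (helper681): calculus of smooth and of locally Lipschitz functions along almost
every minimising segment of the manifold: the fields `norm_s`, `d1`, `d2`, `d3`, `dl` of
`Fv510.SegS`.

`sv C p t = (d(p₁,p₂) t)⁻¹ ∇(d_{p₁}²/2)` at `T p₁ t p₂` (in the frame of `Ms6_322`) is the unit
tangent.
-/

set_option autoImplicit false
set_option maxSynthPendingDepth 3
set_option linter.unusedSectionVars false

open Bundle Set Filter Topology Metric MeasureTheory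
open scoped Manifold ContDiff NNReal ENNReal
open Crest.GeometryTopology.CoordMetric Crest.GeometryTopology.ChartCurvature
open Crest.GeometryTopology.MTW Crest.Agent.R244 Crest.Agent.R226
open Crest.Agent.R226.CutSmooth77 (SC)
open Crest.Agent.R247.Bo84 (mGam mHess mgrad mGam_eq_inner mGam_self mHess_symm mHess_smul_left
  mHess_smul_right contMDiffAt_mGam)
open Crest.Agent.R247.Sm879 Crest.Agent.R247.Mcp688 Crest.Agent.R247.Rdg879
open Crest.Agent.R247.Ms322 Crest.Agent.R247.Hes124 Crest.Agent.R247.Ray97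
open Crest.Agent.R247.Dir593 Crest.Agent.R247.Fv510 Crest.Agent.R247.Loc710
open Crest.Agent.R247.Ib939 (vf inner_Gr_mGam mgrad_eq_vf norm_vf inner_mv_Hf Gr_mGam)

noncomputable section
namespace Crest.Agent.R247.Fvs681

section pt

variable {n : ℕ} {M : Type*} [MetricSpace M] [ChartedSpace (EuclideanSpace ℝ (Fin n)) M]
  [IsManifold (𝓡 n) ∞ M]
  [RiemannianBundle (fun p : M => TangentSpace (𝓡 n) p)]
  [IsContMDiffRiemannianBundle (𝓡 n) ∞ (EuclideanSpace ℝ (Fin n)) (fun p : M => TangentSpace (𝓡 n) p)]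
  [SecondCountableTopology M] [Nonempty M]

local notation "𝔼" => EuclideanSpace ℝ (Fin n)

lemma vf_smul (z : M) (c : ℝ) (v : 𝔼) : vf z (c • v) = c • vf z v := by
  unfold vf
  rw [Finset.smul_sum]
  refine Finset.sum_congr rfl fun j _ => ?_
  rw [PiLp.smul_apply, smul_eq_mul, mul_smul]

/-- `⟪Hf (c v), c v⟫ = c² Hess (∇f, ∇f)` for `v = ∇f`. -/
lemma inner_mv_smul (u f : M → ℝ) (z : M) (c : ℝ) :
    (inner ℝ (mv (Ib939.Hf u z) (c • Gr (n := n) f z)) (c • Gr (n := n) f z) : ℝ) =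
      c ^ 2 * mHess n u z (mgrad n f z) (mgrad n f z) := by
  rw [inner_mv_Hf, vf_smul, mHess_smul_left, mHess_smul_right, ← mgrad_eq_vf]
  ring

/-- symmetry of the frame Hessian -/
lemma inner_mv_comm {u : M → ℝ} {z : M} (hu : ContMDiffAt (𝓡 n) 𝓘(ℝ) 2 u z) (v w : 𝔼) :
    (inner ℝ (mv (Ib939.Hf u z) v) w : ℝ) = inner ℝ (mv (Ib939.Hf u z) w) v := by
  rw [inner_mv_Hf, inner_mv_Hf]
  exact mHess_symm hu _ _

variable [IsRiemannianManifold (𝓡 n) M] [ProperSpace M]

section ray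

variable {x : M} {γ : ℝ → M} {ℓ b s : ℝ}

/-- the unit tangent in the frame -/
def tg (x : M) (γ : ℝ → M) (ℓ : ℝ) (t : ℝ) : 𝔼 := (ℓ * t)⁻¹ • Gr (n := n) (halfDistSq x) (γ t)

theorem norm_tg (hm : ExM M) (h : IsRay x γ ℓ b) (hs : s ∈ Ioo 0 b) :
    ‖tg (n := n) x γ ℓ s‖ = 1 := by
  have h1 : ‖Gr (n := n) (halfDistSq x) (γ s)‖ = dist x (γ s) :=
    mGam_halfDistSq_self (n := n) hm (sc_of_Om hm (h.mem_Om ⟨hs.1.le, hs.2⟩))
  have h2 := h.dist_x ⟨hs.1.le, hs.2.le⟩
  have h3 : 0 < ℓ * s := mul_pos h.pos hs.1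
  unfold tg
  rw [norm_smul, h1, h2, norm_inv, Real.norm_of_nonneg h3.le, inv_mul_cancel₀ h3.ne']

theorem hasDerivAt_w (hm : ExM M) (h : IsRay x γ ℓ b) (hs : s ∈ Ioo 0 b) {w : M → ℝ}
    (hw : MDifferentiableAt (𝓡 n) 𝓘(ℝ, ℝ) w (γ s)) :
    HasDerivAt (fun t => w (γ t))
      (ℓ * inner ℝ (Gr (n := n) w (γ s)) (tg (n := n) x γ ℓ s)) s := by
  refine (h.hasDerivAt_comp (n := n) hm hs hw).congr_deriv ?_
  unfold tg
  rw [real_inner_smul_right, inner_Gr_mGam]
  have h1 := h.pos.ne'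
  have h2 := hs.1.ne'
  field_simp

theorem hasDerivAt_dw (hm : ExM M) (h : IsRay x γ ℓ b) (hs : s ∈ Ioo 0 b) {w : M → ℝ}
    (hw : ContMDiffAt (𝓡 n) 𝓘(ℝ, ℝ) 2 w (γ s)) :
    HasDerivAt (fun t => (inner ℝ (Gr (n := n) w (γ t)) (tg (n := n) x γ ℓ t) : ℝ))
      (ℓ * inner ℝ (mv (Ib939.Hf w (γ s)) (tg (n := n) x γ ℓ s)) (tg (n := n) x γ ℓ s)) s := by
  have h0 := (h.hasDerivAt_mGam (n := n) hm hs hw).const_mul ℓ⁻¹
  have e : (fun t => (inner ℝ (Gr (n := n) w (γ t)) (tg (n := n) x γ ℓ t) : ℝ)) =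
      fun t => ℓ⁻¹ * (t⁻¹ * mGam n w (halfDistSq x) (γ t)) := by
    funext t
    unfold tg
    rw [real_inner_smul_right, inner_Gr_mGam, mul_inv, mul_assoc]
  rw [e]
  refine h0.congr_deriv ?_
  unfold tg
  rw [inner_mv_smul]
  have h1 := h.pos.ne'
  have h2 := hs.1.ne'
  field_simp

theorem hasDerivAt_gg (hm : ExM M) (h : IsRay x γ ℓ b) (hs : s ∈ Ioo 0 b) {v w : M → ℝ}
    (hv : ContMDiff (𝓡 n) 𝓘(ℝ, ℝ) ∞ v) (hw : ContMDiff (𝓡 n) 𝓘(ℝ, ℝ) ∞ w) :
    HasDerivAt (fun t => (inner ℝ (Gr (n := n) v (γ t)) (Gr (n := n) w (γ t)) : ℝ))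
      (ℓ * (inner ℝ (mv (Ib939.Hf v (γ s)) (tg (n := n) x γ ℓ s)) (Gr (n := n) w (γ s)) +
        inner ℝ (Gr (n := n) v (γ s)) (mv (Ib939.Hf w (γ s)) (tg (n := n) x γ ℓ s)))) s := by
  have hv2 : ContMDiffAt (𝓡 n) 𝓘(ℝ, ℝ) 2 v (γ s) := (hv _).of_le Bo84.two_le_infty
  have hw2 : ContMDiffAt (𝓡 n) 𝓘(ℝ, ℝ) 2 w (γ s) := (hw _).of_le Bo84.two_le_infty
  have hg : ContMDiffAt (𝓡 n) 𝓘(ℝ, ℝ) 1 (mGam n v w) (γ s) :=
    contMDiffAt_mGam hv2 hw2 (by norm_num) Bo84.two_le_infty
  have h0 := hasDerivAt_w (n := n) hm h hs (w := mGam n v w) (hg.mdifferentiableAt (by norm_num))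
  have e : (fun t => (inner ℝ (Gr (n := n) v (γ t)) (Gr (n := n) w (γ t)) : ℝ)) =
      fun t => mGam n v w (γ t) := by
    funext t
    rw [inner_Gr_mGam]
  rw [e]
  refine h0.congr_deriv ?_
  rw [Gr_mGam hv2 hw2, inner_add_left, inner_mv_comm hv2 (Gr (n := n) w (γ s)),
    inner_mv_comm hw2 (Gr (n := n) v (γ s)), real_inner_comm (Gr (n := n) v (γ s))]

end ray

end pt

section ae

variable {n : ℕ} {M : Type*} [MetricSpace M] [ChartedSpace (EuclideanSpace ℝ (Fin n)) M]
  [IsManifold (𝓡 n) ∞ M]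
  [RiemannianBundle (fun p : M => TangentSpace (𝓡 n) p)]
  [IsContMDiffRiemannianBundle (𝓡 n) ∞ (EuclideanSpace ℝ (Fin n)) (fun p : M => TangentSpace (𝓡 n) p)]
  [IsRiemannianManifold (𝓡 n) M] [ProperSpace M] [SecondCountableTopology M] [Nonempty M]
  [MeasurableSpace M] [BorelSpace M] {κ : ℝ} {μ : Measure M} [SFinite μ]

local notation "𝔼" => EuclideanSpace ℝ (Fin n)

/-- the unit tangent along the segment of `p` -/
def sv (C : Rad n κ M μ) (p : M × M) (t : ℝ) : F n :=
  tg (n := n) p.1 (fun t => C.T p.1 t p.2) (dist p.1 p.2) t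

variable {C : Rad n κ M μ}

theorem norm_sv (hm : ExM M) (hne : ∀ᵐ p ∂(μ.prod μ), p.1 ≠ p.2) :
    ∀ᵐ p ∂(μ.prod μ), ∀ t ∈ Ioo (0 : ℝ) 1, ‖sv C p t‖ = 1 := by
  filter_upwards [ae_mem_U (C := C), hne] with p hU hp t ht
  exact norm_tg hm (isRay_of_U (n := n) C hU hp) ht

theorem sv_d1 (hm : ExM M) (hne : ∀ᵐ p ∂(μ.prod μ), p.1 ≠ p.2) {v : M → ℝ}
    (hv : ContMDiff (𝓡 n) 𝓘(ℝ, ℝ) ∞ v) :
    ∀ᵐ p ∂(μ.prod μ), ∀ t ∈ Ioo (0 : ℝ) 1, HasDerivAt (fun t => v (C.T p.1 t p.2))
      (dist p.1 p.2 * inner ℝ (Gr (n := n) v (C.T p.1 t p.2)) (sv C p t)) t := by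
  filter_upwards [ae_mem_U (C := C), hne] with p hU hp t ht
  exact hasDerivAt_w (n := n) hm (isRay_of_U (n := n) C hU hp) ht
    (((hv _).of_le Bo84.two_le_infty).mdifferentiableAt (by norm_num))

theorem sv_d2 (hm : ExM M) (hne : ∀ᵐ p ∂(μ.prod μ), p.1 ≠ p.2) {v : M → ℝ}
    (hv : ContMDiff (𝓡 n) 𝓘(ℝ, ℝ) ∞ v) :
    ∀ᵐ p ∂(μ.prod μ), ∀ t ∈ Ioo (0 : ℝ) 1,
      HasDerivAt (fun t => (inner ℝ (Gr (n := n) v (C.T p.1 t p.2)) (sv C p t) : ℝ))
        (dist p.1 p.2 * inner ℝ (mv (Ib939.Hf v (C.T p.1 t p.2)) (sv C p t)) (sv C p t)) t := by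
  filter_upwards [ae_mem_U (C := C), hne] with p hU hp t ht
  exact hasDerivAt_dw (n := n) hm (isRay_of_U (n := n) C hU hp) ht
    ((hv _).of_le Bo84.two_le_infty)

theorem sv_d3 (hm : ExM M) (hne : ∀ᵐ p ∂(μ.prod μ), p.1 ≠ p.2) {v v' : M → ℝ}
    (hv : ContMDiff (𝓡 n) 𝓘(ℝ, ℝ) ∞ v) (hv' : ContMDiff (𝓡 n) 𝓘(ℝ, ℝ) ∞ v') :
    ∀ᵐ p ∂(μ.prod μ), ∀ t ∈ Ioo (0 : ℝ) 1,
      HasDerivAt (fun t => (inner ℝ (Gr (n := n) v (C.T p.1 t p.2))
          (Gr (n := n) v' (C.T p.1 t p.2)) : ℝ))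
        (dist p.1 p.2 * (inner ℝ (mv (Ib939.Hf v (C.T p.1 t p.2)) (sv C p t))
            (Gr (n := n) v' (C.T p.1 t p.2)) +
          inner ℝ (Gr (n := n) v (C.T p.1 t p.2))
            (mv (Ib939.Hf v' (C.T p.1 t p.2)) (sv C p t)))) t := by
  filter_upwards [ae_mem_U (C := C), hne] with p hU hp t ht
  exact hasDerivAt_gg (n := n) hm (isRay_of_U (n := n) C hU hp) ht hv hv'

theorem sv_dl (hm : ExM M) (hκ : 0 ≤ κ) (hne : ∀ᵐ p ∂(μ.prod μ), p.1 ≠ p.2) {f : M → ℝ}
    (hf : ∀ᵐ z ∂μ, MDifferentiableAt (𝓡 n) 𝓘(ℝ, ℝ) f z) :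
    ∀ᵐ p ∂(μ.prod μ), ∀ᵐ t ∂(volume.restrict (Ioo (0 : ℝ) 1)),
      HasDerivAt (fun t => f (C.T p.1 t p.2))
        (dist p.1 p.2 * inner ℝ (Gr (n := n) f (C.T p.1 t p.2)) (sv C p t)) t := by
  filter_upwards [ae_mem_U (C := C), hne, ae_seg_all C hκ hf] with p hU hp h3
  filter_upwards [ae_Ioo_iff.2 h3, ae_restrict_mem measurableSet_Ioo] with t ht htm
  exact hasDerivAt_w (n := n) hm (isRay_of_U (n := n) C hU hp) htm ht

end ae

end Crest.Agent.R247.Fvs681
end
end

-- ▼ part R247/FvsC_681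
section

/-!
# R247, P5 / V1 (helper681): the term `SegS (boch hκ) C`
-/

set_option autoImplicit false
set_option maxSynthPendingDepth 3
set_option linter.unusedSectionVars false

open Bundle Set Filter Topology Metric MeasureTheory
open scoped Manifold ContDiff NNReal ENNReal
open Crest.GeometryTopology.PointedLimit
open Crest.Agent.R247.Sm879 Crest.Agent.R247.Mcp688 Crest.Agent.R247.Rdg879
open Crest.Agent.R247.Ms322 Crest.Agent.R247.Hes124
open Crest.Agent.R247.Dir593 Crest.Agent.R247.Fv510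
open Crest.Agent.R247.Smv126 (hf)

noncomputable section
namespace Crest.Agent.R247.Fvs681

variable {n : ℕ} {M : Type*} [MetricSpace M] [ChartedSpace (EuclideanSpace ℝ (Fin n)) M]
  [IsManifold (𝓡 n) ∞ M]
  [RiemannianBundle (fun p : M => TangentSpace (𝓡 n) p)]
  [IsContMDiffRiemannianBundle (𝓡 n) ∞ (EuclideanSpace ℝ (Fin n)) (fun p : M => TangentSpace (𝓡 n) p)]
  [IsRiemannianManifold (𝓡 n) M] [ProperSpace M]
  [MeasurableSpace M] [BorelSpace M] [SecondCountableTopology M] [Nonempty M]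
  [SFinite (Measure.euclideanHausdorffMeasure n : Measure M)]

/-- the term `SegS`, end point fields as hypotheses -/
def segS_of {κ κ' : ℝ} (hK : HasRicciLowerBound n M (-κ))
    (C : Rad n κ' M (Measure.euclideanHausdorffMeasure n : Measure M)) (hκ' : 0 ≤ κ')
    (hm : ExM M)
    (hne : ∀ᵐ p ∂((Measure.euclideanHausdorffMeasure n : Measure M).prod
      (Measure.euclideanHausdorffMeasure n : Measure M)), p.1 ≠ p.2)
    (dl0 : ∀ {f : M → ℝ}, LocallyLipschitz f →
      ∀ᵐ p ∂((Measure.euclideanHausdorffMeasure n : Measure M).prod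
        (Measure.euclideanHausdorffMeasure n : Measure M)),
      HasDerivWithinAt (fun t => f (C.T p.1 t p.2))
        (-(dist p.1 p.2 * inner ℝ (Gr (n := n) f p.1) (Gr (n := n) (dist p.2) p.1))) (Ici 0) 0)
    (rdw : ∀ x : M, ∀ᵐ p ∂((Measure.euclideanHausdorffMeasure n : Measure M).prod
        (Measure.euclideanHausdorffMeasure n : Measure M)),
      HasDerivWithinAt (fun t : ℝ => dist (C.T x t p.1) p.2)
        (inner ℝ (Gr (n := n) (hf x) p.1) (Gr (n := n) (dist p.2) p.1)) (Iio 1) 1)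
    (pe0 : ∀ x : M, ∀ᵐ p ∂((Measure.euclideanHausdorffMeasure n : Measure M).prod
        (Measure.euclideanHausdorffMeasure n : Measure M)),
      HasDerivWithinAt (fun t : ℝ => dist (C.T x t p.1) (C.T x t p.2))
        (inner ℝ (Gr (n := n) (hf x) p.1) (Gr (n := n) (dist p.2) p.1) +
          inner ℝ (Gr (n := n) (hf x) p.2) (Gr (n := n) (dist p.1) p.2)) (Iio 1) 1)
    (norm_hf : ∀ x : M, ∀ᵐ z ∂(Measure.euclideanHausdorffMeasure n : Measure M),
      ‖Gr (n := n) (hf x) z‖ = dist x z)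
    (norm_gd : ∀ᵐ p ∂((Measure.euclideanHausdorffMeasure n : Measure M).prod
        (Measure.euclideanHausdorffMeasure n : Measure M)),
      ‖Gr (n := n) (dist p.2) p.1‖ ≤ 1) :
    SegS (Gs939.boch hK) C where
  s := sv C
  norm_s := norm_sv hm hne
  d1 := fun {v} hv => sv_d1 hm hne hv.1
  d2 := fun {v} hv => sv_d2 hm hne hv.1
  d3 := fun {v v'} hv hv' => sv_d3 hm hne hv.1 hv'.1
  dl := fun {f} h => sv_dl hm hκ' hne (ae_mdifferentiableAt (n := n) h)
  dl0 := dl0
  rdw := rdw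
  pe0 := pe0
  norm_hf := norm_hf
  norm_gd := norm_gd

end Crest.Agent.R247.Fvs681
end
end

-- ▼ part R247/FvsD_681

/-!
# R247, P5 / V1 (helper681): end point fields of `SegS` and the term of the S0381 block
-/

set_option autoImplicit false
set_option maxSynthPendingDepth 3
set_option linter.unusedSectionVars false

open Bundle Set Filter Topology Metric MeasureTheory
open scoped Manifold ContDiff NNReal ENNReal
open Crest.GeometryTopology.PointedLimit
open Crest.GeometryTopology.MTW Crest.Agent.R226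
open Crest.Agent.R226.CutSmooth77 (SC)
open Crest.Agent.R247.Sm879 Crest.Agent.R247.Mcp688 Crest.Agent.R247.Rdg879
open Crest.Agent.R247.Ms322 Crest.Agent.R247.Hes124
open Crest.Agent.R247.Dir593 Crest.Agent.R247.Fv510
open Crest.Agent.R247.Smv126 (hf)

noncomputable section
namespace Crest.Agent.R247.Fvs681

section pt

variable {n : ℕ} {M : Type*} [MetricSpace M] [ChartedSpace (EuclideanSpace ℝ (Fin n)) M]
  [IsManifold (𝓡 n) ∞ M]
  [RiemannianBundle (fun p : M => TangentSpace (𝓡 n) p)]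
  [IsContMDiffRiemannianBundle (𝓡 n) ∞ (EuclideanSpace ℝ (Fin n)) (fun p : M => TangentSpace (𝓡 n) p)]
  [IsRiemannianManifold (𝓡 n) M] [ProperSpace M] [SecondCountableTopology M] [Nonempty M]

lemma Gr_half {p q : M} (h : SC n p q) (hne : p ≠ q) :
    Gr (n := n) (fun u => halfDistSq u q) p = dist p q • Gr (n := n) (fun u => dist q u) p := by
  ext j
  rw [Gr_apply, df_half h hne]
  rfl

lemma Gr_hf (x z : M) : Gr (n := n) (hf x) z = Gr (n := n) (fun u => halfDistSq u x) z := by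
  have e : hf x = fun u : M => halfDistSq u x := hds_eq0 x
  rw [e]

/-- start of a minimiser -/
lemma start_pt {x z : M} (h : SC n x z) (hne : x ≠ z) {T : ℝ → M} (hT : Seg x z T) {φ : M → ℝ}
    (hφ : MDifferentiableAt (𝓡 n) 𝓘(ℝ) φ x) :
    HasDerivWithinAt (fun t => φ (T t))
      (-(dist x z * inner ℝ (Gr (n := n) φ x) (Gr (n := n) (dist z) x))) (Ici 0) 0 := by
  refine (hT.grad_start h hφ).congr_deriv ?_
  rw [Gr_half h hne, real_inner_smul_left, real_inner_comm]

/-- distance to a second point along a minimiser, end point -/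
lemma rdw_pt {x z w : M} (h : SC n z x) {T : ℝ → M} (hT : Seg x z T) (hw : SC n z w)
    (hne : z ≠ w) :
    HasDerivWithinAt (fun t => dist (T t) w)
      (inner ℝ (Gr (n := n) (hf x) z) (Gr (n := n) (dist w) z)) (Iio 1) 1 := by
  have h1 := (hT.grad_end (n := n) h (mdiff_dist_left hw hne)).mono Iio_subset_Iic_self
  rw [Gr_hf]
  refine h1.congr (fun t _ => ?_) ?_
  · exact dist_comm _ _
  · exact dist_comm _ _

end pt

section block
universe u
variable {n : ℕ} {M : Type u} [MetricSpace M] [CompleteSpace M] [ConnectedSpace M]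
    [ChartedSpace (EuclideanSpace ℝ (Fin n)) M]
    [IsManifold 𝓘(ℝ, EuclideanSpace ℝ (Fin n)) ∞ M]
    [RiemannianBundle (fun x : M => TangentSpace 𝓘(ℝ, EuclideanSpace ℝ (Fin n)) x)]
    [IsContMDiffRiemannianBundle 𝓘(ℝ, EuclideanSpace ℝ (Fin n)) ∞ (EuclideanSpace ℝ (Fin n))
      (fun x : M => TangentSpace 𝓘(ℝ, EuclideanSpace ℝ (Fin n)) x)]
    [IsRiemannianManifold 𝓘(ℝ, EuclideanSpace ℝ (Fin n)) M]
    [MeasurableSpace M] [BorelSpace M] {κ κ' : ℝ} [SecondCountableTopology M] [Nonempty M]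

theorem ne_block (hn : 1 ≤ n) : ∀ᵐ p ∂((Measure.euclideanHausdorffMeasure n : Measure M).prod
    (Measure.euclideanHausdorffMeasure n : Measure M)), p.1 ≠ p.2 := by
  have := HR216.properSpace_of_riemannian n M
  have := isLocallyFinite_muHE n M
  exact ae_prod_ne (muHE_singleton n hn)

theorem om_block (hn : 1 ≤ n)
    (C : Rad n κ M (Measure.euclideanHausdorffMeasure n : Measure M)) (hκ : 0 ≤ κ) :
    ∀ᵐ p ∂((Measure.euclideanHausdorffMeasure n : Measure M).prod
      (Measure.euclideanHausdorffMeasure n : Measure M)), SC n p.1 p.2 := by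
  have := HR216.properSpace_of_riemannian n M
  have := isLocallyFinite_muHE n M
  filter_upwards [ae_prod_Om n (exM_block n M) (fun x => ae_Om_block hn C hκ x)] with p hp
  exact sc_of_Om (exM_block n M) hp

theorem sc_block (hn : 1 ≤ n)
    (C : Rad n κ M (Measure.euclideanHausdorffMeasure n : Measure M)) (hκ : 0 ≤ κ) (x : M) :
    ∀ᵐ z ∂(Measure.euclideanHausdorffMeasure n : Measure M), SC n z x := by
  have := HR216.properSpace_of_riemannian n M
  filter_upwards [ae_Om_block hn C hκ x] with z hz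
  exact sc_symm (sc_of_Om (exM_block n M) hz)

theorem dl0_block (hn : 1 ≤ n)
    (C : Rad n κ M (Measure.euclideanHausdorffMeasure n : Measure M)) (hκ : 0 ≤ κ) {f : M → ℝ}
    (hf : LocallyLipschitz f) :
    ∀ᵐ p ∂((Measure.euclideanHausdorffMeasure n : Measure M).prod
      (Measure.euclideanHausdorffMeasure n : Measure M)),
      HasDerivWithinAt (fun t => f (C.T p.1 t p.2))
        (-(dist p.1 p.2 * inner ℝ (Gr (n := n) f p.1) (Gr (n := n) (dist p.2) p.1))) (Ici 0) 0 := by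
  have := HR216.properSpace_of_riemannian n M
  have := isLocallyFinite_muHE n M
  filter_upwards [om_block hn C hκ, ne_block hn, ae_mem_U (C := C),
    Measure.quasiMeasurePreserving_fst.ae (ae_mdifferentiableAt (n := n) hf)] with p h1 h2 h3 h4
  exact start_pt h1 h2 (seg_of_U C h3) h4

theorem rdw_block (hn : 1 ≤ n)
    (C : Rad n κ M (Measure.euclideanHausdorffMeasure n : Measure M)) (hκ : 0 ≤ κ) (x : M) :
    ∀ᵐ p ∂((Measure.euclideanHausdorffMeasure n : Measure M).prod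
      (Measure.euclideanHausdorffMeasure n : Measure M)),
      HasDerivWithinAt (fun t : ℝ => dist (C.T x t p.1) p.2)
        (inner ℝ (Gr (n := n) (hf x) p.1) (Gr (n := n) (dist p.2) p.1)) (Iio 1) 1 := by
  have := HR216.properSpace_of_riemannian n M
  have := isLocallyFinite_muHE n M
  filter_upwards [om_block hn C hκ, ne_block hn,
    Measure.quasiMeasurePreserving_fst.ae ((sc_block hn C hκ x).and (C.ae_U x))] with p h1 h2 h3
  exact rdw_pt h3.1 (seg_of_U C h3.2) h1 h2

theorem pe0_block (hn : 1 ≤ n)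
    (C : Rad n κ M (Measure.euclideanHausdorffMeasure n : Measure M)) (hκ : 0 ≤ κ) (x : M) :
    ∀ᵐ p ∂((Measure.euclideanHausdorffMeasure n : Measure M).prod
      (Measure.euclideanHausdorffMeasure n : Measure M)),
      HasDerivWithinAt (fun t : ℝ => dist (C.T x t p.1) (C.T x t p.2))
        (inner ℝ (Gr (n := n) (hf x) p.1) (Gr (n := n) (dist p.2) p.1) +
          inner ℝ (Gr (n := n) (hf x) p.2) (Gr (n := n) (dist p.1) p.2)) (Iio 1) 1 := by
  filter_upwards [two_point_block hn C hκ x x] with p hp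
  exact hp.mono Iio_subset_Iic_self

theorem norm_hf_block (hn : 1 ≤ n)
    (C : Rad n κ M (Measure.euclideanHausdorffMeasure n : Measure M)) (hκ : 0 ≤ κ) (x : M) :
    ∀ᵐ z ∂(Measure.euclideanHausdorffMeasure n : Measure M),
      ‖Gr (n := n) (hf x) z‖ = dist x z := by
  have := HR216.properSpace_of_riemannian n M
  filter_upwards [ae_Om_block hn C hκ x] with z hz
  exact Ray97.mGam_halfDistSq_self (exM_block n M) (sc_of_Om (exM_block n M) hz)

theorem norm_gd_block (hn : 1 ≤ n)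
    (C : Rad n κ M (Measure.euclideanHausdorffMeasure n : Measure M)) (hκ : 0 ≤ κ) :
    ∀ᵐ p ∂((Measure.euclideanHausdorffMeasure n : Measure M).prod
      (Measure.euclideanHausdorffMeasure n : Measure M)),
      ‖Gr (n := n) (dist p.2) p.1‖ ≤ 1 := by
  have := HR216.properSpace_of_riemannian n M
  have := isLocallyFinite_muHE n M
  filter_upwards [om_block hn C hκ, ne_block hn, ae_mem_U (C := C)] with p h1 h2 h3
  exact (norm_Gr_dist h1 h2 (seg_of_U C h3).rev).le

/-- **the term `SegS` of the manifold** -/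
def segS_block (hn : 1 ≤ n) (hK : HasRicciLowerBound n M (-κ))
    (C : Rad n κ' M (Measure.euclideanHausdorffMeasure n : Measure M)) (hκ' : 0 ≤ κ') :
    SegS (Gs939.boch hK) C :=
  haveI := HR216.properSpace_of_riemannian n M
  haveI := isLocallyFinite_muHE n M
  segS_of hK C hκ' (exM_block n M) (ne_block hn) (dl0_block hn C hκ') (rdw_block hn C hκ')
    (pe0_block hn C hκ') (norm_hf_block hn C hκ') (norm_gd_block hn C hκ')

theorem nonempty_segS (hn : 1 ≤ n) (hK : HasRicciLowerBound n M (-κ))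
    (C : Rad n κ' M (Measure.euclideanHausdorffMeasure n : Measure M)) (hκ' : 0 ≤ κ') :
    Nonempty (SegS (Gs939.boch hK) C) := ⟨segS_block hn hK C hκ'⟩

end block

end Crest.Agent.R247.Fvs681
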