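import Crest.Agent.R247.Iso2_311
import Crest.Agent.R247.Far0_553

/-!
R247, block (2a) (helper311), part 3: isotropy of the far measure `ν` = normalised volume of the
annulus `ann p 4 8`, in the literal form of the near-isometry theorem.
-/

set_option autoImplicit false
set_option maxSynthPendingDepth 3
set_option linter.unusedSectionVars false
set_option linter.unusedVariables false

open Bundle Bornology Set MeasureTheory Manifold Filter Metric Topology
open scoped ENNReal ContDiff Topology NNReal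
open Crest.GeometryTopology.CoordMetric Crest.GeometryTopology.ChartCurvature
open Crest.GeometryTopology.Geodesic Crest.GeometryTopology.MTW
open Crest.Agent.R226.ChartMet842
open Crest.Agent.R247.Ms322 Crest.Agent.R247.Sm879 Crest.Agent.R247.Mcp688

noncomputable section
namespace Crest.Agent.R247.Iso311

open Crest.Agent.R247.Far553 (ann)

/-- the normalised volume of the far annulus -/
def nuf {X : Type*} [MetricSpace X] [MeasurableSpace X] (μ : Measure X) (p : X) : Measure X :=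
  (μ (ann p 4 8))⁻¹ • μ.restrict (ann p 4 8)

section general

variable {X : Type*} [MetricSpace X] [MeasurableSpace X] [BorelSpace X]

theorem isClosed_ann (p : X) (a b : ℝ) : IsClosed (ann p a b) := by
  have h : Continuous fun z : X => dist p z := continuous_const.dist continuous_id
  exact (isClosed_le continuous_const h).inter (isClosed_le h continuous_const)

theorem measurableSet_ann (p : X) (a b : ℝ) : MeasurableSet (ann p a b) :=
  (isClosed_ann p a b).measurableSet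


theorem nuf_prob {μ : Measure X} {p : X} (h0 : μ (ann p 4 8) ≠ 0) (h1 : μ (ann p 4 8) ≠ ⊤) :
    IsProbabilityMeasure (nuf μ p) := by
  refine ⟨?_⟩
  rw [nuf, Measure.smul_apply, Measure.restrict_apply_univ, smul_eq_mul,
    ENNReal.inv_mul_cancel h0 h1]

theorem nuf_ac (μ : Measure X) (p : X) : nuf μ p ≪ μ :=
  (Measure.smul_absolutelyContinuous).trans Measure.absolutelyContinuous_restrict

theorem ae_nuf_of_ae {μ : Measure X} {p : X} {P : X → Prop} (h : ∀ᵐ w ∂μ, P w) :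
    ∀ᵐ w ∂(nuf μ p), P w := (nuf_ac μ p).ae_le h

theorem ae_nuf_mem (μ : Measure X) (p : X) : ∀ᵐ w ∂(nuf μ p), w ∈ ann p 4 8 := by
  refine (Measure.smul_absolutelyContinuous (μ := μ.restrict (ann p 4 8))).ae_le ?_
  exact ae_restrict_mem (measurableSet_ann p 4 8)

/-- integral versus lintegral, without measurability -/
theorem integral_le_of_lintegral_le {α : Type*} [MeasurableSpace α] {ν : Measure α} {f : α → ℝ}
    (hf : ∀ w, 0 ≤ f w) {B : ℝ} (hB : 0 ≤ B)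
    (h : ∫⁻ w, ENNReal.ofReal (f w) ∂ν ≤ ENNReal.ofReal B) : ∫ w, f w ∂ν ≤ B := by
  by_cases hm : AEStronglyMeasurable f ν
  · rw [integral_eq_lintegral_of_nonneg_ae (Eventually.of_forall hf) hm]
    exact ENNReal.toReal_le_of_le_ofReal hB h
  · rw [integral_undef (fun hi => hm hi.1)]
    exact hB

end general

/-- the numerical choice of the constant -/
theorem exists_const (n : ℕ) (hn : 0 < n) {ε : ℝ} (hε : 0 < ε) :
    ∃ c : ℝ, 0 < c ∧ c < 1 ∧
      Real.exp (c * (8 + 2 * c) ^ 2 / 2) * ((8 + 2 * c) ^ n - (4 - 2 * c) ^ n) ≤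
        (1 + ε) * ((1 - c) * 8 ^ n - Real.exp (8 * c) * 4 ^ n) ∧
      0 < (1 - c) * 8 ^ n - Real.exp (8 * c) * 4 ^ n := by
  have h84 : (0 : ℝ) < 8 ^ n - 4 ^ n := by
    have : (4 : ℝ) ^ n < 8 ^ n := by
      apply pow_lt_pow_left₀ (by norm_num) (by norm_num) hn.ne'
    linarith
  have hc1 : Continuous fun c : ℝ =>
      (1 + ε) * ((1 - c) * 8 ^ n - Real.exp (8 * c) * 4 ^ n) -
        Real.exp (c * (8 + 2 * c) ^ 2 / 2) * ((8 + 2 * c) ^ n - (4 - 2 * c) ^ n) := by fun_prop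
  have hc2 : Continuous fun c : ℝ => (1 - c) * 8 ^ n - Real.exp (8 * c) * 4 ^ n := by fun_prop
  have h1 : ∀ᶠ c : ℝ in 𝓝 0, 0 < (1 + ε) * ((1 - c) * 8 ^ n - Real.exp (8 * c) * 4 ^ n) -
        Real.exp (c * (8 + 2 * c) ^ 2 / 2) * ((8 + 2 * c) ^ n - (4 - 2 * c) ^ n) := by
    have ht := hc1.tendsto 0
    refine ht.eventually (lt_mem_nhds ?_)
    simp
    nlinarith
  have h2 : ∀ᶠ c : ℝ in 𝓝 0, 0 < (1 - c) * 8 ^ n - Real.exp (8 * c) * 4 ^ n := by
    have ht := hc2.tendsto 0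
    refine ht.eventually (lt_mem_nhds ?_)
    simp
    linarith
  have h3 : ∀ᶠ c : ℝ in 𝓝[>] 0, c ∈ Ioo (0 : ℝ) 1 := Ioo_mem_nhdsGT one_pos
  obtain ⟨c, hc, hc', hc''⟩ := (h3.and ((h1.and h2).filter_mono nhdsWithin_le_nhds)).exists
  exact ⟨c, hc.1, hc.2, by linarith, hc''⟩

variable {n : ℕ} {M : Type*} [MetricSpace M] [ChartedSpace (EuclideanSpace ℝ (Fin n)) M]
  [IsManifold (𝓡 n) ∞ M]
  [RiemannianBundle (fun p : M => TangentSpace (𝓡 n) p)]
  [IsContMDiffRiemannianBundle (𝓡 n) ∞ (EuclideanSpace ℝ (Fin n)) (fun p : M => TangentSpace (𝓡 n) p)]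
  [IsRiemannianManifold (𝓡 n) M] [MeasurableSpace M] [BorelSpace M] [ProperSpace M]
  [SecondCountableTopology M] [Nonempty M]

local notation "𝔼" => EuclideanSpace ℝ (Fin n)

/-- the far annulus has almost maximal volume -/
theorem ann_ge {κ : ℝ} (C : Rad n κ M (μHE[n] : Measure M)) (hκ : 0 ≤ κ)
    [IsFiniteMeasureOnCompacts (μHE[n] : Measure M)] {c : ℝ} (hc : 0 < c) (hc1 : c < 1)
    (hκc : κ ≤ c) (p : M)
    (hvol : ENNReal.ofReal ((1 - c) * 8 ^ n) * volume (ball (0 : 𝔼) 1) ≤ μHE[n] (ball p 8)) :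
    ENNReal.ofReal ((1 - c) * 8 ^ n - Real.exp (8 * c) * 4 ^ n) * volume (ball (0 : 𝔼) 1) ≤
      μHE[n] (ann p 4 8) := by
  have h1 := bishop C hκ p 4
  have h2 : μHE[n] (ball p 4) ≤ ENNReal.ofReal (Real.exp (8 * c) * 4 ^ n) *
      volume (ball (0 : 𝔼) 1) := by
    refine h1.trans ?_
    gcongr
    linarith
  have h3 : μHE[n] (ball p 8) ≤ μHE[n] (ann p 4 8) + μHE[n] (ball p 4) := by
    refine (measure_mono ?_).trans (measure_union_le _ _)
    intro w hw
    by_cases h : dist p w < 4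
    · right; rw [mem_ball, dist_comm]; exact h
    · left
      refine ⟨not_lt.1 h, ?_⟩
      rw [mem_ball, dist_comm] at hw
      exact hw.le
  rw [ENNReal.ofReal_sub _ (by positivity), ENNReal.sub_mul (fun _ _ => measure_ball_lt_top.ne)]
  exact tsub_le_iff_right.2 ((hvol.trans h3).trans (by gcongr))

/-- **(N1)**: isotropy of the far measure, `lintegral` form. -/
theorem n1_lintegral (hn : 0 < n) {ε : ℝ} (hε : 0 < ε) {c : ℝ} (hc : 0 < c) (hc1 : c < 1)
    (hnum : Real.exp (c * (8 + 2 * c) ^ 2 / 2) * ((8 + 2 * c) ^ n - (4 - 2 * c) ^ n) ≤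
        (1 + ε) * ((1 - c) * 8 ^ n - Real.exp (8 * c) * 4 ^ n))
    (hpos : 0 < (1 - c) * 8 ^ n - Real.exp (8 * c) * 4 ^ n)
    {κ : ℝ} (C : Rad n κ M (μHE[n] : Measure M)) (hκ : 0 ≤ κ) (hκc : κ ≤ c) (hm : ExM M)
    [IsFiniteMeasureOnCompacts (μHE[n] : Measure M)] {p u : M} (hpu : dist p u ≤ c)
    (hvol : ENNReal.ofReal ((1 - c) * 8 ^ n) * volume (ball (0 : 𝔼) 1) ≤ μHE[n] (ball p 8))
    (ξ : 𝔼) :
    ∫⁻ w, ENNReal.ofReal ((inner ℝ (Gr (n := n) (fun z => dist w z) u) ξ) ^ 2)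
        ∂(nuf (μHE[n] : Measure M) p) ≤ ENNReal.ofReal ((1 + ε) * ‖ξ‖ ^ 2 / n) := by
  have hn' : (0 : ℝ) < n := by exact_mod_cast hn
  have hW : ∀ w ∈ ann p 4 8, dist u w ∈ Ioo (4 - 2 * c) (8 + 2 * c) := by
    rintro w ⟨h1, h2⟩
    have h3 := dist_triangle p u w
    have h4 := dist_triangle u p w
    rw [dist_comm u p] at h4
    exact ⟨by linarith, by linarith⟩
  have h1 := isotropy_Gr C hκ hm u (α := 4 - 2 * c) (β := 8 + 2 * c) (by linarith) (by linarith)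
    hW ξ
  have h2 := ann_ge C hκ hc hc1 hκc p hvol
  set I := ∫⁻ w in ann p 4 8, ENNReal.ofReal
    ((inner ℝ (Gr (n := n) (fun z => dist w z) u) ξ) ^ 2) ∂(μHE[n] : Measure M) with hI
  set V := μHE[n] (ann p 4 8) with hV
  set om := volume (ball (0 : 𝔼) 1) with hom
  have hω0 : om ≠ 0 := (isOpen_ball.measure_pos volume ⟨0, mem_ball_self one_pos⟩).ne'
  have hωt : om ≠ ⊤ := measure_ball_lt_top.ne
  have hV0 : V ≠ 0 := by
    intro h
    rw [h] at h2
    have h5 := le_antisymm h2 bot_le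
    rw [mul_eq_zero] at h5
    rcases h5 with h5 | h5
    · exact absurd h5 (by rw [ENNReal.ofReal_eq_zero]; linarith)
    · exact hω0 h5
  have hVt : V ≠ ⊤ := by
    refine ne_top_of_le_ne_top (isCompact_closedBall p 8).measure_lt_top.ne (measure_mono ?_)
    rintro w ⟨-, h⟩
    rw [mem_closedBall, dist_comm]; exact h
  have h3 : (n : ℝ≥0∞) * I ≤ ENNReal.ofReal ((1 + ε) * ‖ξ‖ ^ 2) * V := by
    calc (n : ℝ≥0∞) * I ≤ ENNReal.ofReal (Real.exp (κ * (8 + 2 * c) ^ 2 / 2) *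
          ((8 + 2 * c) ^ n - (4 - 2 * c) ^ n) * ‖ξ‖ ^ 2) * om := h1
      _ ≤ ENNReal.ofReal ((1 + ε) * ‖ξ‖ ^ 2 *
            ((1 - c) * 8 ^ n - Real.exp (8 * c) * 4 ^ n)) * om := by
          gcongr ?_ * _
          apply ENNReal.ofReal_le_ofReal
          have h4 : (0 : ℝ) ≤ (8 + 2 * c) ^ n - (4 - 2 * c) ^ n := by
            have : (4 - 2 * c) ^ n ≤ (8 + 2 * c) ^ n := by
              apply pow_le_pow_left₀ (by linarith) (by linarith)
            linarith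
          calc Real.exp (κ * (8 + 2 * c) ^ 2 / 2) * ((8 + 2 * c) ^ n - (4 - 2 * c) ^ n) * ‖ξ‖ ^ 2
              ≤ Real.exp (c * (8 + 2 * c) ^ 2 / 2) * ((8 + 2 * c) ^ n - (4 - 2 * c) ^ n) *
                ‖ξ‖ ^ 2 := by gcongr
            _ ≤ (1 + ε) * ((1 - c) * 8 ^ n - Real.exp (8 * c) * 4 ^ n) * ‖ξ‖ ^ 2 := by gcongr
            _ = _ := by ring
      _ = ENNReal.ofReal ((1 + ε) * ‖ξ‖ ^ 2) *
            (ENNReal.ofReal ((1 - c) * 8 ^ n - Real.exp (8 * c) * 4 ^ n) * om) := by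
          rw [← mul_assoc, ← ENNReal.ofReal_mul (by positivity)]
      _ ≤ _ := by gcongr
  have hn0 : (n : ℝ≥0∞) ≠ 0 := by exact_mod_cast hn.ne'
  have hnt : (n : ℝ≥0∞) ≠ ⊤ := ENNReal.natCast_ne_top n
  rw [nuf, lintegral_smul_measure, smul_eq_mul, ← hI, ← hV]
  have h5 : ENNReal.ofReal ((1 + ε) * ‖ξ‖ ^ 2 / n) = ENNReal.ofReal ((1 + ε) * ‖ξ‖ ^ 2) / n := by
    rw [ENNReal.ofReal_div_of_pos hn', ENNReal.ofReal_natCast]
  rw [h5, ENNReal.le_div_iff_mul_le (Or.inl hn0) (Or.inl hnt)]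
  calc V⁻¹ * I * n = V⁻¹ * (n * I) := by ring
    _ ≤ V⁻¹ * (ENNReal.ofReal ((1 + ε) * ‖ξ‖ ^ 2) * V) := by gcongr
    _ = ENNReal.ofReal ((1 + ε) * ‖ξ‖ ^ 2) * (V⁻¹ * V) := by ring
    _ = _ := by rw [ENNReal.inv_mul_cancel hV0 hVt, mul_one]

/-- **(N1)** in 710's form. -/
theorem n1 (n : ℕ) (hn : 0 < n) {ε : ℝ} (hε : 0 < ε) :
    ∃ c : ℝ, 0 < c ∧ c < 1 ∧ ∀ (M : Type*) [MetricSpace M] [ChartedSpace (EuclideanSpace ℝ (Fin n)) M]
      [IsManifold (𝓡 n) ∞ M] [RiemannianBundle (fun p : M => TangentSpace (𝓡 n) p)]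
      [IsContMDiffRiemannianBundle (𝓡 n) ∞ (EuclideanSpace ℝ (Fin n))
        (fun p : M => TangentSpace (𝓡 n) p)]
      [IsRiemannianManifold (𝓡 n) M] [MeasurableSpace M] [BorelSpace M] [ProperSpace M]
      [SecondCountableTopology M] [Nonempty M] [IsFiniteMeasureOnCompacts (μHE[n] : Measure M)]
      (κ : ℝ) (C : Rad n κ M (μHE[n] : Measure M)) (_ : 0 ≤ κ) (_ : κ ≤ c) (_ : ExM M) (p : M)
      (_ : ENNReal.ofReal ((1 - c) * 8 ^ n) * volume (ball (0 : EuclideanSpace ℝ (Fin n)) 1) ≤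
        μHE[n] (ball p 8)),
      IsProbabilityMeasure (nuf (μHE[n] : Measure M) p) ∧
      ∀ u : M, dist p u ≤ c →
        (∀ ξ : EuclideanSpace ℝ (Fin n),
          ∫ w, (inner ℝ (Gr (n := n) (fun z => dist w z) u) ξ) ^ 2
            ∂(nuf (μHE[n] : Measure M) p) ≤ (1 + ε) * ‖ξ‖ ^ 2 / n) ∧
        ∀ᵐ w ∂(nuf (μHE[n] : Measure M) p),
          MDifferentiableAt (𝓡 n) 𝓘(ℝ) (fun z => dist w z) u ∧
            ‖Gr (n := n) (fun z => dist w z) u‖ = 1 := by
  obtain ⟨c, hc, hc1, hnum, hpos⟩ := exists_const n hn hε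
  refine ⟨c, hc, hc1, ?_⟩
  intro M _ _ _ _ _ _ _ _ _ _ _ _ κ C hκ hκc hm p hvol
  have hprob : IsProbabilityMeasure (nuf (μHE[n] : Measure M) p) := by
    apply nuf_prob
    · intro h
      have h2 := ann_ge C hκ hc hc1 hκc p hvol
      rw [h] at h2
      have h5 := le_antisymm h2 bot_le
      rw [mul_eq_zero] at h5
      rcases h5 with h5 | h5
      · exact absurd h5 (by rw [ENNReal.ofReal_eq_zero]; linarith)
      · exact (isOpen_ball.measure_pos volume ⟨0, mem_ball_self one_pos⟩).ne' h5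
    · refine ne_top_of_le_ne_top (isCompact_closedBall p 8).measure_lt_top.ne (measure_mono ?_)
      rintro w ⟨-, h⟩
      rw [mem_closedBall, dist_comm]; exact h
  refine ⟨hprob, fun u hu => ⟨fun ξ => ?_, ?_⟩⟩
  · apply integral_le_of_lintegral_le (fun w => sq_nonneg _) (by positivity)
    exact n1_lintegral hn hε hc hc1 hnum hpos C hκ hκc hm hu hvol ξ
  · filter_upwards [ae_nuf_of_ae (p := p) (ae_norm_Gr C hm u), ae_nuf_mem _ p] with w h1 h2
    refine h1 ?_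
    rintro rfl
    have := h2.1
    linarith

end Crest.Agent.R247.Iso311
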