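import Mathlib

-- ▼ part R247/Ker1_585
section

/-!
R247 block (2b), helper585: Hilbert-Schmidt kernel operators between `L²` spaces.

`HK ν μ k` : the kernel `k : Y → X → ℝ` is jointly measurable and square integrable for
`ν × μ`.  `kop h : L²(μ) →L L²(ν)` is the operator `f ↦ (y ↦ ∫ k y x f x dμ)`.
-/

set_option autoImplicit false
set_option linter.unusedSectionVars false

noncomputable section

namespace Crest.Agent.R247.Ker585

open MeasureTheory Filter Set
open scoped ENNReal InnerProductSpace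

variable {X Y Z : Type*} [MeasurableSpace X] [MeasurableSpace Y] [MeasurableSpace Z]
  {μ : Measure X} {ν : Measure Y} {lam : Measure Z}

/-- Cauchy-Schwarz for lower Lebesgue integrals. -/
theorem lintegral_mul_sq_le {f g : X → ℝ≥0∞} (hf : AEMeasurable f μ) (hg : AEMeasurable g μ) :
    (∫⁻ x, f x * g x ∂μ) ^ 2 ≤ (∫⁻ x, f x ^ 2 ∂μ) * ∫⁻ x, g x ^ 2 ∂μ := by
  have h := ENNReal.lintegral_mul_le_Lp_mul_Lq μ Real.HolderConjugate.two_two hf hg
  have e : ∀ F : X → ℝ≥0∞, ∫⁻ x, F x ^ (2 : ℝ) ∂μ = ∫⁻ x, F x ^ 2 ∂μ := fun F => by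
    simp
  rw [e, e] at h
  calc (∫⁻ x, f x * g x ∂μ) ^ 2
      ≤ ((∫⁻ x, f x ^ 2 ∂μ) ^ (1 / (2 : ℝ)) * (∫⁻ x, g x ^ 2 ∂μ) ^ (1 / (2 : ℝ))) ^ 2 := by
        gcongr
        exact h
    _ = (∫⁻ x, f x ^ 2 ∂μ) * ∫⁻ x, g x ^ 2 ∂μ := by
        rw [mul_pow, ← ENNReal.rpow_natCast, ← ENNReal.rpow_natCast, ← ENNReal.rpow_mul,
          ← ENNReal.rpow_mul]
        norm_num

/-- squared Hilbert-Schmidt norm of a kernel. -/
def hs2 (ν : Measure Y) (μ : Measure X) (k : Y → X → ℝ) : ℝ≥0∞ :=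
  ∫⁻ y, ∫⁻ x, ‖k y x‖ₑ ^ 2 ∂μ ∂ν

/-- Hilbert-Schmidt kernels. -/
structure HK (ν : Measure Y) (μ : Measure X) (k : Y → X → ℝ) : Prop where
  meas : Measurable (Function.uncurry k)
  fin : hs2 ν μ k < ∞

theorem enorm_integral_sq_le {k : X → ℝ} {f : X → ℝ} (hk : AEStronglyMeasurable k μ)
    (hf : AEStronglyMeasurable f μ) :
    ‖∫ x, k x * f x ∂μ‖ₑ ^ 2 ≤ (∫⁻ x, ‖k x‖ₑ ^ 2 ∂μ) * ∫⁻ x, ‖f x‖ₑ ^ 2 ∂μ := by
  calc ‖∫ x, k x * f x ∂μ‖ₑ ^ 2 ≤ (∫⁻ x, ‖k x * f x‖ₑ ∂μ) ^ 2 := by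
        gcongr
        exact enorm_integral_le_lintegral_enorm _
    _ = (∫⁻ x, ‖k x‖ₑ * ‖f x‖ₑ ∂μ) ^ 2 := by simp_rw [enorm_mul]
    _ ≤ _ := lintegral_mul_sq_le hk.enorm hf.enorm

theorem lintegral_enorm_sq_lt_top {f : X → ℝ} (hf : MemLp f 2 μ) :
    ∫⁻ x, ‖f x‖ₑ ^ 2 ∂μ < ∞ := by
  have := hf.2
  rw [eLpNorm_lt_top_iff_lintegral_rpow_enorm_lt_top (by norm_num) (by norm_num)] at this
  simpa using this

theorem eLpNorm_two_sq {f : X → ℝ} : eLpNorm f 2 μ ^ 2 = ∫⁻ x, ‖f x‖ₑ ^ 2 ∂μ := by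
  rw [eLpNorm_eq_lintegral_rpow_enorm_toReal (by norm_num) (by norm_num)]
  rw [← ENNReal.rpow_natCast, ← ENNReal.rpow_mul]
  norm_num

theorem memLp_two_iff {f : X → ℝ} (hf : AEStronglyMeasurable f μ) :
    MemLp f 2 μ ↔ ∫⁻ x, ‖f x‖ₑ ^ 2 ∂μ < ∞ := by
  refine ⟨lintegral_enorm_sq_lt_top, fun h => ⟨hf, ?_⟩⟩
  rw [eLpNorm_lt_top_iff_lintegral_rpow_enorm_lt_top (by norm_num) (by norm_num)]
  simpa using h

namespace HK

variable {k k' : Y → X → ℝ}

section
variable (h : HK ν μ k)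
include h

theorem meas_left (y : Y) : Measurable (k y) := h.meas.comp measurable_prodMk_left

theorem ae_memLp [SFinite μ] : ∀ᵐ y ∂ν, MemLp (k y) 2 μ := by
  have h1 : Measurable fun y => ∫⁻ x, ‖k y x‖ₑ ^ 2 ∂μ := by
    apply Measurable.lintegral_prod_right
    exact (h.meas.enorm.pow_const 2)
  have h2 := ae_lt_top h1 h.fin.ne
  filter_upwards [h2] with y hy
  exact (memLp_two_iff (h.meas_left y).aestronglyMeasurable).2 hy

theorem stronglyMeasurable_int [SFinite μ] {f : X → ℝ} (hf : StronglyMeasurable f) :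
    StronglyMeasurable fun y => ∫ x, k y x * f x ∂μ := by
  apply StronglyMeasurable.integral_prod_right
  exact (h.meas.stronglyMeasurable).mul (hf.comp_measurable measurable_snd)

theorem lintegral_int_le [SFinite μ] {f : X → ℝ} (hf : AEStronglyMeasurable f μ) :
    ∫⁻ y, ‖∫ x, k y x * f x ∂μ‖ₑ ^ 2 ∂ν ≤ hs2 ν μ k * ∫⁻ x, ‖f x‖ₑ ^ 2 ∂μ := by
  calc ∫⁻ y, ‖∫ x, k y x * f x ∂μ‖ₑ ^ 2 ∂ν
      ≤ ∫⁻ y, (∫⁻ x, ‖k y x‖ₑ ^ 2 ∂μ) * ∫⁻ x, ‖f x‖ₑ ^ 2 ∂μ ∂ν :=
        lintegral_mono fun y => enorm_integral_sq_le (h.meas_left y).aestronglyMeasurable hf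
    _ = _ := by
        rw [lintegral_mul_const]
        · rfl
        · apply Measurable.lintegral_prod_right
          exact (h.meas.enorm.pow_const 2)

theorem memLp_int [SFinite μ] (f : Lp ℝ 2 μ) :
    MemLp (fun y => ∫ x, k y x * f x ∂μ) 2 ν := by
  rw [memLp_two_iff (h.stronglyMeasurable_int (Lp.stronglyMeasurable f)).aestronglyMeasurable]
  refine (h.lintegral_int_le (Lp.aestronglyMeasurable f)).trans_lt ?_
  exact ENNReal.mul_lt_top h.fin (lintegral_enorm_sq_lt_top (Lp.memLp f))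

end

end HK

/-- the kernel operator. -/
def kop [SFinite μ] {k : Y → X → ℝ} (h : HK ν μ k) : Lp ℝ 2 μ →L[ℝ] Lp ℝ 2 ν :=
  LinearMap.mkContinuous
    { toFun := fun f => (h.memLp_int f).toLp _
      map_add' := by
        intro f g
        rw [← MemLp.toLp_add]
        apply MemLp.toLp_congr
        filter_upwards [h.ae_memLp] with y hy
        simp only [Pi.add_apply]
        have e := integral_add (hy.integrable_mul (Lp.memLp f)) (hy.integrable_mul (Lp.memLp g))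
        simp only [Pi.mul_apply] at e
        rw [← e]
        apply integral_congr_ae
        filter_upwards [Lp.coeFn_add f g] with x hx
        rw [hx]
        simp [mul_add]
      map_smul' := by
        intro c f
        rw [← MemLp.toLp_const_smul]
        apply MemLp.toLp_congr
        filter_upwards [] with y
        simp only [Pi.smul_apply, smul_eq_mul, RingHom.id_apply]
        rw [← integral_const_mul]
        apply integral_congr_ae
        filter_upwards [Lp.coeFn_smul c f] with x hx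
        rw [hx]
        simp only [Pi.smul_apply, smul_eq_mul]
        ring }
    (hs2 ν μ k).toReal.sqrt
    (by
      intro f
      simp only [LinearMap.coe_mk, AddHom.coe_mk]
      rw [Lp.norm_toLp, Lp.norm_def]
      have h1 := h.lintegral_int_le (Lp.aestronglyMeasurable f)
      rw [← eLpNorm_two_sq, ← eLpNorm_two_sq] at h1
      have h2 : (eLpNorm (fun y => ∫ x, k y x * f x ∂μ) 2 ν).toReal ^ 2
          ≤ (hs2 ν μ k).toReal * (eLpNorm f 2 μ).toReal ^ 2 := by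
        rw [← ENNReal.toReal_pow, ← ENNReal.toReal_pow, ← ENNReal.toReal_mul]
        apply ENNReal.toReal_mono _ h1
        exact ENNReal.mul_ne_top h.fin.ne (ENNReal.pow_ne_top (Lp.eLpNorm_ne_top f))
      rw [← Real.sqrt_sq (ENNReal.toReal_nonneg (a := eLpNorm f 2 μ)),
        ← Real.sqrt_mul ENNReal.toReal_nonneg]
      exact Real.le_sqrt_of_sq_le h2)

section kop
variable [SFinite μ] {k k' : Y → X → ℝ}

theorem kop_ae (h : HK ν μ k) (f : Lp ℝ 2 μ) :
    kop h f =ᵐ[ν] fun y => ∫ x, k y x * f x ∂μ :=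
  MemLp.coeFn_toLp (h.memLp_int f)

theorem norm_kop_le (h : HK ν μ k) : ‖kop h‖ ≤ (hs2 ν μ k).toReal.sqrt :=
  LinearMap.mkContinuous_norm_le _ (Real.sqrt_nonneg _) _

theorem norm_kop_le' (h : HK ν μ k) {B : ℝ} (hB : 0 ≤ B) (hk : hs2 ν μ k ≤ ENNReal.ofReal (B ^ 2)) :
    ‖kop h‖ ≤ B := by
  refine (norm_kop_le h).trans ?_
  rw [Real.sqrt_le_left hB]
  exact ENNReal.toReal_le_of_le_ofReal (by positivity) hk

theorem kop_toLp (h : HK ν μ k) {f : X → ℝ} (hf : MemLp f 2 μ) :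
    kop h (hf.toLp f) =ᵐ[ν] fun y => ∫ x, k y x * f x ∂μ := by
  refine (kop_ae h _).trans (Eventually.of_forall fun y => ?_)
  apply integral_congr_ae
  filter_upwards [hf.coeFn_toLp] with x hx
  rw [hx]

theorem kop_congr (h : HK ν μ k) (h' : HK ν μ k')
    (e : ∀ᵐ y ∂ν, ∀ᵐ x ∂μ, k y x = k' y x) : kop h = kop h' := by
  ext1 f
  apply Lp.ext
  refine (kop_ae h f).trans (EventuallyEq.trans ?_ (kop_ae h' f).symm)
  filter_upwards [e] with y hy
  apply integral_congr_ae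
  filter_upwards [hy] with x hx
  rw [hx]

end kop

section algebra
variable {k k' : Y → X → ℝ}

theorem HK.of_le {B : ℝ≥0∞} (hm : Measurable (Function.uncurry k)) (hB : B < ∞)
    (hle : hs2 ν μ k ≤ B) : HK ν μ k := ⟨hm, hle.trans_lt hB⟩

theorem hs2_add_le [SFinite μ] (hk : Measurable (Function.uncurry k))
    (hk' : Measurable (Function.uncurry k')) :
    hs2 ν μ (fun y x => k y x + k' y x) ≤ 2 * hs2 ν μ k + 2 * hs2 ν μ k' := by
  have m1 : Measurable fun y => ∫⁻ x, ‖k y x‖ₑ ^ 2 ∂μ := by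
    apply Measurable.lintegral_prod_right
    exact (hk.enorm.pow_const 2)
  unfold hs2
  calc ∫⁻ y, ∫⁻ x, ‖k y x + k' y x‖ₑ ^ 2 ∂μ ∂ν
      ≤ ∫⁻ y, (2 * (∫⁻ x, ‖k y x‖ₑ ^ 2 ∂μ) + 2 * ∫⁻ x, ‖k' y x‖ₑ ^ 2 ∂μ) ∂ν := by
        apply lintegral_mono
        intro y
        have my : Measurable (k y) := hk.comp measurable_prodMk_left
        calc ∫⁻ x, ‖k y x + k' y x‖ₑ ^ 2 ∂μ
            ≤ ∫⁻ x, (2 * ‖k y x‖ₑ ^ 2 + 2 * ‖k' y x‖ₑ ^ 2) ∂μ := by
              apply lintegral_mono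
              intro x
              calc ‖k y x + k' y x‖ₑ ^ 2 ≤ (‖k y x‖ₑ + ‖k' y x‖ₑ) ^ 2 := by
                    gcongr
                    exact enorm_add_le _ _
                _ ≤ 2 * ‖k y x‖ₑ ^ 2 + 2 * ‖k' y x‖ₑ ^ 2 := by
                    have := ENNReal.rpow_add_le_mul_rpow_add_rpow ‖k y x‖ₑ ‖k' y x‖ₑ
                      (p := 2) (by norm_num)
                    norm_num at this
                    rw [← mul_add]
                    exact this
          _ = _ := by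
              rw [lintegral_add_left (by fun_prop), lintegral_const_mul _ (by fun_prop),
                lintegral_const_mul]
              exact ((hk'.comp measurable_prodMk_left).enorm.pow_const 2)
    _ = _ := by
        rw [lintegral_add_left (by fun_prop), lintegral_const_mul _ (by fun_prop),
          lintegral_const_mul]
        apply Measurable.lintegral_prod_right
        exact (hk'.enorm.pow_const 2)

theorem HK.add [SFinite μ] (h : HK ν μ k) (h' : HK ν μ k') :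
    HK ν μ (fun y x => k y x + k' y x) := by
  refine ⟨h.meas.add h'.meas, (hs2_add_le h.meas h'.meas).trans_lt ?_⟩
  have := h.fin
  have := h'.fin
  exact ENNReal.add_lt_top.2 ⟨ENNReal.mul_lt_top (by norm_num) h.fin,
    ENNReal.mul_lt_top (by norm_num) h'.fin⟩

theorem hs2_const_mul (c : ℝ) (hk : Measurable (Function.uncurry k)) [SFinite μ] :
    hs2 ν μ (fun y x => c * k y x) = ‖c‖ₑ ^ 2 * hs2 ν μ k := by
  unfold hs2
  have m1 : Measurable fun y => ∫⁻ x, ‖k y x‖ₑ ^ 2 ∂μ := by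
    apply Measurable.lintegral_prod_right
    exact (hk.enorm.pow_const 2)
  rw [← lintegral_const_mul _ m1]
  congr 1
  ext y
  have my : Measurable (k y) := hk.comp measurable_prodMk_left
  rw [← lintegral_const_mul _ (by fun_prop)]
  simp [enorm_mul, mul_pow]

theorem HK.const_mul [SFinite μ] (c : ℝ) (h : HK ν μ k) : HK ν μ (fun y x => c * k y x) := by
  refine ⟨h.meas.const_mul c, ?_⟩
  rw [hs2_const_mul c h.meas]
  exact ENNReal.mul_lt_top (ENNReal.pow_lt_top enorm_lt_top) h.fin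

theorem HK.sub [SFinite μ] (h : HK ν μ k) (h' : HK ν μ k') :
    HK ν μ (fun y x => k y x - k' y x) := by
  have := h.add (h'.const_mul (-1))
  refine ⟨h.meas.sub h'.meas, ?_⟩
  have e := this.fin
  simpa [sub_eq_add_neg] using e

theorem kop_add [SFinite μ] (h : HK ν μ k) (h' : HK ν μ k') :
    kop (h.add h') = kop h + kop h' := by
  ext1 f
  apply Lp.ext
  refine (kop_ae _ f).trans ?_
  rw [add_apply]
  refine EventuallyEq.trans ?_ (Lp.coeFn_add _ _).symm
  filter_upwards [kop_ae h f, kop_ae h' f, h.ae_memLp, h'.ae_memLp] with y e1 e2 h1 h2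
  rw [Pi.add_apply, e1, e2]
  have e := integral_add (h1.integrable_mul (Lp.memLp f)) (h2.integrable_mul (Lp.memLp f))
  simp only [Pi.mul_apply] at e
  rw [← e]
  simp [add_mul]

theorem kop_const_mul [SFinite μ] (c : ℝ) (h : HK ν μ k) :
    kop (h.const_mul c) = c • kop h := by
  ext1 f
  apply Lp.ext
  refine (kop_ae _ f).trans ?_
  rw [smul_apply]
  refine EventuallyEq.trans ?_ (Lp.coeFn_smul _ _).symm
  filter_upwards [kop_ae h f] with y e1
  rw [Pi.smul_apply, e1, smul_eq_mul, ← integral_const_mul]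
  simp [mul_assoc]

theorem kop_sub [SFinite μ] (h : HK ν μ k) (h' : HK ν μ k') :
    kop (h.sub h') = kop h - kop h' := by
  have e := kop_add h (h'.const_mul (-1))
  rw [kop_const_mul (-1) h'] at e
  rw [sub_eq_add_neg, ← neg_one_smul ℝ (kop h'), ← e]
  apply kop_congr
  exact Eventually.of_forall fun y => Eventually.of_forall fun x => by ring

end algebra

end Crest.Agent.R247.Ker585
end
end

-- ▼ part R247/Ker2_585

/-!
R247 block (2b), helper585: adjoint, composition, Bessel inequality for kernel operators.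
-/

set_option autoImplicit false
set_option linter.unusedSectionVars false

noncomputable section

namespace Crest.Agent.R247.Ker585

open MeasureTheory Filter Set
open scoped ENNReal InnerProductSpace

variable {X Y Z : Type*} [MeasurableSpace X] [MeasurableSpace Y] [MeasurableSpace Z]
  {μ : Measure X} {ν : Measure Y} {lam : Measure Z}

theorem hs2_eq_prod [SFinite μ] {k : Y → X → ℝ} (hk : Measurable (Function.uncurry k)) :
    hs2 ν μ k = ∫⁻ p, ‖k p.1 p.2‖ₑ ^ 2 ∂(ν.prod μ) := by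
  unfold hs2
  rw [lintegral_prod]
  exact (hk.enorm.pow_const 2).aemeasurable

theorem hs2_swap [SFinite μ] [SFinite ν] {k : Y → X → ℝ}
    (hk : Measurable (Function.uncurry k)) :
    hs2 μ ν (fun x y => k y x) = hs2 ν μ k := by
  unfold hs2
  rw [lintegral_lintegral_swap]
  exact ((hk.comp measurable_swap).enorm.pow_const 2).aemeasurable

theorem HK.memLp_prod [SFinite μ] {k : Y → X → ℝ} (h : HK ν μ k) :
    MemLp (fun p : Y × X => k p.1 p.2) 2 (ν.prod μ) := by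
  rw [memLp_two_iff]
  · rw [← hs2_eq_prod h.meas]
    exact h.fin
  · exact h.meas.aestronglyMeasurable

theorem HK.swap [SFinite μ] [SFinite ν] {k : Y → X → ℝ} (h : HK ν μ k) :
    HK μ ν (fun x y => k y x) := by
  refine ⟨h.meas.comp measurable_swap, ?_⟩
  rw [hs2_swap h.meas]
  exact h.fin

theorem memLp_tensor [SFinite μ] [SFinite ν] {f : X → ℝ} {g : Y → ℝ} (hf : MemLp f 2 μ)
    (hg : MemLp g 2 ν) : MemLp (fun p : Y × X => g p.1 * f p.2) 2 (ν.prod μ) := by
  have m : AEStronglyMeasurable (fun p : Y × X => g p.1 * f p.2) (ν.prod μ) :=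
    hg.1.comp_fst.mul hf.1.comp_snd
  rw [memLp_two_iff m, lintegral_prod _ (m.enorm.pow_const 2)]
  have e : ∀ y, ∫⁻ x, ‖g y * f x‖ₑ ^ 2 ∂μ = ‖g y‖ₑ ^ 2 * ∫⁻ x, ‖f x‖ₑ ^ 2 ∂μ := by
    intro y
    rw [← lintegral_const_mul'' _ (hf.1.enorm.pow_const 2)]
    simp [enorm_mul, mul_pow]
  simp_rw [e]
  rw [lintegral_mul_const'' _ (hg.1.enorm.pow_const 2)]
  exact ENNReal.mul_lt_top (lintegral_enorm_sq_lt_top hg) (lintegral_enorm_sq_lt_top hf)

theorem HK.integrable_tri [SFinite μ] [SFinite ν] {k : Y → X → ℝ} (h : HK ν μ k) {f : X → ℝ}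
    {g : Y → ℝ} (hf : MemLp f 2 μ) (hg : MemLp g 2 ν) :
    Integrable (fun p : Y × X => g p.1 * (k p.1 p.2 * f p.2)) (ν.prod μ) := by
  have := h.memLp_prod.integrable_mul (memLp_tensor hf hg)
  refine this.congr (Eventually.of_forall fun p => ?_)
  simp only [Pi.mul_apply]
  ring

/-- The bilinear form of a kernel operator. -/
theorem inner_kop_toLp [SFinite μ] [SFinite ν] {k : Y → X → ℝ} (h : HK ν μ k) {f : X → ℝ}
    {g : Y → ℝ} (hf : MemLp f 2 μ) (hg : MemLp g 2 ν) :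
    ⟪hg.toLp g, kop h (hf.toLp f)⟫_ℝ = ∫ y, ∫ x, g y * (k y x * f x) ∂μ ∂ν := by
  rw [L2.inner_def]
  apply integral_congr_ae
  filter_upwards [hg.coeFn_toLp, kop_toLp h hf] with y e1 e2
  rw [e1, e2, integral_const_mul]
  exact mul_comm _ _

theorem inner_kop [SFinite μ] [SFinite ν] {k : Y → X → ℝ} (h : HK ν μ k) (f : Lp ℝ 2 μ)
    (g : Lp ℝ 2 ν) : ⟪g, kop h f⟫_ℝ = ∫ y, ∫ x, g y * (k y x * f x) ∂μ ∂ν := by
  have := inner_kop_toLp h (Lp.memLp f) (Lp.memLp g)
  simpa using this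

theorem inner_kop_swap [SFinite μ] [SFinite ν] {k : Y → X → ℝ} (h : HK ν μ k) (f : Lp ℝ 2 μ)
    (g : Lp ℝ 2 ν) : ⟪kop h.swap g, f⟫_ℝ = ⟪g, kop h f⟫_ℝ := by
  rw [real_inner_comm, inner_kop h f g, inner_kop h.swap g f]
  have hi := h.integrable_tri (Lp.memLp f) (Lp.memLp g)
  rw [integral_integral_swap]
  · apply integral_congr_ae
    refine Eventually.of_forall fun y => ?_
    apply integral_congr_ae
    refine Eventually.of_forall fun x => ?_
    simp only
    ring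
  · refine hi.swap.congr (Eventually.of_forall fun p => ?_)
    simp only [Function.comp_apply, Prod.swap, Function.uncurry]
    ring

theorem adjoint_kop [SFinite μ] [SFinite ν] {k : Y → X → ℝ} (h : HK ν μ k) :
    ContinuousLinearMap.adjoint (kop h) = kop h.swap := by
  symm
  rw [ContinuousLinearMap.eq_adjoint_iff]
  intro g f
  rw [inner_kop_swap]

theorem isSelfAdjoint_kop [SFinite μ] {k : X → X → ℝ} (h : HK μ μ k)
    (hs : ∀ x y, k x y = k y x) : IsSelfAdjoint (kop h) := by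
  rw [ContinuousLinearMap.isSelfAdjoint_iff', adjoint_kop]
  apply kop_congr
  exact Eventually.of_forall fun y => Eventually.of_forall fun x => hs x y

/-! ### composition -/

/-- composition kernel -/
def kcomp (ν : Measure Y) (k₁ : Z → Y → ℝ) (k₂ : Y → X → ℝ) : Z → X → ℝ :=
  fun z x => ∫ y, k₁ z y * k₂ y x ∂ν

theorem measurable_kcomp [SFinite ν] {k₁ : Z → Y → ℝ} {k₂ : Y → X → ℝ}
    (h₁ : Measurable (Function.uncurry k₁)) (h₂ : Measurable (Function.uncurry k₂)) :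
    Measurable (Function.uncurry (kcomp ν k₁ k₂)) := by
  have : StronglyMeasurable fun p : Z × X => ∫ y, k₁ p.1 y * k₂ y p.2 ∂ν := by
    apply StronglyMeasurable.integral_prod_right
    apply Measurable.stronglyMeasurable
    have e1 : Measurable fun q : (Z × X) × Y => k₁ q.1.1 q.2 :=
      h₁.comp ((measurable_fst.comp measurable_fst).prodMk measurable_snd)
    have e2 : Measurable fun q : (Z × X) × Y => k₂ q.2 q.1.2 :=
      h₂.comp (measurable_snd.prodMk (measurable_snd.comp measurable_fst))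
    exact e1.mul e2
  exact this.measurable

theorem hs2_kcomp_le [SFinite μ] [SFinite ν] {k₁ : Z → Y → ℝ} {k₂ : Y → X → ℝ}
    (h₁ : Measurable (Function.uncurry k₁)) (h₂ : Measurable (Function.uncurry k₂)) :
    hs2 lam μ (kcomp ν k₁ k₂) ≤ hs2 lam ν k₁ * hs2 ν μ k₂ := by
  have m1 : Measurable fun z => ∫⁻ y, ‖k₁ z y‖ₑ ^ 2 ∂ν := by
    apply Measurable.lintegral_prod_right
    exact (h₁.enorm.pow_const 2)
  have m2 : Measurable fun x => ∫⁻ y, ‖k₂ y x‖ₑ ^ 2 ∂ν := by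
    apply Measurable.lintegral_prod_right (f := fun (x : X) (y : Y) => ‖k₂ y x‖ₑ ^ 2)
    exact ((h₂.comp measurable_swap).enorm.pow_const 2)
  calc hs2 lam μ (kcomp ν k₁ k₂)
      ≤ ∫⁻ z, ∫⁻ x, (∫⁻ y, ‖k₁ z y‖ₑ ^ 2 ∂ν) * (∫⁻ y, ‖k₂ y x‖ₑ ^ 2 ∂ν) ∂μ ∂lam := by
        unfold hs2
        apply lintegral_mono
        intro z
        apply lintegral_mono
        intro x
        exact enorm_integral_sq_le (h₁.comp measurable_prodMk_left).aestronglyMeasurable
          (h₂.comp measurable_prodMk_right).aestronglyMeasurable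
    _ = ∫⁻ z, (∫⁻ y, ‖k₁ z y‖ₑ ^ 2 ∂ν) * (∫⁻ x, ∫⁻ y, ‖k₂ y x‖ₑ ^ 2 ∂ν ∂μ) ∂lam := by
        congr 1
        ext z
        rw [lintegral_const_mul _ m2]
    _ = hs2 lam ν k₁ * (∫⁻ x, ∫⁻ y, ‖k₂ y x‖ₑ ^ 2 ∂ν ∂μ) := by
        rw [lintegral_mul_const _ m1]
        rfl
    _ = hs2 lam ν k₁ * hs2 ν μ k₂ := by
        rw [show (∫⁻ x, ∫⁻ y, ‖k₂ y x‖ₑ ^ 2 ∂ν ∂μ) = hs2 μ ν (fun x y => k₂ y x) from rfl,
          hs2_swap h₂]

theorem HK.comp [SFinite μ] [SFinite ν] {k₁ : Z → Y → ℝ} {k₂ : Y → X → ℝ}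
    (h₁ : HK lam ν k₁) (h₂ : HK ν μ k₂) : HK lam μ (kcomp ν k₁ k₂) :=
  ⟨measurable_kcomp h₁.meas h₂.meas,
    (hs2_kcomp_le h₁.meas h₂.meas).trans_lt (ENNReal.mul_lt_top h₁.fin h₂.fin)⟩

theorem kop_comp [SFinite μ] [SFinite ν] {k₁ : Z → Y → ℝ} {k₂ : Y → X → ℝ}
    (h₁ : HK lam ν k₁) (h₂ : HK ν μ k₂) : kop h₁ ∘L kop h₂ = kop (h₁.comp h₂) := by
  ext1 f
  apply Lp.ext
  rw [ContinuousLinearMap.comp_apply]
  refine (kop_ae h₁ _).trans (EventuallyEq.trans ?_ (kop_ae _ f).symm)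
  filter_upwards [h₁.ae_memLp] with z hz
  have hi := h₂.integrable_tri (Lp.memLp f) hz
  calc ∫ y, k₁ z y * kop h₂ f y ∂ν = ∫ y, ∫ x, k₁ z y * (k₂ y x * f x) ∂μ ∂ν := by
        apply integral_congr_ae
        filter_upwards [kop_ae h₂ f] with y hy
        rw [hy, ← integral_const_mul]
    _ = ∫ x, ∫ y, k₁ z y * (k₂ y x * f x) ∂ν ∂μ := integral_integral_swap hi
    _ = ∫ x, kcomp ν k₁ k₂ z x * f x ∂μ := by
        congr 1
        ext x
        unfold kcomp
        rw [← integral_mul_const]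
        simp only [mul_assoc]

end Crest.Agent.R247.Ker585
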