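import Crest.Agent.R247.Kt1_622
import Crest.Agent.R247.Dir6_593

-- ▼ part R247/Kt2_622
section

/-!
R247, block (1-K) (helper622): exponential (Agmon) decay of solutions of the homogeneous
equation `ρ² E(v,p) + ⟪v,p⟫ = 0` for `p` vanishing off an open set, over 593's `GradS`.
-/

set_option autoImplicit false
set_option linter.unusedSectionVars false

open MeasureTheory Filter Topology Set
open scoped RealInnerProductSpace ENNReal NNReal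

noncomputable section

namespace Crest.Agent.R247.Kt622

open Crest.Agent.R247.Dir593 Crest.Agent.R247.Dir593.GradS

/-! ### the weight -/

/-- `sinh (t⁺ / c) / c` -/
def sh (c t : ℝ) : ℝ := Real.sinh (max t 0 / c) / c

/-- `cosh (t⁺ / c) - 1` -/
def ch (c t : ℝ) : ℝ := Real.cosh (max t 0 / c) - 1

lemma continuous_sh (c : ℝ) : Continuous (sh c) := by
  unfold sh
  exact (Real.continuous_sinh.comp ((continuous_id.max continuous_const).div_const c)).div_const c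

lemma sh_nonneg {c : ℝ} (hc : 0 < c) (t : ℝ) : 0 ≤ sh c t := by
  unfold sh
  exact div_nonneg (Real.sinh_nonneg_iff.2 (div_nonneg (le_max_right _ _) hc.le)) hc.le

lemma ch_nonneg (c t : ℝ) : 0 ≤ ch c t := by
  unfold ch
  linarith [Real.one_le_cosh (max t 0 / c)]

lemma prim_sh {c : ℝ} (hc : 0 < c) (t : ℝ) : prim (sh c) t = ch c t := by
  rcases le_total 0 t with h | h
  · have h1 : ∀ s ∈ uIcc (0:ℝ) t, HasDerivAt (fun s => Real.cosh (s / c)) (sh c s) s := by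
      intro s hs
      rw [uIcc_of_le h] at hs
      have h2 := ((hasDerivAt_id s).div_const c).cosh
      refine h2.congr_deriv ?_
      unfold sh
      rw [max_eq_left hs.1]
      simp only [id]
      ring
    unfold prim
    rw [intervalIntegral.integral_eq_sub_of_hasDerivAt h1
      ((continuous_sh c).intervalIntegrable _ _)]
    unfold ch
    rw [max_eq_left h, zero_div, Real.cosh_zero]
  · unfold prim ch
    rw [max_eq_right h, zero_div, Real.cosh_zero, sub_self]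
    have e : ∫ s in (0:ℝ)..t, sh c s = ∫ s in (0:ℝ)..t, (0:ℝ) := by
      refine intervalIntegral.integral_congr fun s hs => ?_
      rw [uIcc_of_ge h] at hs
      simp only [sh]
      rw [max_eq_right hs.2, zero_div, Real.sinh_zero, zero_div]
    rw [e]; simp

lemma ch_eq {c : ℝ} (hc : 0 < c) : ch c = prim (sh c) := funext fun t => (prim_sh hc t).symm

lemma hasDerivAt_ch {c : ℝ} (hc : 0 < c) (t : ℝ) : HasDerivAt (ch c) (sh c t) t := by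
  rw [ch_eq hc]; exact hasDerivAt_prim (continuous_sh c) t

lemma contDiff_ch {c : ℝ} (hc : 0 < c) : ContDiff ℝ 1 (ch c) := by
  rw [ch_eq hc]; exact contDiff_prim (continuous_sh c)


lemma ch_mono {c : ℝ} (hc : 0 < c) : Monotone (ch c) := by
  rw [ch_eq hc]; exact monotone_prim (continuous_sh c) (sh_nonneg hc)

lemma sh_mono {c : ℝ} (hc : 0 < c) : Monotone (sh c) := by
  intro s t hst
  unfold sh
  have : max s 0 / c ≤ max t 0 / c := by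
    have := max_le_max hst (le_refl (0:ℝ))
    gcongr
  have h2 := Real.sinh_le_sinh.2 this
  gcongr

lemma ch_of_nonpos {c t : ℝ} (ht : t ≤ 0) : ch c t = 0 := by
  unfold ch; rw [max_eq_right ht, zero_div, Real.cosh_zero, sub_self]

lemma sh_le {c : ℝ} (hc : 0 < c) (t : ℝ) : sh c t ≤ (ch c t + 1) / c := by
  unfold sh ch
  rw [sub_add_cancel]
  have := (Real.sinh_lt_cosh (max t 0 / c)).le
  gcongr

section Ag

variable {X : Type*} [MetricSpace X] [MeasurableSpace X] [BorelSpace X] {F : Type*}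
  [NormedAddCommGroup F] [InnerProductSpace ℝ F] {μ : Measure X} [IsFiniteMeasureOnCompacts μ]
  (S : GradS X F μ)

set_option maxHeartbeats 1000000 in
/-- **Exponential decay.**  If `v` solves the homogeneous equation on `{ζ > 0}` (`ζ` 1-Lipschitz)
then `v` and its gradient are exponentially small on `{ζ ≥ a}`. -/
theorem agmon {v : Lp ℝ 2 μ} (hv : v ∈ S.V) {ρ : ℝ} (hρ : 0 < ρ) {ζ : X → ℝ}
    (hζ : LipschitzWith 1 ζ)
    (heq : ∀ p ∈ S.V, (∀ᵐ x ∂μ, ζ x ≤ 0 → p x = 0) → ρ ^ 2 * ⟪S.D v, S.D p⟫ + ⟪v, p⟫ = 0)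
    {a : ℝ} (ha : 0 < a) :
    ch (4 * ρ) a ^ 2 * ∫ x in {x | a ≤ ζ x}, v x ^ 2 ∂μ ≤ ‖v‖ ^ 2 ∧
    ch (4 * ρ) a ^ 2 * (ρ ^ 2 * ∫ x in {x | a ≤ ζ x}, ‖S.D v x‖ ^ 2 ∂μ) ≤ ‖v‖ ^ 2 := by
  set c : ℝ := 4 * ρ with hc
  have hc0 : 0 < c := by positivity
  set z : X → ℝ := fun x => min (ζ x) a with hz
  have hzL : LipschitzWith 1 z := hζ.min_const a
  have hza : ∀ x, z x ≤ a := fun x => min_le_right _ _
  -- gradient of `z`
  have hGz : ∀ᵐ x ∂μ, ‖S.G z x‖ ≤ 1 := by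
    filter_upwards [S.norm_le hzL.locallyLipschitz isOpen_univ hzL.lipschitzOnWith] with x hx
    simpa using hx (mem_univ x)
  set M : ℝ := ch c a with hM
  have hM0 : 0 ≤ M := ch_nonneg _ _
  have hchM : ∀ x, ch c (z x) ≤ M := fun x => ch_mono hc0 (hza x)
  set M' : ℝ := sh c a with hM'
  have hM'0 : 0 ≤ M' := sh_nonneg hc0 _
  have hshM : ∀ x, sh c (z x) ≤ M' := fun x => sh_mono hc0 (hza x)
  -- the multiplier `P = ch² ∘ z`
  set P : X → ℝ := fun x => ch c (z x) ^ 2 with hP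
  have hcd : ContDiff ℝ 1 (fun t => ch c t ^ 2) := (contDiff_ch hc0).pow 2
  have hPd : ∀ t, deriv (fun t => ch c t ^ 2) t = 2 * ch c t * sh c t := fun t => by
    have h1 : HasDerivAt (fun t => ch c t ^ 2) (((2:ℕ):ℝ) * ch c t ^ (2 - 1) * sh c t) t :=
      (hasDerivAt_ch hc0 t).pow 2
    rw [h1.deriv]; norm_num
  have hGP : ∀ᵐ x ∂μ, S.G P x = (2 * ch c (z x) * sh c (z x)) • S.G z x := by
    filter_upwards [S.comp hzL.locallyLipschitz hcd] with x hx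
    rw [hx, hPd]
  have hPll : LocallyLipschitz P := hcd.locallyLipschitz.comp hzL.locallyLipschitz
  set CC : ℝ := max (M ^ 2) (2 * M * M') with hCC
  have hCC0 : 0 ≤ CC := le_max_of_le_left (sq_nonneg M)
  have hPb : ∀ᵐ x ∂μ, |P x| ≤ CC := Eventually.of_forall fun x => by
    rw [abs_of_nonneg (sq_nonneg _)]
    refine le_trans ?_ (le_max_left _ _)
    exact pow_le_pow_left₀ (ch_nonneg _ _) (hchM x) 2
  have hPG : ∀ᵐ x ∂μ, ‖S.G P x‖ ≤ CC := by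
    filter_upwards [hGP, hGz] with x h1 h2
    rw [h1, norm_smul, Real.norm_eq_abs, abs_of_nonneg (by
      have := ch_nonneg c (z x)
      have := sh_nonneg hc0 (z x)
      positivity)]
    refine le_trans ?_ (le_max_right _ _)
    have e1 := ch_nonneg c (z x)
    have e2 := sh_nonneg hc0 (z x)
    calc 2 * ch c (z x) * sh c (z x) * ‖S.G z x‖ ≤ 2 * M * M' * 1 := by
          gcongr
          · exact hchM x
          · exact hshM x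
      _ = _ := by ring
  have hPm : AEStronglyMeasurable P μ := hPll.continuous.aestronglyMeasurable
  set p : Lp ℝ 2 μ := (memLp_smul hPm hPb v).toLp _ with hp
  have hpc : (p : X → ℝ) =ᵐ[μ] fun x => P x * v x := MemLp.coeFn_toLp (memLp_smul hPm hPb v)
  obtain ⟨hpV, hDp⟩ := S.D_mul_lip hv hPll hCC0 hPb hPG hpc
  have h0 := heq p hpV (by
    filter_upwards [hpc] with x h1 h2
    rw [h1, hP]
    simp only
    rw [ch_of_nonpos ((min_le_left _ _).trans h2)]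
    ring)
  -- the integrals
  have hv2 : Integrable (fun x => v x ^ 2) μ := by
    refine (integrable_normSq v).congr (Eventually.of_forall fun x => ?_)
    simp
  have hD2 : Integrable (fun x => ‖S.D v x‖ ^ 2) μ := integrable_normSq (S.D v)
  have hIv : Integrable (fun x => P x * v x ^ 2) μ :=
    hv2.bdd_mul (c := CC) hPm (hPb.mono fun x hx => by rwa [Real.norm_eq_abs])
  have hID : Integrable (fun x => P x * ‖S.D v x‖ ^ 2) μ :=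
    hD2.bdd_mul (c := CC) hPm (hPb.mono fun x hx => by rwa [Real.norm_eq_abs])
  have e1 : (⟪v, p⟫ : ℝ) = ∫ x, P x * v x ^ 2 ∂μ := by
    rw [inner_eq_integral]
    refine integral_congr_ae ?_
    filter_upwards [hpc] with x h1
    rw [h1]; ring
  have hIX : Integrable (fun x => (⟪S.D v x, S.D p x⟫ : ℝ)) μ :=
    L2.integrable_inner (𝕜 := ℝ) (S.D v) (S.D p)
  have e2 : (⟪S.D v, S.D p⟫ : ℝ) = ∫ x, (⟪S.D v x, S.D p x⟫ : ℝ) ∂μ := L2.inner_def _ _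
  -- pointwise bound
  have hpt : ∀ᵐ x ∂μ, (1/2 : ℝ) * (P x * ‖S.D v x‖ ^ 2) - 2 * (sh c (z x) ^ 2 * v x ^ 2) ≤
      ⟪S.D v x, S.D p x⟫ := by
    filter_upwards [hDp, hGP, hGz] with x h1 h2 h3
    rw [h1, inner_add_right, real_inner_smul_right, real_inner_self_eq_norm_sq,
      real_inner_smul_right, h2, real_inner_smul_right]
    have h4 := abs_real_inner_le_norm (S.D v x) (S.G z x)
    have h5 : |(⟪S.D v x, S.G z x⟫ : ℝ)| ≤ ‖S.D v x‖ := h4.trans (by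
      calc ‖S.D v x‖ * ‖S.G z x‖ ≤ ‖S.D v x‖ * 1 := by gcongr
        _ = _ := mul_one _)
    set A : ℝ := ch c (z x) with hA
    set B : ℝ := sh c (z x) with hB
    set d : ℝ := ‖S.D v x‖ with hd
    set i : ℝ := ⟪S.D v x, S.G z x⟫ with hi
    have hA0 : 0 ≤ A := ch_nonneg _ _
    have hB0 : 0 ≤ B := sh_nonneg hc0 _
    have hPx : P x = A ^ 2 := rfl
    rw [hPx]
    have h6 : -(A * d * (2 * B * |v x|)) ≤ v x * (2 * A * B * i) := by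
      have h7 : |v x * (2 * A * B * i)| ≤ A * d * (2 * B * |v x|) := by
        rw [abs_mul, abs_mul, abs_of_nonneg (by positivity : 0 ≤ 2 * A * B)]
        calc |v x| * (2 * A * B * |i|) ≤ |v x| * (2 * A * B * d) := by gcongr
          _ = _ := by ring
      exact (abs_le.1 h7).1
    have h8 : A * d * (2 * B * |v x|) ≤ 1 / 2 * (A * d) ^ 2 + 1 / 2 * (2 * B * |v x|) ^ 2 := by
      nlinarith [sq_nonneg (A * d - 2 * B * |v x|)]
    have h9 : (2 * B * |v x|) ^ 2 = 4 * (B ^ 2 * v x ^ 2) := by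
      rw [mul_pow, mul_pow, sq_abs]; ring
    rw [h9] at h8
    nlinarith
  have hsv : Integrable (fun x => sh c (z x) ^ 2 * v x ^ 2) μ := by
    refine hv2.bdd_mul (c := M' ^ 2) ?_ (Eventually.of_forall fun x => ?_)
    · exact ((continuous_sh c).comp hzL.continuous).pow 2 |>.aestronglyMeasurable
    · rw [Real.norm_eq_abs, abs_of_nonneg (sq_nonneg _)]
      exact pow_le_pow_left₀ (sh_nonneg hc0 _) (hshM x) 2
  have h3 : (1/2 : ℝ) * ∫ x, P x * ‖S.D v x‖ ^ 2 ∂μ - 2 * ∫ x, sh c (z x) ^ 2 * v x ^ 2 ∂μ ≤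
      ⟪S.D v, S.D p⟫ := by
    rw [e2, ← integral_const_mul, ← integral_const_mul, ← integral_sub (hID.const_mul _)
      (hsv.const_mul _)]
    exact integral_mono_ae ((hID.const_mul _).sub (hsv.const_mul _)) hIX hpt
  -- `ρ² sh² ≤ (ch² + 1)/8`
  have h4 : ρ ^ 2 * ∫ x, sh c (z x) ^ 2 * v x ^ 2 ∂μ ≤
      1 / 8 * ∫ x, P x * v x ^ 2 ∂μ + 1 / 8 * ∫ x, v x ^ 2 ∂μ := by
    rw [← integral_const_mul, ← integral_const_mul, ← integral_const_mul,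
      ← integral_add (hIv.const_mul _) (hv2.const_mul _)]
    refine integral_mono_ae (hsv.const_mul _) ((hIv.const_mul _).add (hv2.const_mul _))
      (Eventually.of_forall fun x => ?_)
    show ρ ^ 2 * (sh c (z x) ^ 2 * v x ^ 2) ≤ 1 / 8 * (P x * v x ^ 2) + 1 / 8 * v x ^ 2
    have h5 := sh_le hc0 (z x)
    have h6 : sh c (z x) ^ 2 ≤ ((ch c (z x) + 1) / c) ^ 2 :=
      pow_le_pow_left₀ (sh_nonneg hc0 _) h5 2
    have h7 : ρ ^ 2 * sh c (z x) ^ 2 ≤ (ch c (z x) + 1) ^ 2 / 16 := by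
      calc ρ ^ 2 * sh c (z x) ^ 2 ≤ ρ ^ 2 * ((ch c (z x) + 1) / c) ^ 2 := by gcongr
        _ = _ := by rw [hc]; field_simp; ring
    have h8 : (ch c (z x) + 1) ^ 2 ≤ 2 * (P x + 1) := by
      show (ch c (z x) + 1) ^ 2 ≤ 2 * (ch c (z x) ^ 2 + 1)
      nlinarith [sq_nonneg (ch c (z x) - 1)]
    have h9 : 0 ≤ v x ^ 2 := sq_nonneg _
    nlinarith
  -- conclusion
  set IV := ∫ x, P x * v x ^ 2 ∂μ with hIVd
  set ID := ∫ x, P x * ‖S.D v x‖ ^ 2 ∂μ with hIDd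
  have hn : ∫ x, v x ^ 2 ∂μ = ‖v‖ ^ 2 := by
    rw [normSq]
    refine integral_congr_ae (Eventually.of_forall fun x => ?_)
    simp
  rw [hn] at h4
  rw [e1] at h0
  have hID0 : 0 ≤ ID := integral_nonneg fun x => by
    show 0 ≤ P x * ‖S.D v x‖ ^ 2
    have : 0 ≤ P x := sq_nonneg _
    positivity
  have hIV0 : 0 ≤ IV := integral_nonneg fun x => by
    show 0 ≤ P x * v x ^ 2
    have : 0 ≤ P x := sq_nonneg _
    positivity
  have h5 : ρ ^ 2 * (1 / 2 * ID - 2 * ∫ x, sh c (z x) ^ 2 * v x ^ 2 ∂μ) ≤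
      ρ ^ 2 * ⟪S.D v, S.D p⟫ := by
    have : 0 ≤ ρ ^ 2 := sq_nonneg _
    gcongr
  have h6 : ρ ^ 2 * (1 / 2 * ID) + 3 / 4 * IV ≤ 1 / 4 * ‖v‖ ^ 2 := by
    rw [mul_sub] at h5
    have e9 : ρ ^ 2 * (2 * ∫ x, sh c (z x) ^ 2 * v x ^ 2 ∂μ) =
        2 * (ρ ^ 2 * ∫ x, sh c (z x) ^ 2 * v x ^ 2 ∂μ) := by ring
    rw [e9] at h5
    linarith
  -- lower bounds of the integrals
  have hms : MeasurableSet {x | a ≤ ζ x} := measurableSet_le measurable_const hζ.continuous.measurable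
  have hPM : ∀ x ∈ {x | a ≤ ζ x}, P x = M ^ 2 := by
    intro x hx
    show ch c (min (ζ x) a) ^ 2 = ch c a ^ 2
    rw [min_eq_right hx]
  have h7 : M ^ 2 * ∫ x in {x | a ≤ ζ x}, v x ^ 2 ∂μ ≤ IV := by
    rw [← integral_const_mul]
    calc ∫ x in {x | a ≤ ζ x}, M ^ 2 * v x ^ 2 ∂μ = ∫ x in {x | a ≤ ζ x}, P x * v x ^ 2 ∂μ := by
          refine setIntegral_congr_fun hms fun x hx => ?_
          show M ^ 2 * v x ^ 2 = P x * v x ^ 2
          rw [hPM x hx]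
      _ ≤ IV := setIntegral_le_integral hIv (Eventually.of_forall fun x => by
          show 0 ≤ P x * v x ^ 2
          have : 0 ≤ P x := sq_nonneg _
          positivity)
  have h8 : M ^ 2 * ∫ x in {x | a ≤ ζ x}, ‖S.D v x‖ ^ 2 ∂μ ≤ ID := by
    rw [← integral_const_mul]
    calc ∫ x in {x | a ≤ ζ x}, M ^ 2 * ‖S.D v x‖ ^ 2 ∂μ =
          ∫ x in {x | a ≤ ζ x}, P x * ‖S.D v x‖ ^ 2 ∂μ := by
          refine setIntegral_congr_fun hms fun x hx => ?_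
          show M ^ 2 * ‖S.D v x‖ ^ 2 = P x * ‖S.D v x‖ ^ 2
          rw [hPM x hx]
      _ ≤ ID := setIntegral_le_integral hID (Eventually.of_forall fun x => by
          show 0 ≤ P x * ‖S.D v x‖ ^ 2
          have : 0 ≤ P x := sq_nonneg _
          positivity)
  have hρ2 : 0 < ρ ^ 2 := by positivity
  have hnv : 0 ≤ ‖v‖ ^ 2 := sq_nonneg _
  constructor
  · have h9 : 0 ≤ ρ ^ 2 * (1 / 2 * ID) := by positivity
    linarith
  · calc M ^ 2 * (ρ ^ 2 * ∫ x in {x | a ≤ ζ x}, ‖S.D v x‖ ^ 2 ∂μ)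
        = ρ ^ 2 * (M ^ 2 * ∫ x in {x | a ≤ ζ x}, ‖S.D v x‖ ^ 2 ∂μ) := by ring
      _ ≤ ρ ^ 2 * ID := by gcongr
      _ ≤ ‖v‖ ^ 2 := by
          have e9 : ρ ^ 2 * (1 / 2 * ID) = 1 / 2 * (ρ ^ 2 * ID) := by ring
          rw [e9] at h6
          linarith

end Ag

end Crest.Agent.R247.Kt622
end
end

-- ▼ part R247/Kt3_622
section

/-!
R247, block (1-K) (helper622): the chain of estimates for `q`, `S'`, `k`, `|dk|` weighted by
`φ' = R_{ρ/2} Ψ`, from the `k`-equation, over 593's `GradS` and resolvents.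
-/

set_option autoImplicit false
set_option linter.unusedSectionVars false
set_option linter.unusedVariables false

open MeasureTheory Filter Topology Set
open scoped RealInnerProductSpace ENNReal NNReal

noncomputable section

namespace Crest.Agent.R247.Kt622

open Crest.Agent.R247.Dir593 Crest.Agent.R247.Dir593.GradS Crest.Agent.R242

section Chain

variable {X : Type*} [MetricSpace X] [MeasurableSpace X] [BorelSpace X] {F : Type*}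
  [NormedAddCommGroup F] [InnerProductSpace ℝ F] [CompleteSpace F] {μ : Measure X}
  [IsFiniteMeasureOnCompacts μ]

/-- inputs: the positive functional `l` (`q = R l`), the function `k`, the `k`-equation with source
`SS` and far errors `e0`, `E1` dominated by `b`. -/
structure KIn (S : GradS X F μ) (hd : Dense (S.V : Set (Lp ℝ 2 μ))) (h : ℝ) where
  l : Fnl (S.form hd)
  l_nonneg : ∀ w ∈ S.V, 0 ≤ᵐ[μ] (w : X → ℝ) → 0 ≤ l.f w
  k : Lp ℝ 2 μ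
  k_mem : k ∈ S.V
  k_bdd : ∃ C, ∀ᵐ z ∂μ, |k z| ≤ C
  SS : X → ℝ
  SS_int : Integrable SS μ
  b : Lp ℝ 2 μ
  e0 : Lp ℝ 2 μ
  E1 : Lp F 2 μ
  e0_le : ∀ᵐ z ∂μ, |e0 z| ≤ b z
  E1_le : ∀ᵐ z ∂μ, ‖E1 z‖ ≤ b z
  b_bdd : ∃ C, ∀ᵐ z ∂μ, b z ≤ C
  SS_ge : ∀ᵐ z ∂μ, -(b z) ≤ SS z
  keq : ∀ p ∈ S.V, (∃ C, ∀ᵐ z ∂μ, |p z| ≤ C) →
    h * ⟪S.D k, S.D p⟫ + ⟪k, p⟫ = ⟪e0, p⟫ + ⟪E1, S.D p⟫ +
      h * ∫ z, (4 * (resD (S.form hd) h l : Lp ℝ 2 μ) z - SS z) * p z ∂μ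

namespace KIn

variable {S : GradS X F μ} {hd : Dense (S.V : Set (Lp ℝ 2 μ))} {h : ℝ} (K : KIn S hd h)

/-- `q` -/
def q : Lp ℝ 2 μ := resD (S.form hd) h K.l

/-- `R q` -/
def Rq : Lp ℝ 2 μ := (S.form hd).res h K.q

/-- the far error in `k` -/
def w : Lp ℝ 2 μ := resD (S.form hd) h (S.fnl hd K.e0 K.E1)

/-- `R b` -/
def Rb : Lp ℝ 2 μ := (S.form hd).res h K.b

/-- `4 h R q + w - k + h R b = h R (SS + b)` -/
def B1 : Lp ℝ 2 μ := (4 * h) • K.Rq + K.w - K.k + h • K.Rb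

lemma b_nonneg : ∀ᵐ z ∂μ, 0 ≤ K.b z := by
  filter_upwards [K.e0_le] with z hz using (abs_nonneg _).trans hz

variable (hh : 0 < h)

include hh

lemma q_mem : K.q ∈ S.V := resD_mem (Q := S.form hd) hh K.l

lemma Rq_mem : K.Rq ∈ S.V := (S.form hd).res_mem hh K.q

lemma w_mem : K.w ∈ S.V := resD_mem (Q := S.form hd) hh _

lemma Rb_mem : K.Rb ∈ S.V := (S.form hd).res_mem hh K.b

lemma B1_mem : K.B1 ∈ S.V :=
  S.V.add_mem (S.V.sub_mem (S.V.add_mem (S.V.smul_mem _ (K.Rq_mem hh)) (K.w_mem hh)) K.k_mem)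
    (S.V.smul_mem _ (K.Rb_mem hh))

lemma q_nonneg : 0 ≤ᵐ[μ] (K.q : X → ℝ) := (S.markov hd).resD_nonneg hh K.l_nonneg

lemma Rq_nonneg : 0 ≤ᵐ[μ] (K.Rq : X → ℝ) := (S.markov hd).res_nonneg hh (K.q_nonneg hh)

lemma Rb_nonneg : 0 ≤ᵐ[μ] (K.Rb : X → ℝ) := (S.markov hd).res_nonneg hh K.b_nonneg

omit hh in
lemma int_mul {f : X → ℝ} (hf : Integrable f μ) {p : Lp ℝ 2 μ} (hp : ∃ C, ∀ᵐ z ∂μ, |p z| ≤ C) :
    Integrable (fun z => f z * p z) μ := by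
  obtain ⟨C, hC⟩ := hp
  refine (hf.bdd_mul (c := C) (Lp.aestronglyMeasurable p) ?_).congr
    (Eventually.of_forall fun z => mul_comm _ _)
  filter_upwards [hC] with z hz
  rwa [Real.norm_eq_abs]

omit hh in
lemma SSb_int {p : Lp ℝ 2 μ} (hp : ∃ C, ∀ᵐ z ∂μ, |p z| ≤ C) :
    Integrable (fun z => (K.SS z + K.b z) * p z) μ := by
  refine ((int_mul K.SS_int hp).add (integrable_mul_L2 K.b p)).congr
    (Eventually.of_forall fun z => ?_)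
  show K.SS z * p z + K.b z * p z = _
  ring

omit hh in
lemma SSb_eq {p : Lp ℝ 2 μ} (hp : ∃ C, ∀ᵐ z ∂μ, |p z| ≤ C) :
    ∫ z, (K.SS z + K.b z) * p z ∂μ = (∫ z, K.SS z * p z ∂μ) + ⟪K.b, p⟫ := by
  rw [inner_eq_integral, ← integral_add (int_mul K.SS_int hp) (integrable_mul_L2 K.b p)]
  refine integral_congr_ae (Eventually.of_forall fun z => ?_)
  show _ = K.SS z * p z + K.b z * p z
  ring

omit hh in
lemma ff_eq {p : Lp ℝ 2 μ} (hp : ∃ C, ∀ᵐ z ∂μ, |p z| ≤ C) :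
    ∫ z, (4 * K.q z - K.SS z) * p z ∂μ = 4 * ⟪K.q, p⟫ - ∫ z, K.SS z * p z ∂μ := by
  rw [inner_eq_integral, ← integral_const_mul,
    ← integral_sub ((integrable_mul_L2 K.q p).const_mul 4) (int_mul K.SS_int hp)]
  refine integral_congr_ae (Eventually.of_forall fun z => ?_)
  show (4 * K.q z - K.SS z) * p z = 4 * (K.q z * p z) - K.SS z * p z
  ring

/-- the equation of `B1` -/
lemma B1_eq {p : Lp ℝ 2 μ} (hp : p ∈ S.V) (hpb : ∃ C, ∀ᵐ z ∂μ, |p z| ≤ C) :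
    h * (S.form hd).E K.B1 p + ⟪K.B1, p⟫ = h * ∫ z, (K.SS z + K.b z) * p z ∂μ := by
  have a1 := (S.form hd).res_eq hh K.q hp
  have a2 := resD_eq (Q := S.form hd) hh (S.fnl hd K.e0 K.E1) hp
  have a3 := K.keq p hp hpb
  have a4 := (S.form hd).res_eq hh K.b hp
  have m1 := S.V.smul_mem (4 * h) (K.Rq_mem hh)
  have m2 := K.w_mem hh
  have m3 := K.k_mem
  have m4 := S.V.smul_mem h (K.Rb_mem hh)
  have e1 : (S.form hd).E K.B1 p = 4 * h * (S.form hd).E K.Rq p + (S.form hd).E K.w p -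
      (S.form hd).E K.k p + h * (S.form hd).E K.Rb p := by
    simp only [form_E_inner]
    show (⟪S.D ((4 * h) • K.Rq + K.w - K.k + h • K.Rb), S.D p⟫ : ℝ) = _
    rw [S.D_add (S.V.sub_mem (S.V.add_mem m1 m2) m3) m4, S.D_sub (S.V.add_mem m1 m2) m3,
      S.D_add m1 m2, S.D_smul _ (K.Rq_mem hh), S.D_smul _ (K.Rb_mem hh), inner_add_left,
      inner_sub_left, inner_add_left, real_inner_smul_left, real_inner_smul_left]
  have e2 : (⟪K.B1, p⟫ : ℝ) = 4 * h * ⟪K.Rq, p⟫ + ⟪K.w, p⟫ - ⟪K.k, p⟫ + h * ⟪K.Rb, p⟫ := by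
    show (⟪(4 * h) • K.Rq + K.w - K.k + h • K.Rb, p⟫ : ℝ) = _
    rw [inner_add_left, inner_sub_left, inner_add_left, real_inner_smul_left,
      real_inner_smul_left]
  have a2' : h * (S.form hd).E K.w p + ⟪K.w, p⟫ = ⟪K.e0, p⟫ + ⟪K.E1, S.D p⟫ := a2
  have a1' : h * (S.form hd).E K.Rq p + ⟪K.Rq, p⟫ = ⟪K.q, p⟫ := a1
  have a4' : h * (S.form hd).E K.Rb p + ⟪K.Rb, p⟫ = ⟪K.b, p⟫ := a4
  have a3' : h * (S.form hd).E K.k p + ⟪K.k, p⟫ = ⟪K.e0, p⟫ + ⟪K.E1, S.D p⟫ +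
      h * ∫ z, (4 * K.q z - K.SS z) * p z ∂μ := a3
  rw [K.ff_eq hpb] at a3'
  rw [K.SSb_eq hpb, e1, e2]
  linear_combination (4 * h) * a1' + a2' - a3' + h * a4'

lemma SSb_nonneg {p : X → ℝ} (hp : ∀ᵐ z ∂μ, 0 ≤ p z) : 0 ≤ ∫ z, (K.SS z + K.b z) * p z ∂μ := by
  refine integral_nonneg_of_ae ?_
  filter_upwards [hp, K.SS_ge] with z h1 h2
  exact mul_nonneg (by linarith) h1

/-- `B1` is a supersolution -/
lemma B1_super : ∀ p ∈ (S.form hd).dom, 0 ≤ᵐ[μ] (p : X → ℝ) →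
    0 ≤ h * (S.form hd).E K.B1 p + ⟪K.B1, p⟫ := by
  intro p hp hp0
  have key : 0 ≤ (((Fnl.ofE (S.form hd) (K.B1_mem hh)).smul h).add
      (Fnl.ofInner (S.form hd) K.B1)).f p := by
    refine Fnl.nonneg_of_test (fun f hf hf0 => ?_) hp hp0
    show 0 ≤ h * (S.form hd).E K.B1 (tL hf) + ⟪K.B1, tL hf⟫
    obtain ⟨C, hC⟩ := hf.1.continuous.bounded_above_of_compact_support hf.2
    rw [K.B1_eq hh (S.tL_mem hf) ⟨C, by
      filter_upwards [coe_tL (μ := μ) hf] with z hz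
      rw [hz]; exact hC z⟩]
    refine mul_nonneg hh.le (K.SSb_nonneg hh ?_)
    filter_upwards [coe_tL (μ := μ) hf] with z hz
    rw [hz]; exact hf0 z
  exact key

lemma B1_nonneg : ∀ᵐ z ∂μ, 0 ≤ K.B1 z :=
  (S.markov hd).super_nonneg hh (K.B1_mem hh) (K.B1_super hh)

/-- pointwise bound of `|k|` -/
lemma abs_k_le : ∀ᵐ z ∂μ, |K.k z| ≤ 4 * h * K.Rq z + |K.w z| + K.B1 z + h * K.Rb z := by
  have e : (K.B1 : X → ℝ) =ᵐ[μ] fun z => 4 * h * K.Rq z + K.w z - K.k z + h * K.Rb z := by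
    show (((4 * h) • K.Rq + K.w - K.k + h • K.Rb : Lp ℝ 2 μ) : X → ℝ) =ᵐ[μ] _
    filter_upwards [Lp.coeFn_add ((4 * h) • K.Rq + K.w - K.k) (h • K.Rb),
      Lp.coeFn_sub ((4 * h) • K.Rq + K.w) K.k, Lp.coeFn_add ((4 * h) • K.Rq) K.w,
      Lp.coeFn_smul (4 * h) K.Rq, Lp.coeFn_smul h K.Rb] with z a1 a2 a3 a4 a5
    rw [a1, Pi.add_apply, a2, Pi.sub_apply, a3, Pi.add_apply, a4, a5]
    rfl
  filter_upwards [e, K.Rq_nonneg hh, K.Rb_nonneg hh, K.B1_nonneg hh] with z h1 h2 h3 h4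
  have h2' : 0 ≤ K.Rq z := h2
  have h3' : 0 ≤ K.Rb z := h3
  have e2 : K.k z = 4 * h * K.Rq z + K.w z - K.B1 z + h * K.Rb z := by rw [h1]; ring
  have h5 := mul_nonneg hh.le h2'
  have h6 := mul_nonneg hh.le h3'
  rw [e2, abs_le]
  constructor
  · have := neg_abs_le (K.w z)
    nlinarith
  · have := le_abs_self (K.w z)
    nlinarith


omit hh in
/-- if `v` is an `h`-supersolution, then `⟪v, R_{h/4} Ψ⟫ ≤ (4/3) ⟪v, Ψ⟫` -/
lemma inner_super_le (hh : 0 < h) {v Ψ : Lp ℝ 2 μ} (hv : v ∈ S.V)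
    (hs : ∀ w ∈ (S.form hd).dom, 0 ≤ᵐ[μ] (w : X → ℝ) → 0 ≤ h * (S.form hd).E v w + ⟪v, w⟫)
    (hΨ : ∀ᵐ z ∂μ, 0 ≤ Ψ z) : ⟪v, (S.form hd).res (h / 4) Ψ⟫ ≤ 4 / 3 * ⟪v, Ψ⟫ := by
  rw [← (S.form hd).res_symm, inner_eq_integral, inner_eq_integral, ← integral_const_mul]
  refine integral_mono_ae (integrable_mul_L2 _ _) ((integrable_mul_L2 _ _).const_mul _) ?_
  filter_upwards [(S.markov hd).res_quarter_super hh hv hs, hΨ] with z h1 h2
  show ((S.form hd).res (h / 4) v : Lp ℝ 2 μ) z * Ψ z ≤ 4 / 3 * (v z * Ψ z)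
  calc _ ≤ 4 / 3 * v z * Ψ z := by gcongr
    _ = _ := by ring

lemma q_super : ∀ w ∈ (S.form hd).dom, 0 ≤ᵐ[μ] (w : X → ℝ) →
    0 ≤ h * (S.form hd).E K.q w + ⟪K.q, w⟫ := Markov.resD_super hh K.l_nonneg

omit hh in
lemma res_super (hh : 0 < h) {f : Lp ℝ 2 μ} (hf : 0 ≤ᵐ[μ] (f : X → ℝ)) :
    ∀ w ∈ (S.form hd).dom, 0 ≤ᵐ[μ] (w : X → ℝ) →
    0 ≤ h * (S.form hd).E ((S.form hd).res h f) w + ⟪(S.form hd).res h f, w⟫ := by
  intro w hw hw0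
  rw [(S.form hd).res_eq hh f hw, inner_eq_integral]
  refine integral_nonneg_of_ae ?_
  filter_upwards [hf, hw0] with z h1 h2
  exact mul_nonneg h1 h2

/-! ### the test functions -/

section Test

variable {Ψ : Lp ℝ 2 μ} (Ψ0 : ∀ᵐ z ∂μ, 0 ≤ Ψ z) (hΨ : ∃ C, ∀ᵐ z ∂μ, Ψ z ≤ C)

include Ψ0

omit hh in
lemma res_nonneg' {g : ℝ} (hg : 0 < g) : ∀ᵐ z ∂μ, 0 ≤ ((S.form hd).res g Ψ : Lp ℝ 2 μ) z :=
  (S.markov hd).res_nonneg hg Ψ0

include hΨ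

omit hh in
lemma res_bdd {g : ℝ} (hg : 0 < g) : ∃ C, ∀ᵐ z ∂μ, |((S.form hd).res g Ψ : Lp ℝ 2 μ) z| ≤ C := by
  obtain ⟨C, hC⟩ := hΨ
  have h1 := (S.markov hd).res_le (h := g) hg (a := max C 0) (le_max_right _ _)
    (hC.mono fun z hz => hz.trans (le_max_left _ _))
  refine ⟨max C 0, ?_⟩
  filter_upwards [h1, res_nonneg' (S := S) (hd := hd) Ψ0 hg] with z a1 a2
  rw [abs_of_nonneg a2]; exact a1

/-- `φ' ≤ 4 φ` -/
lemma quarter_le (hh : 0 < h) : ∀ᵐ z ∂μ, ((S.form hd).res (h / 4) Ψ : Lp ℝ 2 μ) z ≤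
    4 * ((S.form hd).res h Ψ : Lp ℝ 2 μ) z := by
  have h4 : 0 < h / 4 := by positivity
  have := (S.markov hd).resD_quarter_le hh (l := Fnl.ofInner (S.form hd) Ψ) (fun w _ hw0 => by
    show 0 ≤ (⟪Ψ, w⟫ : ℝ)
    rw [inner_eq_integral]
    refine integral_nonneg_of_ae ?_
    filter_upwards [Ψ0, hw0] with z h1 h2
    exact mul_nonneg h1 h2)
  rw [resD_ofInner hh, resD_ofInner h4] at this
  exact this

/-- `⟪B1, Ψ⟫ = h ∫ (SS + b) φ` -/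
lemma B1_inner : ⟪K.B1, Ψ⟫ =
    h * ∫ z, (K.SS z + K.b z) * ((S.form hd).res h Ψ : Lp ℝ 2 μ) z ∂μ := by
  rw [← K.B1_eq hh ((S.form hd).res_mem hh Ψ) (res_bdd Ψ0 hΨ hh)]
  have := (S.form hd).res_eq hh Ψ (K.B1_mem hh)
  rw [(S.form hd).symm (K.B1_mem hh) ((S.form hd).res_mem hh Ψ),
    real_inner_comm ((S.form hd).res h Ψ : Lp ℝ 2 μ) K.B1, this, real_inner_comm]

/-- **identity (HF)** as an inequality -/
lemma hf_le {gq : X → ℝ} {T0 : ℝ}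
    (hk : ∀ᵐ z ∂μ, Ψ z ≠ 0 → 2 * h * K.q z - 2 * h * gq z ≤ K.k z)
    (hTi : Integrable (fun z => Ψ z * (K.q z + gq z)) μ)
    (hT : ∫ z, Ψ z * (K.q z + gq z) ∂μ ≤ T0) :
    ∫ z, K.SS z * ((S.form hd).res h Ψ : Lp ℝ 2 μ) z ∂μ ≤
      4 * ⟪K.q, (S.form hd).res h Ψ⟫ - 4 * ⟪K.q, Ψ⟫ + 2 * T0 +
      h⁻¹ * (⟪K.e0, (S.form hd).res h Ψ⟫ + ⟪K.E1, S.D ((S.form hd).res h Ψ)⟫) := by
  set φ : Lp ℝ 2 μ := (S.form hd).res h Ψ with hφ
  have hφV : φ ∈ S.V := (S.form hd).res_mem hh Ψ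
  have hφb := res_bdd (S := S) (hd := hd) Ψ0 hΨ hh
  have a1 := K.keq φ hφV hφb
  have a2 : h * ⟪S.D φ, S.D K.k⟫ + ⟪φ, K.k⟫ = ⟪Ψ, K.k⟫ := (S.form hd).res_eq hh Ψ K.k_mem
  rw [real_inner_comm (S.D φ), real_inner_comm φ] at a1
  have a3 : h * ∫ z, (4 * K.q z - K.SS z) * φ z ∂μ =
      ⟪Ψ, K.k⟫ - (⟪K.e0, φ⟫ + ⟪K.E1, S.D φ⟫) := by
    have a4 : h * ⟪S.D φ, S.D K.k⟫ + ⟪φ, K.k⟫ = ⟪K.e0, φ⟫ + ⟪K.E1, S.D φ⟫ +
      h * ∫ z, (4 * K.q z - K.SS z) * φ z ∂μ := a1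
    linarith
  rw [K.ff_eq hφb] at a3
  -- lower bound of `⟪Ψ, k⟫`
  have a5 : 4 * h * ⟪K.q, Ψ⟫ - 2 * h * ∫ z, Ψ z * (K.q z + gq z) ∂μ ≤ ⟪Ψ, K.k⟫ := by
    have e1 : 4 * h * ⟪K.q, Ψ⟫ - 2 * h * ∫ z, Ψ z * (K.q z + gq z) ∂μ =
        ∫ z, (4 * h * (K.q z * Ψ z) - 2 * h * (Ψ z * (K.q z + gq z))) ∂μ := by
      rw [inner_eq_integral, integral_sub ((integrable_mul_L2 _ _).const_mul _) (hTi.const_mul _),
        integral_const_mul, integral_const_mul]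
    rw [e1, inner_eq_integral]
    refine integral_mono_ae (((integrable_mul_L2 _ _).const_mul _).sub (hTi.const_mul _))
      (integrable_mul_L2 _ _) ?_
    filter_upwards [hk, Ψ0] with z h1 h2
    show 4 * h * (K.q z * Ψ z) - 2 * h * (Ψ z * (K.q z + gq z)) ≤ Ψ z * K.k z
    by_cases hz : Ψ z = 0
    · rw [hz]; simp
    · have h3 := mul_le_mul_of_nonneg_left (h1 hz) h2
      calc _ = Ψ z * (2 * h * K.q z - 2 * h * gq z) := by ring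
        _ ≤ _ := h3
  have a6 : 2 * h * ∫ z, Ψ z * (K.q z + gq z) ∂μ ≤ 2 * h * T0 := by gcongr
  have a7 : h * ∫ z, K.SS z * φ z ∂μ ≤ h * (4 * ⟪K.q, φ⟫ - 4 * ⟪K.q, Ψ⟫ + 2 * T0 +
      h⁻¹ * (⟪K.e0, φ⟫ + ⟪K.E1, S.D φ⟫)) := by
    have e : h * (4 * ⟪K.q, φ⟫ - 4 * ⟪K.q, Ψ⟫ + 2 * T0 +
      h⁻¹ * (⟪K.e0, φ⟫ + ⟪K.E1, S.D φ⟫)) = h * (4 * ⟪K.q, φ⟫) - 4 * h * ⟪K.q, Ψ⟫ + 2 * h * T0 +
      (⟪K.e0, φ⟫ + ⟪K.E1, S.D φ⟫) := by
        field_simp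
    rw [e]
    rw [mul_sub] at a3
    linarith
  exact le_of_mul_le_mul_left a7 hh

end Test

end KIn

end Chain

end Crest.Agent.R247.Kt622
end
end

-- ▼ part R247/Kt4_622

/-!
R247, block (1-K) (helper622): the weighted estimates (all in terms of one number `Y`).
-/

set_option autoImplicit false
set_option linter.unusedSectionVars false
set_option linter.unusedVariables false

open MeasureTheory Filter Topology Set
open scoped RealInnerProductSpace ENNReal NNReal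

noncomputable section

namespace Crest.Agent.R247.Kt622

open Crest.Agent.R247.Dir593 Crest.Agent.R247.Dir593.GradS Crest.Agent.R242

section Chain

variable {X : Type*} [MetricSpace X] [MeasurableSpace X] [BorelSpace X] {F : Type*}
  [NormedAddCommGroup F] [InnerProductSpace ℝ F] [CompleteSpace F] {μ : Measure X}
  [IsFiniteMeasureOnCompacts μ]

/-- smallness hypotheses -/
structure Sm {S : GradS X F μ} {hd : Dense (S.V : Set (Lp ℝ 2 μ))} {h : ℝ} (K : KIn S hd h)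
    (Ψ : Lp ℝ 2 μ) (gq : X → ℝ) (Y : ℝ) : Prop where
  h0 : 0 < h
  h1 : h ≤ 1
  Ψ0 : ∀ᵐ z ∂μ, 0 ≤ Ψ z
  Ψb : ∃ C, ∀ᵐ z ∂μ, Ψ z ≤ C
  hk : ∀ᵐ z ∂μ, Ψ z ≠ 0 → 2 * h * K.q z - 2 * h * gq z ≤ K.k z
  hTi : Integrable (fun z => Ψ z * (K.q z + gq z)) μ
  hT : ∫ z, Ψ z * (K.q z + gq z) ∂μ ≤ Y
  hA : ⟪K.q, Ψ⟫ ≤ Y
  hB : ⟪K.q, (S.form hd).res h Ψ⟫ ≤ Y
  e1 : ⟪K.b, (S.form hd).res h Ψ⟫ ≤ h ^ 3 * Y
  e2 : ∫ z, K.b z * ‖S.D ((S.form hd).res h Ψ) z‖ ∂μ ≤ h ^ 3 * Y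
  e3 : ∫ z, K.b z * ‖S.D ((S.form hd).res (h / 4) Ψ) z‖ ∂μ ≤ h ^ 3 * Y
  e4 : ∫ z, K.b z ^ 2 * ((S.form hd).res (h / 4) Ψ : Lp ℝ 2 μ) z ∂μ ≤ h ^ 3 * Y
  e5 : ∫ z, |K.w z| * ((S.form hd).res (h / 4) Ψ : Lp ℝ 2 μ) z ∂μ ≤ h ^ 3 * Y

lemma integrable_mul_norm (u : Lp ℝ 2 μ) (v : Lp F 2 μ) : Integrable (fun z => u z * ‖v z‖) μ := by
  have h1 : MemLp (fun z => ‖v z‖) 2 μ := (Lp.memLp v).norm
  have h2 := integrable_mul_L2 u (h1.toLp _)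
  refine h2.congr ?_
  filter_upwards [MemLp.coeFn_toLp h1] with z hz
  rw [hz]

/-- `|⟪E1, U⟫| ≤ ∫ b ‖U‖` -/
lemma abs_inner_le_int {b : Lp ℝ 2 μ} {E1 U : Lp F 2 μ} (hE : ∀ᵐ z ∂μ, ‖E1 z‖ ≤ b z) :
    |(⟪E1, U⟫ : ℝ)| ≤ ∫ z, b z * ‖U z‖ ∂μ := by
  rw [L2.inner_def, ← Real.norm_eq_abs]
  refine (norm_integral_le_integral_norm _).trans ?_
  refine integral_mono_ae (L2.integrable_inner (𝕜 := ℝ) E1 U).norm (integrable_mul_norm b U) ?_
  filter_upwards [hE] with z hz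
  calc ‖(⟪E1 z, U z⟫ : ℝ)‖ ≤ ‖E1 z‖ * ‖U z‖ := norm_inner_le_norm _ _
    _ ≤ b z * ‖U z‖ := by gcongr

lemma int_add3 {f g k : X → ℝ} (hf : Integrable f μ) (hg : Integrable g μ) (hk : Integrable k μ) :
    Integrable (fun z => f z + g z + k z) μ ∧
    ∫ z, (f z + g z + k z) ∂μ = ∫ z, f z ∂μ + ∫ z, g z ∂μ + ∫ z, k z ∂μ := by
  refine ⟨(hf.add hg).add hk, ?_⟩
  have e1 : ∫ z, (f z + g z + k z) ∂μ = ∫ z, (f z + g z) ∂μ + ∫ z, k z ∂μ :=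
    integral_add (f := fun z => f z + g z) (hf.add hg) hk
  rw [e1, integral_add hf hg]

lemma int_add4 {f g k l : X → ℝ} (hf : Integrable f μ) (hg : Integrable g μ)
    (hk : Integrable k μ) (hl : Integrable l μ) :
    Integrable (fun z => f z + g z + k z + l z) μ ∧
    ∫ z, (f z + g z + k z + l z) ∂μ = ∫ z, f z ∂μ + ∫ z, g z ∂μ + ∫ z, k z ∂μ + ∫ z, l z ∂μ := by
  obtain ⟨h1, h2⟩ := int_add3 hf hg hk
  refine ⟨h1.add hl, ?_⟩
  have e1 : ∫ z, (f z + g z + k z + l z) ∂μ = ∫ z, (f z + g z + k z) ∂μ + ∫ z, l z ∂μ :=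
    integral_add (f := fun z => f z + g z + k z) h1 hl
  rw [e1, h2]

lemma abs_inner_le_inner {b e u : Lp ℝ 2 μ} (he : ∀ᵐ z ∂μ, |e z| ≤ b z)
    (hu : ∀ᵐ z ∂μ, 0 ≤ u z) : |(⟪e, u⟫ : ℝ)| ≤ ⟪b, u⟫ := by
  rw [inner_eq_integral, inner_eq_integral, ← Real.norm_eq_abs]
  refine (norm_integral_le_integral_norm _).trans ?_
  refine integral_mono_ae (integrable_mul_L2 e u).norm (integrable_mul_L2 b u) ?_
  filter_upwards [he, hu] with z h1 h2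
  rw [norm_mul, Real.norm_eq_abs, Real.norm_eq_abs, abs_of_nonneg h2]
  exact mul_le_mul_of_nonneg_right h1 h2

namespace Sm

variable {S : GradS X F μ} {hd : Dense (S.V : Set (Lp ℝ 2 μ))} {h : ℝ} {K : KIn S hd h}
  {Ψ : Lp ℝ 2 μ} {gq : X → ℝ} {Y : ℝ} (M : Sm K Ψ gq Y)

include M

lemma Y0 : 0 ≤ Y := by
  have h1 : 0 ≤ (⟪K.q, Ψ⟫ : ℝ) := by
    rw [inner_eq_integral]
    refine integral_nonneg_of_ae ?_
    filter_upwards [K.q_nonneg M.h0, M.Ψ0] with z a1 a2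
    exact mul_nonneg a1 a2
  exact h1.trans M.hA

lemma h3 : h ^ 3 * Y ≤ h * Y := by
  have h0 := M.h0
  have h1 := M.h1
  have hY := M.Y0
  have : h ^ 3 ≤ h := by
    calc h ^ 3 = h * (h * h) := by ring
      _ ≤ h * (1 * 1) := by gcongr
      _ = h := by ring
  gcongr

lemma h3' : h ^ 3 * Y ≤ Y := by
  have h0 := M.h0
  have h1 := M.h1
  have hY := M.Y0
  calc h ^ 3 * Y ≤ h * Y := M.h3
    _ ≤ 1 * Y := by gcongr
    _ = Y := one_mul Y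

lemma φ0 : ∀ᵐ z ∂μ, 0 ≤ ((S.form hd).res h Ψ : Lp ℝ 2 μ) z := KIn.res_nonneg' M.Ψ0 M.h0

lemma φ'0 : ∀ᵐ z ∂μ, 0 ≤ ((S.form hd).res (h / 4) Ψ : Lp ℝ 2 μ) z :=
  KIn.res_nonneg' M.Ψ0 (by have := M.h0; positivity)

lemma φb : ∃ C, ∀ᵐ z ∂μ, |((S.form hd).res h Ψ : Lp ℝ 2 μ) z| ≤ C := KIn.res_bdd M.Ψ0 M.Ψb M.h0

lemma φ'b : ∃ C, ∀ᵐ z ∂μ, |((S.form hd).res (h / 4) Ψ : Lp ℝ 2 μ) z| ≤ C :=
  KIn.res_bdd M.Ψ0 M.Ψb (by have := M.h0; positivity)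

lemma A1 : ∫ z, (K.SS z + K.b z) * ((S.form hd).res h Ψ : Lp ℝ 2 μ) z ∂μ ≤ 9 * Y := by
  have h0 := M.h0
  have h1 := M.h1
  have hY := M.Y0
  rw [K.SSb_eq M.φb]
  have a1 := K.hf_le h0 M.Ψ0 M.Ψb M.hk M.hTi M.hT
  have a2 : |(⟪K.e0, (S.form hd).res h Ψ⟫ : ℝ)| ≤ h ^ 3 * Y :=
    (abs_inner_le_inner K.e0_le M.φ0).trans M.e1
  have a3 : |(⟪K.E1, S.D ((S.form hd).res h Ψ)⟫ : ℝ)| ≤ h ^ 3 * Y :=
    (abs_inner_le_int K.E1_le).trans M.e2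
  have a4 : 0 ≤ (⟪K.q, Ψ⟫ : ℝ) := by
    rw [inner_eq_integral]
    refine integral_nonneg_of_ae ?_
    filter_upwards [K.q_nonneg M.h0, M.Ψ0] with z a1 a2
    exact mul_nonneg a1 a2
  have a5 : h⁻¹ * (⟪K.e0, (S.form hd).res h Ψ⟫ + ⟪K.E1, S.D ((S.form hd).res h Ψ)⟫) ≤ 2 * Y := by
    have h5 : (⟪K.e0, (S.form hd).res h Ψ⟫ + ⟪K.E1, S.D ((S.form hd).res h Ψ)⟫ : ℝ) ≤
        2 * (h * Y) := by
      have := M.h3
      have := (abs_le.1 a2).2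
      have := (abs_le.1 a3).2
      linarith
    calc _ ≤ h⁻¹ * (2 * (h * Y)) := by gcongr
      _ = 2 * Y := by field_simp
  have a6 := M.hB
  have a7 := M.e1
  have a8 := M.h3'
  linarith

lemma A2 : ∫ z, (K.SS z + K.b z) * ((S.form hd).res (h / 4) Ψ : Lp ℝ 2 μ) z ∂μ ≤ 36 * Y := by
  have h1 : ∫ z, (K.SS z + K.b z) * ((S.form hd).res (h / 4) Ψ : Lp ℝ 2 μ) z ∂μ ≤
      ∫ z, 4 * ((K.SS z + K.b z) * ((S.form hd).res h Ψ : Lp ℝ 2 μ) z) ∂μ := by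
    refine integral_mono_ae (K.SSb_int M.φ'b) ((K.SSb_int M.φb).const_mul 4) ?_
    filter_upwards [KIn.quarter_le (S := S) (hd := hd) M.h0 M.Ψ0 M.Ψb M.h0, K.SS_ge] with z a1 a2
    have a3 : 0 ≤ K.SS z + K.b z := by linarith
    calc _ ≤ (K.SS z + K.b z) * (4 * ((S.form hd).res h Ψ : Lp ℝ 2 μ) z) := by gcongr
      _ = _ := by ring
  rw [integral_const_mul] at h1
  linarith [M.A1]

lemma A3 : ⟪K.q, (S.form hd).res (h / 4) Ψ⟫ ≤ 2 * Y := by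
  have := KIn.inner_super_le M.h0 (K.q_mem M.h0) (K.q_super M.h0) M.Ψ0
  have h2 := M.hA
  have h3 := M.Y0
  linarith

lemma bφ' : ⟪K.b, (S.form hd).res (h / 4) Ψ⟫ ≤ 4 * (h ^ 3 * Y) := by
  have h1 : (⟪K.b, (S.form hd).res (h / 4) Ψ⟫ : ℝ) ≤ 4 * ⟪K.b, (S.form hd).res h Ψ⟫ := by
    rw [inner_eq_integral, inner_eq_integral, ← integral_const_mul]
    refine integral_mono_ae (integrable_mul_L2 _ _) ((integrable_mul_L2 _ _).const_mul 4) ?_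
    filter_upwards [KIn.quarter_le (S := S) (hd := hd) M.h0 M.Ψ0 M.Ψb M.h0, K.b_nonneg] with z a1 a2
    calc _ ≤ K.b z * (4 * ((S.form hd).res h Ψ : Lp ℝ 2 μ) z) := by gcongr
      _ = _ := by ring
  linarith [M.e1]

lemma wφ'_int : Integrable (fun z => |K.w z| * ((S.form hd).res (h / 4) Ψ : Lp ℝ 2 μ) z) μ := by
  refine (integrable_abs_mul_L2 K.w ((S.form hd).res (h / 4) Ψ)).congr ?_
  filter_upwards [M.φ'0] with z hz
  rw [abs_of_nonneg hz]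

lemma kφ'_int : Integrable (fun z => ((S.form hd).res (h / 4) Ψ : Lp ℝ 2 μ) z * |K.k z|) μ := by
  refine (integrable_abs_mul_L2 ((S.form hd).res (h / 4) Ψ) K.k).congr ?_
  filter_upwards [M.φ'0] with z hz
  rw [abs_of_nonneg hz]

lemma A4 : ∫ z, ((S.form hd).res (h / 4) Ψ : Lp ℝ 2 μ) z * |K.k z| ∂μ ≤ h * (20 * Y) := by
  have h0 := M.h0
  have hY := M.Y0
  set φ' : Lp ℝ 2 μ := (S.form hd).res (h / 4) Ψ with hφ'
  have i1 := integrable_mul_L2 K.Rq φ'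
  have i2 := M.wφ'_int
  have i3 := integrable_mul_L2 K.B1 φ'
  have i4 := integrable_mul_L2 K.Rb φ'
  have b1 : ∫ z, φ' z * |K.k z| ∂μ ≤
      4 * h * ⟪K.Rq, φ'⟫ + (∫ z, |K.w z| * φ' z ∂μ) + ⟪K.B1, φ'⟫ + h * ⟪K.Rb, φ'⟫ := by
    obtain ⟨j1, j2⟩ := int_add4 (i1.const_mul (4 * h)) i2 i3 (i4.const_mul h)
    rw [inner_eq_integral, inner_eq_integral, inner_eq_integral, ← integral_const_mul,
      ← integral_const_mul, ← j2]
    refine integral_mono_ae M.kφ'_int j1 ?_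
    filter_upwards [K.abs_k_le h0, M.φ'0] with z a1 a2
    show φ' z * |K.k z| ≤ 4 * h * (K.Rq z * φ' z) + |K.w z| * φ' z + K.B1 z * φ' z +
      h * (K.Rb z * φ' z)
    calc φ' z * |K.k z| ≤ φ' z * (4 * h * K.Rq z + |K.w z| + K.B1 z + h * K.Rb z) := by gcongr
      _ = _ := by ring
  have b2 : (⟪K.Rq, φ'⟫ : ℝ) ≤ 4 / 3 * Y := by
    have c1 := KIn.inner_super_le h0 (K.Rq_mem h0) (KIn.res_super h0 (K.q_nonneg h0)) M.Ψ0
    have c2 : (⟪K.Rq, Ψ⟫ : ℝ) = ⟪K.q, (S.form hd).res h Ψ⟫ := (S.form hd).res_symm h K.q Ψ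
    rw [c2] at c1
    have := M.hB
    linarith
  have b3 : (⟪K.Rb, φ'⟫ : ℝ) ≤ 4 / 3 * Y := by
    have c1 := KIn.inner_super_le h0 (K.Rb_mem h0) (KIn.res_super h0 K.b_nonneg) M.Ψ0
    have c2 : (⟪K.Rb, Ψ⟫ : ℝ) = ⟪K.b, (S.form hd).res h Ψ⟫ := (S.form hd).res_symm h K.b Ψ
    rw [c2] at c1
    have := M.e1
    have := M.h3'
    linarith
  have b4 : (⟪K.B1, φ'⟫ : ℝ) ≤ h * (12 * Y) := by
    have c1 := KIn.inner_super_le h0 (K.B1_mem h0) (K.B1_super h0) M.Ψ0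
    rw [K.B1_inner h0 M.Ψ0 M.Ψb] at c1
    have c2 := mul_le_mul_of_nonneg_left M.A1 h0.le
    have c3 : 4 / 3 * (h * (9 * Y)) = h * (12 * Y) := by ring
    linarith
  have b5 : ∫ z, |K.w z| * φ' z ∂μ ≤ h * Y := M.e5.trans M.h3
  have b6 := mul_le_mul_of_nonneg_left b2 (by positivity : 0 ≤ 4 * h)
  have b7 := mul_le_mul_of_nonneg_left b3 h0.le
  have b8 : 0 ≤ h * Y := by positivity
  nlinarith

lemma ff_int : Integrable (fun z => ((S.form hd).res (h / 4) Ψ : Lp ℝ 2 μ) z *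
    |4 * K.q z - K.SS z|) μ := by
  have h1 : Integrable (fun z => (4 * K.q z - K.SS z) *
      ((S.form hd).res (h / 4) Ψ : Lp ℝ 2 μ) z) μ := by
    refine (((integrable_mul_L2 K.q ((S.form hd).res (h / 4) Ψ)).const_mul 4).sub
      (KIn.int_mul K.SS_int M.φ'b)).congr (Eventually.of_forall fun z => ?_)
    show 4 * (K.q z * ((S.form hd).res (h / 4) Ψ : Lp ℝ 2 μ) z) -
      K.SS z * ((S.form hd).res (h / 4) Ψ : Lp ℝ 2 μ) z = _
    ring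
  refine h1.abs.congr ?_
  filter_upwards [M.φ'0] with z hz
  show |(4 * K.q z - K.SS z) * ((S.form hd).res (h / 4) Ψ : Lp ℝ 2 μ) z| = _
  rw [abs_mul, abs_of_nonneg hz, mul_comm]

lemma A5 : ∫ z, ((S.form hd).res (h / 4) Ψ : Lp ℝ 2 μ) z * |4 * K.q z - K.SS z| ∂μ ≤ 48 * Y := by
  set φ' : Lp ℝ 2 μ := (S.form hd).res (h / 4) Ψ with hφ'
  have i1 := integrable_mul_L2 K.q φ'
  have i2 := K.SSb_int M.φ'b
  have i3 := integrable_mul_L2 K.b φ'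
  have b1 : ∫ z, φ' z * |4 * K.q z - K.SS z| ∂μ ≤
      4 * ⟪K.q, φ'⟫ + (∫ z, (K.SS z + K.b z) * φ' z ∂μ) + ⟪K.b, φ'⟫ := by
    obtain ⟨j1, j2⟩ := int_add3 (i1.const_mul 4) i2 i3
    rw [inner_eq_integral, inner_eq_integral, ← integral_const_mul, ← j2]
    refine integral_mono_ae M.ff_int j1 ?_
    filter_upwards [M.φ'0, K.SS_ge, K.q_nonneg M.h0, K.b_nonneg] with z a1 a2 a3 a4
    show φ' z * |4 * K.q z - K.SS z| ≤ 4 * (K.q z * φ' z) + (K.SS z + K.b z) * φ' z + K.b z * φ' z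
    have a3' : 0 ≤ K.q z := a3
    have c1 : |4 * K.q z - K.SS z| ≤ 4 * K.q z + (K.SS z + K.b z) + K.b z := by
      rw [abs_le]; constructor <;> linarith
    calc φ' z * |4 * K.q z - K.SS z| ≤ φ' z * (4 * K.q z + (K.SS z + K.b z) + K.b z) := by gcongr
      _ = _ := by ring
  have := M.A3
  have := M.A2
  have := M.bφ'
  have := M.h3'
  linarith

end Sm

lemma abs_prim_le {θ : ℝ → ℝ} (h1 : ∀ t, |θ t| ≤ 1) (t : ℝ) : |prim θ t| ≤ 1 * |t| := by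
  have := intervalIntegral.norm_integral_le_of_norm_le_const (a := (0:ℝ)) (b := t) (C := 1)
    (f := θ) (fun u _ => by rw [Real.norm_eq_abs]; exact h1 u)
  simpa [prim] using this

lemma le_LK {h K0 : ℝ} (h0 : 0 < h) (hK : h ≤ K0) : h ≤ LK h K0 := by
  unfold LK
  have hK0 : 0 < K0 := h0.trans_le hK
  have h1 : 1 ≤ Real.log (1 + 2 * K0 / h) := by
    rw [Real.le_log_iff_exp_le (by positivity)]
    have h2 : 2 ≤ 2 * K0 / h := by rw [le_div_iff₀ h0]; linarith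
    have := Real.exp_one_lt_d9
    linarith
  calc h = h * 1 := (mul_one h).symm
    _ ≤ _ := by gcongr

namespace Sm

variable {S : GradS X F μ} {hd : Dense (S.V : Set (Lp ℝ 2 μ))} {h : ℝ} {K : KIn S hd h}
  {Ψ : Lp ℝ 2 μ} {gq : X → ℝ} {Y : ℝ} (M : Sm K Ψ gq Y)

include M

set_option maxHeartbeats 1000000 in
/-- the weighted `L²` bound of `dk` -/
theorem A6 {K0 : ℝ} (hK : h ≤ K0) :
    Integrable (fun z => ((S.form hd).res (h / 4) Ψ : Lp ℝ 2 μ) z * thL h K0 (K.k z) *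
      ‖S.D K.k z‖ ^ 2) μ ∧
    ∫ z, ((S.form hd).res (h / 4) Ψ : Lp ℝ 2 μ) z * thL h K0 (K.k z) * ‖S.D K.k z‖ ^ 2 ∂μ ≤
      300 * LK h K0 * Y := by
  have h0 := M.h0
  have hh1 := M.h1
  have hY := M.Y0
  have hK0 : 0 < K0 := h0.trans_le hK
  have h4 : 0 < h / 4 := by positivity
  set φ' : Lp ℝ 2 μ := (S.form hd).res (h / 4) Ψ with hφ'
  set L : ℝ := LK h K0 with hLdef
  set th : ℝ → ℝ := thL h K0 with hth
  have thc : Continuous th := continuous_thL h0 K0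
  have th0 : ∀ t, 0 ≤ th t := thL_nonneg h0 K0
  have th1 : ∀ t, th t ≤ 1 := thL_le_one h0 K0
  have thab : ∀ t, |th t| ≤ 1 := fun t => by rw [abs_of_nonneg (th0 t)]; exact th1 t
  have hL : ∀ t, |prim th t| ≤ L := abs_prim_thL h0 hK0
  have hL0 : 0 ≤ L := (abs_nonneg _).trans (hL 0)
  have hLh : h ≤ L := le_LK h0 hK
  have hφV : φ' ∈ S.V := (S.form hd).res_mem h4 Ψ
  obtain ⟨Cφ, hCφ⟩ := M.φ'b
  have hφ0 := M.φ'0
  -- `Θ(k)`
  have m1 : MemLp (fun x => prim th (K.k x)) 2 μ :=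
    memLp_chain (continuous_prim thc).measurable (abs_prim_le thab) K.k
  set Tk : Lp ℝ 2 μ := m1.toLp _ with hTk
  have cTk : (Tk : X → ℝ) =ᵐ[μ] fun x => prim th (K.k x) := MemLp.coeFn_toLp m1
  have dth : deriv (prim th) = th := deriv_prim thc
  obtain ⟨TkV, DTk⟩ := S.chain_C1 (contDiff_prim thc) (C := 1) zero_le_one
    (fun s => by rw [dth]; exact thab s) (prim_zero _) K.k K.k_mem Tk cTk
  rw [dth] at DTk
  -- `p`
  set CC : ℝ := max Cφ L with hCC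
  have hCC0 : 0 ≤ CC := hL0.trans (le_max_right _ _)
  have b1 : ∀ᵐ x ∂μ, |φ' x| ≤ CC := hCφ.mono fun x hx => hx.trans (le_max_left _ _)
  have b2 : ∀ᵐ x ∂μ, |Tk x| ≤ CC := by
    filter_upwards [cTk] with x hx
    rw [hx]; exact (hL _).trans (le_max_right _ _)
  have mp : MemLp (fun x => φ' x * Tk x) 2 μ := memLp_smul (Lp.aestronglyMeasurable φ') b1 Tk
  set p : Lp ℝ 2 μ := mp.toLp _ with hpdef
  have cp : (p : X → ℝ) =ᵐ[μ] fun x => φ' x * Tk x := MemLp.coeFn_toLp mp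
  obtain ⟨pV, Dp⟩ := S.D_mul hφV TkV hCC0 b1 b2 cp
  have cp' : (p : X → ℝ) =ᵐ[μ] fun x => φ' x * prim th (K.k x) := by
    filter_upwards [cp, cTk] with x a1 a2
    rw [a1, a2]
  have Dp' : (S.D p : X → F) =ᵐ[μ] fun x =>
      prim th (K.k x) • (S.D φ' : X → F) x + (φ' x * th (K.k x)) • (S.D K.k : X → F) x := by
    filter_upwards [Dp, DTk, cTk] with x a1 a2 a3
    rw [a1, a2, a3, smul_smul, add_comm]
  -- `z`
  have m2 : MemLp (fun x => prim (prim th) (K.k x)) 2 μ :=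
    memLp_chain (continuous_prim (continuous_prim thc)).measurable (prim2_le hL) K.k
  set zz : Lp ℝ 2 μ := m2.toLp _ with hzz
  have cz : (zz : X → ℝ) =ᵐ[μ] fun x => prim (prim th) (K.k x) := MemLp.coeFn_toLp m2
  have dth2 : deriv (prim (prim th)) = prim th := deriv_prim (continuous_prim thc)
  obtain ⟨zV, Dz⟩ := S.chain_C1 (contDiff_prim (continuous_prim thc)) (C := L) hL0
    (fun s => by rw [dth2]; exact hL s) (prim_zero _) K.k K.k_mem zz cz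
  rw [dth2] at Dz
  -- the equations
  have eφ : h / 4 * ⟪S.D φ', S.D zz⟫ + ⟪φ', zz⟫ = ⟪Ψ, zz⟫ := (S.form hd).res_eq h4 Ψ zV
  have pb : ∃ C, ∀ᵐ z ∂μ, |p z| ≤ C := by
    refine ⟨CC * CC, ?_⟩
    filter_upwards [cp, b1, b2] with x a1 a2 a3
    rw [a1, abs_mul]
    exact mul_le_mul a2 a3 (abs_nonneg _) hCC0
  set e : ℝ := ⟪K.e0, p⟫ + ⟪K.E1, S.D p⟫ with he
  have ek : h * ⟪S.D K.k, S.D p⟫ + ⟪K.k, p⟫ =
      h * (∫ x, (4 * K.q x - K.SS x) * p x ∂μ) + e := by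
    have := K.keq p pV pb
    rw [this, he]
    show _ + h * ∫ z, (4 * K.q z - K.SS z) * p z ∂μ = _
    ring
  have hffm : AEStronglyMeasurable (fun x => 4 * K.q x - K.SS x) μ :=
    ((Lp.aestronglyMeasurable K.q).const_mul 4).sub K.SS_int.aestronglyMeasurable
  obtain ⟨hI, hle⟩ := kt1 S h4 h0 thc th0 th1 hL cp' Dp' cz Dz eφ ek hφ0 Cφ
    (hCφ.mono fun x hx => (le_abs_self _).trans hx) M.Ψ0 M.ff_int hffm
  refine ⟨hI, ?_⟩
  set I : ℝ := ∫ x, φ' x * th (K.k x) * ‖(S.D K.k : X → F) x‖ ^ 2 ∂μ with hIdef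
  -- the error
  have hb2 : Integrable (fun z => K.b z ^ 2 * φ' z) μ := by
    have hb2' : Integrable (fun z => K.b z ^ 2) μ := by
      refine (integrable_normSq K.b).congr (Eventually.of_forall fun z => ?_)
      simp
    exact KIn.int_mul hb2' M.φ'b
  have er0 : |(⟪K.e0, p⟫ : ℝ)| ≤ L * ⟪K.b, φ'⟫ := by
    rw [inner_eq_integral, inner_eq_integral, ← integral_const_mul, ← Real.norm_eq_abs]
    refine (norm_integral_le_integral_norm _).trans ?_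
    refine integral_mono_ae (integrable_mul_L2 _ _).norm ((integrable_mul_L2 _ _).const_mul _) ?_
    filter_upwards [cp', K.e0_le, hφ0] with x a1 a2 a3
    show ‖K.e0 x * p x‖ ≤ L * (K.b x * φ' x)
    have a4 : 0 ≤ K.b x := (abs_nonneg _).trans a2
    rw [a1, norm_mul, norm_mul, Real.norm_eq_abs, Real.norm_eq_abs, Real.norm_eq_abs,
      abs_of_nonneg a3]
    calc |K.e0 x| * (φ' x * |prim th (K.k x)|) ≤ K.b x * (φ' x * L) := by
          gcongr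
          exact hL _
      _ = _ := by ring
  have er1 : |(⟪K.E1, S.D p⟫ : ℝ)| ≤ L * (∫ z, K.b z * ‖S.D φ' z‖ ∂μ) + h / 2 * I +
      (2 * h)⁻¹ * ∫ z, K.b z ^ 2 * φ' z ∂μ := by
    have i1 := (integrable_mul_norm K.b (S.D φ')).const_mul L
    have i2 := hI.const_mul (h / 2)
    have i3 := hb2.const_mul ((2 * h)⁻¹)
    obtain ⟨j1, j2⟩ := int_add3 i1 i2 i3
    rw [hIdef, L2.inner_def, ← integral_const_mul, ← integral_const_mul, ← integral_const_mul,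
      ← j2, ← Real.norm_eq_abs]
    refine (norm_integral_le_integral_norm _).trans ?_
    refine integral_mono_ae (L2.integrable_inner (𝕜 := ℝ) K.E1 (S.D p)).norm j1 ?_
    filter_upwards [Dp', K.E1_le, hφ0] with x a1 a2 a3
    show ‖(⟪K.E1 x, S.D p x⟫ : ℝ)‖ ≤ L * (K.b x * ‖S.D φ' x‖) +
      h / 2 * (φ' x * th (K.k x) * ‖S.D K.k x‖ ^ 2) + (2 * h)⁻¹ * (K.b x ^ 2 * φ' x)
    have a4 : 0 ≤ K.b x := (norm_nonneg _).trans a2
    have a5 : 0 ≤ th (K.k x) := th0 _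
    have a6 : th (K.k x) ≤ 1 := th1 _
    have a7 : ‖S.D p x‖ ≤ L * ‖S.D φ' x‖ + (φ' x * th (K.k x)) * ‖S.D K.k x‖ := by
      rw [a1]
      refine (norm_add_le _ _).trans ?_
      rw [norm_smul, norm_smul, Real.norm_eq_abs, Real.norm_eq_abs,
        abs_of_nonneg (mul_nonneg a3 a5)]
      gcongr
      exact hL _
    have a8 : ‖(⟪K.E1 x, S.D p x⟫ : ℝ)‖ ≤ K.b x * (L * ‖S.D φ' x‖ +
        (φ' x * th (K.k x)) * ‖S.D K.k x‖) := by
      refine (norm_inner_le_norm _ _).trans ?_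
      exact mul_le_mul a2 a7 (norm_nonneg _) a4
    have a9 : K.b x * ((φ' x * th (K.k x)) * ‖S.D K.k x‖) ≤
        h / 2 * (φ' x * th (K.k x) * ‖S.D K.k x‖ ^ 2) + (2 * h)⁻¹ * (K.b x ^ 2 * φ' x) := by
      have c1 : K.b x * ‖S.D K.k x‖ ≤ h / 2 * ‖S.D K.k x‖ ^ 2 + (2 * h)⁻¹ * K.b x ^ 2 := by
        have c2 : h / 2 * ‖S.D K.k x‖ ^ 2 + (2 * h)⁻¹ * K.b x ^ 2 - K.b x * ‖S.D K.k x‖ =
            (2 * h)⁻¹ * (h * ‖S.D K.k x‖ - K.b x) ^ 2 := by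
          field_simp
          ring
        have c3 : 0 ≤ (2 * h)⁻¹ * (h * ‖S.D K.k x‖ - K.b x) ^ 2 := by positivity
        linarith
      have c4 : 0 ≤ φ' x * th (K.k x) := mul_nonneg a3 a5
      have c5 := mul_le_mul_of_nonneg_left c1 c4
      have c6 : φ' x * th (K.k x) * ((2 * h)⁻¹ * K.b x ^ 2) ≤ (2 * h)⁻¹ * (K.b x ^ 2 * φ' x) := by
        calc φ' x * th (K.k x) * ((2 * h)⁻¹ * K.b x ^ 2) ≤
              φ' x * 1 * ((2 * h)⁻¹ * K.b x ^ 2) := by gcongr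
          _ = _ := by ring
      calc K.b x * ((φ' x * th (K.k x)) * ‖S.D K.k x‖) =
            φ' x * th (K.k x) * (K.b x * ‖S.D K.k x‖) := by ring
        _ ≤ φ' x * th (K.k x) * (h / 2 * ‖S.D K.k x‖ ^ 2 + (2 * h)⁻¹ * K.b x ^ 2) := c5
        _ = h / 2 * (φ' x * th (K.k x) * ‖S.D K.k x‖ ^ 2) +
            φ' x * th (K.k x) * ((2 * h)⁻¹ * K.b x ^ 2) := by ring
        _ ≤ _ := by gcongr
    calc ‖(⟪K.E1 x, S.D p x⟫ : ℝ)‖ ≤ K.b x * (L * ‖S.D φ' x‖ +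
        (φ' x * th (K.k x)) * ‖S.D K.k x‖) := a8
      _ = L * (K.b x * ‖S.D φ' x‖) + K.b x * ((φ' x * th (K.k x)) * ‖S.D K.k x‖) := by ring
      _ ≤ _ := by rw [add_assoc]; gcongr
  have er2 : |e| / h ≤ 5 * L * Y + I / 2 + h * Y / 2 := by
    have c1 : |e| ≤ L * (4 * (h ^ 3 * Y)) + (L * (h ^ 3 * Y) + h / 2 * I +
        (2 * h)⁻¹ * (h ^ 3 * Y)) := by
      refine (abs_add_le _ _).trans (add_le_add (er0.trans ?_) (er1.trans ?_))
      · exact mul_le_mul_of_nonneg_left M.bφ' hL0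
      · have c2 := mul_le_mul_of_nonneg_left M.e3 hL0
        have c3 := mul_le_mul_of_nonneg_left M.e4 (by positivity : 0 ≤ (2 * h)⁻¹)
        linarith
    have c4 : h ^ 3 * Y ≤ h * Y := M.h3
    have c5 : (2 * h)⁻¹ * (h ^ 3 * Y) = h ^ 2 * Y / 2 := by field_simp
    have c6 : h ^ 2 * Y ≤ h * (h * Y) := le_of_eq (by ring)
    rw [div_le_iff₀ h0]
    have c7 : L * (4 * (h ^ 3 * Y)) ≤ L * (4 * (h * Y)) := by gcongr
    have c8 : L * (h ^ 3 * Y) ≤ L * (h * Y) := by gcongr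
    rw [c5] at c1
    nlinarith
  have t1 := M.A5
  have t2 := M.A4
  have t3 : (h / 4)⁻¹ * ∫ x, φ' x * |K.k x| ∂μ ≤ 80 * Y := by
    calc (h / 4)⁻¹ * ∫ x, φ' x * |K.k x| ∂μ ≤ (h / 4)⁻¹ * (h * (20 * Y)) := by gcongr
      _ = 80 * Y := by field_simp; ring
  have t4 : L * ((∫ x, φ' x * |4 * K.q x - K.SS x| ∂μ) + (h / 4)⁻¹ * ∫ x, φ' x * |K.k x| ∂μ) ≤
      L * (48 * Y + 80 * Y) := by gcongr
  have t5 : h * Y ≤ L * Y := by gcongr
  have t6 : I ≤ L * (48 * Y + 80 * Y) + (5 * L * Y + I / 2 + h * Y / 2) :=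
    hle.trans (add_le_add t4 er2)
  have t7 : 0 ≤ L * Y := by positivity
  nlinarith

/-- the two parts of `|dk|` -/
theorem A7 {K0 : ℝ} (hK : h ≤ K0) :
    (Integrable (fun z => ((S.form hd).res (h / 4) Ψ : Lp ℝ 2 μ) z *
        (if |K.k z| ≤ h ∧ |K.k z| ≤ K0 then ‖S.D K.k z‖ else 0) ^ 2) μ ∧
      ∫ z, ((S.form hd).res (h / 4) Ψ : Lp ℝ 2 μ) z *
        (if |K.k z| ≤ h ∧ |K.k z| ≤ K0 then ‖S.D K.k z‖ else 0) ^ 2 ∂μ ≤ 600 * LK h K0 * Y) ∧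
    (Integrable (fun z => ((S.form hd).res (h / 4) Ψ : Lp ℝ 2 μ) z *
        (if h < |K.k z| ∧ |K.k z| ≤ K0 then ‖S.D K.k z‖ else 0)) μ ∧
      ∫ z, ((S.form hd).res (h / 4) Ψ : Lp ℝ 2 μ) z *
        (if h < |K.k z| ∧ |K.k z| ≤ K0 then ‖S.D K.k z‖ else 0) ∂μ ≤
        110 * Real.sqrt (LK h K0) * Y) := by
  have h0 := M.h0
  have hY := M.Y0
  have hK0 : 0 < K0 := h0.trans_le hK
  obtain ⟨a1, a2⟩ := M.A6 hK
  have hL0 : 0 ≤ LK h K0 := LK_nonneg h0 hK0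
  obtain ⟨⟨b1, b2⟩, ⟨b3, b4⟩⟩ := kt2 (a := h) (K := K0) (N := 20 * Y) h0 hK0 M.φ'0
    (fun x => norm_nonneg (S.D K.k x))
    (Lp.aestronglyMeasurable _) (Lp.aestronglyMeasurable _) (Lp.aestronglyMeasurable _).norm
    a1 a2 M.kφ'_int M.A4
  refine ⟨⟨b1, b2.trans (le_of_eq (by ring))⟩, ⟨b3, b4.trans ?_⟩⟩
  rw [show 2 * (300 * LK h K0 * Y) * (20 * Y) = LK h K0 * (12000 * Y ^ 2) by ring,
    Real.sqrt_mul hL0]
  have : Real.sqrt (12000 * Y ^ 2) ≤ 110 * Y := by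
    rw [Real.sqrt_le_left (by positivity)]
    nlinarith [sq_nonneg Y]
  calc Real.sqrt (LK h K0) * Real.sqrt (12000 * Y ^ 2) ≤ Real.sqrt (LK h K0) * (110 * Y) := by
        gcongr
    _ = _ := by ring

end Sm

end Chain

end Crest.Agent.R247.Kt622
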