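import Crest.Agent.R247.Smv4_126
import Crest.Agent.R247.Kt7_622
import Crest.Agent.R247.Fd3_656
import Crest.Agent.R247.FarAsm1_196
import Crest.Agent.R247.Lx3_149

-- ▼ part R247/Smv5_126
section

/-!
R247, block (5-M) (helper126): compactly supported locally Lipschitz functions are Lipschitz;
`WLap` from 688's `Rad` and the radial derivative identity; (R2) in the `loc` form of `Far0`.
-/

set_option autoImplicit false
set_option linter.unusedSectionVars false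

open MeasureTheory Filter Topology Set
open scoped RealInnerProductSpace ENNReal NNReal

noncomputable section

namespace Crest.Agent.R247.Smv126

open Crest.Agent.R242
open Crest.Agent.R247.Dir593 Crest.Agent.R247.Dir593.GradS


variable {X : Type*} [MetricSpace X] [MeasurableSpace X] {F : Type*}
  [NormedAddCommGroup F] [InnerProductSpace ℝ F] {μ : Measure X} [BorelSpace X]
  [IsFiniteMeasureOnCompacts μ] [ProperSpace X] {S : GradS X F μ}


/-- the constant of (R2) -/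
def cR2 (n : ℕ) (K v1 : ℝ) : ℝ :=
  64 / 27 * (1 + 6 * (n + 4 * K ^ 2) / (4 * K ^ 2)) *
    (2 ^ (n + 2) * Real.exp (6 * K ^ 2) * v1 * (2 * K) ^ n)

/-- **(R2)** in the `loc` form: `ρ⁻ⁿ ∫_{B(y,Kρ)} φ ≤ C R_ρ φ (y)` for a.e. `y`. -/
theorem r2_loc [SFinite μ] [IsUnifLocDoublingMeasure μ] [CompleteSpace F]
    (hd : Dense (S.V : Set (Lp ℝ 2 μ))) {n : ℕ} (hn : 1 ≤ n) {κ : ℝ}
    (W : WLap S n κ) (hκ : 0 ≤ κ) {φ : Lp ℝ 2 μ} (h0 : 0 ≤ᵐ[μ] (φ : X → ℝ))
    {ρ : ℝ} (hρ : 0 < ρ) (hκρ : κ * ρ ^ 2 ≤ 1) {K v1 : ℝ} (hK : 0 < K) (hv1 : 0 ≤ v1) :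
    ∀ᵐ y ∂μ,
      (∀ᶠ ε in 𝓝[>] (0:ℝ), μ (Metric.closedBall y ε) ≤ ENNReal.ofReal (v1 * ε ^ n)) →
      Far553.loc μ n K ρ φ y ≤ ENNReal.ofReal (cR2 n K v1 * (S.form hd).res (ρ ^ 2) φ y) := by
  have hres0 := (S.markov hd).res_nonneg (sq_pos_of_pos hρ) h0
  filter_upwards [r2 hd hn W hκ h0 (sq_pos_of_pos hρ), hres0] with y hy hres hup
  have hres' : (0:ℝ) ≤ (S.form hd).res (ρ ^ 2) φ y := hres
  have h1 := hy v1 hv1 hup (2 * (K * ρ)) (by positivity)
  have e0 : 2 * (K * ρ) / 2 = K * ρ := by ring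
  rw [e0] at h1
  unfold Far553.loc
  have hfin : μ (Metric.ball y (K * ρ)) ≠ ∞ :=
    ((measure_mono Metric.ball_subset_closedBall).trans_lt
      (isCompact_closedBall y _).measure_lt_top).ne
  rw [← ofReal_integral_eq_lintegral_ofReal
    (integrableOn_of_L2 φ Metric.isOpen_ball.measurableSet hfin) (ae_restrict_of_ae h0),
    ← ENNReal.ofReal_mul (by positivity)]
  refine ENNReal.ofReal_le_ofReal ?_
  have hb : (2 * (K * ρ)) ^ n = (2 * K) ^ n * ρ ^ n := by rw [← mul_pow]; ring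
  have a1 : 6 * ρ ^ 2 * (n + κ * (2 * (K * ρ)) ^ 2) / (2 * (K * ρ)) ^ 2 ≤
      6 * (n + 4 * K ^ 2) / (4 * K ^ 2) := by
    rw [div_le_div_iff₀ (by positivity) (by positivity)]
    have h2 : κ * (2 * (K * ρ)) ^ 2 ≤ 4 * K ^ 2 := by
      calc κ * (2 * (K * ρ)) ^ 2 = (κ * ρ ^ 2) * (4 * K ^ 2) := by ring
        _ ≤ 1 * (4 * K ^ 2) := by gcongr
        _ = _ := one_mul _
    calc 6 * ρ ^ 2 * (n + κ * (2 * (K * ρ)) ^ 2) * (4 * K ^ 2)
        ≤ 6 * ρ ^ 2 * (n + 4 * K ^ 2) * (4 * K ^ 2) := by gcongr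
      _ = 6 * (n + 4 * K ^ 2) * (2 * (K * ρ)) ^ 2 := by ring
  have a2 : Real.exp ((2 * (K * ρ)) ^ 2 / ρ ^ 2 + κ * (2 * (K * ρ)) ^ 2 / 2) ≤
      Real.exp (6 * K ^ 2) := by
    refine Real.exp_le_exp.2 ?_
    have h2 : (2 * (K * ρ)) ^ 2 / ρ ^ 2 = 4 * K ^ 2 := by field_simp; ring
    have h3 : κ * (2 * (K * ρ)) ^ 2 / 2 ≤ 2 * K ^ 2 := by
      calc κ * (2 * (K * ρ)) ^ 2 / 2 = (κ * ρ ^ 2) * (2 * K ^ 2) := by ring
        _ ≤ 1 * (2 * K ^ 2) := by gcongr
        _ = _ := one_mul _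
    rw [h2]; linarith
  have hρn : 0 < ρ ^ n := by positivity
  calc ρ⁻¹ ^ n * ∫ z in Metric.ball y (K * ρ), φ z ∂μ
      ≤ ρ⁻¹ ^ n * (64 / 27 * (1 + 6 * ρ ^ 2 * (n + κ * (2 * (K * ρ)) ^ 2) / (2 * (K * ρ)) ^ 2) *
        (2 ^ (n + 2) * Real.exp ((2 * (K * ρ)) ^ 2 / ρ ^ 2 + κ * (2 * (K * ρ)) ^ 2 / 2) * v1 *
          (2 * (K * ρ)) ^ n) * (S.form hd).res (ρ ^ 2) φ y) := by gcongr
    _ ≤ ρ⁻¹ ^ n * (64 / 27 * (1 + 6 * (n + 4 * K ^ 2) / (4 * K ^ 2)) *
        (2 ^ (n + 2) * Real.exp (6 * K ^ 2) * v1 * ((2 * K) ^ n * ρ ^ n)) *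
          (S.form hd).res (ρ ^ 2) φ y) := by
      rw [hb]; gcongr
    _ = cR2 n K v1 * (S.form hd).res (ρ ^ 2) φ y := by
      unfold cR2
      rw [inv_pow]
      field_simp


end Crest.Agent.R247.Smv126
end
end

-- ▼ part R247/Kt8_328

/-!
# R247, block (1-K), final conversion (helper328)

From helper622's interface `Core` (integrals against the weight `wt B ψ k`) to the six literal
fields `d2_*` of `FarD` (lower integrals over the sets `NN`).

* `lower_NN` : on `NN` the weight is bounded below ((R2) in the `loc` form);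
* `dist_lt_of_NN`, `far_NN` : geometry of `NN` and its part outside `B(x, 32)`;
* `d2HP_of`, `d2gP_of`, `d2qP_of`, `d2kP_of`, `d2n2P_of`, `d2n1P_of`.
-/

set_option autoImplicit false
set_option linter.unusedSectionVars false
set_option linter.unusedVariables false

open MeasureTheory Filter Topology Set Metric
open scoped RealInnerProductSpace ENNReal NNReal

noncomputable section

namespace Crest.Agent.R247.Kt328

universe u

open Crest.Agent.R242 Crest.Agent.R247.Dir593 Crest.Agent.R247.Dir593.GradS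
open Crest.Agent.R247.Obj554 Crest.Agent.R247.Hes124
open Crest.Agent.R247.Far553 Crest.Agent.R247.Mcp688 Crest.Agent.R247.Max193
open Crest.Agent.R247.Fd656

/-! ### general conversion lemmas -/

section conv

variable {X : Type*} [MeasurableSpace X] {μ : Measure X}

/-- on `N` the weight is `≥ c0` -/
lemma part_near {w F : X → ℝ} {N D : Set X} {c0 b : ℝ} (hN : MeasurableSet N)
    (hD : MeasurableSet D) (hc : 0 < c0) (hw : ∀ᵐ z ∂μ, z ∈ N → c0 ≤ w z)
    (hb : ∫⁻ z in D, ENNReal.ofReal (w z * F z) ∂μ ≤ ENNReal.ofReal b) :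
    ∫⁻ z in N ∩ D, ENNReal.ofReal (F z) ∂μ ≤ ENNReal.ofReal (c0⁻¹ * b) := by
  have hci : 0 ≤ c0⁻¹ := (inv_pos.2 hc).le
  have h1 : ∫⁻ z in N ∩ D, ENNReal.ofReal (F z) ∂μ ≤
      ∫⁻ z in N ∩ D, ENNReal.ofReal c0⁻¹ * ENNReal.ofReal (w z * F z) ∂μ := by
    refine lintegral_mono_ae ((ae_restrict_iff' (hN.inter hD)).2 ?_)
    filter_upwards [hw] with z h2 hz
    rw [← ENNReal.ofReal_mul hci]
    by_cases hF : 0 ≤ F z
    · refine ENNReal.ofReal_le_ofReal ?_
      have h5 : c0 * F z ≤ w z * F z := mul_le_mul_of_nonneg_right (h2 hz.1) hF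
      calc F z = c0⁻¹ * (c0 * F z) := by field_simp
        _ ≤ c0⁻¹ * (w z * F z) := by gcongr
    · rw [ENNReal.ofReal_of_nonpos (not_le.1 hF).le]
      exact zero_le
  refine h1.trans ?_
  rw [lintegral_const_mul' _ _ ENNReal.ofReal_ne_top, ENNReal.ofReal_mul hci]
  exact mul_le_mul_right ((lintegral_mono_set inter_subset_right).trans hb) _

/-- splitting a domain -/
lemma split_le {f : X → ℝ≥0∞} {N D E : Set X} (h : N ⊆ D ∪ E) :
    ∫⁻ z in N, f z ∂μ ≤ ∫⁻ z in D, f z ∂μ + ∫⁻ z in E, f z ∂μ :=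
  (lintegral_mono_set h).trans (lintegral_union_le _ _ _)

/-- a constant on a set -/
lemma const_part {F : X → ℝ} {N : Set X} (hN : MeasurableSet N) {A m : ℝ} (hA : 0 ≤ A)
    (hF : ∀ᵐ z ∂μ, z ∈ N → F z ≤ A) (hm : μ N ≤ ENNReal.ofReal m) :
    ∫⁻ z in N, ENNReal.ofReal (F z) ∂μ ≤ ENNReal.ofReal (A * m) := by
  have h1 : ∫⁻ z in N, ENNReal.ofReal (F z) ∂μ ≤ ∫⁻ z in N, ENNReal.ofReal A ∂μ := by
    refine lintegral_mono_ae ((ae_restrict_iff' hN).2 ?_)
    filter_upwards [hF] with z h2 hz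
    exact ENNReal.ofReal_le_ofReal (h2 hz)
  refine h1.trans ?_
  rw [setLIntegral_const, ENNReal.ofReal_mul hA]
  exact mul_le_mul_right hm _

end conv

/-! ### geometry of `NN` -/

section geom

variable {n : ℕ} {κ : ℝ} {X : Type u} [MetricSpace X] [ProperSpace X] [MeasurableSpace X]
  [BorelSpace X] {μ : Measure X} [IsFiniteMeasureOnCompacts μ]

lemma dist_lt_of_NN (C : Rad n κ X μ) (x : X) {s ρ K c : ℝ} (hc : 0 < c) (hρ : 0 < ρ) {z : X}
    (hz : z ∈ NN C x s ρ K c) : dist x z < 4 * s + K * ρ := by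
  have h1 : ENNReal.ofReal (c * ρ ^ n) ≤ Lam C x s (ball z (K * ρ)) := hz
  have h2 : 0 < Lam C x s (ball z (K * ρ)) :=
    lt_of_lt_of_le (ENNReal.ofReal_pos.2 (by positivity)) h1
  by_contra hcon
  push Not at hcon
  have h3 : ball z (K * ρ) ⊆ (closedBall x (4 * s))ᶜ := by
    intro w hw hw2
    rw [mem_ball] at hw
    rw [mem_closedBall] at hw2
    have h4 := dist_triangle x w z
    rw [dist_comm x w] at h4
    linarith
  have h4 := (measure_mono h3).trans_eq (LX149.Lam_compl C x s)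
  exact h2.ne' (le_antisymm h4 zero_le)

lemma exp_le_T (C : Rad n κ X μ) (hκ : 0 ≤ κ) (x : X) (j : ℕ) :
    Real.exp (-(c3 n / 64 * 2 ^ j)) ≤ phx n κ μ x j * dy j ^ n := by
  have hd := dy_pos j
  have h1 : Fd656.wt n (c3 n / 64) j ≤ phx n κ μ x j := by
    unfold phx
    rw [phat_eq]
    have h2 : 0 ≤ ∑ p ∈ Finset.HasAntidiagonal.antidiagonal (j + 4),
        Fd656.wt n (c3 n / 64) p.1 * Num824.pd n κ μ x (16 / 2 ^ p.2) :=
      Finset.sum_nonneg fun p _ => mul_nonneg (Fd656.wt_nonneg _ _ _)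
        (pd_nonneg' C hκ x (by positivity))
    linarith
  have h2 : Real.exp (-(c3 n / 64 * 2 ^ j)) = Fd656.wt n (c3 n / 64) j * dy j ^ n := by
    unfold Fd656.wt dy
    have h3 : ((2:ℝ) ^ j) ^ n * ((1 / 2 : ℝ) ^ j) ^ n = 1 := by
      rw [← mul_pow, ← mul_pow]; norm_num
    rw [mul_assoc, h3, mul_one]
  rw [h2]
  gcongr

lemma T_nonneg (C : Rad n κ X μ) (hκ : 0 ≤ κ) (x : X) (j : ℕ) :
    0 ≤ phx n κ μ x j * dy j ^ n :=
  (Real.exp_pos _).le.trans (exp_le_T C hκ x j)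

lemma c3_pos (n : ℕ) : 0 < c3 n := by unfold c3; positivity

/-- bound of the ball of radius `(4 + K)` -/
def VK (n : ℕ) (K : ℝ) : ℝ := Real.exp ((4 + K) ^ 2) * (4 + K) ^ n * om n

/-- the constant of `far_NN` -/
def AF (n : ℕ) (K : ℝ) : ℝ := VK n K * (K ^ 2 * Real.exp (c3 n / 64 * K))

lemma VK_pos (n : ℕ) {K : ℝ} (hK : 1 ≤ K) : 0 < VK n K := by
  unfold VK
  have := om_pos n
  positivity

lemma AF_pos (n : ℕ) {K : ℝ} (hK : 1 ≤ K) : 0 < AF n K := by
  unfold AF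
  have := VK_pos n hK
  positivity

section geom2

variable {B : BochS n κ X μ} {C : Rad n κ X μ} {x : X} {δ : ℝ}

lemma dist_NN (C : Rad n κ X μ) (x : X) {K s : ℝ} (hK : 1 ≤ K) (hs : 0 < s) {j k : ℕ}
    (hjk : j ≤ k) {z : X} (hz : z ∈ NN C x (dy j) (dy k) K s) : dist x z ≤ (4 + K) * dy j := by
  have h1 := dist_lt_of_NN C x hs (dy_pos k) hz
  have h2 : K * dy k ≤ K * dy j := mul_le_mul_of_nonneg_left (dy_anti hjk) (by linarith)
  linarith

lemma K_large (C : Rad n κ X μ) (x : X) {K s : ℝ} (hK : 1 ≤ K) (hs : 0 < s) {j k : ℕ}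
    (hj : 4 ≤ j) {z : X} (hz : z ∈ NN C x (dy j) (dy k) K s) (h32 : 32 < dist x z) :
    31 < K * dy k := by
  have h1 := dist_lt_of_NN C x hs (dy_pos k) hz
  have h2 : dy j ≤ 1 / 16 := by
    refine (dy_anti hj).trans ?_
    unfold dy; norm_num
  linarith

/-- the part of `NN` outside `B(x,32)` -/
theorem far_NN (E : EnvF B C x δ) {K s : ℝ} (hK : 1 ≤ K) (hs : 0 < s) {j k : ℕ} (hj : 4 ≤ j)
    (hjk : j ≤ k) :
    μ (NN C x (dy j) (dy k) K s ∩ {z | 32 < dist x z}) ≤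
      ENNReal.ofReal (AF n K * dy k ^ 2 * (phx n κ μ x j * dy j ^ n)) := by
  rcases (NN C x (dy j) (dy k) K s ∩ {z | 32 < dist x z}).eq_empty_or_nonempty with h0 | ⟨z, hz1, hz2⟩
  · rw [h0, measure_empty]; exact zero_le
  have h31 := K_large C x hK hs hj hz1 hz2
  have hdk := dy_pos k
  have hdj := dy_pos j
  have hdj1 := dy_le_one j
  have hK0 : 0 < K := by linarith
  have hκ1 : κ ≤ 1 := by have := E.κ_le; have := E.κ_nonneg; linarith
  -- the volume
  have h1 : μ (NN C x (dy j) (dy k) K s ∩ {z | 32 < dist x z}) ≤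
      μ (closedBall x (4 + K)) := by
    refine measure_mono fun w hw => ?_
    have h2 := dist_NN C x hK hs hjk hw.1
    rw [mem_closedBall, dist_comm]
    nlinarith
  have h2 := E.bishop x (4 + K) (by linarith)
  have hom := om_pos n
  have h3 : Real.exp (κ * (4 + K) ^ 2 / 2) * (4 + K) ^ n * om n ≤ VK n K := by
    unfold VK
    have : κ * (4 + K) ^ 2 / 2 ≤ (4 + K) ^ 2 := by
      have h4 : 0 ≤ (4 + K) ^ 2 := by positivity
      nlinarith [E.κ_nonneg]
    gcongr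
  -- the gain
  have h4 : 1 ≤ K ^ 2 * dy k ^ 2 := by
    rw [← mul_pow]
    exact one_le_pow₀ (by linarith)
  have h5 : (2:ℝ) ^ j ≤ K := by
    have e : (2:ℝ) ^ j * dy j = 1 := by unfold dy; rw [← mul_pow]; norm_num
    have h6 : dy k ≤ dy j := dy_anti hjk
    have h7 : 1 ≤ K * dy j := by nlinarith
    have h8 : (2:ℝ) ^ j * (K * dy j) = K := by linear_combination K * e
    have h9 : (0:ℝ) < 2 ^ j := by positivity
    nlinarith
  have h6 : Real.exp (-(c3 n / 64 * K)) ≤ phx n κ μ x j * dy j ^ n := by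
    refine le_trans (Real.exp_le_exp.2 ?_) (exp_le_T C E.κ_nonneg x j)
    have := (c3_pos n).le
    have h7 : c3 n / 64 * 2 ^ j ≤ c3 n / 64 * K := by gcongr
    linarith
  have h7 : 1 ≤ Real.exp (c3 n / 64 * K) * (phx n κ μ x j * dy j ^ n) := by
    have h8 : Real.exp (c3 n / 64 * K) * Real.exp (-(c3 n / 64 * K)) = 1 := by
      rw [← Real.exp_add]; simp
    calc (1:ℝ) = Real.exp (c3 n / 64 * K) * Real.exp (-(c3 n / 64 * K)) := h8.symm
      _ ≤ _ := by gcongr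
  refine (h1.trans (h2.trans (ENNReal.ofReal_le_ofReal (h3.trans ?_))))
  have h8 := VK_pos n hK
  have h9 : 1 ≤ (K ^ 2 * dy k ^ 2) * (Real.exp (c3 n / 64 * K) * (phx n κ μ x j * dy j ^ n)) := by
    nlinarith
  unfold AF
  calc VK n K = VK n K * 1 := (mul_one _).symm
    _ ≤ VK n K * ((K ^ 2 * dy k ^ 2) *
        (Real.exp (c3 n / 64 * K) * (phx n κ μ x j * dy j ^ n))) := by gcongr
    _ = _ := by ring

end geom2

end geom

/-! ### the lower bound of the weight -/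

/-- the constant of the density bound -/
def v1K (n : ℕ) : ℝ := Real.exp 1 * om n

/-- the lower bound of the weight on `NN` -/
def c0K (n : ℕ) (K s : ℝ) : ℝ := 2 ^ n * s / Smv126.cR2 n (2 * K) (v1K n)

lemma v1K_pos (n : ℕ) : 0 < v1K n := by
  unfold v1K
  have := om_pos n
  positivity

lemma cR2_pos' (n : ℕ) {K v1 : ℝ} (hK : 0 < K) (hv : 0 < v1) : 0 < Smv126.cR2 n K v1 := by
  unfold Smv126.cR2
  positivity

lemma c0K_pos (n : ℕ) {K s : ℝ} (hK : 1 ≤ K) (hs : 0 < s) : 0 < c0K n K s := by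
  unfold c0K
  have := cR2_pos' n (show 0 < 2 * K by linarith) (v1K_pos n)
  positivity

section lower

variable {n : ℕ} {κ : ℝ} {X : Type u} [MetricSpace X] [ProperSpace X] [MeasurableSpace X]
  [BorelSpace X] {μ : Measure X} [IsFiniteMeasureOnCompacts μ] {B : BochS n κ X μ}
  {C : Rad n κ X μ} {x : X} {δ : ℝ}

/-- **on `NN` the weight is bounded below** -/
theorem lower_NN (E : EnvF B C x δ) {K s : ℝ} (hK : 1 ≤ K) (hs : 0 < s) {j k : ℕ}
    {ψ : Lp ℝ 2 μ} (h0 : ∀ᵐ z ∂μ, 0 ≤ ψ z)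
    (hlam : Lam C x (dy j) = μ.withDensity (fun z => ENNReal.ofReal (ψ z))) :
    ∀ᵐ z ∂μ, z ∈ NN C x (dy j) (dy k) K s → c0K n K s ≤ Kt622.wt B ψ k z := by
  have hdk := dy_pos k
  have hdk1 := dy_le_one k
  have hκ := E.κ_nonneg
  have hκ1 : κ ≤ 1 := by have := E.κ_le; linarith
  have := Smv126.doubling_of_rad C hκ
  have hv := v1K_pos n
  have hom := om_pos n
  have hcR := cR2_pos' n (show 0 < 2 * K by linarith) hv
  have hd : ∀ y : X, ∀ᶠ ε in 𝓝[>] (0:ℝ),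
      μ (closedBall y ε) ≤ ENNReal.ofReal (v1K n * ε ^ n) := by
    intro y
    filter_upwards [Ioo_mem_nhdsGT (zero_lt_one' ℝ)] with ε hε
    refine (E.bishop y ε hε.1).trans (ENNReal.ofReal_le_ofReal ?_)
    have h1 : κ * ε ^ 2 / 2 ≤ 1 := by
      have : ε ^ 2 ≤ 1 := pow_le_one₀ hε.1.le hε.2.le
      have h2 : 0 ≤ ε ^ 2 := by positivity
      nlinarith
    have h2 : Real.exp (κ * ε ^ 2 / 2) ≤ Real.exp 1 := Real.exp_le_exp.2 h1
    have h3 : 0 ≤ ε ^ n * om n := by have := hε.1; positivity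
    unfold v1K
    nlinarith
  have hκρ : κ * (dy k / 2) ^ 2 ≤ 1 := by
    have h1 : (dy k / 2) ^ 2 ≤ 1 := pow_le_one₀ (by positivity) (by linarith)
    have h2 : 0 ≤ (dy k / 2) ^ 2 := by positivity
    nlinarith
  have key := Smv126.r2_loc (S := B.toGradS) (μ := μ) B.dense_V E.n_pos E.W hκ h0
    (ρ := dy k / 2) (by positivity) hκρ (K := 2 * K) (v1 := v1K n) (by linarith) hv.le
  filter_upwards [key] with z hz hzN
  have h1 := hz (hd z)
  have e1 : (dy k / 2) ^ 2 = dy k ^ 2 / 4 := by ring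
  have e2 : 2 * K * (dy k / 2) = K * dy k := by ring
  have h2 : ENNReal.ofReal (s * dy k ^ n) ≤
      ∫⁻ w in ball z (K * dy k), ENNReal.ofReal (ψ w) ∂μ := by
    have h3 : ENNReal.ofReal (s * dy k ^ n) ≤ Lam C x (dy j) (ball z (K * dy k)) := hzN
    rwa [hlam, withDensity_apply _ measurableSet_ball] at h3
  unfold Far553.loc at h1
  rw [e1, e2] at h1
  have h3 : ENNReal.ofReal ((dy k / 2)⁻¹ ^ n) * ENNReal.ofReal (s * dy k ^ n) ≤
      ENNReal.ofReal (Smv126.cR2 n (2 * K) (v1K n) * Kt622.wt B ψ k z) :=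
    (mul_le_mul_right h2 _).trans h1
  rw [← ENNReal.ofReal_mul (by positivity)] at h3
  have e3 : (dy k / 2)⁻¹ ^ n * (s * dy k ^ n) = 2 ^ n * s := by
    have h4 : (dy k / 2)⁻¹ ^ n * dy k ^ n = 2 ^ n := by
      rw [← mul_pow]; congr 1; field_simp
    linear_combination s * h4
  rw [e3] at h3
  have h4 : 2 ^ n * s ≤ Smv126.cR2 n (2 * K) (v1K n) * Kt622.wt B ψ k z := by
    rcases ENNReal.ofReal_le_ofReal_iff'.1 h3 with h | h
    · exact h
    · exact absurd h (not_le.2 (by positivity))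
  unfold c0K
  rw [div_le_iff₀ hcR]
  linarith [mul_comm (Kt622.wt B ψ k z) (Smv126.cR2 n (2 * K) (v1K n))]

end lower

/-! ### the six fields -/

section six

variable {n : ℕ} {κ : ℝ} {X : Type u} [MetricSpace X] [ProperSpace X] [MeasurableSpace X]
  [BorelSpace X] {μ : Measure X} [IsFiniteMeasureOnCompacts μ] {B : BochS n κ X μ}
  {C : Rad n κ X μ} {x : X} {δ : ℝ} {O : HObj B x} {A : ℝ} {j k : ℕ} {ψ : Lp ℝ 2 μ}

lemma meas_far (x : X) : MeasurableSet {z : X | 32 < dist x z} :=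
  measurableSet_lt measurable_const (measurable_const.dist measurable_id)

lemma meas_near (x : X) : MeasurableSet {z : X | dist x z ≤ 32} :=
  measurableSet_le (measurable_const.dist measurable_id) measurable_const

lemma meas_NN (C : Rad n κ X μ) (x : X) (s ρ K c : ℝ) : MeasurableSet (NN C x s ρ K c) :=
  FarAsm196.measurableSet_NN C x s ρ K c

/-- the constant of `hg_NN` -/
def A1K (n : ℕ) (A K s : ℝ) : ℝ := (c0K n K s)⁻¹ * A + A * AF n K

lemma A1K_pos (n : ℕ) {A K s : ℝ} (hA : 1 ≤ A) (hK : 1 ≤ K) (hs : 0 < s) : 0 < A1K n A K s := by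
  unfold A1K
  have := c0K_pos n hK hs
  have := AF_pos n hK
  positivity

/-- `∫_N (H + g)²` -/
lemma hg_NN (E : EnvF B C x δ) (hA : 1 ≤ A) {K s : ℝ} (hK : 1 ≤ K) (hs : 0 < s) (hj : 4 ≤ j)
    (hjk : j ≤ k) (M : Kt622.Core B C x O A j k ψ) :
    ∫⁻ z in NN C x (dy j) (dy k) K s, ENNReal.ofReal ((Hf O k z + gf B x k z) ^ 2) ∂μ ≤
      ENNReal.ofReal (A1K n A K s * (phx n κ μ x j * dy j ^ n)) := by
  set N := NN C x (dy j) (dy k) K s with hN
  set T := phx n κ μ x j * dy j ^ n with hT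
  have hT0 : 0 ≤ T := T_nonneg C E.κ_nonneg x j
  have hNm : MeasurableSet N := meas_NN C x _ _ _ _
  have hfm := meas_far x
  have hdk := dy_pos k
  have hdk1 : dy k ^ 2 ≤ 1 := pow_le_one₀ hdk.le (dy_le_one k)
  have hlow := lower_NN E (j := j) (k := k) hK hs M.nonneg M.lam
  have hc := c0K_pos n hK hs
  have hAF := AF_pos n hK
  -- first part
  have h1 : ∫⁻ z in N ∩ univ, ENNReal.ofReal ((Hf O k z + gf B x k z) ^ 2 -
      {z | 32 < dist x z}.indicator (fun _ => A) z) ∂μ ≤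
      ENNReal.ofReal ((c0K n K s)⁻¹ * (A * T)) := by
    refine part_near hNm MeasurableSet.univ hc hlow ?_
    rw [Measure.restrict_univ]
    exact M.H
  rw [inter_univ] at h1
  -- second part
  have h2 : ∫⁻ z in N ∩ {z | 32 < dist x z}, ENNReal.ofReal A ∂μ ≤
      ENNReal.ofReal (A * (AF n K * dy k ^ 2 * T)) :=
    const_part (hNm.inter hfm) (by linarith) (Eventually.of_forall fun z _ => le_rfl)
      (far_NN E hK hs hj hjk)
  have h3 : ∫⁻ z in N, ENNReal.ofReal ({z | 32 < dist x z}.indicator (fun _ => A) z) ∂μ =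
      ∫⁻ z in N ∩ {z | 32 < dist x z}, ENNReal.ofReal A ∂μ := by
    have e : (fun z => ENNReal.ofReal ({z | 32 < dist x z}.indicator (fun _ => A) z)) =
        {z | 32 < dist x z}.indicator (fun _ => ENNReal.ofReal A) := by
      funext z
      by_cases hz : z ∈ {z | 32 < dist x z}
      · rw [indicator_of_mem hz, indicator_of_mem hz]
      · rw [indicator_of_notMem hz, indicator_of_notMem hz, ENNReal.ofReal_zero]
    rw [e, lintegral_indicator hfm, Measure.restrict_restrict hfm, inter_comm]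
  have h4 : ∫⁻ z in N, ENNReal.ofReal ((Hf O k z + gf B x k z) ^ 2) ∂μ ≤
      ∫⁻ z in N, (ENNReal.ofReal ((Hf O k z + gf B x k z) ^ 2 -
        {z | 32 < dist x z}.indicator (fun _ => A) z) +
        ENNReal.ofReal ({z | 32 < dist x z}.indicator (fun _ => A) z)) ∂μ := by
    refine lintegral_mono fun z => ?_
    refine le_trans (ENNReal.ofReal_le_ofReal ?_) ENNReal.ofReal_add_le
    linarith
  refine h4.trans ?_
  have hm : Measurable fun z => ENNReal.ofReal ({z | 32 < dist x z}.indicator (fun _ => A) z) :=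
    (measurable_const.indicator hfm).ennreal_ofReal
  rw [lintegral_add_right _ hm, h3]
  refine (add_le_add h1 h2).trans ?_
  rw [← ENNReal.ofReal_add (by positivity) (by positivity)]
  refine ENNReal.ofReal_le_ofReal ?_
  unfold A1K
  have h5 : A * (AF n K * dy k ^ 2 * T) ≤ A * (AF n K * 1 * T) := by gcongr
  calc (c0K n K s)⁻¹ * (A * T) + A * (AF n K * dy k ^ 2 * T)
      ≤ (c0K n K s)⁻¹ * (A * T) + A * (AF n K * 1 * T) := by linarith
    _ = _ := by ring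

/-- the far part of `∫ (H + g)²` gains `dy k²` -/
lemma hg_far (E : EnvF B C x δ) (hA : 1 ≤ A) {K s : ℝ} (hK : 1 ≤ K) (hs : 0 < s) (hj : 4 ≤ j)
    (hjk : j ≤ k) (M : Kt622.Core B C x O A j k ψ) :
    ∫⁻ z in NN C x (dy j) (dy k) K s ∩ {z | 32 < dist x z},
        ENNReal.ofReal ((Hf O k z + gf B x k z) ^ 2) ∂μ ≤
      ENNReal.ofReal (A1K n A K s * K ^ 2 * dy k ^ 2 * (phx n κ μ x j * dy j ^ n)) := by
  rcases (NN C x (dy j) (dy k) K s ∩ {z | 32 < dist x z}).eq_empty_or_nonempty with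
    h0 | ⟨z, hz1, hz2⟩
  · rw [h0, Measure.restrict_empty, lintegral_zero_measure]; exact zero_le
  have h31 := K_large C x hK hs hj hz1 hz2
  have h4 : 1 ≤ K ^ 2 * dy k ^ 2 := by
    rw [← mul_pow]
    exact one_le_pow₀ (by linarith)
  have hT0 : 0 ≤ phx n κ μ x j * dy j ^ n := T_nonneg C E.κ_nonneg x j
  have hA1 := A1K_pos n hA hK hs
  refine ((lintegral_mono_set inter_subset_left).trans (hg_NN E hA hK hs hj hjk M)).trans
    (ENNReal.ofReal_le_ofReal ?_)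
  have h5 : 0 ≤ A1K n A K s * (phx n κ μ x j * dy j ^ n) := by positivity
  calc A1K n A K s * (phx n κ μ x j * dy j ^ n)
      = A1K n A K s * (phx n κ μ x j * dy j ^ n) * 1 := (mul_one _).symm
    _ ≤ A1K n A K s * (phx n κ μ x j * dy j ^ n) * (K ^ 2 * dy k ^ 2) := by gcongr
    _ = _ := by ring

/-- `nk²` on the far part -/
lemma nk2_far (E : EnvF B C x δ) (hA : 1 ≤ A) {K s : ℝ} (hK : 1 ≤ K) (hs : 0 < s) (hj : 4 ≤ j)
    (hjk : j ≤ k) (M : Kt622.Core B C x O A j k ψ) :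
    ∫⁻ z in NN C x (dy j) (dy k) K s ∩ {z | 32 < dist x z}, ENNReal.ofReal (nf O k z ^ 2) ∂μ ≤
      ENNReal.ofReal (A ^ 2 * A1K n A K s * K ^ 2 * dy k ^ 2 * (phx n κ μ x j * dy j ^ n)) := by
  have hA0 : (0:ℝ) ≤ A ^ 2 := by positivity
  have h1 : ∫⁻ z in NN C x (dy j) (dy k) K s ∩ {z | 32 < dist x z},
      ENNReal.ofReal (nf O k z ^ 2) ∂μ ≤
      ∫⁻ z in NN C x (dy j) (dy k) K s ∩ {z | 32 < dist x z},
        ENNReal.ofReal (A ^ 2) * ENNReal.ofReal ((Hf O k z + gf B x k z) ^ 2) ∂μ := by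
    refine lintegral_mono_ae (ae_restrict_of_ae ?_)
    filter_upwards [M.far] with z hz
    rw [← ENNReal.ofReal_mul hA0]
    refine ENNReal.ofReal_le_ofReal ?_
    have h2 := hz.2
    have h3 := nf_nonneg B x O k z
    have h4 := Hf_nonneg B x O k z
    have h5 := gf_nonneg B x k z
    have h6 : nf O k z ≤ A * (Hf O k z + gf B x k z) := by nlinarith
    calc nf O k z ^ 2 ≤ (A * (Hf O k z + gf B x k z)) ^ 2 := by gcongr
      _ = _ := by ring
  refine h1.trans ?_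
  rw [lintegral_const_mul' _ _ ENNReal.ofReal_ne_top]
  refine (mul_le_mul_right (hg_far E hA hK hs hj hjk M) _).trans ?_
  rw [← ENNReal.ofReal_mul hA0]
  refine ENNReal.ofReal_le_ofReal (le_of_eq ?_)
  ring

/-- `nk` on the far part -/
lemma nk1_far (E : EnvF B C x δ) (hA : 1 ≤ A) {K s : ℝ} (hK : 1 ≤ K) (hs : 0 < s) (hj : 4 ≤ j)
    (hjk : j ≤ k) (M : Kt622.Core B C x O A j k ψ) :
    ∫⁻ z in NN C x (dy j) (dy k) K s ∩ {z | 32 < dist x z}, ENNReal.ofReal (nf O k z) ∂μ ≤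
      ENNReal.ofReal (A * (A1K n A K s * K ^ 2 + AF n K) * dy k ^ 2 *
        (phx n κ μ x j * dy j ^ n)) := by
  have hA0 : (0:ℝ) ≤ A := by linarith
  have hNm : MeasurableSet (NN C x (dy j) (dy k) K s) := meas_NN C x _ _ _ _
  have hfm := meas_far x
  have hT0 : 0 ≤ phx n κ μ x j * dy j ^ n := T_nonneg C E.κ_nonneg x j
  have hA1 := A1K_pos n hA hK hs
  have hAF := AF_pos n hK
  have hdk := dy_pos k
  have h1 : ∫⁻ z in NN C x (dy j) (dy k) K s ∩ {z | 32 < dist x z},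
      ENNReal.ofReal (nf O k z) ∂μ ≤
      ∫⁻ z in NN C x (dy j) (dy k) K s ∩ {z | 32 < dist x z},
        ENNReal.ofReal A * (ENNReal.ofReal ((Hf O k z + gf B x k z) ^ 2) +
          ENNReal.ofReal 1) ∂μ := by
    refine lintegral_mono_ae (ae_restrict_of_ae ?_)
    filter_upwards [M.far] with z hz
    rw [← ENNReal.ofReal_add (sq_nonneg _) zero_le_one, ← ENNReal.ofReal_mul hA0]
    refine ENNReal.ofReal_le_ofReal ?_
    have h2 := hz.2
    have h4 := Hf_nonneg B x O k z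
    have h5 := gf_nonneg B x k z
    have h6 : Hf O k z ≤ (Hf O k z + gf B x k z) ^ 2 + 1 := by nlinarith [sq_nonneg (Hf O k z + gf B x k z - 1)]
    calc nf O k z ≤ A * Hf O k z := h2
      _ ≤ _ := by gcongr
  refine h1.trans ?_
  have h3 : ∫⁻ z in NN C x (dy j) (dy k) K s ∩ {z | 32 < dist x z}, ENNReal.ofReal 1 ∂μ ≤
      ENNReal.ofReal (1 * (AF n K * dy k ^ 2 * (phx n κ μ x j * dy j ^ n))) :=
    const_part (hNm.inter hfm) zero_le_one (Eventually.of_forall fun z _ => le_rfl)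
      (far_NN E hK hs hj hjk)
  rw [lintegral_const_mul' _ _ ENNReal.ofReal_ne_top, lintegral_add_right _ measurable_const]
  refine (mul_le_mul_right (add_le_add (hg_far E hA hK hs hj hjk M) h3) _).trans ?_
  rw [← ENNReal.ofReal_add (by positivity) (by positivity), ← ENNReal.ofReal_mul hA0]
  refine ENNReal.ofReal_le_ofReal (le_of_eq ?_)
  ring

end six

open Kt622

theorem d2HP_of (n : ℕ) (h : CoreP.{u} n) : Fd656.D2HP.{u} n := by
  obtain ⟨A, hA, h⟩ := h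
  intro K s hK hs
  refine ⟨A1K n A K s, A1K_pos n hA hK hs, ?_⟩
  intro κ X _ _ _ _ μ _ B C x δ E O j k hj hjk
  obtain ⟨ψ, M⟩ := h κ X μ B C x δ E O j k hj hjk
  refine le_trans (lintegral_mono fun z => ENNReal.ofReal_le_ofReal ?_)
    ((hg_NN E hA hK hs hj hjk M).trans (ENNReal.ofReal_le_ofReal (le_of_eq (by ring))))
  have h4 := Hf_nonneg B x O k z
  have h5 := gf_nonneg B x k z
  nlinarith

theorem d2gP_of (n : ℕ) (h : CoreP.{u} n) : Fd656.D2gP.{u} n := by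
  obtain ⟨A, hA, h⟩ := h
  intro K s hK hs
  refine ⟨A1K n A K s, A1K_pos n hA hK hs, ?_⟩
  intro κ X _ _ _ _ μ _ B C x δ E O j k hj hjk
  obtain ⟨ψ, M⟩ := h κ X μ B C x δ E O j k hj hjk
  refine le_trans (lintegral_mono fun z => ENNReal.ofReal_le_ofReal ?_)
    ((hg_NN E hA hK hs hj hjk M).trans (ENNReal.ofReal_le_ofReal (le_of_eq (by ring))))
  have h4 := Hf_nonneg B x O k z
  have h5 := gf_nonneg B x k z
  nlinarith

theorem d2qP_of (n : ℕ) (h : CoreP.{u} n) : Fd656.D2qP.{u} n := by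
  obtain ⟨A, hA, h⟩ := h
  intro K s hK hs
  have hc := c0K_pos n hK hs
  refine ⟨(c0K n K s)⁻¹ * A, by positivity, ?_⟩
  intro κ X _ _ _ _ μ _ B C x δ E O j k hj hjk
  obtain ⟨ψ, M⟩ := h κ X μ B C x δ E O j k hj hjk
  have hlow := lower_NN E (j := j) (k := k) hK hs M.nonneg M.lam
  have h1 : ∫⁻ z in NN C x (dy j) (dy k) K s ∩ univ, ENNReal.ofReal (qf B x k z) ∂μ ≤
      ENNReal.ofReal ((c0K n K s)⁻¹ * (A * (phx n κ μ x j * dy j ^ n))) := by
    refine part_near (meas_NN C x _ _ _ _) MeasurableSet.univ hc hlow ?_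
    rw [Measure.restrict_univ]
    exact M.q
  rw [inter_univ] at h1
  exact h1.trans (ENNReal.ofReal_le_ofReal (le_of_eq (by ring)))

theorem d2kP_of (n : ℕ) (h : CoreP.{u} n) : Fd656.D2kP.{u} n := by
  obtain ⟨A, hA, h⟩ := h
  intro K s hK hs
  have hc := c0K_pos n hK hs
  have hAF := AF_pos n hK
  refine ⟨(c0K n K s)⁻¹ * A + A * AF n K, by positivity, ?_⟩
  intro κ X _ _ _ _ μ _ B C x δ E O j k hj hjk
  obtain ⟨ψ, M⟩ := h κ X μ B C x δ E O j k hj hjk
  have hlow := lower_NN E (j := j) (k := k) hK hs M.nonneg M.lam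
  have hNm : MeasurableSet (NN C x (dy j) (dy k) K s) := meas_NN C x _ _ _ _
  have hT0 : 0 ≤ phx n κ μ x j * dy j ^ n := T_nonneg C E.κ_nonneg x j
  have hdk := dy_pos k
  have h1 : ∫⁻ z in NN C x (dy j) (dy k) K s ∩ {z | dist x z ≤ 32},
      ENNReal.ofReal |kf B x k z| ∂μ ≤
      ENNReal.ofReal ((c0K n K s)⁻¹ * (A * dy k ^ 2 * (phx n κ μ x j * dy j ^ n))) :=
    part_near hNm (meas_near x) hc hlow M.kk
  have h2 : ∫⁻ z in NN C x (dy j) (dy k) K s ∩ {z | 32 < dist x z},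
      ENNReal.ofReal |kf B x k z| ∂μ ≤
      ENNReal.ofReal (A * (AF n K * dy k ^ 2 * (phx n κ μ x j * dy j ^ n))) :=
    const_part (hNm.inter (meas_far x)) (by linarith)
      (M.far.mono fun z hz _ => hz.1) (far_NN E hK hs hj hjk)
  refine (split_le (D := NN C x (dy j) (dy k) K s ∩ {z | dist x z ≤ 32})
    (E := NN C x (dy j) (dy k) K s ∩ {z | 32 < dist x z}) ?_).trans ((add_le_add h1 h2).trans ?_)
  · intro z hz
    by_cases h3 : dist x z ≤ 32
    · exact Or.inl ⟨hz, h3⟩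
    · exact Or.inr ⟨hz, not_le.1 h3⟩
  · rw [← ENNReal.ofReal_add (by positivity) (by positivity)]
    exact ENNReal.ofReal_le_ofReal (le_of_eq (by ring))

theorem d2n2P_of (n : ℕ) (h : CoreP.{u} n) : Fd656.D2n2P.{u} n := by
  obtain ⟨A, hA, h⟩ := h
  intro K s hK hs
  have hc := c0K_pos n hK hs
  have hA1 := A1K_pos n hA hK hs
  refine ⟨(c0K n K s)⁻¹ * A + A ^ 2 * A1K n A K s * K ^ 2, by positivity, ?_⟩
  intro κ X _ _ _ _ μ _ B C x δ E O j k hj hjk
  obtain ⟨ψ, M⟩ := h κ X μ B C x δ E O j k hj hjk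
  have hlow := lower_NN E (j := j) (k := k) hK hs M.nonneg M.lam
  have hNm : MeasurableSet (NN C x (dy j) (dy k) K s) := meas_NN C x _ _ _ _
  have hT0 : 0 ≤ phx n κ μ x j * dy j ^ n := T_nonneg C E.κ_nonneg x j
  have hdk := dy_pos k
  have hkm : MeasurableSet {z : X | |kf B x k z| ≤ dy k ^ 2} := by
    have h := kf_meas B x k
    have h2 : Measurable fun z => |kf B x k z| := by simpa [Real.norm_eq_abs] using h.norm
    exact measurableSet_le h2 measurable_const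
  have h1 : ∫⁻ z in NN C x (dy j) (dy k) K s ∩
      ({z | dist x z ≤ 32} ∩ {z | |kf B x k z| ≤ dy k ^ 2}),
      ENNReal.ofReal (nf O k z ^ 2) ∂μ ≤
      ENNReal.ofReal ((c0K n K s)⁻¹ * (A * dy k ^ 2 * (phx n κ μ x j * dy j ^ n))) :=
    part_near hNm ((meas_near x).inter hkm) hc hlow M.n2
  have h2 := nk2_far E hA hK hs hj hjk M
  refine (split_le (D := NN C x (dy j) (dy k) K s ∩
      ({z | dist x z ≤ 32} ∩ {z | |kf B x k z| ≤ dy k ^ 2}))
    (E := NN C x (dy j) (dy k) K s ∩ {z | 32 < dist x z}) ?_).trans ((add_le_add h1 h2).trans ?_)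
  · rintro z ⟨hz, hz2⟩
    by_cases h3 : dist x z ≤ 32
    · exact Or.inl ⟨hz, h3, hz2⟩
    · exact Or.inr ⟨hz, not_le.1 h3⟩
  · rw [← ENNReal.ofReal_add (by positivity) (by positivity)]
    refine ENNReal.ofReal_le_ofReal ?_
    have h5 : (1:ℝ) ≤ 1 + ((k - j : ℕ) : ℝ) := by
      have : (0:ℝ) ≤ ((k - j : ℕ) : ℝ) := Nat.cast_nonneg _
      linarith
    have h6 : 0 ≤ ((c0K n K s)⁻¹ * A + A ^ 2 * A1K n A K s * K ^ 2) * dy k ^ 2 *
        (phx n κ μ x j * dy j ^ n) := by positivity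
    calc (c0K n K s)⁻¹ * (A * dy k ^ 2 * (phx n κ μ x j * dy j ^ n)) +
          A ^ 2 * A1K n A K s * K ^ 2 * dy k ^ 2 * (phx n κ μ x j * dy j ^ n)
        = ((c0K n K s)⁻¹ * A + A ^ 2 * A1K n A K s * K ^ 2) * dy k ^ 2 *
          (phx n κ μ x j * dy j ^ n) * 1 := by ring
      _ ≤ ((c0K n K s)⁻¹ * A + A ^ 2 * A1K n A K s * K ^ 2) * dy k ^ 2 *
          (phx n κ μ x j * dy j ^ n) * (1 + ((k - j : ℕ) : ℝ)) := by gcongr
      _ = _ := by ring

theorem d2n1P_of (n : ℕ) (h : CoreP.{u} n) : Fd656.D2n1P.{u} n := by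
  obtain ⟨A, hA, h⟩ := h
  intro K s hK hs
  have hc := c0K_pos n hK hs
  have hA1 := A1K_pos n hA hK hs
  have hAF := AF_pos n hK
  set L : ℝ := A * ((4 + K) ^ 2 + 1) with hL
  have hL1 : 1 ≤ L := by
    have : (1:ℝ) ≤ (4 + K) ^ 2 + 1 := by nlinarith
    nlinarith
  refine ⟨(c0K n K s)⁻¹ * (A * L) + A * (A1K n A K s * K ^ 2 + AF n K), by positivity, ?_⟩
  intro κ X _ _ _ _ μ _ B C x δ E O j k hj hjk
  obtain ⟨ψ, M⟩ := h κ X μ B C x δ E O j k hj hjk
  have hlow := lower_NN E (j := j) (k := k) hK hs M.nonneg M.lam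
  have hNm : MeasurableSet (NN C x (dy j) (dy k) K s) := meas_NN C x _ _ _ _
  have hT0 : 0 ≤ phx n κ μ x j * dy j ^ n := T_nonneg C E.κ_nonneg x j
  have hdk := dy_pos k
  have hdj := dy_pos j
  have h2k : Measurable fun z => |kf B x k z| := by
    simpa [Real.norm_eq_abs] using (kf_meas B x k).norm
  have hkm : MeasurableSet {z : X | dy k ^ 2 < |kf B x k z| ∧ |kf B x k z| ≤ L * dy j ^ 2} :=
    (measurableSet_lt measurable_const h2k).inter (measurableSet_le h2k measurable_const)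
  have h1 : ∫⁻ z in NN C x (dy j) (dy k) K s ∩ ({z | dist x z ≤ 32} ∩
      {z | dy k ^ 2 < |kf B x k z| ∧ |kf B x k z| ≤ L * dy j ^ 2}),
      ENNReal.ofReal (nf O k z) ∂μ ≤
      ENNReal.ofReal ((c0K n K s)⁻¹ * (A * L * dy k * (1 + (k - j : ℕ)) *
        (phx n κ μ x j * dy j ^ n))) :=
    part_near hNm ((meas_near x).inter hkm) hc hlow (M.n1 L hL1)
  have h2 := nk1_far E hA hK hs hj hjk M
  have h3 : (NN C x (dy j) (dy k) K s ∩ {z | dy k ^ 2 < |kf B x k z|} : Set X) ≤ᵐ[μ]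
      ((NN C x (dy j) (dy k) K s ∩ ({z | dist x z ≤ 32} ∩
        {z | dy k ^ 2 < |kf B x k z| ∧ |kf B x k z| ≤ L * dy j ^ 2})) ∪
        (NN C x (dy j) (dy k) K s ∩ {z | 32 < dist x z}) : Set X) := by
    filter_upwards [M.sup] with z hz hzN
    obtain ⟨hz1, hz2⟩ := hzN
    by_cases h4 : dist x z ≤ 32
    · refine Or.inl ⟨hz1, h4, hz2, (hz h4).trans ?_⟩
      have h5 := dist_NN C x hK hs hjk hz1
      have h6 : dist x z ^ 2 ≤ ((4 + K) * dy j) ^ 2 := by gcongr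
      have h7 : dy k ^ 2 ≤ dy j ^ 2 := by
        have := dy_anti hjk
        gcongr
      calc A * (dist x z ^ 2 + dy k ^ 2) ≤ A * (((4 + K) * dy j) ^ 2 + dy j ^ 2) := by gcongr
        _ = L * dy j ^ 2 := by rw [hL]; ring
    · exact Or.inr ⟨hz1, not_le.1 h4⟩
  refine ((lintegral_mono_set' h3).trans (lintegral_union_le _ _ _)).trans
    ((add_le_add h1 h2).trans ?_)
  rw [← ENNReal.ofReal_add (by positivity) (by positivity)]
  refine ENNReal.ofReal_le_ofReal ?_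
  have h5 : (1:ℝ) ≤ 1 + ((k - j : ℕ) : ℝ) := by
    have : (0:ℝ) ≤ ((k - j : ℕ) : ℝ) := Nat.cast_nonneg _
    linarith
  have h6 : dy k ^ 2 ≤ dy k * (1 + ((k - j : ℕ) : ℝ)) := by
    have := dy_le_one k
    nlinarith
  have h7 : A * (A1K n A K s * K ^ 2 + AF n K) * dy k ^ 2 * (phx n κ μ x j * dy j ^ n) ≤
      A * (A1K n A K s * K ^ 2 + AF n K) * (dy k * (1 + ((k - j : ℕ) : ℝ))) *
        (phx n κ μ x j * dy j ^ n) := by gcongr
  refine (add_le_add_right h7 _).trans (le_of_eq ?_)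
  ring

end Crest.Agent.R247.Kt328
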