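import Crest.Agent.R247.Env_879
import Crest.Agent.R247.FvsD_681_Mg
import Crest.Agent.R247.Fv8_510_Mg
import Crest.Agent.R247.Kt4_622
import Crest.Agent.R247.Kt1_622
import Crest.Agent.R247.Lx3_149
import Crest.Agent.R247.Obj2_554
import Crest.Agent.R247.Hes6_124
import Crest.Agent.R247.Max5_193
import Crest.Agent.R247.Far0_553
import Crest.Agent.R247.Kt7_622
import Crest.Agent.R247.Kt8_328

-- ▼ part R247/Env2_879
section

/-!
R247 (helper879): `Fd656.EnvP n` from the `SegS` instances.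
-/

set_option autoImplicit false
set_option maxSynthPendingDepth 3
set_option linter.unusedSectionVars false

open Bundle Set Filter Topology MeasureTheory Metric
open scoped Manifold ContDiff ENNReal
open Crest.GeometryTopology.PointedLimit
open Crest.Agent.R247.Mcp688
open Crest.Agent.R247.Fd656

noncomputable section
namespace Crest.Agent.R247.Env879

universe u


/-- **`EnvP n`**, unconditionally (`n ≥ 1`) -/
theorem envP {n : ℕ} (hn : 1 ≤ n) : EnvP.{u} n := by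
  intro δ hδ0 hδ M _ _ _ _ _ _ _ _ _ _ _ _ _ _ q hk hp C x hx
  exact env_block_of hn hδ0 hδ hk hp C (Fvs681.nonempty_segS hn hk C hδ0.le) hx

end Crest.Agent.R247.Env879
end
end

-- ▼ part R247/Fin_550
section

/-!
# R247: S0381 from the six second-order fields `D2HP … D2n1P` alone (helper550)
-/

set_option autoImplicit false
noncomputable section
open Set Filter Topology MeasureTheory Metric
open scoped ContDiff Manifold ENNReal NNReal
open Bundle Crest.GeometryTopology.CoordMetric Crest.GeometryTopology.ChartCurvature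
  Crest.GeometryTopology.PointedLimit

namespace Crest.Agent.R247.Fin550

universe u

/-- all fields from the six second-order ones -/
theorem fields_of {n : ℕ} (h1 : Fd656.D2HP.{u} n) (h2 : Fd656.D2gP.{u} n)
    (h3 : Fd656.D2qP.{u} n) (h4 : Fd656.D2kP.{u} n) (h5 : Fd656.D2n2P.{u} n)
    (h6 : Fd656.D2n1P.{u} n) : Fd656.Fields.{u} n where
  d1a := Sv436.d1aP n
  d1b := Sv436.d1bP n
  d2H := h1
  d2g := h2
  d2q := h3
  d2k := h4
  d2n2 := h5
  d2n1 := h6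
  d2b := Sv436.d2bP n
  pe := Fv510.peP n
  d3 := Fv510.d3P n

/-- the package from the six fields -/
theorem pkP_of {n : ℕ} (hn : 1 ≤ n) (h1 : Fd656.D2HP.{u} n) (h2 : Fd656.D2gP.{u} n)
    (h3 : Fd656.D2qP.{u} n) (h4 : Fd656.D2kP.{u} n) (h5 : Fd656.D2n2P.{u} n)
    (h6 : Fd656.D2n1P.{u} n) : ∃ c : Far553.FarK, Q9550.PkP.{u} n c :=
  Fd656.pkP hn (fields_of h1 h2 h3 h4 h5 h6) (Env879.envP hn) (Bgr546.rad_all n)

/-- **S0381** from the six second-order fields. -/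
theorem s0381_of_d2 (n : ℕ)
    (h : 1 ≤ n → Fd656.D2HP.{u} n ∧ Fd656.D2gP.{u} n ∧ Fd656.D2qP.{u} n ∧ Fd656.D2kP.{u} n ∧
      Fd656.D2n2P.{u} n ∧ Fd656.D2n1P.{u} n) :
    ∃ L : ℝ, 1 ≤ L ∧
      ∀ (K : ℝ) (M : ℕ → Type u) [∀ k, MetricSpace (M k)] [∀ k, CompleteSpace (M k)]
        [∀ k, ConnectedSpace (M k)] [∀ k, ChartedSpace (EuclideanSpace ℝ (Fin n)) (M k)]
        [∀ k, IsManifold 𝓘(ℝ, EuclideanSpace ℝ (Fin n)) ∞ (M k)]
        [∀ k, RiemannianBundle (fun x : M k => TangentSpace 𝓘(ℝ, EuclideanSpace ℝ (Fin n)) x)]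
        [∀ k, IsContMDiffRiemannianBundle 𝓘(ℝ, EuclideanSpace ℝ (Fin n)) ∞ (EuclideanSpace ℝ (Fin n))
          (fun x : M k => TangentSpace 𝓘(ℝ, EuclideanSpace ℝ (Fin n)) x)]
        [∀ k, IsRiemannianManifold 𝓘(ℝ, EuclideanSpace ℝ (Fin n)) (M k)]
        [∀ k, MeasurableSpace (M k)] [∀ k, BorelSpace (M k)] (q : ∀ k, M k),
        (∀ k, HasRicciLowerBound n (M k) K) →
        (∃ v : ℝ, 0 < v ∧ ∀ k, ENNReal.ofReal v ≤
          MeasureTheory.Measure.euclideanHausdorffMeasure n (Metric.ball (q k) 1)) →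
        ∀ (X : Type u) [MetricSpace X] [CompleteSpace X] (p : X),
          SeqPointedTendsto q p → RescalingsTendstoEuclidean p n →
          ∃ U : Set X, IsOpen U ∧ p ∈ U ∧ ∃ F : X → EuclideanSpace ℝ (Fin n), IsOpen (F '' U) ∧
            ∀ x ∈ U, ∀ z ∈ U, L⁻¹ * dist x z ≤ dist (F x) (F z) ∧
              dist (F x) (F z) ≤ L * dist x z :=
  Last550.s0381_of_pkP n fun hn => by
    obtain ⟨h1, h2, h3, h4, h5, h6⟩ := h hn
    exact pkP_of hn h1 h2 h3 h4 h5 h6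

end Crest.Agent.R247.Fin550
end
end

-- ▼ part R247/Kt5_622
section

/-!
R247, block (1-K) (helper622): the error terms of the chain are `≤ (ρ²)³ · C ‖b‖ ‖Ψ‖ e^{-2/ρ}`
(L² decay `agmon`).
-/

set_option autoImplicit false
set_option linter.unusedSectionVars false
set_option linter.unusedVariables false

open MeasureTheory Filter Topology Set
open scoped RealInnerProductSpace ENNReal NNReal

noncomputable section

namespace Crest.Agent.R247.Kt622

open Crest.Agent.R247.Dir593 Crest.Agent.R247.Dir593.GradS Crest.Agent.R242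

section Er

variable {X : Type*} [MetricSpace X] [MeasurableSpace X] [BorelSpace X] {F : Type*}
  [NormedAddCommGroup F] [InnerProductSpace ℝ F] [CompleteSpace F] {μ : Measure X}
  [IsFiniteMeasureOnCompacts μ]

/-- Cauchy–Schwarz with a support condition -/
lemma cs_supp {f : Lp ℝ 2 μ} {g : X → ℝ} (hg : MemLp g 2 μ) (g0 : ∀ x, 0 ≤ g x) {A : Set X}
    (hA : MeasurableSet A) (hf : ∀ᵐ x ∂μ, x ∉ A → f x = 0) {m : ℝ} (hm : 0 ≤ m)
    (h : ∫ x in A, g x ^ 2 ∂μ ≤ m ^ 2) :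
    Integrable (fun x => |f x| * g x) μ ∧ ∫ x, |f x| * g x ∂μ ≤ ‖f‖ * m := by
  have hgA : MemLp (A.indicator g) 2 μ := hg.indicator hA
  set G : Lp ℝ 2 μ := hgA.toLp _ with hG
  have cG : (G : X → ℝ) =ᵐ[μ] A.indicator g := MemLp.coeFn_toLp hgA
  have hn : ‖G‖ ^ 2 ≤ m ^ 2 := by
    rw [normSq]
    refine le_trans (le_of_eq ?_) h
    rw [← integral_indicator hA]
    refine integral_congr_ae ?_
    filter_upwards [cG] with x hx
    rw [hx]
    by_cases hxA : x ∈ A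
    · rw [indicator_of_mem hxA, indicator_of_mem hxA, Real.norm_eq_abs, sq_abs]
    · rw [indicator_of_notMem hxA, indicator_of_notMem hxA]; simp
  have hn' : ‖G‖ ≤ m := le_of_sq_le_sq hn hm
  have e : (fun x => |f x| * g x) =ᵐ[μ] fun x => |f x| * |G x| := by
    filter_upwards [cG, hf] with x h1 h2
    rw [h1]
    by_cases hxA : x ∈ A
    · rw [indicator_of_mem hxA, abs_of_nonneg (g0 x)]
    · rw [h2 hxA]; simp
  refine ⟨(integrable_abs_mul_L2 f G).congr e.symm, ?_⟩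
  rw [integral_congr_ae e]
  have h1 : MemLp (fun x => |f x|) 2 μ := by
    have := (Lp.memLp f).norm
    simpa [Real.norm_eq_abs] using this
  have h2 : MemLp (fun x => |G x|) 2 μ := by
    have := (Lp.memLp G).norm
    simpa [Real.norm_eq_abs] using this
  set f' : Lp ℝ 2 μ := h1.toLp _ with hf'
  set G' : Lp ℝ 2 μ := h2.toLp _ with hG'
  have c1 : (f' : X → ℝ) =ᵐ[μ] fun x => |f x| := MemLp.coeFn_toLp h1
  have c2 : (G' : X → ℝ) =ᵐ[μ] fun x => |G x| := MemLp.coeFn_toLp h2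
  have e1 : ∫ x, |f x| * |G x| ∂μ = ⟪f', G'⟫ := by
    rw [inner_eq_integral]
    refine integral_congr_ae ?_
    filter_upwards [c1, c2] with x a1 a2
    rw [a1, a2]
  have n1 : ‖f'‖ ≤ 1 * ‖f‖ := norm_le_of_ae zero_le_one (by
    filter_upwards [c1] with x a1
    rw [a1]; simp)
  have n2 : ‖G'‖ ≤ 1 * ‖G‖ := norm_le_of_ae zero_le_one (by
    filter_upwards [c2] with x a1
    rw [a1]; simp)
  rw [e1]
  calc (⟪f', G'⟫ : ℝ) ≤ ‖f'‖ * ‖G'‖ := real_inner_le_norm _ _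
    _ ≤ ‖f‖ * m := by
        gcongr
        · linarith
        · linarith

variable {S : GradS X F μ} {hd : Dense (S.V : Set (Lp ℝ 2 μ))}

/-- consequences of `agmon` in the form used below -/
lemma agmon_cs {v : Lp ℝ 2 μ} (hv : v ∈ S.V) {ρ : ℝ} (hρ : 0 < ρ) {ζ : X → ℝ}
    (hζ : LipschitzWith 1 ζ)
    (heq : ∀ p ∈ S.V, (∀ᵐ x ∂μ, ζ x ≤ 0 → p x = 0) → ρ ^ 2 * ⟪S.D v, S.D p⟫ + ⟪v, p⟫ = 0)
    {a : ℝ} (ha : 0 < a) (hch : 0 < ch (4 * ρ) a) {f : Lp ℝ 2 μ}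
    (hf : ∀ᵐ x ∂μ, ζ x < a → f x = 0) :
    ∫ x, |f x| * |v x| ∂μ ≤ ‖f‖ * (‖v‖ / ch (4 * ρ) a) ∧
    ∫ x, |f x| * ‖S.D v x‖ ∂μ ≤ ‖f‖ * (‖v‖ / (ρ * ch (4 * ρ) a)) := by
  obtain ⟨h1, h2⟩ := agmon S hv hρ hζ heq ha
  have hA : MeasurableSet {x | a ≤ ζ x} := measurableSet_le measurable_const hζ.continuous.measurable
  have hf' : ∀ᵐ x ∂μ, x ∉ {x | a ≤ ζ x} → f x = 0 := hf.mono fun x hx hxA => hx (not_le.1 hxA)
  have m1 : MemLp (fun x => |v x|) 2 μ := by
    have := (Lp.memLp v).norm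
    simpa [Real.norm_eq_abs] using this
  have m2 : MemLp (fun x => ‖S.D v x‖) 2 μ := (Lp.memLp (S.D v)).norm
  constructor
  · refine (cs_supp m1 (fun x => abs_nonneg _) hA hf' (by positivity) ?_).2
    rw [div_pow, le_div_iff₀ (by positivity), mul_comm]
    refine le_trans (le_of_eq ?_) h1
    congr 1
    refine integral_congr_ae (Eventually.of_forall fun x => ?_)
    show |v x| ^ 2 = v x ^ 2
    rw [sq_abs]
  · refine (cs_supp m2 (fun x => norm_nonneg _) hA hf' (by positivity) ?_).2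
    rw [div_pow, le_div_iff₀ (by positivity), mul_comm]
    refine le_trans (le_of_eq ?_) h2
    ring

lemma norm_res_le {h : ℝ} (hh : 0 < h) (f : Lp ℝ 2 μ) : ‖(S.form hd).res h f‖ ≤ ‖f‖ := by
  have := (S.form hd).opNorm_res_le h
  calc ‖(S.form hd).res h f‖ ≤ ‖(S.form hd).res h‖ * ‖f‖ := ContinuousLinearMap.le_opNorm _ _
    _ ≤ 1 * ‖f‖ := by gcongr
    _ = ‖f‖ := one_mul _

/-- decay of `R Ψ` -/
lemma agmon_res {Ψ : Lp ℝ 2 μ} {x0 : X} (hΨ : ∀ᵐ z ∂μ, 1 < dist x0 z → Ψ z = 0) {ρ : ℝ}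
    (hρ : 0 < ρ) {a : ℝ} (ha : 0 < a) (hch : 0 < ch (4 * ρ) a) {f : Lp ℝ 2 μ}
    (hf : ∀ᵐ x ∂μ, dist x0 x < 1 + a → f x = 0) :
    ∫ x, |f x| * |((S.form hd).res (ρ ^ 2) Ψ : Lp ℝ 2 μ) x| ∂μ ≤
      ‖f‖ * ‖Ψ‖ / ch (4 * ρ) a ∧
    ∫ x, |f x| * ‖S.D ((S.form hd).res (ρ ^ 2) Ψ) x‖ ∂μ ≤ ‖f‖ * ‖Ψ‖ / (ρ * ch (4 * ρ) a) := by
  have hρ2 : 0 < ρ ^ 2 := by positivity
  set v : Lp ℝ 2 μ := (S.form hd).res (ρ ^ 2) Ψ with hv
  have hvV : v ∈ S.V := (S.form hd).res_mem hρ2 Ψ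
  have hζ : LipschitzWith 1 (fun z => dist x0 z - 1) := by
    have := (LipschitzWith.dist_right x0).sub (LipschitzWith.const (1:ℝ))
    simpa using this
  have heq : ∀ p ∈ S.V, (∀ᵐ x ∂μ, dist x0 x - 1 ≤ 0 → p x = 0) →
      ρ ^ 2 * ⟪S.D v, S.D p⟫ + ⟪v, p⟫ = 0 := by
    intro p hp hp0
    have h1 : ρ ^ 2 * ⟪S.D v, S.D p⟫ + ⟪v, p⟫ = ⟪Ψ, p⟫ := (S.form hd).res_eq hρ2 Ψ hp
    rw [h1, inner_eq_integral, integral_eq_zero_of_ae]
    filter_upwards [hΨ, hp0] with x a1 a2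
    rcases le_or_gt (dist x0 x) 1 with h | h
    · rw [a2 (by linarith)]; simp
    · rw [a1 h]; simp
  obtain ⟨h1, h2⟩ := agmon_cs hvV hρ hζ heq ha hch (f := f)
    (hf.mono fun x hx h => hx (by linarith))
  have hn := norm_res_le (S := S) (hd := hd) hρ2 Ψ
  have hf0 := norm_nonneg f
  constructor
  · refine h1.trans ?_
    rw [mul_div_assoc]
    gcongr
  · refine h2.trans ?_
    rw [mul_div_assoc]
    gcongr

/-- norm of the far error -/
lemma norm_w_le {ρ : ℝ} (K : KIn S hd (ρ ^ 2)) (hρ : 0 < ρ) (hρ1 : ρ ≤ 1) :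
    ‖K.w‖ ≤ 2 * ‖K.b‖ / ρ := by
  have hρ2 : 0 < ρ ^ 2 := by positivity
  have e := resD_energy (Q := S.form hd) hρ2 (S.fnl hd K.e0 K.E1)
  have e' : ρ ^ 2 * ‖S.D K.w‖ ^ 2 + ‖K.w‖ ^ 2 = ⟪K.e0, K.w⟫ + ⟪K.E1, S.D K.w⟫ := by
    rw [← real_inner_self_eq_norm_sq (S.D K.w)]
    exact e
  have n1 : ‖K.e0‖ ≤ 1 * ‖K.b‖ := norm_le_of_ae zero_le_one (by
    filter_upwards [K.e0_le, K.b_nonneg] with x a1 a2
    rw [Real.norm_eq_abs, Real.norm_eq_abs, abs_of_nonneg a2, one_mul]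
    exact a1)
  have n2 : ‖K.E1‖ ≤ 1 * ‖K.b‖ := norm_le_of_ae zero_le_one (by
    filter_upwards [K.E1_le, K.b_nonneg] with x a1 a2
    rw [Real.norm_eq_abs, abs_of_nonneg a2, one_mul]
    exact a1)
  rw [one_mul] at n1 n2
  have i1 := (real_inner_le_norm K.e0 K.w).trans (mul_le_mul_of_nonneg_right n1 (norm_nonneg _))
  have i2 := (real_inner_le_norm K.E1 (S.D K.w)).trans
    (mul_le_mul_of_nonneg_right n2 (norm_nonneg _))
  set β := ‖K.b‖ with hβ
  set W := ‖K.w‖ with hW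
  set D := ‖S.D K.w‖ with hD
  have hβ0 : 0 ≤ β := norm_nonneg _
  have hW0 : 0 ≤ W := norm_nonneg _
  have hD0 : 0 ≤ D := norm_nonneg _
  -- `β D ≤ ρ² D² + β²/(4ρ²)`
  have j1 : β * D ≤ ρ ^ 2 * D ^ 2 + (β / ρ) ^ 2 / 4 := by
    have : β * D = (β / ρ) * (ρ * D) := by field_simp
    rw [this]
    nlinarith [sq_nonneg (β / ρ / 2 - ρ * D)]
  have j2 : β * W ≤ W ^ 2 / 2 + β ^ 2 / 2 := by nlinarith [sq_nonneg (β - W)]
  have j3 : β ^ 2 ≤ (β / ρ) ^ 2 := by
    apply pow_le_pow_left₀ hβ0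
    rw [le_div_iff₀ hρ]; nlinarith
  have j4 : W ^ 2 ≤ (2 * β / ρ) ^ 2 := by
    have : (2 * β / ρ) ^ 2 = 4 * (β / ρ) ^ 2 := by ring
    rw [this]; nlinarith [sq_nonneg (β / ρ)]
  exact le_of_sq_le_sq j4 (by positivity)

/-- decay of the far error -/
lemma agmon_w {ρ : ℝ} (K : KIn S hd (ρ ^ 2)) (hρ : 0 < ρ) {x0 : X}
    (hb : ∀ᵐ z ∂μ, dist x0 z < 32 → K.b z = 0) {a : ℝ} (ha : 0 < a)
    (hch : 0 < ch (4 * ρ) a) {f : Lp ℝ 2 μ} (hf : ∀ᵐ x ∂μ, 32 - a < dist x0 x → f x = 0) :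
    ∫ x, |f x| * |K.w x| ∂μ ≤ ‖f‖ * (‖K.w‖ / ch (4 * ρ) a) := by
  have hρ2 : 0 < ρ ^ 2 := by positivity
  have hζ : LipschitzWith 1 (fun z => 32 - dist x0 z) := by
    have := (LipschitzWith.const (32:ℝ)).sub (LipschitzWith.dist_right x0)
    simpa using this
  have heq : ∀ p ∈ S.V, (∀ᵐ x ∂μ, 32 - dist x0 x ≤ 0 → p x = 0) →
      ρ ^ 2 * ⟪S.D K.w, S.D p⟫ + ⟪K.w, p⟫ = 0 := by
    intro p hp hp0
    have h1 : ρ ^ 2 * ⟪S.D K.w, S.D p⟫ + ⟪K.w, p⟫ = ⟪K.e0, p⟫ + ⟪K.E1, S.D p⟫ :=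
      resD_eq (Q := S.form hd) hρ2 (S.fnl hd K.e0 K.E1) hp
    have z1 : (⟪K.e0, p⟫ : ℝ) = 0 := by
      rw [inner_eq_integral, integral_eq_zero_of_ae]
      filter_upwards [hb, hp0, K.e0_le] with x a1 a2 a3
      rcases lt_or_ge (dist x0 x) 32 with h | h
      · rw [a1 h] at a3
        rw [abs_nonpos_iff.1 a3]; simp
      · rw [a2 (by linarith)]; simp
    have z2 : (⟪K.E1, S.D p⟫ : ℝ) = 0 := by
      rw [L2.inner_def, integral_eq_zero_of_ae]
      filter_upwards [hb, hp0, K.E1_le, S.D_level hp 0] with x a1 a2 a3 a4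
      rcases lt_or_ge (dist x0 x) 32 with h | h
      · rw [a1 h] at a3
        rw [norm_le_zero_iff.1 a3]; simp
      · rw [a4 (a2 (by linarith))]; simp
    rw [h1, z1, z2, add_zero]
  exact (agmon_cs (K.w_mem hρ2) hρ hζ heq ha hch (f := f)
    (hf.mono fun x hx h => hx (by linarith))).1

/-! ### numerics -/

lemma ch_lower {ρ : ℝ} (hρ : 0 < ρ) (hρ1 : ρ ≤ 1) :
    0 < ch (4 * ρ) 15 ∧ (ch (4 * ρ) 15)⁻¹ ≤ 161280 * ρ ^ 8 * Real.exp (-(1 / ρ)) := by
  have h1 : (15:ℝ) / (4 * ρ) = 15 / 4 * (1 / ρ) := by field_simp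
  have hinv : 1 ≤ 1 / ρ := by rw [le_div_iff₀ hρ]; linarith
  have e1 : ch (4 * ρ) 15 = Real.cosh (15 / 4 * (1 / ρ)) - 1 := by
    unfold ch
    rw [max_eq_left (by norm_num : (0:ℝ) ≤ 15), h1]
  set t : ℝ := 1 / ρ with ht
  have e2 : Real.exp (15 / 4 * t) / 2 ≤ Real.cosh (15 / 4 * t) := by
    rw [Real.cosh_eq]
    have := Real.exp_pos (-(15 / 4 * t))
    linarith
  have e3 : 4 ≤ Real.exp (15 / 4 * t) := by
    have h2 : Real.exp 1 ^ 2 ≤ Real.exp (15 / 4 * t) := by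
      rw [← Real.exp_nat_mul]
      apply Real.exp_le_exp.2
      push_cast; linarith
    have h3 := Real.exp_one_gt_d9
    nlinarith
  have e4 : Real.exp (15 / 4 * t) / 4 ≤ ch (4 * ρ) 15 := by rw [e1]; linarith
  have hpos : 0 < ch (4 * ρ) 15 := lt_of_lt_of_le (by positivity) e4
  refine ⟨hpos, ?_⟩
  have e5 : t ^ 8 / 40320 ≤ Real.exp t := by
    have := Real.pow_div_factorial_le_exp t (by positivity) 8
    have e : ((Nat.factorial 8 : ℕ) : ℝ) = 40320 := by norm_num [Nat.factorial]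
    rw [e] at this
    exact this
  have e6 : 1 ≤ ρ ^ 8 * 40320 * Real.exp t := by
    have h2 : ρ ^ 8 * t ^ 8 = 1 := by rw [ht]; field_simp
    have h3 : ρ ^ 8 * (t ^ 8 / 40320) ≤ ρ ^ 8 * Real.exp t := by gcongr
    have h4 : ρ ^ 8 * (t ^ 8 / 40320) = 1 / 40320 := by rw [← mul_div_assoc, h2]
    rw [h4] at h3
    linarith
  have e7 : Real.exp t * Real.exp t ≤ Real.exp (15 / 4 * t) := by
    rw [← Real.exp_add]
    apply Real.exp_le_exp.2
    linarith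
  rw [inv_le_iff_one_le_mul₀ hpos]
  have e8 : Real.exp (-t) * Real.exp t = 1 := by rw [← Real.exp_add]; simp
  have e9 : 0 ≤ 161280 * ρ ^ 8 * Real.exp (-t) := by positivity
  calc (1:ℝ) ≤ ρ ^ 8 * 40320 * Real.exp t := e6
    _ = 161280 * ρ ^ 8 * Real.exp (-t) * ((Real.exp t * Real.exp t) / 4) := by
        have : 161280 * ρ ^ 8 * Real.exp (-t) * ((Real.exp t * Real.exp t) / 4) =
          ρ ^ 8 * 40320 * Real.exp t * (Real.exp (-t) * Real.exp t) := by ring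
        rw [this, e8, mul_one]
    _ ≤ 161280 * ρ ^ 8 * Real.exp (-t) * (Real.exp (15 / 4 * t) / 4) := by gcongr
    _ ≤ 161280 * ρ ^ 8 * Real.exp (-t) * ch (4 * ρ) 15 := by gcongr

lemma ch_anti {ρ ρ' a : ℝ} (hρ' : 0 < ρ') (h : ρ' ≤ ρ) (ha : 15 ≤ a) :
    ch (4 * ρ) 15 ≤ ch (4 * ρ') a := by
  have hρ : 0 < ρ := hρ'.trans_le h
  unfold ch
  rw [max_eq_left (by norm_num : (0:ℝ) ≤ 15), max_eq_left (by linarith : (0:ℝ) ≤ a)]
  have : Real.cosh (15 / (4 * ρ)) ≤ Real.cosh (a / (4 * ρ')) := by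
    rw [Real.cosh_le_cosh, abs_of_nonneg (by positivity), abs_of_nonneg (by positivity)]
    gcongr
  linarith

/-- the basic far estimate for `φ = R_{ρ'} Ψ`, `ρ' ≤ ρ` -/
lemma far_res {Ψ : Lp ℝ 2 μ} {x0 : X} (hΨ : ∀ᵐ z ∂μ, 1 < dist x0 z → Ψ z = 0) {ρ ρ' : ℝ}
    (hρ' : 0 < ρ') (h : ρ' ≤ ρ) (hρ1 : ρ ≤ 1) {f : Lp ℝ 2 μ}
    (hf : ∀ᵐ x ∂μ, dist x0 x < 16 → f x = 0) :
    ∫ x, |f x| * |((S.form hd).res (ρ' ^ 2) Ψ : Lp ℝ 2 μ) x| ∂μ ≤
      161280 * (‖f‖ * ‖Ψ‖) * ρ ^ 8 * Real.exp (-(1 / ρ)) ∧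
    ρ' * ∫ x, |f x| * ‖S.D ((S.form hd).res (ρ' ^ 2) Ψ) x‖ ∂μ ≤
      161280 * (‖f‖ * ‖Ψ‖) * ρ ^ 8 * Real.exp (-(1 / ρ)) := by
  have hρ : 0 < ρ := hρ'.trans_le h
  obtain ⟨c1, c2⟩ := ch_lower hρ hρ1
  have c3 := ch_anti hρ' h (le_refl (15:ℝ))
  have c4 : 0 < ch (4 * ρ') 15 := c1.trans_le c3
  obtain ⟨a1, a2⟩ := agmon_res (S := S) (hd := hd) hΨ hρ' (a := 15) (by norm_num) c4 (f := f)
    (hf.mono fun x hx h => hx (by linarith))
  have c5 : (ch (4 * ρ') 15)⁻¹ ≤ 161280 * ρ ^ 8 * Real.exp (-(1 / ρ)) :=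
    (inv_anti₀ c1 c3).trans c2
  constructor
  · refine a1.trans ?_
    rw [div_eq_mul_inv]
    calc ‖f‖ * ‖Ψ‖ * (ch (4 * ρ') 15)⁻¹ ≤
          ‖f‖ * ‖Ψ‖ * (161280 * ρ ^ 8 * Real.exp (-(1 / ρ))) := by gcongr
      _ = _ := by ring
  · have a3 := mul_le_mul_of_nonneg_left a2 hρ'.le
    refine a3.trans ?_
    have : ρ' * (‖f‖ * ‖Ψ‖ / (ρ' * ch (4 * ρ') 15)) = ‖f‖ * ‖Ψ‖ * (ch (4 * ρ') 15)⁻¹ := by
      field_simp
    rw [this]
    calc ‖f‖ * ‖Ψ‖ * (ch (4 * ρ') 15)⁻¹ ≤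
          ‖f‖ * ‖Ψ‖ * (161280 * ρ ^ 8 * Real.exp (-(1 / ρ))) := by gcongr
      _ = _ := by ring

/-- **all error terms** -/
theorem errs {ρ : ℝ} (K : KIn S hd (ρ ^ 2)) (hρ : 0 < ρ) (hρ1 : ρ ≤ 1) {x0 : X}
    (hb : ∀ᵐ z ∂μ, dist x0 z < 32 → K.b z = 0) {CE : ℝ} (hCE : 0 ≤ CE)
    (hbC : ∀ᵐ z ∂μ, K.b z ≤ CE) {Ψ : Lp ℝ 2 μ} (Ψ0 : ∀ᵐ z ∂μ, 0 ≤ Ψ z)
    (hΨ : ∀ᵐ z ∂μ, 1 < dist x0 z → Ψ z = 0) {Y : ℝ}
    (hY : 10 ^ 6 * (1 + CE) * (‖K.b‖ * ‖Ψ‖) * Real.exp (-(1 / ρ)) ≤ Y) :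
    ⟪K.b, (S.form hd).res (ρ ^ 2) Ψ⟫ ≤ (ρ ^ 2) ^ 3 * Y ∧
    ∫ z, K.b z * ‖S.D ((S.form hd).res (ρ ^ 2) Ψ) z‖ ∂μ ≤ (ρ ^ 2) ^ 3 * Y ∧
    ∫ z, K.b z * ‖S.D ((S.form hd).res (ρ ^ 2 / 4) Ψ) z‖ ∂μ ≤ (ρ ^ 2) ^ 3 * Y ∧
    ∫ z, K.b z ^ 2 * ((S.form hd).res (ρ ^ 2 / 4) Ψ : Lp ℝ 2 μ) z ∂μ ≤ (ρ ^ 2) ^ 3 * Y ∧
    ∫ z, |K.w z| * ((S.form hd).res (ρ ^ 2 / 4) Ψ : Lp ℝ 2 μ) z ∂μ ≤ (ρ ^ 2) ^ 3 * Y := by
  have hρ2 : 0 < ρ ^ 2 := by positivity
  have hq : ρ ^ 2 / 4 = (ρ / 2) ^ 2 := by ring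
  have hρh : 0 < ρ / 2 := by positivity
  have hρh2 : ρ / 2 ≤ ρ := by linarith
  have hb16 : ∀ᵐ x ∂μ, dist x0 x < 16 → K.b x = 0 := hb.mono fun x hx h => hx (by linarith)
  obtain ⟨a1, a2⟩ := far_res (S := S) (hd := hd) hΨ hρ le_rfl hρ1 (f := K.b) hb16
  obtain ⟨a3, a4⟩ := far_res (S := S) (hd := hd) hΨ hρh hρh2 hρ1 (f := K.b) hb16
  rw [hq]
  set β := ‖K.b‖ * ‖Ψ‖ with hβ
  have hβ0 : 0 ≤ β := by positivity
  set ex := Real.exp (-(1 / ρ)) with hex
  have hex0 : 0 < ex := Real.exp_pos _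
  set φ : Lp ℝ 2 μ := (S.form hd).res (ρ ^ 2) Ψ with hφ
  set φ' : Lp ℝ 2 μ := (S.form hd).res ((ρ / 2) ^ 2) Ψ with hφ'
  have hφ0 : ∀ᵐ z ∂μ, 0 ≤ φ z := KIn.res_nonneg' Ψ0 hρ2
  have hφ'0 : ∀ᵐ z ∂μ, 0 ≤ φ' z := KIn.res_nonneg' Ψ0 (by positivity)
  have hP8 : ρ ^ 8 ≤ (ρ ^ 2) ^ 3 := by
    calc ρ ^ 8 = (ρ ^ 2) ^ 3 * (ρ * ρ) := by ring
      _ ≤ (ρ ^ 2) ^ 3 * (1 * 1) := by gcongr
      _ = _ := by ring
  have hP7 : ρ ^ 7 ≤ (ρ ^ 2) ^ 3 := by
    calc ρ ^ 7 = (ρ ^ 2) ^ 3 * ρ := by ring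
      _ ≤ (ρ ^ 2) ^ 3 * 1 := by gcongr
      _ = _ := by ring
  have hP : 0 ≤ (ρ ^ 2) ^ 3 := by positivity
  have key : ∀ c : ℝ, 0 ≤ c → c ≤ 10 ^ 6 * (1 + CE) → ∀ P : ℝ, 0 ≤ P → P ≤ (ρ ^ 2) ^ 3 →
      c * β * P * ex ≤ (ρ ^ 2) ^ 3 * Y := by
    intro c hc0 hc P hP0 hP1
    calc c * β * P * ex ≤ (10 ^ 6 * (1 + CE)) * β * (ρ ^ 2) ^ 3 * ex := by gcongr
      _ = (ρ ^ 2) ^ 3 * (10 ^ 6 * (1 + CE) * β * ex) := by ring
      _ ≤ _ := by gcongr
  refine ⟨?_, ?_, ?_, ?_, ?_⟩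
  · refine le_trans (le_of_eq ?_) (a1.trans (key 161280 (by norm_num) (by nlinarith) _
      (by positivity) hP8))
    rw [inner_eq_integral]
    refine integral_congr_ae ?_
    filter_upwards [hφ0, K.b_nonneg] with x b1 b2
    rw [abs_of_nonneg b1, abs_of_nonneg b2]
  · have e1 : ∫ z, K.b z * ‖S.D φ z‖ ∂μ = ∫ x, |K.b x| * ‖S.D φ x‖ ∂μ := by
      refine integral_congr_ae ?_
      filter_upwards [K.b_nonneg] with x b2
      rw [abs_of_nonneg b2]
    rw [e1]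
    refine le_trans ?_ (key 161280 (by norm_num) (by nlinarith) _ (by positivity) hP7)
    have e2 : 161280 * β * ρ ^ 8 * ex = ρ * (161280 * β * ρ ^ 7 * ex) := by ring
    rw [e2] at a2
    exact le_of_mul_le_mul_left a2 hρ
  · have e1 : ∫ z, K.b z * ‖S.D φ' z‖ ∂μ = ∫ x, |K.b x| * ‖S.D φ' x‖ ∂μ := by
      refine integral_congr_ae ?_
      filter_upwards [K.b_nonneg] with x b2
      rw [abs_of_nonneg b2]
    rw [e1]
    refine le_trans ?_ (key 322560 (by norm_num) (by nlinarith) _ (by positivity) hP7)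
    have e2 : 161280 * β * ρ ^ 8 * ex = ρ / 2 * (322560 * β * ρ ^ 7 * ex) := by ring
    rw [e2] at a4
    exact le_of_mul_le_mul_left a4 hρh
  · have e1 : ∫ z, K.b z ^ 2 * φ' z ∂μ ≤ CE * ∫ x, |K.b x| * |φ' x| ∂μ := by
      rw [← integral_const_mul]
      have i1 := (integrable_abs_mul_L2 K.b φ').const_mul CE
      have hb2 : ∀ᵐ z ∂μ, K.b z ^ 2 * φ' z ≤ CE * (|K.b z| * |φ' z|) := by
        filter_upwards [hφ'0, K.b_nonneg, hbC] with x b1 b2 b3
        rw [abs_of_nonneg b1, abs_of_nonneg b2]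
        calc K.b x ^ 2 * φ' x = K.b x * (K.b x * φ' x) := by ring
          _ ≤ CE * (K.b x * φ' x) := by gcongr
      refine integral_mono_of_nonneg ?_ i1 hb2
      filter_upwards [hφ'0] with x b1
      show 0 ≤ K.b x ^ 2 * φ' x
      positivity
    refine e1.trans ((mul_le_mul_of_nonneg_left a3 hCE).trans ?_)
    have e2 : CE * (161280 * β * ρ ^ 8 * ex) = (161280 * CE) * β * ρ ^ 8 * ex := by ring
    rw [e2]
    exact key _ (by positivity) (by nlinarith) _ (by positivity) hP8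
  · -- split
    have hms : MeasurableSet {x : X | dist x0 x ≤ 16} :=
      measurableSet_le (by fun_prop) measurable_const
    have hA : MemLp ({x : X | dist x0 x ≤ 16}.indicator φ') 2 μ := (Lp.memLp φ').indicator hms
    have hB : MemLp ({x : X | dist x0 x ≤ 16}ᶜ.indicator K.w) 2 μ :=
      (Lp.memLp K.w).indicator hms.compl
    set f1 : Lp ℝ 2 μ := hA.toLp _ with hf1
    set f2 : Lp ℝ 2 μ := hB.toLp _ with hf2
    have c1 : (f1 : X → ℝ) =ᵐ[μ] _ := MemLp.coeFn_toLp hA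
    have c2 : (f2 : X → ℝ) =ᵐ[μ] _ := MemLp.coeFn_toLp hB
    have s1 : ∀ᵐ x ∂μ, 32 - 16 < dist x0 x → f1 x = 0 := by
      filter_upwards [c1] with x hx h
      rw [hx, indicator_of_notMem]
      intro h2
      have : dist x0 x ≤ 16 := h2
      linarith
    have s2 : ∀ᵐ x ∂μ, dist x0 x < 16 → f2 x = 0 := by
      filter_upwards [c2] with x hx h
      rw [hx, indicator_of_notMem]
      intro h2
      exact h2 (le_of_lt h)
    have n1 : ‖f1‖ ≤ 1 * ‖φ'‖ := norm_le_of_ae zero_le_one (by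
      filter_upwards [c1] with x hx
      rw [hx, one_mul]
      exact norm_indicator_le_norm_self _ _)
    have n2 : ‖f2‖ ≤ 1 * ‖K.w‖ := norm_le_of_ae zero_le_one (by
      filter_upwards [c2] with x hx
      rw [hx, one_mul]
      exact norm_indicator_le_norm_self _ _)
    rw [one_mul] at n1 n2
    have n3 : ‖φ'‖ ≤ ‖Ψ‖ := norm_res_le (by positivity) Ψ
    have n4 := norm_w_le K hρ hρ1
    have ch16 := ch_anti hρ (le_refl ρ) (a := 16) (by norm_num)
    obtain ⟨c1', c2'⟩ := ch_lower hρ hρ1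
    have b1 := agmon_w K hρ hb (a := 16) (by norm_num) (c1'.trans_le ch16) s1
    obtain ⟨b2, -⟩ := far_res (S := S) (hd := hd) hΨ hρh hρh2 hρ1 (f := f2) s2
    have b3 : ‖f1‖ * (‖K.w‖ / ch (4 * ρ) 16) ≤ 322560 * β * ρ ^ 7 * ex := by
      have c5 : (ch (4 * ρ) 16)⁻¹ ≤ 161280 * ρ ^ 8 * ex := (inv_anti₀ c1' ch16).trans c2'
      rw [div_eq_mul_inv]
      calc ‖f1‖ * (‖K.w‖ * (ch (4 * ρ) 16)⁻¹) ≤
            ‖Ψ‖ * ((2 * ‖K.b‖ / ρ) * (161280 * ρ ^ 8 * ex)) := by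
            have : 0 ≤ (ch (4 * ρ) 16)⁻¹ := inv_nonneg.2 (ch_nonneg _ _)
            gcongr
            exact n1.trans n3
        _ = _ := by rw [hβ]; field_simp; ring
    have b4 : 161280 * (‖f2‖ * ‖Ψ‖) * ρ ^ 8 * ex ≤ 322560 * β * ρ ^ 7 * ex := by
      calc 161280 * (‖f2‖ * ‖Ψ‖) * ρ ^ 8 * ex ≤
            161280 * ((2 * ‖K.b‖ / ρ) * ‖Ψ‖) * ρ ^ 8 * ex := by
            gcongr
            exact n2.trans n4
        _ = _ := by rw [hβ]; field_simp; ring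
    have hsum : ∫ z, |K.w z| * φ' z ∂μ =
        ∫ x, |f1 x| * |K.w x| ∂μ + ∫ x, |f2 x| * |φ' x| ∂μ := by
      rw [← integral_add (integrable_abs_mul_L2 f1 K.w) (integrable_abs_mul_L2 f2 φ')]
      refine integral_congr_ae ?_
      filter_upwards [c1, c2, hφ'0] with x d1 d2 d3
      rw [d1, d2]
      by_cases hx : x ∈ {x : X | dist x0 x ≤ 16}
      · rw [indicator_of_mem hx, indicator_of_notMem
          (show x ∉ {x : X | dist x0 x ≤ 16}ᶜ from fun h => h hx), abs_of_nonneg d3]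
        simp [mul_comm]
      · rw [indicator_of_notMem hx, indicator_of_mem (show x ∈ {x : X | dist x0 x ≤ 16}ᶜ from hx),
          abs_of_nonneg d3]
        simp
    rw [hsum]
    have k1 := key 645120 (by norm_num) (by nlinarith) _ (by positivity) hP7
    refine le_trans ?_ k1
    have e9 : 645120 * β * ρ ^ 7 * ex = 322560 * β * ρ ^ 7 * ex + 322560 * β * ρ ^ 7 * ex := by ring
    rw [e9]
    exact add_le_add (b1.trans b3) (b2.trans b4)

end Er

end Crest.Agent.R247.Kt622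
end
end

-- ▼ part R247/Kt6_622
section

/-!
R247, block (1-K) (helper622): telescoping along the rays,
`∫ Ψ (q + ⟪∇f_x, ∇q⟫) ≤ C ∫_{B(x,4s)} q` for the density `Ψ` of `Lam C x s`.
-/

set_option autoImplicit false
set_option linter.unusedSectionVars false
set_option linter.unusedVariables false

open MeasureTheory Filter Topology Set Metric
open scoped RealInnerProductSpace ENNReal NNReal

noncomputable section

namespace Crest.Agent.R247.Kt622

open Crest.Agent.R247.Dir593 Crest.Agent.R247.Dir593.GradS Crest.Agent.R247.Mcp688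
open Crest.Agent.R247.Far553 Crest.Agent.R247.LX149

section Tele

variable {n : ℕ} {κ : ℝ} {X : Type*} [MetricSpace X] [MeasurableSpace X] [BorelSpace X]
  {μ : Measure X}

/-- one ray -/
lemma ray_tele [SFinite μ] (C : Rad n κ X μ) (x : X) {f D : X → ℝ} (hD : RD C x f D) {K M : ℝ}
    (hK0 : 0 ≤ K) (hK : ∀ y z, |f y - f z| ≤ K * dist y z) (hM : ∀ z, |f z| ≤ M) :
    ∀ᵐ v ∂μ, 0 < dist x v → ∀ a b : ℝ, 0 < a → a ≤ b → b ≤ 1 →
      ∫ t in Icc a b, (f (C.T x t v) + D (C.T x t v)) = b * f (C.T x b v) - a * f (C.T x a v) := by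
  have hM0 : 0 ≤ M := (abs_nonneg _).trans (hM x)
  have hd : RD C x (fun z => dist x z) (fun z => 1 * dist x z) :=
    RD.radial (η := fun s => s) (η' := fun _ => 1) (Eventually.of_forall fun z _ =>
      (hasDerivAt_id _).hasDerivWithinAt)
  have hm := RD.mul hd hD
  have hLip : ∀ R, ∃ L, ∀ y z, dist x y ≤ R → dist x z ≤ R →
      |dist x y * f y - dist x z * f z| ≤ L * dist y z := by
    intro R
    refine ⟨M + |R| * K, fun y z hy hz => ?_⟩
    have e : dist x y * f y - dist x z * f z = (dist x y - dist x z) * f y +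
        dist x z * (f y - f z) := by ring
    rw [e]
    refine (abs_add_le _ _).trans ?_
    rw [abs_mul, abs_mul, add_mul]
    have h1 : |dist x y - dist x z| ≤ dist y z := by
      have := abs_dist_sub_le y z x
      rwa [dist_comm y x, dist_comm z x] at this
    have h2 : |dist x z| ≤ |R| := by
      rw [abs_of_nonneg dist_nonneg]; exact hz.trans (le_abs_self R)
    have h3 := hK y z
    have h4 := hM y
    calc |dist x y - dist x z| * |f y| + |dist x z| * |f y - f z| ≤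
          dist y z * M + |R| * (K * dist y z) := by gcongr
      _ = _ := by ring
  filter_upwards [C.ray_ftc x hm hLip, C.ae_U x] with v hv hU hv0 a b ha hab hb
  obtain ⟨-, h2⟩ := hv a b ha hab hb
  rw [intervalIntegral.integral_of_le hab, ← integral_Icc_eq_integral_Ioc] at h2
  have hdist : ∀ t ∈ Icc a b, dist x (C.T x t v) = t * dist x v := fun t ht =>
    C.dist_left hU ⟨ha.le.trans ht.1, ht.2.trans hb⟩
  have e1 : ∫ t in Icc a b, (1 * dist x (C.T x t v) * f (C.T x t v) +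
      dist x (C.T x t v) * D (C.T x t v)) / t =
      dist x v * ∫ t in Icc a b, (f (C.T x t v) + D (C.T x t v)) := by
    rw [← integral_const_mul]
    refine setIntegral_congr_fun measurableSet_Icc fun t ht => ?_
    have ht0 : 0 < t := ha.trans_le ht.1
    show (1 * dist x (C.T x t v) * f (C.T x t v) + dist x (C.T x t v) * D (C.T x t v)) / t =
      dist x v * (f (C.T x t v) + D (C.T x t v))
    rw [hdist t ht]
    field_simp
  rw [e1, hdist b ⟨hab, le_rfl⟩, hdist a ⟨le_rfl, hab⟩] at h2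
  have h3 : dist x v * ∫ t in Icc a b, (f (C.T x t v) + D (C.T x t v)) =
      dist x v * (b * f (C.T x b v) - a * f (C.T x a v)) := by rw [h2]; ring
  exact mul_left_cancel₀ hv0.ne' h3

/-- the telescoping estimate for nonnegative Lipschitz functions -/
theorem tele_test [SigmaFinite μ] (C : Rad n κ X μ) (hκ : 0 ≤ κ) {x : X} {s : ℝ} (hs : 0 < s)
    {Ψ : X → ℝ} (hΨm : Measurable Ψ) (hΨ0 : ∀ y, 0 ≤ Ψ y) {cΨ : ℝ} (hΨb : ∀ y, Ψ y ≤ cΨ)
    (hΨs : ∀ y, 4 * s < dist x y → Ψ y = 0)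
    (hΨL : Lam C x s = μ.withDensity (fun y => ENNReal.ofReal (Ψ y)))
    (hfin : μ (closedBall x (8 * s)) ≠ ∞)
    {f D : X → ℝ} (hfm : Measurable f) (f0 : ∀ z, 0 ≤ f z) {K M : ℝ}
    (hK0 : 0 ≤ K) (hK : ∀ y z, |f y - f z| ≤ K * dist y z) (hM : ∀ z, |f z| ≤ M)
    (hDm : Measurable D) (hD : RD C x f D) :
    ∫ z, Ψ z * (f z + D z) ∂μ ≤
      Real.exp (κ * (8 * s) ^ 2 / 2) * 2 ^ n * ∫ z in closedBall x (4 * s), f z ∂μ := by
  have hM0 : 0 ≤ M := (abs_nonneg _).trans (hM x)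
  set ν : Measure X := μ.restrict (ann x (4 * s) (8 * s)) with hν
  have hAm := measurableSet_ann x (4 * s) (8 * s)
  have hAfin : μ (ann x (4 * s) (8 * s)) ≠ ∞ := by
    refine ne_top_of_le_ne_top hfin (measure_mono fun z hz => ?_)
    rw [mem_closedBall, dist_comm]; exact hz.2
  have hνf : IsFiniteMeasure ν := ⟨by rw [hν, Measure.restrict_apply_univ]; exact hAfin.lt_top⟩
  set τ : Measure ℝ := volume.restrict (Icc (1 / 64 : ℝ) (1 / 2)) with hτ
  have hτf : IsFiniteMeasure τ := ⟨by rw [hτ, Measure.restrict_apply_univ]; simp⟩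
  set g : X → ℝ := fun z => f z + D z with hg
  have hgm : Measurable g := hfm.add hDm
  have hTm : Measurable (fun p : X × ℝ => C.T x p.2 p.1) := measT_swap C x
  have hLdef : Lam C x s = (ν.prod τ).map (fun p : X × ℝ => C.T x p.2 p.1) := rfl
  -- integrability with respect to the law
  have hfin4 : μ (closedBall x (4 * s)) ≠ ∞ :=
    ne_top_of_le_ne_top hfin (measure_mono (closedBall_subset_closedBall (by linarith)))
  have hDb := hD.abs_le hK
  have hΨg : Integrable (fun z => Ψ z * g z) μ := by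
    have hb : Integrable ((closedBall x (4 * s)).indicator
        fun _ => cΨ * (M + K * (4 * s))) μ :=
      (integrable_indicator_iff isClosed_closedBall.measurableSet).2 (integrableOn_const hfin4)
    refine hb.mono' (hΨm.mul hgm).aestronglyMeasurable ?_
    filter_upwards [hDb] with z hz
    by_cases h : z ∈ closedBall x (4 * s)
    · rw [indicator_of_mem h, Real.norm_eq_abs, abs_mul, abs_of_nonneg (hΨ0 z)]
      rw [mem_closedBall, dist_comm] at h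
      have h1 : |g z| ≤ M + K * (4 * s) := by
        refine (abs_add_le _ _).trans (add_le_add (hM z) (hz.trans ?_))
        gcongr
      have h2 : 0 ≤ cΨ := (hΨ0 z).trans (hΨb z)
      exact mul_le_mul (hΨb z) h1 (abs_nonneg _) h2
    · rw [indicator_of_notMem h, hΨs z (by
        rw [mem_closedBall, dist_comm, not_le] at h; exact h)]
      simp
  have hint : Integrable g (Lam C x s) := by
    rw [hΨL, integrable_withDensity_iff_integrable_smul' (by fun_prop)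
      (Eventually.of_forall fun z => ENNReal.ofReal_lt_top)]
    refine hΨg.congr (Eventually.of_forall fun z => ?_)
    simp only [ENNReal.toReal_ofReal (hΨ0 z), smul_eq_mul]
  have e1 : ∫ z, Ψ z * (f z + D z) ∂μ = ∫ z, g z ∂(Lam C x s) := by
    rw [hΨL, integral_withDensity_eq_integral_toReal_smul (by fun_prop)
      (Eventually.of_forall fun z => ENNReal.ofReal_lt_top)]
    refine integral_congr_ae (Eventually.of_forall fun z => ?_)
    simp only [ENNReal.toReal_ofReal (hΨ0 z), smul_eq_mul, hg]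
  rw [hLdef] at hint e1
  have hint2 : Integrable (fun p : X × ℝ => g (C.T x p.2 p.1)) (ν.prod τ) :=
    (integrable_map_measure hgm.aestronglyMeasurable hTm.aemeasurable).1 hint
  rw [e1, integral_map hTm.aemeasurable hgm.aestronglyMeasurable, integral_prod _ hint2]
  -- the inner integral
  have hray : ∀ᵐ v ∂ν, ∫ t, g (C.T x t v) ∂τ =
      1 / 2 * f (C.T x (1 / 2) v) - 1 / 64 * f (C.T x (1 / 64) v) := by
    rw [hν, ae_restrict_iff' hAm]
    filter_upwards [ray_tele C x hD hK0 hK hM] with v hv hvA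
    exact hv (by have := hvA.1; linarith) _ _ (by norm_num) (by norm_num) (by norm_num)
  rw [integral_congr_ae hray]
  have hTi : ∀ t : ℝ, Integrable (fun v => f (C.T x t v)) ν := fun t => by
    refine Integrable.of_bound (hfm.comp (C.measT_xt x t)).aestronglyMeasurable M
      (Eventually.of_forall fun v => ?_)
    rw [Real.norm_eq_abs]; exact hM _
  have s1 : ∫ v, (1 / 2 * f (C.T x (1 / 2) v) - 1 / 64 * f (C.T x (1 / 64) v)) ∂ν ≤
      ∫ v, f (C.T x (1 / 2) v) ∂ν := by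
    refine integral_mono (((hTi _).const_mul _).sub ((hTi _).const_mul _)) (hTi _) fun v => ?_
    have h1 := f0 (C.T x (1 / 2) v)
    have h2 := f0 (C.T x (1 / 64) v)
    show 1 / 2 * f (C.T x (1 / 2) v) - 1 / 64 * f (C.T x (1 / 64) v) ≤ f (C.T x (1 / 2) v)
    linarith
  refine s1.trans ?_
  -- the contraction at `1/2`
  have hfi : IntegrableOn f (closedBall x (4 * s)) μ :=
    Measure.integrableOn_of_bounded (M := M) hfin4 hfm.aestronglyMeasurable
      (Eventually.of_forall fun z => by rw [Real.norm_eq_abs]; exact hM z)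
  have h2 := C.setLIntegral_T_le hκ x (t := 1 / 2) ⟨by norm_num, by norm_num⟩ hAm
    (W := closedBall x (4 * s)) measurableSet_closedBall (D := 8 * s) (fun z hz => hz.2)
    (fun z hz hU => by
      rw [mem_closedBall, dist_comm, C.dist_left hU ⟨by norm_num, by norm_num⟩]
      have := hz.2
      linarith) (g := fun z => ENNReal.ofReal (f z)) (by fun_prop)
  have hc0 : 0 ≤ Real.exp (κ * (8 * s) ^ 2 / 2) * 2 ^ n := by positivity
  have h3 : ENNReal.ofReal (∫ v, f (C.T x (1 / 2) v) ∂ν) ≤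
      ENNReal.ofReal (Real.exp (κ * (8 * s) ^ 2 / 2) * 2 ^ n *
        ∫ z in closedBall x (4 * s), f z ∂μ) := by
    rw [ofReal_integral_eq_lintegral_ofReal (hTi _) (Eventually.of_forall fun v => f0 _),
      ENNReal.ofReal_mul hc0, ofReal_integral_eq_lintegral_ofReal hfi
      (Eventually.of_forall fun v => f0 _)]
    have e : ((1 / 2 : ℝ)⁻¹) ^ n = 2 ^ n := by norm_num
    rw [e] at h2
    exact h2
  exact (ENNReal.ofReal_le_ofReal_iff (mul_nonneg hc0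
    (integral_nonneg fun z => f0 z))).1 h3

end Tele

section TeleV

variable {n : ℕ} {κ : ℝ} {X : Type*} [MetricSpace X] [ProperSpace X] [MeasurableSpace X]
  [BorelSpace X] {F : Type*} [NormedAddCommGroup F] [InnerProductSpace ℝ F] {μ : Measure X}
  [IsFiniteMeasureOnCompacts μ] {S : GradS X F μ}

/-- **telescoping for `q ∈ V`, `q ≥ 0`** -/
theorem tele_V [SigmaFinite μ] (C : Rad n κ X μ) (hκ : 0 ≤ κ) (hLK : Obj554.LK S C) {x : X}
    {s : ℝ} (hs : 0 < s) {Ψ : X → ℝ} (hΨm : Measurable Ψ) (hΨ0 : ∀ y, 0 ≤ Ψ y) {cΨ : ℝ}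
    (hΨb : ∀ y, Ψ y ≤ cΨ) (hΨs : ∀ y, 4 * s < dist x y → Ψ y = 0)
    (hΨL : Lam C x s = μ.withDensity (fun y => ENNReal.ofReal (Ψ y)))
    {q : Lp ℝ 2 μ} (hq : q ∈ S.V) (q0 : ∀ᵐ z ∂μ, 0 ≤ q z) :
    Integrable (fun z => Ψ z * (q z + ⟪S.G (Smv126.hf x) z, S.D q z⟫)) μ ∧
    ∫ z, Ψ z * (q z + ⟪S.G (Smv126.hf x) z, S.D q z⟫) ∂μ ≤
      Real.exp (κ * (8 * s) ^ 2 / 2) * 2 ^ n * ∫ z in closedBall x (4 * s), q z ∂μ := by
  have hfin : μ (closedBall x (8 * s)) ≠ ∞ := (isCompact_closedBall x (8 * s)).measure_lt_top.ne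
  have hms : MeasurableSet (closedBall x (4 * s)) := measurableSet_closedBall
  have hfin4 : μ (closedBall x (4 * s)) ≠ ∞ := (isCompact_closedBall x (4 * s)).measure_lt_top.ne
  have hcΨ : 0 ≤ cΨ := (hΨ0 x).trans (hΨb x)
  -- the two `L²` classes
  have m1 : MemLp Ψ 2 μ := by
    refine Smv126.memLp_compact hΨm.aestronglyMeasurable (isCompact_closedBall x (4 * s))
      (C := cΨ) (Eventually.of_forall fun z _ => ?_) (Eventually.of_forall fun z hz => ?_) 2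
    · rw [Real.norm_eq_abs, abs_of_nonneg (hΨ0 z)]; exact hΨb z
    · exact hΨs z (by rw [mem_closedBall, dist_comm, not_le] at hz; exact hz)
  obtain ⟨CG, hCG0, hCG⟩ := S.bound_compact (Smv126.locLip_hf x) (isCompact_closedBall x (4 * s))
  have m2 : MemLp (fun z => Ψ z • S.G (Smv126.hf x) z) 2 μ := by
    refine Smv126.memLp_compact (hΨm.aestronglyMeasurable.smul (S.meas (Smv126.locLip_hf x)))
      (isCompact_closedBall x (4 * s)) (C := cΨ * CG) ?_ (Eventually.of_forall fun z hz => ?_) 2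
    · filter_upwards [hCG] with z hz hzB
      show ‖Ψ z • S.G (Smv126.hf x) z‖ ≤ cΨ * CG
      rw [norm_smul, Real.norm_eq_abs, abs_of_nonneg (hΨ0 z)]
      exact mul_le_mul (hΨb z) (hz hzB) (norm_nonneg _) hcΨ
    · show Ψ z • S.G (Smv126.hf x) z = 0
      rw [hΨs z (by rw [mem_closedBall, dist_comm, not_le] at hz; exact hz), zero_smul]
  set P : Lp ℝ 2 μ := m1.toLp _ with hP
  set W : Lp F 2 μ := m2.toLp _ with hW
  have cP : (P : X → ℝ) =ᵐ[μ] Ψ := MemLp.coeFn_toLp m1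
  have cW : (W : X → F) =ᵐ[μ] fun z => Ψ z • S.G (Smv126.hf x) z := MemLp.coeFn_toLp m2
  have key : ∀ (u : Lp ℝ 2 μ) (U : Lp F 2 μ),
      Integrable (fun z => Ψ z * (u z + ⟪S.G (Smv126.hf x) z, U z⟫)) μ ∧
      ∫ z, Ψ z * (u z + ⟪S.G (Smv126.hf x) z, U z⟫) ∂μ = ⟪P, u⟫ + ⟪W, U⟫ := by
    intro u U
    have i1 := integrable_mul_L2 P u
    have i2 : Integrable (fun z => (⟪W z, U z⟫ : ℝ)) μ := L2.integrable_inner (𝕜 := ℝ) W U
    have e : (fun z => P z * u z + (⟪W z, U z⟫ : ℝ)) =ᵐ[μ]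
        fun z => Ψ z * (u z + ⟪S.G (Smv126.hf x) z, U z⟫) := by
      filter_upwards [cP, cW] with z a1 a2
      rw [a1, a2, real_inner_smul_left]; ring
    refine ⟨(i1.add i2).congr e, ?_⟩
    rw [← integral_congr_ae e, integral_add i1 i2, inner_eq_integral, L2.inner_def]
  refine ⟨(key q (S.D q)).1, ?_⟩
  rw [(key q (S.D q)).2]
  set cc : ℝ := Real.exp (κ * (8 * s) ^ 2 / 2) * 2 ^ n with hcc
  obtain ⟨f, hf, f0, h1, h2, -⟩ := S.exists_seq_nonneg hq q0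
  -- the inequality for test functions
  have hineq : ∀ k, (⟪P, (tL (hf k) : Lp ℝ 2 μ)⟫ : ℝ) + ⟪W, S.D (tL (hf k))⟫ ≤
      cc * ⟪ind hms hfin4, (tL (hf k) : Lp ℝ 2 μ)⟫ := by
    intro k
    rw [← (key (tL (hf k)) (S.D (tL (hf k)))).2]
    obtain ⟨K, hK0, hK⟩ := Obj554.isT_lip (hf k)
    obtain ⟨M, hM⟩ := (hf k).1.continuous.bounded_above_of_compact_support (hf k).2
    have hDmeas : AEStronglyMeasurable (fun z => (⟪S.G (Smv126.hf x) z, S.G (f k) z⟫ : ℝ)) μ :=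
      (S.meas (Smv126.locLip_hf x)).inner (S.meas (hf k).1)
    set D : X → ℝ := hDmeas.mk _ with hDdef
    have hDae := hDmeas.ae_eq_mk
    have hRD : RD C x (f k) D := (hLK x (hf k)).congr hDae
    have := tele_test C hκ hs hΨm hΨ0 hΨb hΨs hΨL hfin (hf k).1.continuous.measurable (f0 k)
      hK0 hK (fun z => by rw [← Real.norm_eq_abs]; exact hM z)
      hDmeas.stronglyMeasurable_mk.measurable hRD
    have e1 : ∫ z, Ψ z * ((tL (hf k) : Lp ℝ 2 μ) z +
        ⟪S.G (Smv126.hf x) z, S.D (tL (hf k)) z⟫) ∂μ = ∫ z, Ψ z * (f k z + D z) ∂μ := by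
      refine integral_congr_ae ?_
      filter_upwards [coe_tL (μ := μ) (hf k), S.D_tL (hf k), hDae] with z a1 a2 a3
      rw [a1, a2, ← hDdef] at *
      rw [← a3]
    have e2 : (⟪ind hms hfin4, (tL (hf k) : Lp ℝ 2 μ)⟫ : ℝ) =
        ∫ z in closedBall x (4 * s), f k z ∂μ := by
      rw [real_inner_comm, inner_ind _ hms hfin4]
      refine integral_congr_ae (ae_restrict_of_ae ?_)
      filter_upwards [coe_tL (μ := μ) (hf k)] with z a1
      rw [a1]
    rw [e1, e2]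
    exact this
  have l1 : Tendsto (fun k => (⟪P, (tL (hf k) : Lp ℝ 2 μ)⟫ : ℝ) + ⟪W, S.D (tL (hf k))⟫) atTop
      (𝓝 (⟪P, q⟫ + ⟪W, S.D q⟫)) :=
    (tendsto_const_nhds.inner h1).add (tendsto_const_nhds.inner h2)
  have l2 : Tendsto (fun k => cc * (⟪ind hms hfin4, (tL (hf k) : Lp ℝ 2 μ)⟫ : ℝ)) atTop
      (𝓝 (cc * ⟪ind hms hfin4, q⟫)) := (tendsto_const_nhds.inner h1).const_mul cc
  have := le_of_tendsto_of_tendsto' l1 l2 hineq
  rw [real_inner_comm q (ind hms hfin4), inner_ind _ hms hfin4] at this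
  exact this

end TeleV

end Crest.Agent.R247.Kt622
end
end

-- ▼ part R247/Kt9_622
section

/-!
# R247, (1-K) (9) (helper622): the input structure `KIn` for helper554's objects
-/

set_option autoImplicit false
set_option linter.unusedSectionVars false
set_option linter.unusedVariables false

open MeasureTheory Filter Topology Set Metric
open scoped RealInnerProductSpace ENNReal NNReal

noncomputable section

namespace Crest.Agent.R247.Kt622

universe u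

open Crest.Agent.R242 Crest.Agent.R247.Dir593 Crest.Agent.R247.Dir593.GradS
open Crest.Agent.R247.Smv126 Crest.Agent.R247.Obj554 Crest.Agent.R247.Hes124
open Crest.Agent.R247.Far553 Crest.Agent.R247.Mcp688 Crest.Agent.R247.Max193
open Crest.Agent.R247.Fd656

/-! ### scalar constants -/

lemma exists_Cth : ∃ c : ℝ, 0 ≤ c ∧ ∀ s : ℝ, |deriv thf s| ≤ c := by
  have hc : Continuous (deriv thf) := contDiff_thf.continuous_deriv le_rfl
  have h0 : ∀ s, S1 ≤ s → deriv thf s = 0 := by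
    intro s hs
    rw [deriv_eq_of_right contDiff_thf (contDiff_const (c := (0:ℝ))) (fun t ht => thf_zero ht) hs]
    simp
  obtain ⟨c, hc'⟩ := (isCompact_Icc (a := S0) (b := S1)).exists_bound_of_continuousOn hc.continuousOn
  refine ⟨max c 0, le_max_right _ _, fun s => ?_⟩
  rcases le_total s S0 with h | h
  · rw [deriv_thf_zero h]; simp
  rcases le_total s S1 with h' | h'
  · exact (hc' s ⟨h, h'⟩).trans (le_max_left _ _)
  · rw [h0 s h']; simp

/-- bound of `|θ0'|` -/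
def Cth : ℝ := Classical.choose exists_Cth

lemma Cth_nonneg : 0 ≤ Cth := (Classical.choose_spec exists_Cth).1

lemma abs_deriv_thf_le (s : ℝ) : |deriv thf s| ≤ Cth := (Classical.choose_spec exists_Cth).2 s

lemma deriv_thf_right {s : ℝ} (hs : S1 ≤ s) : deriv thf s = 0 := by
  rw [deriv_eq_of_right contDiff_thf (contDiff_const (c := (0:ℝ))) (fun t ht => thf_zero ht) hs]
  simp

/-- the size of the far errors -/
def bC (n : ℕ) : ℝ := CE n + 64 * Cth

lemma bC_nonneg (n : ℕ) : 0 ≤ bC n := by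
  have := CE_nonneg n
  have := Cth_nonneg
  unfold bC; positivity

lemma CE_le_bC (n : ℕ) : CE n ≤ bC n := by
  have := Cth_nonneg
  unfold bC; linarith

lemma Cth_le_bC (n : ℕ) : 64 * Cth ≤ bC n := by
  have := CE_nonneg n
  unfold bC; linarith

lemma mv_idm' {n : ℕ} (v : Hes124.F n) : mv (idm n) v = v := by
  ext i
  rw [mv_apply]
  simp [idm]

section Obj

variable {n : ℕ} {κ : ℝ} {X : Type u} [MetricSpace X] [ProperSpace X] [MeasurableSpace X]
  [BorelSpace X] {μ : Measure X} [IsFiniteMeasureOnCompacts μ] {B : BochS n κ X μ} {x : X}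

/-- `q_k ∈ L¹` -/
lemma integrable_qk (W : WLap B.toGradS n κ) (hκ : 0 ≤ κ) (k : ℕ) : Integrable (qk B x k) μ := by
  have hρ := dy_pos k
  have hM : Markov (QF B.toGradS) := B.markov B.dense_V
  refine (hM.integral_resD_le (h := dy k ^ 2) (by positivity) (l := lx B.toGradS n κ x)
    (m := CN n κ * μ.real (closedBall x 64)) (lx_nonneg W x) (fun w hw h0 h1 => ?_)).1
  have h2 : (lx B.toGradS n κ x).f w ≤ (lx B.toGradS n κ x).f (tL (isT_plat x)) := by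
    refine Pos.mono_on hM (l := lx B.toGradS n κ x) (lx_nonneg W x) (suppIn_lx x) hw
      (B.toGradS.tL_mem _) ?_
    filter_upwards [h1, coe_tL (μ := μ) (isT_plat x)] with y h1 h2 hy
    rw [Metric.mem_ball, dist_comm] at hy
    rw [h2, plat_one hy.le]
    exact h1
  exact h2.trans (lx_plat hκ x)

/-! ### the far set -/

lemma meas_far (x : X) : MeasurableSet (closedBall x 64 \ closedBall x 32) :=
  measurableSet_closedBall.diff measurableSet_closedBall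

lemma fin_far (μ : Measure X) [IsFiniteMeasureOnCompacts μ] (x : X) :
    μ (closedBall x 64 \ closedBall x 32) ≠ ∞ :=
  ((measure_mono sdiff_subset).trans_lt (isCompact_closedBall x 64).measure_lt_top).ne

/-- the far bound `b = bC 1_{32 < d ≤ 64}` -/
def bL (μ : Measure X) [IsFiniteMeasureOnCompacts μ] (n : ℕ) (x : X) : Lp ℝ 2 μ :=
  bC n • ind (meas_far x) (fin_far μ x)

lemma bL_ae (n : ℕ) (x : X) : ∀ᵐ z ∂μ, bL μ n x z =
    if 32 < dist x z ∧ dist x z ≤ 64 then bC n else 0 := by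
  unfold bL
  filter_upwards [Lp.coeFn_smul (bC n) (ind (meas_far x) (fin_far μ x)),
    coe_ind (meas_far x) (fin_far μ x)] with z h1 h2
  rw [h1, Pi.smul_apply, h2, smul_eq_mul]
  by_cases h : z ∈ closedBall x 64 \ closedBall x 32
  · rw [indicator_of_mem h]
    rw [Set.mem_sdiff, mem_closedBall, mem_closedBall, dist_comm z x] at h
    rw [if_pos ⟨not_le.1 h.2, h.1⟩]
    simp
  · rw [indicator_of_notMem h]
    rw [Set.mem_sdiff, mem_closedBall, mem_closedBall, dist_comm z x] at h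
    rw [if_neg (fun h' => h ⟨h'.2, not_le.2 h'.1⟩)]
    simp

lemma bL_nonneg (n : ℕ) (x : X) : ∀ᵐ z ∂μ, 0 ≤ bL μ n x z := by
  filter_upwards [bL_ae (μ := μ) n x] with z h
  rw [h]
  split_ifs
  · exact bC_nonneg n
  · exact le_rfl

lemma bL_le (n : ℕ) (x : X) : ∀ᵐ z ∂μ, bL μ n x z ≤ bC n := by
  filter_upwards [bL_ae (μ := μ) n x] with z h
  rw [h]
  split_ifs
  · exact le_rfl
  · exact bC_nonneg n

lemma bL_near (n : ℕ) (x : X) : ∀ᵐ z ∂μ, dist x z ≤ 32 → bL μ n x z = 0 := by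
  filter_upwards [bL_ae (μ := μ) n x] with z h hz
  rw [h, if_neg (fun h' => absurd h'.1 (not_lt.2 hz))]

lemma norm_bL (n : ℕ) (x : X) {V : ℝ} (hV : μ.real (closedBall x 64) ≤ V) :
    ‖bL μ n x‖ ≤ bC n * Real.sqrt V := by
  unfold bL
  rw [norm_smul, Real.norm_of_nonneg (bC_nonneg n)]
  refine mul_le_mul_of_nonneg_left ?_ (bC_nonneg n)
  have h1 : ‖ind (meas_far x) (fin_far μ x)‖ ^ 2 ≤ V := by
    rw [← real_inner_self_eq_norm_sq, inner_ind]
    have h2 : ∫ z in closedBall x 64 \ closedBall x 32, ind (meas_far x) (fin_far μ x) z ∂μ ≤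
        μ.real (closedBall x 64 \ closedBall x 32) := by
      have h3 : ∫ z in closedBall x 64 \ closedBall x 32, ind (meas_far x) (fin_far μ x) z ∂μ =
          ∫ z in closedBall x 64 \ closedBall x 32, (1:ℝ) ∂μ := by
        refine setIntegral_congr_ae (meas_far x) ?_
        filter_upwards [coe_ind (meas_far x) (fin_far μ x)] with z hz hm
        rw [hz, indicator_of_mem hm]
      rw [h3]
      simp
    refine h2.trans ((measureReal_mono sdiff_subset ?_).trans hV)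
    exact (isCompact_closedBall x 64).measure_lt_top.ne
  calc ‖ind (meas_far x) (fin_far μ x)‖ = Real.sqrt (‖ind (meas_far x) (fin_far μ x)‖ ^ 2) := by
        rw [Real.sqrt_sq (norm_nonneg _)]
    _ ≤ Real.sqrt V := Real.sqrt_le_sqrt h1

/-- `G θ0` -/
lemma norm_G_th_le (W : WLap B.toGradS n κ) (x : X) : ∀ᵐ z ∂μ, ‖B.G (th x) z‖ ≤ bL μ n x z := by
  filter_upwards [B.toGradS.comp (locLip_hf x) contDiff_thf, W.normSq_G_hf x,
    bL_ae (μ := μ) n x] with z hz h2 h3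
  have e : B.G (th x) z = deriv thf (hf x z) • B.G (hf x) z := hz
  rw [e, norm_smul, h3, Real.norm_eq_abs]
  have h4 : ‖B.G (hf x) z‖ = dist x z := by
    have h5 : ‖B.G (hf x) z‖ ^ 2 = dist x z ^ 2 := h2
    exact (pow_left_inj₀ (norm_nonneg _) dist_nonneg two_ne_zero).1 h5
  rw [h4]
  by_cases h : dist x z ≤ 32
  · rw [deriv_thf_zero (hf_le_S0 h), if_neg (fun h' => absurd h'.1 (not_lt.2 h))]
    simp
  by_cases h' : dist x z ≤ 64
  · rw [if_pos ⟨not_le.1 h, h'⟩]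
    refine le_trans ?_ (Cth_le_bC n)
    have := mul_le_mul (abs_deriv_thf_le (hf x z)) h' dist_nonneg Cth_nonneg
    linarith
  · have h6 : S1 ≤ hf x z := S1_le_hf (not_le.1 h').le
    rw [deriv_thf_right h6, if_neg (fun h' => absurd h'.2 (by assumption))]
    simp

/-! ### the source -/

lemma Spx_ge {A : X → S n} {P : Lp ℝ 2 μ} {ρ : ℝ}
    (h : BW B (uL B.toGradS n κ x ρ) (gL B.toGradS n κ x ρ) A P) (W : WLap B.toGradS n κ)
    (hκ : 0 ≤ κ) (hκ1 : κ ≤ 1) (hρ : 0 < ρ) (hρ1 : ρ ≤ 1) (hκρ : 8 * κ * ρ ^ 2 ≤ 1) :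
    ∀ᵐ z ∂μ, -(bL μ n x z) ≤ Spx B x ρ A z := by
  have hq := qL_mem (S := B.toGradS) (n := n) (κ := κ) hρ x
  have hu : uL B.toGradS n κ x ρ = tL (isT_f0 x) - ρ ^ 2 • qL B.toGradS n κ x ρ := rfl
  filter_upwards [Fx_sq_le h W hκ hκ1 hρ hρ1 hκρ, bL_ae (μ := μ) n x,
    h.Sp_outer (N := Nf n κ x) (isT_f0 x) (isT_Nf n κ x) hq (qL_nonneg W hρ x) hκ hκρ hu rfl,
    G_f0 B.toGradS x, G_Nf B.toGradS n κ x] with z h1 h2 h3 h4 h5
  rw [h2]
  by_cases hd : dist x z ≤ 32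
  · rw [if_neg (fun h' => absurd h'.1 (not_lt.2 hd))]
    rw [indicator_of_notMem (by simpa using hd), add_zero] at h1
    nlinarith [sq_nonneg (Fx B x ρ A z)]
  by_cases hd' : dist x z ≤ 64
  · rw [if_pos ⟨not_le.1 hd, hd'⟩]
    rw [indicator_of_mem (by simpa using hd)] at h1
    have := CE_le_bC n
    nlinarith [sq_nonneg (Fx B x ρ A z)]
  · rw [if_neg (fun h' => hd' h'.2)]
    have hs : S1 ≤ hf x z := S1_le_hf (not_le.1 hd').le
    have e1 : B.G (f0 x) z = 0 := by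
      have h4' : B.G (f0 x) z = et x z • B.G (hf x) z := h4
      have e : et x z = 0 := eta_zero hs
      rw [h4', e, zero_smul]
    have e2 : B.G (Nf n κ x) z = 0 := by
      have h5' : B.G (Nf n κ x) z = deriv (Nfun n κ) (hf x z) • B.G (hf x) z := h5
      rw [h5', deriv_Nfun_right n κ hs, zero_smul]
    have e3 : Nf n κ x z = 0 := Nfun_zero n κ hs
    rw [e1, e2, e3] at h3
    simpa using h3

lemma D_th_ae (x : X) : ∀ᵐ z ∂μ, B.D (tL (isT_th x)) z = B.G (th x) z := B.D_tL (isT_th x)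

/-- the input structure -/
def kin {A : X → S n} {P : Lp ℝ 2 μ} {k : ℕ}
    (h : BW B (uk B x k) (gL B.toGradS n κ x (dy k)) A P) (W : WLap B.toGradS n κ)
    (hκ : 0 ≤ κ) (hκ1 : κ ≤ 1) (hκρ : 8 * κ * dy k ^ 2 ≤ 1) :
    KIn B.toGradS B.dense_V (dy k ^ 2) where
  l := lx B.toGradS n κ x
  l_nonneg := lx_nonneg W x
  k := BW.kL (uk B x k) P (isT_th x)
  k_mem := h.kL_mem (isT_th x)
  k_bdd := by
    obtain ⟨c1, hc1⟩ := h.bdd
    obtain ⟨c2, hc2⟩ := (isT_th x).1.continuous.bounded_above_of_compact_support (isT_th x).2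
    refine ⟨c1 ^ 2 + 2 * (cinf + CN n κ) + c2, ?_⟩
    unfold BW.kL
    filter_upwards [Lp.coeFn_sub ((2:ℝ) • P - (2:ℝ) • (uk B x k)) (tL (isT_th x) : Lp ℝ 2 μ),
      Lp.coeFn_sub ((2:ℝ) • P) ((2:ℝ) • (uk B x k)), Lp.coeFn_smul (2:ℝ) P,
      Lp.coeFn_smul (2:ℝ) (uk B x k), h.P_eq, coe_tL (μ := μ) (isT_th x), hc1,
      abs_uk_le (B := B) x k hκ] with z e1 e2 e3 e4 e5 e6 e7 e8
    rw [e1, Pi.sub_apply, e2, Pi.sub_apply, e3, e4, Pi.smul_apply, Pi.smul_apply, e5, e6,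
      smul_eq_mul, smul_eq_mul]
    have h2 := hc2 z
    rw [Real.norm_eq_abs] at h2
    have h3 : ‖B.D (uk B x k) z‖ ^ 2 ≤ c1 ^ 2 := pow_le_pow_left₀ (norm_nonneg _) e7 2
    have h4 := sq_nonneg ‖B.D (uk B x k) z‖
    have h5 := abs_le.1 e8
    have h6 := abs_le.1 h2
    rw [abs_le]
    constructor <;> linarith [h5.1, h5.2, h6.1, h6.2]
  SS := Spx B x (dy k) A
  SS_int := h.int_Sp (isT_Nf n κ x) rfl (integrable_qk W hκ k)
  b := bL μ n x
  e0 := 0
  E1 := -(dy k ^ 2) • B.D (tL (isT_th x))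
  e0_le := by
    filter_upwards [Lp.coeFn_zero ℝ 2 μ, bL_nonneg (μ := μ) n x] with z h1 h2
    rw [h1]
    simpa using h2
  E1_le := by
    have hρ := dy_pos k
    have hρ1 := dy_le_one k
    filter_upwards [Lp.coeFn_smul (-(dy k ^ 2)) (B.D (tL (isT_th x))), norm_G_th_le W x,
      D_th_ae (B := B) x] with z h1 h2 h3
    rw [h1, Pi.smul_apply, norm_smul, h3, norm_neg, Real.norm_of_nonneg (by positivity)]
    have h4 : dy k ^ 2 ≤ 1 := pow_le_one₀ hρ.le hρ1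
    calc dy k ^ 2 * ‖B.G (th x) z‖ ≤ 1 * ‖B.G (th x) z‖ := by gcongr
      _ ≤ bL μ n x z := by rw [one_mul]; exact h2
  b_bdd := ⟨bC n, bL_le n x⟩
  SS_ge := Spx_ge h W hκ hκ1 (dy_pos k) (dy_le_one k) hκρ
  keq := by
    intro p hp hpb
    have h1 := h.keq (isT_f0 x) (isT_Nf n κ x) (isT_th x) (qL_mem (dy_pos k) x) rfl rfl
      (th_eq W x) hp hpb
    have h2 : (⟪B.D (tL (isT_th x)), B.D p⟫ : ℝ) = ∫ z, ⟪B.G (th x) z, B.D p z⟫ ∂μ := by
      rw [L2.inner_def]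
      refine integral_congr_ae ?_
      filter_upwards [D_th_ae (B := B) x] with z hz
      rw [hz]
    rw [inner_zero_left, zero_add, real_inner_smul_left, h2, neg_mul]
    refine h1.trans ?_
    show _ = -(dy k ^ 2 * ∫ z, ⟪B.G (th x) z, B.D p z⟫ ∂μ) + dy k ^ 2 *
      ∫ z, (4 * (qk B x k) z - Spx B x (dy k) A z) * p z ∂μ
    ring

section Kin

variable {A : X → S n} {P : Lp ℝ 2 μ} {k : ℕ}
  (h : BW B (uk B x k) (gL B.toGradS n κ x (dy k)) A P) (W : WLap B.toGradS n κ)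
  (hκ : 0 ≤ κ) (hκ1 : κ ≤ 1) (hκρ : 8 * κ * dy k ^ 2 ≤ 1)





include h

/-- `k = kf` near `x` -/
lemma kL_eq_kf : ∀ᵐ z ∂μ, dist x z ≤ 32 → BW.kL (uk B x k) P (isT_th x) z = kf B x k z := by
  unfold BW.kL
  filter_upwards [Lp.coeFn_sub ((2:ℝ) • P - (2:ℝ) • (uk B x k)) (tL (isT_th x) : Lp ℝ 2 μ),
    Lp.coeFn_sub ((2:ℝ) • P) ((2:ℝ) • (uk B x k)), Lp.coeFn_smul (2:ℝ) P,
    Lp.coeFn_smul (2:ℝ) (uk B x k), h.P_eq, coe_tL (μ := μ) (isT_th x)]
    with z e1 e2 e3 e4 e5 e6 hz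
  rw [e1, Pi.sub_apply, e2, Pi.sub_apply, e3, e4, Pi.smul_apply, Pi.smul_apply, e5, e6,
    smul_eq_mul, smul_eq_mul, th_eq_ball hz]
  unfold kf
  ring

/-- `|D k| = nf` near `x` -/
lemma norm_D_kL : ∀ᵐ z ∂μ, dist x z ≤ 32 →
    ‖B.D (BW.kL (uk B x k) P (isT_th x)) z‖ = 2 * ‖mv (A z - idm n) (B.D (uk B x k) z)‖ := by
  filter_upwards [h.D_kL_ae (isT_th x), G_th (S := B.toGradS) x] with z h1 h2 hz
  have h3 : B.G (th x) z = 0 := h2 hz
  have h4 : mv (A z - idm n) (B.D (uk B x k) z) = mv (A z) (B.D (uk B x k) z) -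
      B.D (uk B x k) z := by
    rw [mv_sub_left, mv_idm']
  rw [h1, h3, sub_zero, norm_smul, Real.norm_of_nonneg (by norm_num), h4]

end Kin

end Obj

end Crest.Agent.R247.Kt622
end
end

-- ▼ part R247/Kt10_622
section

/-!
# R247, (1-K) (10) (helper622): pointwise bounds of `k`
-/

set_option autoImplicit false
set_option linter.unusedSectionVars false
set_option linter.unusedVariables false

open MeasureTheory Filter Topology Set Metric
open scoped RealInnerProductSpace ENNReal NNReal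

noncomputable section

namespace Crest.Agent.R247.Kt622

universe u

open Crest.Agent.R242 Crest.Agent.R247.Dir593 Crest.Agent.R247.Dir593.GradS
open Crest.Agent.R247.Smv126 Crest.Agent.R247.Obj554 Crest.Agent.R247.Hes124
open Crest.Agent.R247.Far553 Crest.Agent.R247.Mcp688 Crest.Agent.R247.Max193
open Crest.Agent.R247.Fd656

section Obj

variable {n : ℕ} {κ : ℝ} {X : Type u} [MetricSpace X] [ProperSpace X] [MeasurableSpace X]
  [BorelSpace X] {μ : Measure X} [IsFiniteMeasureOnCompacts μ] {B : BochS n κ X μ} {x : X}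

lemma uk_ae (k : ℕ) : ∀ᵐ z ∂μ, uk B x k z = f0 x z - dy k ^ 2 * qk B x k z := by
  have hu : uk B x k = (tL (isT_f0 x) : Lp ℝ 2 μ) - dy k ^ 2 • qk B x k := rfl
  rw [hu]
  filter_upwards [Lp.coeFn_sub (tL (isT_f0 x) : Lp ℝ 2 μ) (dy k ^ 2 • qk B x k),
    Lp.coeFn_smul (dy k ^ 2) (qk B x k), coe_tL (μ := μ) (isT_f0 x)] with z e1 e2 e3
  rw [e1, Pi.sub_apply, e2, Pi.smul_apply, e3, smul_eq_mul]

/-- lower bound -/
lemma kf_ge (W : WLap B.toGradS n κ) (k : ℕ) : ∀ᵐ z ∂μ, -(dist x z ^ 2) ≤ kf B x k z := by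
  filter_upwards [uk_ae (B := B) (x := x) k, qL_nonneg W (dy_pos k) x] with z h1 h2
  unfold kf
  have h3 := hh_le x z
  rw [hh_eq_f0] at h3
  have h4 : 0 ≤ dy k ^ 2 * qk B x k z := mul_nonneg (sq_nonneg _) h2
  rw [h1]
  nlinarith [sq_nonneg ‖B.D (uk B x k) z‖]

/-- `ρ² R q ≤ h + 2 C ρ²` -/
lemma res_qk_le (W : WLap B.toGradS n κ) (hκ : 0 ≤ κ) (k : ℕ) :
    ∀ᵐ z ∂μ, dy k ^ 2 * (QF B.toGradS).res (dy k ^ 2) (qk B x k) z ≤
      hh x z + 2 * CN n κ * dy k ^ 2 := by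
  have hρ := dy_pos k
  have h0 : (0:ℝ) < dy k ^ 2 := by positivity
  have hM : Markov (QF B.toGradS) := B.markov B.dense_V
  set ρ2 := dy k ^ 2 with hρ2
  set R := (QF B.toGradS).res ρ2 with hR
  set f : Lp ℝ 2 μ := tL (isT_f0 x) with hf
  set N : Lp ℝ 2 μ := tL (isT_Nf n κ x) with hN
  have hCN := CN_nonneg n hκ
  have a1 : ∀ᵐ z ∂μ, (ρ2 • qk B x k - f : Lp ℝ 2 μ) z ≤ cinf + CN n κ * ρ2 := by
    filter_upwards [Lp.coeFn_sub (ρ2 • qk B x k) f, Lp.coeFn_smul ρ2 (qk B x k),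
      coe_tL (μ := μ) (isT_f0 x), qL_le (S := B.toGradS) (n := n) hκ hρ x] with z e1 e2 e3 e4
    rw [e1, Pi.sub_apply, e2, Pi.smul_apply, smul_eq_mul, hf, e3]
    rw [hh_eq_f0] at e4
    have : ρ2 * (qk B x k) z ≤ f0 x z + cinf + CN n κ * ρ2 := e4
    linarith
  have a2 := hM.res_le (h := ρ2) h0 (a := cinf + CN n κ * ρ2)
    (by have := cinf_pos; positivity) a1
  have a3 := hM.res_le h0 hCN
    (coe_tL_le (μ := μ) (isT_Nf n κ x) fun z => (le_abs_self _).trans (abs_Nf_le n hκ x z))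
  have a4 : R f = uk B x k + ρ2 • R N := by
    have h1 := uL_eq_res (S := B.toGradS) (n := n) (κ := κ) hρ x
    rw [map_sub, map_smul] at h1
    show _ = uL B.toGradS n κ x (dy k) + _
    rw [h1]
    abel
  have a5 : ρ2 • R (qk B x k) = R (ρ2 • qk B x k - f) + (uk B x k + ρ2 • R N) := by
    rw [← a4, map_sub, map_smul]
    abel
  filter_upwards [a2, a3, uk_ae (B := B) (x := x) k, qL_nonneg W hρ x,
    Lp.coeFn_smul ρ2 (R (qk B x k)), Lp.coeFn_add (R (ρ2 • qk B x k - f)) (uk B x k + ρ2 • R N),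
    Lp.coeFn_add (uk B x k) (ρ2 • R N), Lp.coeFn_smul ρ2 (R N)] with z b1 b2 b3 b4 b5 b6 b7 b8
  rw [a5, b6, Pi.add_apply, b7, Pi.add_apply, b8, Pi.smul_apply, Pi.smul_apply, smul_eq_mul,
    smul_eq_mul, b3] at b5
  have b9 : 0 ≤ ρ2 * qk B x k z := mul_nonneg h0.le b4
  rw [hh_eq_f0, ← b5]
  have b10 : ρ2 * (R N) z ≤ ρ2 * CN n κ := mul_le_mul_of_nonneg_left b2 h0.le
  have b1' : (R (ρ2 • qk B x k - f)) z ≤ cinf + CN n κ * ρ2 := b1
  linarith

section Kin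

variable {A : X → S n} {P : Lp ℝ 2 μ} {k : ℕ}
  (h : BW B (uk B x k) (gL B.toGradS n κ x (dy k)) A P) (W : WLap B.toGradS n κ)
  (hκ : 0 ≤ κ) (hκ1 : κ ≤ 1) (hκρ : 8 * κ * dy k ^ 2 ≤ 1)

/-- `w = R θ0 - θ0` -/
lemma kin_w : (kin h W hκ hκ1 hκρ).w =
    (QF B.toGradS).res (dy k ^ 2) (tL (isT_th x)) - tL (isT_th x) := by
  have hρ := dy_pos k
  have h0 : (0:ℝ) < dy k ^ 2 := by positivity
  have m1 : (QF B.toGradS).res (dy k ^ 2) (tL (isT_th x)) ∈ B.V :=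
    (QF B.toGradS).res_mem h0 (tL (isT_th x))
  have m2 : (tL (isT_th x) : Lp ℝ 2 μ) ∈ B.V := B.tL_mem (isT_th x)
  refine (eq_resD (Q := QF B.toGradS) h0 (B.V.sub_mem m1 m2) fun p hp => ?_).symm
  have e1 := (QF B.toGradS).res_eq h0 (tL (isT_th x)) hp
  rw [form_E_inner] at e1
  show dy k ^ 2 * ⟪B.D ((QF B.toGradS).res (dy k ^ 2) (tL (isT_th x)) - tL (isT_th x)), B.D p⟫ +
    ⟪(QF B.toGradS).res (dy k ^ 2) (tL (isT_th x)) - tL (isT_th x), p⟫ =
    ⟪(0 : Lp ℝ 2 μ), p⟫ + ⟪-(dy k ^ 2) • B.D (tL (isT_th x)), B.D p⟫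
  rw [B.D_sub m1 m2, inner_sub_left, inner_sub_left, inner_zero_left, real_inner_smul_left]
  linarith

/-- `w ≤ 0` near `x` -/
lemma kin_w_le : ∀ᵐ z ∂μ, dist x z ≤ 32 → (kin h W hκ hκ1 hκρ).w z ≤ 0 := by
  have hρ := dy_pos k
  have h0 : (0:ℝ) < dy k ^ 2 := by positivity
  have hM : Markov (QF B.toGradS) := B.markov B.dense_V
  have a1 := hM.res_le h0 (a := 2 * cinf) (by have := cinf_pos; positivity)
    (coe_tL_le (μ := μ) (isT_th x) (th_le x))
  rw [kin_w]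
  filter_upwards [a1, Lp.coeFn_sub ((QF B.toGradS).res (dy k ^ 2) (tL (isT_th x)))
    (tL (isT_th x) : Lp ℝ 2 μ), coe_tL (μ := μ) (isT_th x)] with z b1 b2 b3 hz
  rw [b2, Pi.sub_apply, b3, th_eq_ball hz]
  linarith

include h W hκ hκ1 hκρ in
/-- upper bound -/
lemma kL_le : ∀ᵐ z ∂μ, dist x z ≤ 32 →
    BW.kL (uk B x k) P (isT_th x) z ≤ 2 * dist x z ^ 2 + (8 * CN n κ + bC n) * dy k ^ 2 := by
  have hρ := dy_pos k
  have h0 : (0:ℝ) < dy k ^ 2 := by positivity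
  have hM : Markov (QF B.toGradS) := B.markov B.dense_V
  set K := kin h W hκ hκ1 hκρ with hK
  have e : (K.B1 : X → ℝ) =ᵐ[μ] fun z => 4 * dy k ^ 2 * K.Rq z + K.w z - K.k z +
      dy k ^ 2 * K.Rb z := by
    show (((4 * dy k ^ 2) • K.Rq + K.w - K.k + dy k ^ 2 • K.Rb : Lp ℝ 2 μ) : X → ℝ) =ᵐ[μ] _
    filter_upwards [Lp.coeFn_add ((4 * dy k ^ 2) • K.Rq + K.w - K.k) (dy k ^ 2 • K.Rb),
      Lp.coeFn_sub ((4 * dy k ^ 2) • K.Rq + K.w) K.k, Lp.coeFn_add ((4 * dy k ^ 2) • K.Rq) K.w,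
      Lp.coeFn_smul (4 * dy k ^ 2) K.Rq, Lp.coeFn_smul (dy k ^ 2) K.Rb] with z a1 a2 a3 a4 a5
    rw [a1, Pi.add_apply, a2, Pi.sub_apply, a3, Pi.add_apply, a4, a5]
    rfl
  have hb := hM.res_le h0 (bC_nonneg n) (bL_le (μ := μ) n x)
  filter_upwards [e, K.B1_nonneg h0, kin_w_le h W hκ hκ1 hκρ, res_qk_le (x := x) W hκ k, hb]
    with z b1 b2 b3 b4 b5 hz
  have c1 : K.w z ≤ 0 := b3 hz
  have c2 : dy k ^ 2 * K.Rq z ≤ hh x z + 2 * CN n κ * dy k ^ 2 := b4
  have c3 : K.Rb z ≤ bC n := b5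
  have c4 := hh_le x z
  have c5 : dy k ^ 2 * K.Rb z ≤ dy k ^ 2 * bC n := mul_le_mul_of_nonneg_left c3 h0.le
  show K.k z ≤ _
  rw [b1] at b2
  linarith

end Kin

/-- **sup bound** -/
theorem abs_kf_le (hκ : 0 ≤ κ) (hκ1 : κ ≤ 1) (W : WLap B.toGradS n κ) {A : X → S n} {P : Lp ℝ 2 μ}
    {k : ℕ} (h : BW B (uk B x k) (gL B.toGradS n κ x (dy k)) A P)
    (hκρ : 8 * κ * dy k ^ 2 ≤ 1) : ∀ᵐ z ∂μ, dist x z ≤ 32 →
    |kf B x k z| ≤ (2 + 8 * CN n 1 + bC n) * (dist x z ^ 2 + dy k ^ 2) := by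
  have hCN := CN_nonneg n zero_le_one
  have hb := bC_nonneg n
  have hm := CN_mono n hκ1
  filter_upwards [kL_le h W hκ hκ1 hκρ, kL_eq_kf h, kf_ge (x := x) W k] with z h1 h2 h3 hz
  have h4 := h1 hz
  rw [h2 hz] at h4
  have h5 : (0:ℝ) ≤ dist x z ^ 2 := sq_nonneg _
  have h6 : (0:ℝ) ≤ dy k ^ 2 := sq_nonneg _
  have h7 : (8 * CN n κ + bC n) * dy k ^ 2 ≤ (8 * CN n 1 + bC n) * dy k ^ 2 := by gcongr
  have h8 : 0 ≤ (8 * CN n 1 + bC n) * dist x z ^ 2 := by positivity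
  have h9 : 0 ≤ (8 * CN n 1 + bC n) * dy k ^ 2 := by positivity
  rw [abs_le]
  constructor <;> nlinarith

/-- **global bounds** -/
theorem far_bounds (hκ : 0 ≤ κ) (hκ1 : 4 * κ ≤ 1) (W : WLap B.toGradS n κ) (O : HObj B x)
    (k : ℕ) : ∀ᵐ z ∂μ, |kf B x k z| ≤ (2 * CA n 1) ^ 2 + 2 * (2 * cinf + CN n 1) ∧
      nf O k z ≤ 4 * CA n 1 * Hf O k z := by
  filter_upwards [norm_Duk_le hκ hκ1 W O k, abs_uk_le (B := B) x k hκ] with z h1 h2
  have hm := CN_mono n (show κ ≤ 1 by linarith)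
  have hc := cinf_pos
  constructor
  · unfold kf
    have h3 : ‖B.D (uk B x k) z‖ ^ 2 ≤ (2 * CA n 1) ^ 2 := pow_le_pow_left₀ (norm_nonneg _) h1 2
    have h4 := sq_nonneg ‖B.D (uk B x k) z‖
    have h5 := abs_le.1 h2
    have h6 : 0 ≤ (2 * CA n 1) ^ 2 := sq_nonneg _
    rw [abs_le]
    constructor <;> linarith [h5.1, h5.2]
  · unfold nf Hf
    have h3 := norm_mv_le (O.A k z - idm n) (B.D (uk B x k) z)
    have h4 := mul_le_mul_of_nonneg_left h1 (norm_nonneg (O.A k z - idm n))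
    linarith

end Obj

end Crest.Agent.R247.Kt622
end
end

-- ▼ part R247/Kt11_622
section

/-!
# R247, (1-K) (11) (helper622): the smallness structure `Sm` for the density of `Lam`
-/

set_option autoImplicit false
set_option linter.unusedSectionVars false
set_option linter.unusedVariables false

open MeasureTheory Filter Topology Set Metric
open scoped RealInnerProductSpace ENNReal NNReal

noncomputable section

namespace Crest.Agent.R247.Kt622

universe u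

open Crest.Agent.R242 Crest.Agent.R247.Dir593 Crest.Agent.R247.Dir593.GradS
open Crest.Agent.R247.Smv126 Crest.Agent.R247.Obj554 Crest.Agent.R247.Hes124
open Crest.Agent.R247.Far553 Crest.Agent.R247.Mcp688 Crest.Agent.R247.Max193
open Crest.Agent.R247.Fd656 Crest.Agent.R247.LX149

section Obj

variable {n : ℕ} {κ : ℝ} {X : Type u} [MetricSpace X] [ProperSpace X] [MeasurableSpace X]
  [BorelSpace X] {μ : Measure X} [IsFiniteMeasureOnCompacts μ] {B : BochS n κ X μ} {x : X}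

lemma dy_le_16 {j : ℕ} (hj : 4 ≤ j) : dy j ≤ 1 / 16 := by
  unfold dy
  calc (1 / 2 : ℝ) ^ j ≤ (1 / 2) ^ 4 := pow_le_pow_of_le_one (by norm_num) (by norm_num) hj
    _ = 1 / 16 := by norm_num

lemma exp_small (hκ : 0 ≤ κ) (hκ1 : κ ≤ 1) {j : ℕ} (hj : 4 ≤ j) :
    Real.exp (κ * (8 * dy j) ^ 2 / 2) ≤ 3 := by
  have h1 := dy_le_16 hj
  have h0 := dy_pos j
  have h2 : (8 * dy j) ^ 2 ≤ 1 := by nlinarith
  have h3 : κ * (8 * dy j) ^ 2 / 2 ≤ 1 := by nlinarith [sq_nonneg (8 * dy j)]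
  have h4 := Real.exp_one_lt_d9
  exact (Real.exp_le_exp.2 h3).trans (by linarith)

lemma phat_mul (n : ℕ) (κ : ℝ) (μ : Measure X) (x : X) (a : ℝ) (j : ℕ) :
    phat n κ μ x a j * dy j ^ n = ∑ i ∈ Finset.range (j + 5), Real.exp (-(a * 2 ^ i)) *
      Rad.drop n κ μ x (2 ^ i * dy j) + Real.exp (-(a * 2 ^ j)) := by
  have h0 := dy_pos j
  unfold phat
  have : ((dy j)⁻¹) ^ n * dy j ^ n = 1 := by
    rw [← mul_pow, inv_mul_cancel₀ h0.ne', one_pow]
  rw [mul_comm, ← mul_assoc, mul_comm (dy j ^ n), this, one_mul]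

/-- `exp (-1/ρ) ≤ φ̂_j s^n` -/
lemma exp_le_phat {S : GradS X (Hes124.F n) μ} {hd : Dense (S.V : Set (Lp ℝ 2 μ))}
    {l : Fnl (S.form hd)} {C0 C3 c3' : ℝ} (hM : MaxIn n κ S hd x l C0 C3 c3') {a : ℝ} (ha : a ≤ 1)
    {j k : ℕ} (hjk : j ≤ k) :
    Real.exp (-(1 / dy k)) ≤ phat n κ μ x a j * dy j ^ n := by
  rw [phat_mul]
  have h1 : 0 ≤ ∑ i ∈ Finset.range (j + 5), Real.exp (-(a * 2 ^ i)) *
      Rad.drop n κ μ x (2 ^ i * dy j) := by
    refine Finset.sum_nonneg fun i hi => mul_nonneg (Real.exp_pos _).le ?_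
    have h0 := dy_pos j
    exact hM.drop_nonneg (by positivity) (MaxIn.two_pow_mul_dy (Finset.mem_range.1 hi))
  have h2 : Real.exp (-(1 / dy k)) ≤ Real.exp (-(a * 2 ^ j)) := by
    refine Real.exp_le_exp.2 (neg_le_neg ?_)
    have e : 1 / dy k = 2 ^ k := by
      unfold dy
      rw [one_div_pow, one_div_one_div]
    rw [e]
    have h3 : (2:ℝ) ^ j ≤ 2 ^ k := pow_le_pow_right₀ (by norm_num) hjk
    have h4 : (0:ℝ) < 2 ^ j := by positivity
    nlinarith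
  linarith

lemma cA_mono {a b C3 c : ℝ} (h : a ≤ b) (hC3 : 0 ≤ C3) (hc : 0 < c) :
    cA a C3 c ≤ cA b C3 c := by
  unfold cA
  have h1 : Real.exp (-(2 * c)) < 1 := by
    rw [Real.exp_lt_one_iff]; linarith
  have h2 : 0 < 1 - Real.exp (-(2 * c)) := by linarith
  gcongr

/-- bound of the density -/
def cP (n : ℕ) : ℝ := 3 * 64 ^ n

lemma cP_pos (n : ℕ) : 0 < cP n := by unfold cP; positivity

/-- the constant of the smallness number -/
def cM (n : ℕ) (V : ℝ) : ℝ := cA (CN n 1 * V) 2 (c3 n)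

lemma cM_pos (n : ℕ) {V : ℝ} (hV : 0 ≤ V) : 0 < cM n V := by
  unfold cM cA
  have hc := c3_pos n
  have h1 : Real.exp (-(2 * c3 n)) < 1 := by
    rw [Real.exp_lt_one_iff]; linarith
  have h2 : 0 < 1 - Real.exp (-(2 * c3 n)) := by linarith
  have h3 := CN_nonneg n zero_le_one
  have h4 : 0 ≤ CN n 1 * V := mul_nonneg h3 hV
  have h5 : 0 ≤ 2 / (1 - Real.exp (-(2 * c3 n))) * (1 + CN n 1 * V) := by positivity
  have := Real.exp_pos (c3 n)
  linarith

/-- the constant of the smallness number -/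
def cY (n : ℕ) (V : ℝ) : ℝ :=
  10 ^ 6 * (1 + bC n) * (bC n * Real.sqrt V * (cP n * Real.sqrt V)) + 6 * cP n * cM n V

lemma cY_pos (n : ℕ) {V : ℝ} (hV : 0 ≤ V) : 0 < cY n V := by
  have h1 := bC_nonneg n
  have h2 := cP_pos n
  have h3 := cM_pos n hV
  unfold cY
  positivity

/-- `L²` norm of the density -/
lemma norm_dens {ψ : Lp ℝ 2 μ} {c s V : ℝ} (hc : 0 ≤ c) (h0 : ∀ᵐ z ∂μ, 0 ≤ ψ z)
    (h1 : ∀ᵐ z ∂μ, ψ z ≤ c) (h2 : ∀ᵐ z ∂μ, 4 * s < dist x z → ψ z = 0) (hs : 4 * s ≤ 64)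
    (hV : μ.real (closedBall x 64) ≤ V) : ‖ψ‖ ≤ c * Real.sqrt V := by
  have hm : MeasurableSet (closedBall x 64) := measurableSet_closedBall
  have hfin : μ (closedBall x 64) ≠ ∞ := (isCompact_closedBall x 64).measure_lt_top.ne
  have e1 : ‖ψ‖ ^ 2 ≤ c ^ 2 * V := by
    rw [← real_inner_self_eq_norm_sq, inner_eq_integral]
    have e2 : ∫ z, ψ z * ψ z ∂μ = ∫ z in closedBall x 64, ψ z * ψ z ∂μ := by
      rw [← integral_indicator hm]
      refine integral_congr_ae ?_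
      filter_upwards [h2] with z hz
      by_cases h : z ∈ closedBall x 64
      · rw [indicator_of_mem h]
      · rw [indicator_of_notMem h, hz, mul_zero]
        rw [mem_closedBall, dist_comm, not_le] at h
        linarith
    rw [e2]
    have e3 : ∫ z in closedBall x 64, ψ z * ψ z ∂μ ≤ ∫ z in closedBall x 64, c ^ 2 ∂μ := by
      refine integral_mono_ae (integrable_mul_L2 ψ ψ).integrableOn
        (integrableOn_const (C := c ^ 2) hfin) ?_
      filter_upwards [ae_restrict_of_ae h0, ae_restrict_of_ae h1] with z a1 a2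
      show ψ z * ψ z ≤ c ^ 2
      nlinarith
    refine e3.trans ?_
    rw [setIntegral_const, smul_eq_mul, mul_comm]
    exact mul_le_mul_of_nonneg_left hV (sq_nonneg c)
  calc ‖ψ‖ = Real.sqrt (‖ψ‖ ^ 2) := by rw [Real.sqrt_sq (norm_nonneg _)]
    _ ≤ Real.sqrt (c ^ 2 * V) := Real.sqrt_le_sqrt e1
    _ = c * Real.sqrt V := by rw [Real.sqrt_mul (sq_nonneg c), Real.sqrt_sq hc]

/-- integral against the density -/
lemma inner_dens_le {q ψ : Lp ℝ 2 μ} {c r Y : ℝ} (hc : 0 ≤ c) (h0 : ∀ᵐ z ∂μ, 0 ≤ ψ z)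
    (h1 : ∀ᵐ z ∂μ, ψ z ≤ c) (h2 : ∀ᵐ z ∂μ, r ≤ dist x z → ψ z = 0) (hq : ∀ᵐ z ∂μ, 0 ≤ q z)
    (hY : ∫ z in ball x r, q z ∂μ ≤ Y) : ⟪q, ψ⟫ ≤ c * Y := by
  have hm : MeasurableSet (ball x r) := measurableSet_ball
  have hfin : μ (ball x r) ≠ ∞ :=
    ((measure_mono ball_subset_closedBall).trans_lt
      (isCompact_closedBall x r).measure_lt_top).ne
  rw [inner_eq_integral]
  have e2 : ∫ z, q z * ψ z ∂μ = ∫ z in ball x r, q z * ψ z ∂μ := by
    rw [← integral_indicator hm]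
    refine integral_congr_ae ?_
    filter_upwards [h2] with z hz
    by_cases h : z ∈ ball x r
    · rw [indicator_of_mem h]
    · rw [indicator_of_notMem h, hz, mul_zero]
      rw [mem_ball, dist_comm, not_lt] at h
      exact h
  rw [e2]
  have e3 : ∫ z in ball x r, q z * ψ z ∂μ ≤ ∫ z in ball x r, c * q z ∂μ := by
    refine integral_mono_ae (integrable_mul_L2 q ψ).integrableOn
      ((integrableOn_of_L2 q hm hfin).const_mul c) ?_
    filter_upwards [ae_restrict_of_ae h0, ae_restrict_of_ae h1, ae_restrict_of_ae hq]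
      with z a1 a2 a3
    show q z * ψ z ≤ c * q z
    nlinarith
  refine e3.trans ?_
  rw [integral_const_mul]
  exact mul_le_mul_of_nonneg_left hY hc

/-- **the smallness structure** -/
theorem exists_sm (C : Rad n κ X μ) (hκ : 0 ≤ κ) (hκ1 : 4 * κ ≤ 1) (hL : Obj554.LK B.toGradS C)
    (W : WLap B.toGradS n κ) {V : ℝ} (hV : μ.real (closedBall x 64) ≤ V) {j k : ℕ} (hj : 4 ≤ j)
    (hjk : j ≤ k) {A : X → S n} {P : Lp ℝ 2 μ}
    (h : BW B (uk B x k) (gL B.toGradS n κ x (dy k)) A P) (hκ1' : κ ≤ 1)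
    (hκρ : 8 * κ * dy k ^ 2 ≤ 1) :
    ∃ ψ : Lp ℝ 2 μ, (∀ᵐ z ∂μ, 0 ≤ ψ z) ∧
      Lam C x (dy j) = μ.withDensity (fun z => ENNReal.ofReal (ψ z)) ∧
      Sm (kin h W hκ hκ1' hκρ) ψ (fun z => ⟪B.G (hf x) z, B.D (qk B x k) z⟫)
        (cY n V * (phat n κ μ x (c3 n / 64) j * dy j ^ n)) := by
  have hlf : IsLocallyFiniteMeasure μ := isLocallyFiniteMeasure_of_isFiniteMeasureOnCompacts
  have hV0 : 0 ≤ V := measureReal_nonneg.trans hV
  have hs := dy_pos j
  have hs16 := dy_le_16 hj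
  have hρ := dy_pos k
  have hρ1 := dy_le_one k
  have h0 : (0:ℝ) < dy k ^ 2 := by positivity
  obtain ⟨Ψ, m1, m2, m3, m4, m5⟩ := exists_density C hκ x (dy j)
  have m3' : ∀ y, Ψ y ≤ cP n := fun y => (m3 y).trans (by
    unfold cP
    have := exp_small (j := j) hκ hκ1' hj
    gcongr)
  have hcP := cP_pos n
  have hfin4 : μ (closedBall x (4 * dy j)) ≠ ∞ :=
    (isCompact_closedBall x (4 * dy j)).measure_lt_top.ne
  have hmem : MemLp Ψ 2 μ := by
    refine Smv126.memLp_compact m1.aestronglyMeasurable (isCompact_closedBall x (4 * dy j))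
      (C := cP n) (Eventually.of_forall fun z _ => ?_) (Eventually.of_forall fun z hz => ?_) 2
    · rw [Real.norm_eq_abs, abs_of_nonneg (m2 z)]; exact m3' z
    · exact m4 z (by rw [mem_closedBall, dist_comm, not_le] at hz; exact hz)
  set ψ : Lp ℝ 2 μ := hmem.toLp Ψ with hψ
  have e0 : (ψ : X → ℝ) =ᵐ[μ] Ψ := hmem.coeFn_toLp
  have ψ0 : ∀ᵐ z ∂μ, 0 ≤ ψ z := e0.mono fun z hz => by rw [hz]; exact m2 z
  have ψ1 : ∀ᵐ z ∂μ, ψ z ≤ cP n := e0.mono fun z hz => by rw [hz]; exact m3' z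
  have ψ2 : ∀ᵐ z ∂μ, 4 * dy j < dist x z → ψ z = 0 := e0.mono fun z hz h' => by
    rw [hz]; exact m4 z h'
  have ψ3 : ∀ᵐ z ∂μ, 32 * dy j ≤ dist x z → ψ z = 0 := ψ2.mono fun z hz h' => hz (by linarith)
  have hq0 : ∀ᵐ z ∂μ, 0 ≤ qk B x k z := qL_nonneg W hρ x
  have hqV : qk B x k ∈ B.V := qL_mem hρ x
  have hMax := maxIn_lx (S := B.toGradS) hL W hκ hκ1 x hV
  have hcA : cA (CN n κ * V) 2 (c3 n) ≤ cM n V := by
    unfold cM
    exact cA_mono (mul_le_mul_of_nonneg_right (CN_mono n hκ1') hV0) (by norm_num) (c3_pos n)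
  have hcM := cM_pos n hV0
  set T := phat n κ μ x (c3 n / 64) j * dy j ^ n with hT
  have hc3 : c3 n / 64 ≤ 1 := by
    have h1 : c3 n ≤ 1 := by
      unfold c3
      rw [div_le_one (by positivity)]
      have : (0:ℝ) ≤ n := Nat.cast_nonneg n
      linarith
    have := c3_pos n
    linarith
  have hexp : Real.exp (-(1 / dy k)) ≤ T := exp_le_phat hMax hc3 hjk
  have hT0 : 0 ≤ T := (Real.exp_pos _).le.trans hexp
  obtain ⟨i1, i2⟩ := hMax.int_dy hj (k := k) (by omega)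
  obtain ⟨i3, i4⟩ := hMax.int_res_dy hj hjk
  have i2' : ∫ y in ball x (32 * dy j), qk B x k y ∂μ ≤ cM n V * T := by
    have h1 : ∫ y in ball x (32 * dy j), qk B x k y ∂μ ≤
      cA (CN n κ * V) 2 (c3 n) * phat n κ μ x (c3 n / 64) j * dy j ^ n := i2
    rw [mul_assoc] at h1
    exact h1.trans (mul_le_mul_of_nonneg_right hcA hT0)
  have i4' : ∫ y in ball x (32 * dy j), (QF B.toGradS).res (dy k ^ 2) (qk B x k) y ∂μ ≤
      16 / 3 * (cM n V * T) := by
    have h1 : ∫ y in ball x (32 * dy j), (QF B.toGradS).res (dy k ^ 2) (qk B x k) y ∂μ ≤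
      16 / 3 * (cA (CN n κ * V) 2 (c3 n) * phat n κ μ x (c3 n / 64) j * dy j ^ n) := i4
    rw [mul_assoc (cA _ _ _)] at h1
    refine h1.trans ?_
    have := mul_le_mul_of_nonneg_right hcA hT0
    linarith
  have hb := bC_nonneg n
  have hcMT : 0 ≤ cM n V * T := mul_nonneg hcM.le hT0
  have hY1 : 6 * cP n * (cM n V * T) ≤ cY n V * T := by
    unfold cY
    have : 0 ≤ 10 ^ 6 * (1 + bC n) * (bC n * Real.sqrt V * (cP n * Real.sqrt V)) * T := by
      positivity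
    nlinarith
  have hY2 : 10 ^ 6 * (1 + bC n) * (bC n * Real.sqrt V * (cP n * Real.sqrt V)) * T ≤
      cY n V * T := by
    unfold cY
    have : 0 ≤ 6 * cP n * cM n V * T := by positivity
    nlinarith
  have hcP6 : 0 ≤ cP n * (cM n V * T) := mul_nonneg hcP.le hcMT
  -- telescoping
  obtain ⟨t1, t2⟩ := tele_V (S := B.toGradS) C hκ hL hs m1 m2 m3' m4 m5 hqV hq0
  have t3 : ∫ z in closedBall x (4 * dy j), qk B x k z ∂μ ≤ cM n V * T := by
    refine le_trans ?_ i2'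
    refine setIntegral_mono_set i1 (ae_restrict_of_ae hq0) ?_
    exact (closedBall_subset_ball (by linarith)).eventuallyLE
  have hfun : (fun z => ψ z * (qk B x k z + ⟪B.G (hf x) z, B.D (qk B x k) z⟫)) =ᵐ[μ]
      fun z => Ψ z * (qk B x k z + ⟪B.G (hf x) z, B.D (qk B x k) z⟫) := by
    filter_upwards [e0] with z hz
    rw [hz]
  -- errors
  have hψn : ‖ψ‖ ≤ cP n * Real.sqrt V := norm_dens hcP.le ψ0 ψ1 ψ2 (by linarith) hV
  have hbn : ‖bL μ n x‖ ≤ bC n * Real.sqrt V := norm_bL n x hV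
  have hE := errs (kin h W hκ hκ1' hκρ) hρ hρ1 (x0 := x)
    ((bL_near (μ := μ) n x).mono fun z hz h' => hz h'.le) hb (bL_le n x) ψ0
    (ψ2.mono fun z hz h' => hz (by linarith)) (Y := cY n V * T) (by
      refine le_trans ?_ hY2
      have h1 : ‖bL μ n x‖ * ‖ψ‖ ≤ bC n * Real.sqrt V * (cP n * Real.sqrt V) :=
        mul_le_mul hbn hψn (norm_nonneg _) (by positivity)
      calc 10 ^ 6 * (1 + bC n) * (‖bL μ n x‖ * ‖ψ‖) * Real.exp (-(1 / dy k))
          ≤ 10 ^ 6 * (1 + bC n) * (bC n * Real.sqrt V * (cP n * Real.sqrt V)) *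
            Real.exp (-(1 / dy k)) := by gcongr
        _ ≤ _ := by gcongr)
  obtain ⟨r1, r2, r3, r4, r5⟩ := hE
  refine ⟨ψ, ψ0, ?_, ?_⟩
  · rw [m5]
    refine withDensity_congr_ae (e0.mono fun z hz => ?_)
    show ENNReal.ofReal (Ψ z) = ENNReal.ofReal (ψ z)
    rw [hz]
  · exact
    { h0 := h0
      h1 := pow_le_one₀ hρ.le hρ1
      Ψ0 := ψ0
      Ψb := ⟨cP n, ψ1⟩
      hk := by
        filter_upwards [h.kL_ae (isT_f0 x) (isT_th x) hqV rfl (th_eq W x),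
          G_Nf_ball (S := B.toGradS) (n := n) (κ := κ) x, ψ2] with z a1 a2 a3 hz
        have a4 : dist x z ≤ 32 := by
          by_contra h'
          exact hz (a3 (by linarith [not_le.1 h']))
        have a5 : B.G (f0 x) z = B.G (hf x) z := (a2 a4).2
        show 2 * dy k ^ 2 * qk B x k z - 2 * dy k ^ 2 * ⟪B.G (hf x) z, B.D (qk B x k) z⟫ ≤
          BW.kL (uk B x k) P (isT_th x) z
        rw [a1, a5]
        have : 0 ≤ dy k ^ 4 * ‖B.D (qk B x k) z‖ ^ 2 := by positivity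
        linarith
      hTi := t1.congr hfun.symm
      hT := by
        have e : ∫ z, ψ z * (qk B x k z + ⟪B.G (hf x) z, B.D (qk B x k) z⟫) ∂μ =
          ∫ z, Ψ z * (qk B x k z + ⟪B.G (hf x) z, B.D (qk B x k) z⟫) ∂μ := integral_congr_ae hfun
        show ∫ z, ψ z * (qk B x k z + ⟪B.G (hf x) z, B.D (qk B x k) z⟫) ∂μ ≤ _
        rw [e]
        refine t2.trans (le_trans ?_ hY1)
        have h1 : Real.exp (κ * (8 * dy j) ^ 2 / 2) * 2 ^ n ≤ cP n := by
          unfold cP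
          have := exp_small (j := j) hκ hκ1' hj
          have h2 : (2:ℝ) ^ n ≤ 64 ^ n := pow_le_pow_left₀ (by norm_num) (by norm_num) n
          gcongr
        have h2 : 0 ≤ Real.exp (κ * (8 * dy j) ^ 2 / 2) * 2 ^ n := by positivity
        calc Real.exp (κ * (8 * dy j) ^ 2 / 2) * 2 ^ n * ∫ z in closedBall x (4 * dy j),
              qk B x k z ∂μ ≤ Real.exp (κ * (8 * dy j) ^ 2 / 2) * 2 ^ n * (cM n V * T) := by
              gcongr
          _ ≤ cP n * (cM n V * T) := by gcongr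
          _ ≤ _ := by linarith
      hA := by
        refine (inner_dens_le hcP.le ψ0 ψ1 ψ3 hq0 i2').trans (le_trans ?_ hY1)
        linarith
      hB := by
        have h1 : (⟪qk B x k, (QF B.toGradS).res (dy k ^ 2) ψ⟫ : ℝ) =
            ⟪(QF B.toGradS).res (dy k ^ 2) (qk B x k), ψ⟫ := by
          rw [(QF B.toGradS).res_symm]
        show (⟪qk B x k, (QF B.toGradS).res (dy k ^ 2) ψ⟫ : ℝ) ≤ _
        rw [h1]
        have h2 : ∀ᵐ z ∂μ, 0 ≤ (QF B.toGradS).res (dy k ^ 2) (qk B x k) z :=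
          (B.markov B.dense_V).res_nonneg h0 hq0
        refine (inner_dens_le hcP.le ψ0 ψ1 ψ3 h2 i4').trans (le_trans ?_ hY1)
        linarith
      e1 := r1
      e2 := r2
      e3 := r3
      e4 := r4
      e5 := r5 }

end Obj

end Crest.Agent.R247.Kt622
end
end

-- ▼ part R247/Kb1_301
section

/-!
# R247, block (1-K), conversion step (helper301)

From integrals against a weight `φ ≥ 0` with `φ ≥ c₀` on a set `N` to lower integrals over `N`.
-/

set_option autoImplicit false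
set_option linter.unusedSectionVars false

open MeasureTheory Filter Topology Set Metric
open scoped ENNReal NNReal

noncomputable section

namespace Crest.Agent.R247.Kb301

variable {X : Type*} [MeasurableSpace X] {μ : Measure X}



/-- `1 + log (1 + 2 A (s/ρ)²) ≤ C (1 + (k - j))` for `s = dy j`, `ρ = dy k` -/
theorem log_le (A : ℝ) (hA : 1 ≤ A) {j k : ℕ} (h : j ≤ k) :
    Real.log (1 + 2 * (A * Far553.dy j ^ 2) / Far553.dy k ^ 2) ≤
      (2 * A + 2) * (1 + ((k - j : ℕ) : ℝ)) := by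
  have hk := Far553.dy_pos k
  have hj := Far553.dy_pos j
  have e : Far553.dy j = 2 ^ (k - j) * Far553.dy k := by
    have : (Far553.dy j : ℝ) = (1 / 2) ^ j := by simp [Far553.dy]
    have h2 : (Far553.dy k : ℝ) = (1 / 2) ^ k := by simp [Far553.dy]
    rw [this, h2]
    obtain ⟨m, rfl⟩ := Nat.exists_eq_add_of_le h
    rw [Nat.add_sub_cancel_left, pow_add, mul_comm, mul_assoc, ← mul_pow]
    norm_num
  have h1 : 2 * (A * Far553.dy j ^ 2) / Far553.dy k ^ 2 = 2 * A * 4 ^ (k - j) := by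
    rw [e, mul_pow, ← pow_mul, mul_comm (k - j) 2, pow_mul]
    field_simp
    norm_num
  rw [h1]
  have h4 : (1:ℝ) ≤ 4 ^ (k - j) := one_le_pow₀ (by norm_num)
  have h5 : 1 + 2 * A * (4:ℝ) ^ (k - j) ≤ (1 + 2 * A) * 4 ^ (k - j) := by nlinarith
  calc Real.log (1 + 2 * A * 4 ^ (k - j)) ≤ Real.log ((1 + 2 * A) * 4 ^ (k - j)) := by
        apply Real.log_le_log (by positivity) h5
    _ = Real.log (1 + 2 * A) + (k - j : ℕ) * Real.log 4 := by
        rw [Real.log_mul (by positivity) (by positivity), Real.log_pow]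
    _ ≤ 2 * A + (k - j : ℕ) * 2 := by
        gcongr
        · have := Real.log_le_sub_one_of_pos (show (0:ℝ) < 1 + 2 * A by positivity)
          linarith
        · have h6 : Real.log 4 = 2 * Real.log 2 := by
            rw [show (4:ℝ) = 2 ^ 2 by norm_num, Real.log_pow]; norm_num
          have := Real.log_two_lt_d9
          rw [h6]; linarith
    _ ≤ (2 * A + 2) * (1 + ((k - j : ℕ) : ℝ)) := by
        have : (0:ℝ) ≤ ((k - j : ℕ) : ℝ) := Nat.cast_nonneg _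
        nlinarith

end Crest.Agent.R247.Kb301
end
end

-- ▼ part R247/Kt12_622
section

/-!
# R247, (1-K) (12) (helper622): `CoreP n`
-/

set_option autoImplicit false
set_option linter.unusedSectionVars false
set_option linter.unusedVariables false

open MeasureTheory Filter Topology Set Metric
open scoped RealInnerProductSpace ENNReal NNReal

noncomputable section

namespace Crest.Agent.R247.Kt622

universe u

open Crest.Agent.R242 Crest.Agent.R247.Dir593 Crest.Agent.R247.Dir593.GradS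
open Crest.Agent.R247.Smv126 Crest.Agent.R247.Obj554 Crest.Agent.R247.Hes124
open Crest.Agent.R247.Far553 Crest.Agent.R247.Mcp688 Crest.Agent.R247.Max193
open Crest.Agent.R247.Fd656 Crest.Agent.R247.LX149

section Obj

variable {n : ℕ} {κ : ℝ} {X : Type u} [MetricSpace X] [ProperSpace X] [MeasurableSpace X]
  [BorelSpace X] {μ : Measure X} [IsFiniteMeasureOnCompacts μ] {B : BochS n κ X μ} {x : X}

/-- from integrals to lower integrals -/
lemma lint_le {f g : X → ℝ} {D : Set X} {Y : ℝ} (hD : MeasurableSet D) (hg : Integrable g μ)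
    (hg0 : ∀ᵐ z ∂μ, 0 ≤ g z) (hfg : ∀ᵐ z ∂μ, z ∈ D → f z ≤ g z) (hY : ∫ z, g z ∂μ ≤ Y) :
    ∫⁻ z in D, ENNReal.ofReal (f z) ∂μ ≤ ENNReal.ofReal Y := by
  have h1 : ∫⁻ z in D, ENNReal.ofReal (f z) ∂μ ≤ ∫⁻ z in D, ENNReal.ofReal (g z) ∂μ := by
    refine lintegral_mono_ae ((ae_restrict_iff' hD).2 ?_)
    filter_upwards [hfg] with z h2 hz using ENNReal.ofReal_le_ofReal (h2 hz)
  refine h1.trans ((setLIntegral_le_lintegral _ _).trans ?_)
  rw [← ofReal_integral_eq_lintegral_ofReal hg hg0]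
  exact ENNReal.ofReal_le_ofReal hY

lemma LK_self {h : ℝ} (h0 : 0 < h) : LK h h ≤ 2 * h := by
  unfold LK
  have e : 1 + 2 * h / h = 3 := by field_simp; norm_num
  rw [e]
  have h1 : Real.log 3 ≤ 2 := by
    have := Real.log_le_sub_one_of_pos (show (0:ℝ) < 3 by norm_num)
    linarith
  nlinarith

/-- the constant of `Core` -/
def cC (n : ℕ) (V : ℝ) : ℝ :=
  1 + 1200 * cY n V + 5 * CE n + (2 + 8 * CN n 1 + bC n) +
    ((2 * CA n 1) ^ 2 + 2 * (2 * cinf + CN n 1)) + 4 * CA n 1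

lemma sqrt_LK_le {L : ℝ} (hL : 1 ≤ L) {j k : ℕ} (hjk : j ≤ k) :
    Real.sqrt (LK (dy k ^ 2) (L * dy j ^ 2)) ≤ 4 * L * dy k * (1 + ((k - j : ℕ) : ℝ)) := by
  have hk := dy_pos k
  have h1 := Kb301.log_le L hL hjk
  have h2 : (0:ℝ) ≤ ((k - j : ℕ) : ℝ) := Nat.cast_nonneg _
  refine Real.sqrt_le_iff.2 ⟨by positivity, ?_⟩
  unfold LK
  have h3 : dy k ^ 2 * Real.log (1 + 2 * (L * dy j ^ 2) / dy k ^ 2) ≤
      dy k ^ 2 * ((2 * L + 2) * (1 + ((k - j : ℕ) : ℝ))) :=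
    mul_le_mul_of_nonneg_left h1 (sq_nonneg _)
  refine h3.trans ?_
  have e : (4 * L * dy k * (1 + ((k - j : ℕ) : ℝ))) ^ 2 =
      dy k ^ 2 * ((16 * L ^ 2) * (1 + ((k - j : ℕ) : ℝ)) ^ 2) := by ring
  rw [e]
  refine mul_le_mul_of_nonneg_left ?_ (sq_nonneg _)
  have h4 : 1 ≤ 1 + ((k - j : ℕ) : ℝ) := by linarith
  have h5 : 1 + ((k - j : ℕ) : ℝ) ≤ (1 + ((k - j : ℕ) : ℝ)) ^ 2 := by nlinarith
  have h6 : 2 * L + 2 ≤ 16 * L ^ 2 := by nlinarith
  have h7 : 0 ≤ 2 * L + 2 := by linarith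
  calc (2 * L + 2) * (1 + ((k - j : ℕ) : ℝ)) ≤ (2 * L + 2) * (1 + ((k - j : ℕ) : ℝ)) ^ 2 := by
        gcongr
    _ ≤ _ := by gcongr

/-- **the weighted estimates** -/
theorem core_of (C : Rad n κ X μ) (hκ : 0 ≤ κ) (hκ1 : 4 * κ ≤ 1) (hL : Obj554.LK B.toGradS C)
    (W : WLap B.toGradS n κ) {V : ℝ} (hV : μ.real (closedBall x 64) ≤ V) (O : HObj B x) {j k : ℕ}
    (hj : 4 ≤ j) (hjk : j ≤ k) : ∃ ψ : Lp ℝ 2 μ, Core B C x O (cC n V) j k ψ := by
  have hκ1' : κ ≤ 1 := by linarith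
  have hV0 : 0 ≤ V := measureReal_nonneg.trans hV
  have hρ := dy_pos k
  have hρ1 := dy_le_one k
  have h0 : (0:ℝ) < dy k ^ 2 := by positivity
  have h16 : dy k ≤ 1 / 16 := dy_le_16 (hj.trans hjk)
  have hκρ : 8 * κ * dy k ^ 2 ≤ 1 := by nlinarith
  obtain ⟨P, h⟩ := exists_bw hκ W O k (by nlinarith)
  obtain ⟨ψ, hψ0, hψL, M⟩ := exists_sm C hκ hκ1 hL W hV hj hjk h hκ1' hκρ
  set K := kin h W hκ hκ1' hκρ with hK
  set T := phat n κ μ x (c3 n / 64) j * dy j ^ n with hT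
  have hYT := M.Y0
  have hcY := cY_pos n hV0
  have hT0 : 0 ≤ T := by
    by_contra h'
    have := mul_neg_of_pos_of_neg hcY (not_le.1 h')
    linarith
  have hCE := CE_nonneg n
  have hCN := CN_nonneg n zero_le_one
  have hbC := bC_nonneg n
  have hCA := CA_pos n zero_le_one
  have hci := cinf_pos
  set Cc := cC n V with hCc
  have c1 : 1200 * cY n V ≤ Cc := by rw [hCc]; unfold cC; nlinarith [sq_nonneg (2 * CA n 1)]
  have c2 : 5 * CE n ≤ Cc := by rw [hCc]; unfold cC; nlinarith [sq_nonneg (2 * CA n 1)]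
  have c3' : 2 + 8 * CN n 1 + bC n ≤ Cc := by
    rw [hCc]; unfold cC; nlinarith [sq_nonneg (2 * CA n 1)]
  have c4 : (2 * CA n 1) ^ 2 + 2 * (2 * cinf + CN n 1) ≤ Cc := by
    rw [hCc]; unfold cC; nlinarith [sq_nonneg (2 * CA n 1)]
  have c5 : 4 * CA n 1 ≤ Cc := by rw [hCc]; unfold cC; nlinarith [sq_nonneg (2 * CA n 1)]
  have hCc0 : 0 ≤ Cc := by linarith
  have hYle : 1200 * (cY n V * T) ≤ Cc * T := by nlinarith
  have w0 : ∀ᵐ z ∂μ, 0 ≤ wt B ψ k z := (B.markov B.dense_V).res_nonneg (by positivity) hψ0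
  have wb : ∃ c, ∀ᵐ z ∂μ, |wt B ψ k z| ≤ c :=
    KIn.res_bdd (S := B.toGradS) (hd := B.dense_V) hψ0 M.Ψb (by positivity)
  have hnear : MeasurableSet {z : X | dist x z ≤ 32} :=
    measurableSet_le (by fun_prop) measurable_const
  have hkm := kf_meas B x k
  refine ⟨ψ, ?_⟩
  constructor
  · exact hψ0
  · exact hψL
  · exact w0
  · -- H
    have i1 : Integrable (fun z => (K.SS z + K.b z) * wt B ψ k z) μ := K.SSb_int wb
    have i2 : ∫ z, (K.SS z + K.b z) * wt B ψ k z ∂μ ≤ 36 * (cY n V * T) := M.A2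
    rw [← setLIntegral_univ]
    refine lint_le (g := fun z => 5 * ((K.SS z + K.b z) * wt B ψ k z)) MeasurableSet.univ
      (i1.const_mul 5) ?_ ?_ ?_
    · filter_upwards [w0, K.SS_ge] with z a1 a2
      have : 0 ≤ K.SS z + K.b z := by linarith
      positivity
    · filter_upwards [w0, Fx_sq_le h W hκ hκ1' hρ hρ1 hκρ, bL_nonneg (μ := μ) n x]
        with z a1 a2 a3 _
      have a4 : (Hf O k z + gf B x k z) ^ 2 ≤ 5 * (Spx B x (dy k) (O.A k) z +
        {z | 32 < dist x z}.indicator (fun _ => CE n) z) := a2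
      have a5 : 5 * {z | 32 < dist x z}.indicator (fun _ => CE n) z ≤
          {z | 32 < dist x z}.indicator (fun _ => Cc) z := by
        by_cases hz : z ∈ {z | 32 < dist x z}
        · rw [indicator_of_mem hz, indicator_of_mem hz]; exact c2
        · rw [indicator_of_notMem hz, indicator_of_notMem hz]; simp
      have a6 : (Hf O k z + gf B x k z) ^ 2 - {z | 32 < dist x z}.indicator (fun _ => Cc) z ≤
          5 * (K.SS z + K.b z) := by
        show _ ≤ 5 * (Spx B x (dy k) (O.A k) z + bL μ n x z)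
        linarith
      calc wt B ψ k z * ((Hf O k z + gf B x k z) ^ 2 -
            {z | 32 < dist x z}.indicator (fun _ => Cc) z)
          ≤ wt B ψ k z * (5 * (K.SS z + K.b z)) := mul_le_mul_of_nonneg_left a6 a1
        _ = _ := by ring
    · rw [integral_const_mul]
      show _ ≤ Cc * T
      linarith
  · -- q
    have i1 : Integrable (fun z => qk B x k z * wt B ψ k z) μ := integrable_mul_L2 _ _
    have i2 : ∫ z, qk B x k z * wt B ψ k z ∂μ ≤ 2 * (cY n V * T) := by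
      have := M.A3
      rw [inner_eq_integral] at this
      exact this
    rw [← setLIntegral_univ]
    refine lint_le (g := fun z => qk B x k z * wt B ψ k z) MeasurableSet.univ i1 ?_ ?_ ?_
    · filter_upwards [w0, qL_nonneg W hρ x] with z a1 a2
      exact mul_nonneg a2 a1
    · filter_upwards [qf_ae x k W] with z a1 _
      rw [a1, mul_comm]
    · show _ ≤ Cc * T
      linarith
  · -- k
    have i2 := M.A4
    have i1 : Integrable (fun z => wt B ψ k z * |K.k z|) μ := M.kφ'_int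
    refine lint_le (g := fun z => wt B ψ k z * |K.k z|) hnear i1 ?_ ?_ ?_
    · filter_upwards [w0] with z a1
      positivity
    · filter_upwards [kL_eq_kf h] with z a1 hz
      have a2 : K.k z = kf B x k z := a1 hz
      rw [a2]
    · refine i2.trans ?_
      show dy k ^ 2 * (20 * (cY n V * T)) ≤ Cc * dy k ^ 2 * T
      have : dy k ^ 2 * (20 * (cY n V * T)) ≤ dy k ^ 2 * (Cc * T) :=
        mul_le_mul_of_nonneg_left (by linarith) h0.le
      linarith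
  · -- n2
    obtain ⟨⟨i1, i2⟩, -⟩ := M.A7 (K0 := dy k ^ 2) le_rfl
    refine lint_le (g := fun z => wt B ψ k z * (if |K.k z| ≤ dy k ^ 2 ∧ |K.k z| ≤ dy k ^ 2 then
      ‖B.D K.k z‖ else 0) ^ 2) (hnear.inter (measurableSet_le hkm.abs measurable_const)) i1 ?_ ?_ ?_
    · filter_upwards [w0] with z a1
      positivity
    · filter_upwards [kL_eq_kf h, norm_D_kL h] with z a1 a3 hz
      have a2 : K.k z = kf B x k z := a1 hz.1
      have a4 : ‖B.D K.k z‖ = nf O k z := a3 hz.1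
      rw [a2, if_pos ⟨hz.2, hz.2⟩, a4]
    · refine i2.trans ?_
      have h1 := LK_self h0
      have h2 : 600 * LK (dy k ^ 2) (dy k ^ 2) * (cY n V * T) ≤
          600 * (2 * dy k ^ 2) * (cY n V * T) := by gcongr
      refine h2.trans ?_
      show _ ≤ Cc * dy k ^ 2 * T
      have : dy k ^ 2 * (1200 * (cY n V * T)) ≤ dy k ^ 2 * (Cc * T) :=
        mul_le_mul_of_nonneg_left hYle h0.le
      linarith
  · -- n1
    intro L hL1
    have hdj := dy_pos j
    have hle : dy k ^ 2 ≤ L * dy j ^ 2 := by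
      have h1 : dy k ≤ dy j := by
        unfold dy
        exact pow_le_pow_of_le_one (by norm_num) (by norm_num) hjk
      have h2 : dy k ^ 2 ≤ dy j ^ 2 := pow_le_pow_left₀ hρ.le h1 2
      nlinarith [sq_nonneg (dy j)]
    obtain ⟨-, ⟨i1, i2⟩⟩ := M.A7 (K0 := L * dy j ^ 2) hle
    have hmD : MeasurableSet {z : X | dy k ^ 2 < |kf B x k z| ∧ |kf B x k z| ≤ L * dy j ^ 2} :=
      (measurableSet_lt measurable_const hkm.abs).inter (measurableSet_le hkm.abs measurable_const)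
    refine lint_le (g := fun z => wt B ψ k z * (if dy k ^ 2 < |K.k z| ∧ |K.k z| ≤ L * dy j ^ 2 then
      ‖B.D K.k z‖ else 0)) (hnear.inter hmD) i1 ?_ ?_ ?_
    · filter_upwards [w0] with z a1
      split_ifs
      · positivity
      · simp
    · filter_upwards [kL_eq_kf h, norm_D_kL h] with z a1 a3 hz
      have a2 : K.k z = kf B x k z := a1 hz.1
      have a4 : ‖B.D K.k z‖ = nf O k z := a3 hz.1
      rw [a2, if_pos (show dy k ^ 2 < |kf B x k z| ∧ |kf B x k z| ≤ L * dy j ^ 2 from hz.2), a4]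
    · refine i2.trans ?_
      have h1 := sqrt_LK_le hL1 hjk
      have h2 : (0:ℝ) ≤ ((k - j : ℕ) : ℝ) := Nat.cast_nonneg _
      have h3 : 110 * Real.sqrt (LK (dy k ^ 2) (L * dy j ^ 2)) * (cY n V * T) ≤
          110 * (4 * L * dy k * (1 + ((k - j : ℕ) : ℝ))) * (cY n V * T) := by gcongr
      refine h3.trans ?_
      show _ ≤ Cc * L * dy k * (1 + ((k - j : ℕ) : ℝ)) * T
      have h4 : 0 ≤ L * dy k * (1 + ((k - j : ℕ) : ℝ)) := by positivity
      have h5 : L * dy k * (1 + ((k - j : ℕ) : ℝ)) * (440 * (cY n V * T)) ≤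
        L * dy k * (1 + ((k - j : ℕ) : ℝ)) * (Cc * T) :=
        mul_le_mul_of_nonneg_left (by linarith) h4
      linarith
  · -- sup
    filter_upwards [abs_kf_le hκ hκ1' W h hκρ] with z a1 hz
    refine (a1 hz).trans ?_
    have : 0 ≤ dist x z ^ 2 + dy k ^ 2 := by positivity
    exact mul_le_mul_of_nonneg_right c3' this
  · -- far
    filter_upwards [far_bounds hκ hκ1 W O k] with z a1
    refine ⟨a1.1.trans c4, a1.2.trans ?_⟩
    exact mul_le_mul_of_nonneg_right c5 (norm_nonneg _)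

end Obj

/-- **`CoreP n`** -/
theorem coreP (n : ℕ) : CoreP.{u} n := by
  have hV0 : 0 ≤ V64 n := by unfold V64 om; positivity
  have h1 : 1 ≤ cC n (V64 n) := by
    have a1 := cY_pos n hV0
    have a2 := CE_nonneg n
    have a3 := CN_nonneg n zero_le_one
    have a4 := bC_nonneg n
    have a5 := CA_pos n zero_le_one
    have a6 := cinf_pos
    unfold cC
    nlinarith [sq_nonneg (2 * CA n 1)]
  refine ⟨cC n (V64 n), h1, ?_⟩
  intro κ X _ _ _ _ μ _ B C x δ E O j k hj hjk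
  have hκ := E.κ_nonneg
  have hκ1 : 4 * κ ≤ 1 := by have := E.κ_le; linarith
  exact core_of C hκ hκ1 E.hL E.W E.vol64 O hj hjk

end Crest.Agent.R247.Kt622
end
end

-- ▼ part R247/Kt13_328

/-!
# R247, block (1-K): the six fields `d2_*`, unconditional (helper328, from helper622's `coreP`)
-/

set_option autoImplicit false

noncomputable section

namespace Crest.Agent.R247.Kt328

universe u

theorem d2HP (n : ℕ) : Fd656.D2HP.{u} n := d2HP_of n (Kt622.coreP n)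

theorem d2gP (n : ℕ) : Fd656.D2gP.{u} n := d2gP_of n (Kt622.coreP n)

theorem d2qP (n : ℕ) : Fd656.D2qP.{u} n := d2qP_of n (Kt622.coreP n)

theorem d2kP (n : ℕ) : Fd656.D2kP.{u} n := d2kP_of n (Kt622.coreP n)

theorem d2n2P (n : ℕ) : Fd656.D2n2P.{u} n := d2n2P_of n (Kt622.coreP n)

theorem d2n1P (n : ℕ) : Fd656.D2n1P.{u} n := d2n1P_of n (Kt622.coreP n)

end Crest.Agent.R247.Kt328
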