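import Crest.Prelude.Def_PointedLimit
import Mathlib.Topology.MetricSpace.Antilipschitz
import Mathlib.Topology.Ultrafilter
import Crest.Agent.R247.Scal4_386
import Crest.Agent.R247.Asm1_951

-- ▼ part R247/Lim1_386
section

/-!
# R247, limit step (1): the abstract limit theorem

`limit_chart` : if `(M k, q k) → (X, p)` in the pointed Gromov–Hausdorff sense, `X` is complete and
for all large `k` there is an `L`-bi-Lipschitz map on `ball (q k) (2ρ)` into `ℝⁿ` which is
quantitatively open on `ball (q k) ρ`, then `p` has an open neighbourhood with an `L`-bi-Lipschitz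
map onto an open set of `ℝⁿ`.
-/

set_option autoImplicit false
noncomputable section
open Set Filter Topology Metric
open Crest.GeometryTopology.PointedLimit

namespace Crest.Agent.R247.Lim386

universe u

variable {n : ℕ}

/-- A sequence of approximations with errors tending to `0`. -/
theorem exists_approx {M : ℕ → Type u} [∀ k, MetricSpace (M k)] {q : ∀ k, M k} {X : Type u}
    [MetricSpace X] {p : X} (h : SeqPointedTendsto q p) {R : ℝ} (hR : 0 < R) :
    ∃ (f : ∀ k, M k → X) (ε : ℕ → ℝ), Tendsto ε atTop (𝓝 0) ∧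
      ∀ᶠ k in atTop, 0 ≤ ε k ∧ f k (q k) = p ∧
        (∀ x x' : M k, dist (q k) x < R → dist (q k) x' < R →
          |dist (f k x) (f k x') - dist x x'| ≤ ε k) ∧
        (∀ y : X, dist p y < R - ε k → ∃ x : M k, dist (q k) x < R ∧ dist (f k x) y ≤ ε k) := by
  classical
  set P : ℕ → ℕ → Prop := fun k m => IsScaledApprox 1 (q k) p R (1 / ((m : ℝ) + 1)) with hP
  have h1 : ∀ m : ℕ, ∃ k₀, ∀ k, k₀ ≤ k → P k m := fun m => h R hR _ (by positivity)
  set N : ℕ → ℕ := fun k => Nat.findGreatest (P k) k with hN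
  have h2 : ∀ m : ℕ, ∀ᶠ k in atTop, m ≤ N k := by
    intro m
    obtain ⟨k₀, hk₀⟩ := h1 m
    filter_upwards [eventually_ge_atTop k₀, eventually_ge_atTop m] with k hk hkm
    exact Nat.le_findGreatest hkm (hk₀ k hk)
  have h3 : ∀ᶠ k in atTop, P k (N k) := by
    obtain ⟨k₀, hk₀⟩ := h1 0
    filter_upwards [eventually_ge_atTop k₀] with k hk
    exact Nat.findGreatest_spec (Nat.zero_le k) (hk₀ k hk)
  have hNt : Tendsto N atTop atTop := tendsto_atTop.2 h2
  have h4 : ∀ k, ∃ f : M k → X, P k (N k) → (f (q k) = p ∧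
      (∀ x x' : M k, dist (q k) x < R → dist (q k) x' < R →
          |dist (f x) (f x') - dist x x'| ≤ 1 / ((N k : ℝ) + 1)) ∧
      (∀ y : X, dist p y < R - 1 / ((N k : ℝ) + 1) →
        ∃ x : M k, dist (q k) x < R ∧ dist (f x) y ≤ 1 / ((N k : ℝ) + 1))) := by
    intro k
    by_cases hk : P k (N k)
    · obtain ⟨f, hf1, hf2, hf3⟩ := hk
      refine ⟨f, fun _ => ⟨hf1, ?_, ?_⟩⟩
      · simpa using hf2
      · simpa using hf3
    · exact ⟨fun _ => p, fun h => absurd h hk⟩
  choose f hf using h4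
  refine ⟨f, fun k => 1 / ((N k : ℝ) + 1), ?_, ?_⟩
  · exact tendsto_one_div_add_atTop_nhds_zero_nat.comp hNt
  · filter_upwards [h3] with k hk
    exact ⟨by positivity, hf k hk⟩

/-- ultralimit of a bounded family in a proper space -/
theorem exists_ulim {Y : Type*} [MetricSpace Y] [ProperSpace Y] (U : Ultrafilter ℕ) (u : ℕ → Y)
    {c : Y} {C : ℝ} (h : ∀ᶠ k in (U : Filter ℕ), dist (u k) c ≤ C) :
    ∃ y, Tendsto u U (𝓝 y) := by
  have h1 : closedBall c C ∈ U.map u := h
  obtain ⟨y, -, hy⟩ := (isCompact_closedBall c C).ultrafilter_le_nhds' (U.map u) h1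
  exact ⟨y, hy⟩

/-- **Abstract limit theorem.** -/
theorem limit_chart {M : ℕ → Type u} [∀ k, MetricSpace (M k)] {q : ∀ k, M k} {X : Type u}
    [MetricSpace X] [CompleteSpace X] {p : X} (h : SeqPointedTendsto q p)
    {L ρ : ℝ} (hL : 1 ≤ L) (hρ : 0 < ρ) (F : ∀ k, M k → EuclideanSpace ℝ (Fin n))
    (hbi : ∀ᶠ k in atTop, ∀ x z : M k, dist (q k) x < 2 * ρ → dist (q k) z < 2 * ρ →
      L⁻¹ * dist x z ≤ dist (F k x) (F k z) ∧ dist (F k x) (F k z) ≤ L * dist x z)
    (hop : ∀ᶠ k in atTop, ∀ x : M k, dist (q k) x < ρ → ∀ s : ℝ, 0 < s → s ≤ ρ →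
      ∀ y, dist (F k x) y < s / L → ∃ z, dist x z < s ∧ F k z = y) :
    ∃ U : Set X, IsOpen U ∧ p ∈ U ∧ ∃ F : X → EuclideanSpace ℝ (Fin n), IsOpen (F '' U) ∧
      ∀ x ∈ U, ∀ z ∈ U, L⁻¹ * dist x z ≤ dist (F x) (F z) ∧ dist (F x) (F z) ≤ L * dist x z := by
  have hL0 : 0 < L := by linarith
  obtain ⟨f, ε, hε, hf⟩ := exists_approx h (R := 4 * ρ) (by linarith)
  set W : Ultrafilter ℕ := hyperfilter ℕ with hW
  have hWle : (W : Filter ℕ) ≤ atTop := by
    rw [hW, ← Nat.cofinite_eq_atTop]; exact hyperfilter_le_cofinite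
  -- choice of preimages
  have hψ : ∀ k, ∀ y : X, ∃ x : M k, (0 ≤ ε k ∧ f k (q k) = p ∧
        (∀ x x' : M k, dist (q k) x < 4 * ρ → dist (q k) x' < 4 * ρ →
          |dist (f k x) (f k x') - dist x x'| ≤ ε k) ∧
        (∀ y : X, dist p y < 4 * ρ - ε k →
          ∃ x : M k, dist (q k) x < 4 * ρ ∧ dist (f k x) y ≤ ε k)) →
        dist p y < 4 * ρ - ε k → dist (q k) x < 4 * ρ ∧ dist (f k x) y ≤ ε k := by
    intro k y
    by_cases hk : (0 ≤ ε k ∧ f k (q k) = p ∧
        (∀ x x' : M k, dist (q k) x < 4 * ρ → dist (q k) x' < 4 * ρ →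
          |dist (f k x) (f k x') - dist x x'| ≤ ε k) ∧
        (∀ y : X, dist p y < 4 * ρ - ε k →
          ∃ x : M k, dist (q k) x < 4 * ρ ∧ dist (f k x) y ≤ ε k)) ∧ dist p y < 4 * ρ - ε k
    · obtain ⟨x, hx⟩ := hk.1.2.2.2 y hk.2
      exact ⟨x, fun _ _ => hx⟩
    · exact ⟨q k, fun h1 h2 => absurd ⟨h1, h2⟩ hk⟩
  choose ψ hψ using hψ
  have hε1 : ∀ᶠ k in atTop, ε k < ρ / 4 := hε.eventually (gt_mem_nhds (by positivity))
  -- basic facts
  have fact1 : ∀ᶠ k in atTop, ∀ x : X, dist p x < 2 * ρ →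
      dist (q k) (ψ k x) < 4 * ρ ∧ dist (f k (ψ k x)) x ≤ ε k := by
    filter_upwards [hf, hε1] with k hk hk1 x hx
    exact hψ k x hk (by linarith)
  have fact2 : ∀ᶠ k in atTop, ∀ x z : X, dist p x < 2 * ρ → dist p z < 2 * ρ →
      |dist (ψ k x) (ψ k z) - dist x z| ≤ 3 * ε k := by
    filter_upwards [hf, fact1] with k hk h1 x z hx hz
    obtain ⟨a1, a2⟩ := h1 x hx
    obtain ⟨b1, b2⟩ := h1 z hz
    have c1 := hk.2.2.1 _ _ a1 b1
    have c2 : |dist (f k (ψ k x)) (f k (ψ k z)) - dist x z| ≤ ε k + ε k := by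
      have := dist_dist_dist_le (f k (ψ k x)) (f k (ψ k z)) x z
      rw [Real.dist_eq] at this
      exact this.trans (add_le_add a2 b2)
    rw [abs_le] at c1 c2 ⊢
    constructor <;> linarith [c1.1, c1.2, c2.1, c2.2]
  have fact3 : ∀ᶠ k in atTop, ∀ x : X, dist p x < 2 * ρ →
      |dist (q k) (ψ k x) - dist p x| ≤ 2 * ε k := by
    filter_upwards [hf, fact1] with k hk h1 x hx
    obtain ⟨a1, a2⟩ := h1 x hx
    have c1 := hk.2.2.1 (q k) _ (by rw [dist_self]; linarith) a1
    rw [hk.2.1] at c1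
    have c2 : |dist p (f k (ψ k x)) - dist p x| ≤ ε k := by
      rw [dist_comm p (f k (ψ k x)), dist_comm p x]
      exact (abs_dist_sub_le _ _ _).trans a2
    rw [abs_le] at c1 c2 ⊢
    constructor <;> linarith [c1.1, c1.2, c2.1, c2.2]
  have fact4 : ∀ x : X, ∀ t : ℝ, t ≤ 2 * ρ → dist p x < t →
      ∀ᶠ k in atTop, dist (q k) (ψ k x) < t := by
    intro x t ht hx
    have h5 : ∀ᶠ k in atTop, ε k < (t - dist p x) / 2 :=
      hε.eventually (gt_mem_nhds (by linarith))
    filter_upwards [fact3, h5] with k h6 h7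
    have := (abs_le.1 (h6 x (by linarith))).2
    linarith
  -- the limit map
  have hlim : ∀ x : X, ∃ y, dist p x < 2 * ρ →
      Tendsto (fun k => F k (ψ k x) - F k (q k)) W (𝓝 y) := by
    intro x
    by_cases hx : dist p x < 2 * ρ
    · have : ∀ᶠ k in (W : Filter ℕ), dist (F k (ψ k x) - F k (q k)) 0 ≤ L * (2 * ρ) := by
        apply hWle
        filter_upwards [hbi, fact4 x _ le_rfl hx] with k h5 h6
        rw [dist_zero_right, ← dist_eq_norm]
        refine (h5 _ _ h6 (by rw [dist_self]; linarith)).2.trans ?_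
        rw [dist_comm]
        exact mul_le_mul_of_nonneg_left h6.le hL0.le
      obtain ⟨y, hy⟩ := exists_ulim W _ this
      exact ⟨y, fun _ => hy⟩
    · exact ⟨0, fun h => absurd h hx⟩
  choose G hG using hlim
  have hψt : ∀ x z : X, dist p x < 2 * ρ → dist p z < 2 * ρ →
      Tendsto (fun k => dist (ψ k x) (ψ k z)) atTop (𝓝 (dist x z)) := by
    intro x z hx hz
    rw [tendsto_iff_dist_tendsto_zero]
    refine squeeze_zero' (Eventually.of_forall fun k => dist_nonneg) ?_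
      (by simpa using hε.const_mul 3)
    filter_upwards [fact2] with k h5
    exact h5 x z hx hz
  have hGd : ∀ x z : X, dist p x < 2 * ρ → dist p z < 2 * ρ →
      Tendsto (fun k => dist (F k (ψ k x)) (F k (ψ k z))) W (𝓝 (dist (G x) (G z))) := by
    intro x z hx hz
    have := (hG x hx).dist (hG z hz)
    simpa using this
  have hGbi : ∀ x z : X, dist p x < 2 * ρ → dist p z < 2 * ρ →
      L⁻¹ * dist x z ≤ dist (G x) (G z) ∧ dist (G x) (G z) ≤ L * dist x z := by
    intro x z hx hz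
    have t1 := (hψt x z hx hz).mono_left hWle
    have t2 := hGd x z hx hz
    have ev : ∀ᶠ k in (W : Filter ℕ), L⁻¹ * dist (ψ k x) (ψ k z)
        ≤ dist (F k (ψ k x)) (F k (ψ k z)) ∧
        dist (F k (ψ k x)) (F k (ψ k z)) ≤ L * dist (ψ k x) (ψ k z) := by
      apply hWle
      filter_upwards [hbi, fact4 x _ le_rfl hx, fact4 z _ le_rfl hz] with k h5 h6 h7
      exact h5 _ _ h6 h7
    exact ⟨le_of_tendsto_of_tendsto (t1.const_mul _) t2 (ev.mono fun k hk => hk.1),
      le_of_tendsto_of_tendsto t2 (t1.const_mul _) (ev.mono fun k hk => hk.2)⟩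
  -- compactness of closed balls of radius `< 2ρ`
  have hcpt : ∀ t : ℝ, t < 2 * ρ → IsCompact (closedBall p t) := by
    intro t ht
    rw [isCompact_iff_compactSpace]
    have hY : ∀ y : closedBall p t, dist p (y : X) < 2 * ρ := by
      intro y
      have := mem_closedBall.1 y.2
      rw [dist_comm]; linarith
    have ha : AntilipschitzWith L.toNNReal (fun y : closedBall p t => G y) := by
      apply AntilipschitzWith.of_le_mul_dist
      intro y z
      rw [Real.coe_toNNReal _ hL0.le]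
      have := (hGbi y z (hY y) (hY z)).1
      rw [inv_mul_le_iff₀ hL0] at this
      exact this
    have hl : LipschitzWith L.toNNReal (fun y : closedBall p t => G y) := by
      apply LipschitzWith.of_dist_le_mul
      intro y z
      rw [Real.coe_toNNReal _ hL0.le]
      exact (hGbi y z (hY y) (hY z)).2
    have hui := ha.isUniformInducing hl.uniformContinuous
    have hb : Bornology.IsBounded (range fun y : closedBall p t => G y) := by
      rw [← image_univ]
      refine (hl.isBounded_image (s := univ) ?_)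
      rw [Metric.isBounded_iff]
      refine ⟨t + t, fun y _ z _ => ?_⟩
      refine (dist_triangle_right (y : X) z p).trans ?_
      exact add_le_add (mem_closedBall.1 y.2) (mem_closedBall.1 z.2)
    have htb : TotallyBounded (univ : Set (closedBall p t)) := by
      obtain ⟨c, hc⟩ := hb.subset_closedBall 0
      have := totallyBounded_preimage hui
        (isCompact_closedBall (0 : EuclideanSpace ℝ (Fin n)) c).totallyBounded
      refine this.subset fun y _ => hc (mem_range_self y)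
    have hcs : CompleteSpace (closedBall p t) := isClosed_closedBall.completeSpace_coe
    exact ⟨isCompact_iff_totallyBounded_isComplete.2 ⟨htb, isClosed_univ.isComplete⟩⟩
  refine ⟨ball p ρ, isOpen_ball, mem_ball_self hρ, G, ?_, ?_⟩
  · -- openness of the image
    rw [Metric.isOpen_iff]
    rintro _ ⟨x, hx, rfl⟩
    rw [mem_ball, dist_comm] at hx
    set s : ℝ := (ρ - dist p x) / 2 with hs
    have hs0 : 0 < s := by rw [hs]; linarith
    have hsρ : s ≤ ρ := by
      rw [hs]; linarith [dist_nonneg (x := p) (y := x)]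
    refine ⟨s / L, by positivity, ?_⟩
    intro y hy
    rw [mem_ball, dist_comm] at hy
    -- preimages of `y + F k (q k)`
    have ev : ∀ᶠ k in (W : Filter ℕ), ∃ z : M k, dist (ψ k x) z < s ∧ F k z = y + F k (q k) := by
      have t1 : Tendsto (fun k => dist (F k (ψ k x) - F k (q k)) y) W (𝓝 (dist (G x) y)) :=
        (hG x (by linarith)).dist tendsto_const_nhds
      have e1 : ∀ᶠ k in (W : Filter ℕ), dist (F k (ψ k x) - F k (q k)) y < s / L :=
        t1.eventually (gt_mem_nhds hy)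
      filter_upwards [e1, hWle hop, hWle (fact4 x ρ (by linarith) hx)] with k h5 h6 h7
      refine h6 _ h7 s hs0 hsρ _ ?_
      rw [dist_eq_norm] at h5 ⊢
      convert h5 using 2
      abel
    have hz : ∀ k, ∃ z : M k, (∃ z : M k, dist (ψ k x) z < s ∧ F k z = y + F k (q k)) →
        (dist (ψ k x) z < s ∧ F k z = y + F k (q k)) := by
      intro k
      by_cases hk : ∃ z : M k, dist (ψ k x) z < s ∧ F k z = y + F k (q k)
      · obtain ⟨z, hz⟩ := hk
        exact ⟨z, fun _ => hz⟩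
      · exact ⟨q k, fun h => absurd h hk⟩
    choose z hz using hz
    have ev2 : ∀ᶠ k in (W : Filter ℕ), dist (ψ k x) (z k) < s ∧ F k (z k) = y + F k (q k) :=
      ev.mono fun k hk => hz k hk
    have ev3 : ∀ᶠ k in (W : Filter ℕ), dist (q k) (z k) < ρ := by
      have h5 : ∀ᶠ k in atTop, ε k < s / 4 := hε.eventually (gt_mem_nhds (by positivity))
      filter_upwards [ev2, hWle fact3, hWle h5] with k h6 h7 h8
      have h9 := (abs_le.1 (h7 x (by linarith))).2
      have h10 := dist_triangle (q k) (ψ k x) (z k)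
      linarith [h6.1]
    -- the points `f k (z k)` stay in a compact set
    have ev4 : ∀ᶠ k in (W : Filter ℕ), f k (z k) ∈ closedBall p (3 / 2 * ρ) := by
      filter_upwards [ev3, hWle hf, hWle hε1] with k h5 h6 h7
      have h8 := h6.2.2.1 (q k) (z k) (by rw [dist_self]; linarith) (by linarith)
      rw [h6.2.1] at h8
      have := (abs_le.1 h8).2
      rw [mem_closedBall, dist_comm]
      linarith
    obtain ⟨w, -, hw⟩ := (hcpt (3 / 2 * ρ) (by linarith)).ultrafilter_le_nhds'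
      (W.map fun k => f k (z k)) ev4
    have hw' : Tendsto (fun k => f k (z k)) W (𝓝 w) := hw
    -- distance from `x` to `w`
    have hxw : dist x w ≤ s := by
      have t1 : Tendsto (fun k => dist x (f k (z k))) W (𝓝 (dist x w)) :=
        tendsto_const_nhds.dist hw'
      have t2 : Tendsto (fun k => s + 2 * ε k) W (𝓝 s) := by
        have := ((hε.mono_left hWle).const_mul 2).const_add s
        simpa using this
      refine le_of_tendsto_of_tendsto t1 t2 ?_
      filter_upwards [ev2, ev3, hWle hf, hWle fact1] with k h5 h6 h7 h8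
      obtain ⟨a1, a2⟩ := h8 x (by linarith)
      have h9 := (abs_le.1 (h7.2.2.1 _ _ a1 (by linarith : dist (q k) (z k) < 4 * ρ))).2
      have h10 := dist_triangle_left x (f k (z k)) (f k (ψ k x))
      linarith [h5.1]
    have hwp : dist p w < ρ := by
      have := dist_triangle p x w
      rw [hs] at hxw
      linarith
    refine ⟨w, by rwa [mem_ball, dist_comm], ?_⟩
    -- `G w = y`
    have t3 : Tendsto (fun k => F k (ψ k w) - F k (q k)) W (𝓝 (G w)) := hG w (by linarith)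
    have t4 : Tendsto (fun k => F k (ψ k w) - F k (q k)) W (𝓝 y) := by
      rw [tendsto_iff_dist_tendsto_zero]
      have t5 : Tendsto (fun k => L * (dist w (f k (z k)) + 2 * ε k)) W (𝓝 0) := by
        have a1 : Tendsto (fun k => dist w (f k (z k))) W (𝓝 0) := by
          have := (tendsto_const_nhds (x := w)).dist hw'
          rwa [dist_self] at this
        have := (a1.add ((hε.mono_left hWle).const_mul 2)).const_mul L
        simpa using this
      refine squeeze_zero' (Eventually.of_forall fun k => dist_nonneg) ?_ t5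
      filter_upwards [ev2, ev3, hWle hf, hWle fact1, hWle hbi,
        hWle (fact4 w _ le_rfl (by linarith : dist p w < 2 * ρ))] with k h5 h6 h7 h8 h9 h10
      obtain ⟨a1, a2⟩ := h8 w (by linarith)
      have b1 := (abs_le.1 (h7.2.2.1 _ _ a1 (by linarith : dist (q k) (z k) < 4 * ρ))).1
      have b2 : dist (f k (ψ k w)) (f k (z k)) ≤ ε k + dist w (f k (z k)) :=
        (dist_triangle _ w _).trans (add_le_add a2 le_rfl)
      have b3 : dist (ψ k w) (z k) ≤ dist w (f k (z k)) + 2 * ε k := by linarith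
      have b4 := (h9 (ψ k w) (z k) h10 (by linarith)).2
      have b5 : dist (F k (ψ k w) - F k (q k)) y = dist (F k (ψ k w)) (F k (z k)) := by
        rw [h5.2, dist_eq_norm, dist_eq_norm]
        congr 1
        abel
      rw [b5]
      exact b4.trans (mul_le_mul_of_nonneg_left b3 hL0.le)
    exact tendsto_nhds_unique t3 t4
  · intro x hx z hz
    rw [mem_ball, dist_comm] at hx hz
    exact hGbi x z (by linarith) (by linarith)

end Crest.Agent.R247.Lim386
end
end

-- ▼ part R247/Lim2_386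
section

/-!
# R247, limit step (2): composing the approximations

`comp_approx` : `SeqPointedTendsto q p` and `RescalingsTendstoEuclidean p n` give, for every
`R, ε > 0` and every small scale `r`, for all large `k` an approximation from
`(M k, r⁻¹ dist, q k)` to `(ℝⁿ, 0)`.
-/

set_option autoImplicit false
noncomputable section
open Set Filter Topology
open Crest.GeometryTopology.PointedLimit

namespace Crest.Agent.R247.Lim386

universe u

variable {n : ℕ}

/-- monotonicity of the notion of approximation in the error, at fixed radius. -/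
theorem approx_comp {A X Y : Type*} [MetricSpace A] [MetricSpace X] [MetricSpace Y] {a : A} {p : X}
    {c : Y} {r R ε ε₁ : ℝ} (hr : 0 < r) (hε : 0 < ε) (hε₁ : 0 < ε₁) (hR : 0 < R)
    (h1 : ε₁ ≤ r) (h2 : 2 * ε + 2 * ε₁ / r ≤ 1)
    (hX : IsScaledApprox r⁻¹ p c (R + 1) ε) (hA : IsScaledApprox 1 a p ((R + 1) * r + r) ε₁) :
    IsScaledApprox r⁻¹ a c R (2 * ε + 2 * ε₁ / r) := by
  obtain ⟨g, hg0, hg1, hg2⟩ := hX
  obtain ⟨f, hf0, hf1, hf2⟩ := hA
  simp only [one_mul] at hf1 hf2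
  have hdom : ∀ x : A, r⁻¹ * dist a x < R → dist a x < (R + 1) * r + r := by
    intro x hx
    rw [inv_mul_lt_iff₀ hr] at hx
    nlinarith
  have ha : dist a a < (R + 1) * r + r := by rw [dist_self]; positivity
  have hfx : ∀ x : A, r⁻¹ * dist a x < R → r⁻¹ * dist p (f x) < R + 1 := by
    intro x hx
    have h3 := (abs_le.1 (hf1 a x ha (hdom x hx))).2
    rw [hf0] at h3
    rw [inv_mul_lt_iff₀ hr] at hx ⊢
    nlinarith
  have hrr : ε₁ / r = r⁻¹ * ε₁ := by rw [div_eq_inv_mul]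
  refine ⟨fun x => g (f x), by simp only [hf0, hg0], ?_, ?_⟩
  · intro x x' hx hx'
    have h3 := abs_le.1 (hf1 x x' (hdom x hx) (hdom x' hx'))
    have h4 := abs_le.1 (hg1 _ _ (hfx x hx) (hfx x' hx'))
    have h5 : r⁻¹ * dist (f x) (f x') ≤ r⁻¹ * dist x x' + r⁻¹ * ε₁ := by
      rw [← mul_add]
      exact mul_le_mul_of_nonneg_left (by linarith [h3.2]) (by positivity)
    have h6 : r⁻¹ * dist x x' - r⁻¹ * ε₁ ≤ r⁻¹ * dist (f x) (f x') := by
      rw [← mul_sub]
      exact mul_le_mul_of_nonneg_left (by linarith [h3.1]) (by positivity)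
    have h7 : 0 ≤ r⁻¹ * ε₁ := by positivity
    have h8 : 2 * ε₁ / r = 2 * (r⁻¹ * ε₁) := by rw [mul_div_assoc, hrr]
    rw [h8]
    rw [abs_le]
    constructor <;> linarith [h4.1, h4.2]
  · intro y hy
    have h7 : 0 ≤ r⁻¹ * ε₁ := by positivity
    have h8 : 2 * ε₁ / r = 2 * (r⁻¹ * ε₁) := by rw [mul_div_assoc, hrr]
    rw [h8] at hy h2 ⊢
    obtain ⟨x₁, hx₁, hx₁y⟩ := hg2 y (by linarith)
    have h9 : r⁻¹ * dist p x₁ ≤ dist c y + 2 * ε := by
      have := (abs_le.1 (hg1 p x₁ (by rw [dist_self, mul_zero]; linarith) hx₁)).1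
      rw [hg0] at this
      have h10 := dist_triangle c y (g x₁)
      rw [dist_comm y] at h10
      linarith
    have h11 : dist p x₁ < R * r := by
      have h12 : r⁻¹ * dist p x₁ < R := by linarith
      rwa [inv_mul_lt_iff₀ hr, mul_comm] at h12
    obtain ⟨x, hx, hxx⟩ := hf2 x₁ (by nlinarith)
    have h13 : dist a x ≤ dist p x₁ + 2 * ε₁ := by
      have h14 := (abs_le.1 (hf1 a x ha hx)).1
      rw [hf0] at h14
      have h15 := dist_triangle p x₁ (f x)
      rw [dist_comm x₁] at h15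
      linarith
    have h16 : r⁻¹ * dist a x ≤ r⁻¹ * dist p x₁ + 2 * (r⁻¹ * ε₁) := by
      have := mul_le_mul_of_nonneg_left h13 (by positivity : (0 : ℝ) ≤ r⁻¹)
      linarith
    have h17 : r⁻¹ * dist a x < R := by linarith
    refine ⟨x, h17, ?_⟩
    have h18 := (abs_le.1 (hg1 _ _ (hfx x h17) hx₁)).2
    have h19 : r⁻¹ * dist (f x) x₁ ≤ r⁻¹ * ε₁ :=
      mul_le_mul_of_nonneg_left hxx (by positivity)
    have h20 := dist_triangle (g (f x)) (g x₁) y
    linarith

/-- an approximation with a smaller error is an approximation (same radius). -/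
theorem approx_mono_err {X Y : Type*} [MetricSpace X] [MetricSpace Y] {s : ℝ} {p : X} {q : Y}
    {R ε ε' : ℝ} (h : IsScaledApprox s p q R ε) (hε : ε ≤ ε') : IsScaledApprox s p q R ε' := by
  obtain ⟨f, h0, h1, h2⟩ := h
  refine ⟨f, h0, fun x x' hx hx' => (h1 x x' hx hx').trans hε, fun y hy => ?_⟩
  obtain ⟨x, hx, hxy⟩ := h2 y (by linarith)
  exact ⟨x, hx, hxy.trans hε⟩

/-- **(LS2)** -/
theorem comp_approx {M : ℕ → Type u} [∀ k, MetricSpace (M k)] {q : ∀ k, M k} {X : Type u}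
    [MetricSpace X] {p : X} (h : SeqPointedTendsto q p) (hE : RescalingsTendstoEuclidean p n)
    {R ε : ℝ} (hR : 0 < R) (hε : 0 < ε) :
    ∃ r₀ : ℝ, 0 < r₀ ∧ ∀ r : ℝ, 0 < r → r < r₀ → ∀ᶠ k in atTop,
      IsScaledApprox r⁻¹ (q k) (0 : EuclideanSpace ℝ (Fin n)) R ε := by
  set e : ℝ := min ε 1 / 4 with he
  have he0 : 0 < e := by rw [he]; positivity
  obtain ⟨r₀, hr₀, H⟩ := hE (R + 1) (by linarith) e he0
  refine ⟨r₀, hr₀, fun r hr hrr => ?_⟩
  have hm1 : min ε 1 ≤ ε := min_le_left _ _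
  have hm2 : min ε 1 ≤ 1 := min_le_right _ _
  have he1 : e * r ≤ r := by
    have : e ≤ 1 := by rw [he]; linarith
    nlinarith
  obtain ⟨k₀, hk₀⟩ := h ((R + 1) * r + r) (by positivity) (e * r) (by positivity)
  filter_upwards [eventually_ge_atTop k₀] with k hk
  have h8 : 2 * (e * r) / r = 2 * e := by field_simp
  have := approx_comp hr he0 (by positivity : 0 < e * r) hR he1
    (by rw [h8, he]; linarith) (H r hr hrr) (hk₀ k hk)
  refine approx_mono_err this ?_
  rw [h8, he]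
  linarith

end Crest.Agent.R247.Lim386
end
end

-- ▼ part R247/Lim3_386
section

/-!
# R247, limit step (3): S0381 from the unit-scale effective theorem and Bishop–Gromov

* `BG n` : lower volume bound at small scales from a lower bound at scale one;
* `EFF1 n` : the effective chart theorem at scale one (`Ric ≥ -ε`, unit ball `ε`-close to the
  Euclidean one, noncollapsed);
* `result_of` : the literal statement of S0381 from `BG n` and `EFF1 n`.
-/

set_option autoImplicit false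
noncomputable section
open Set Filter Topology Bundle MeasureTheory
open scoped ContDiff Manifold
open Crest.GeometryTopology.CoordMetric Crest.GeometryTopology.ChartCurvature
open Crest.GeometryTopology.PointedLimit

namespace Crest.Agent.R247.Lim386

universe u

/-- Volume lower bound at all scales `≤ 1` from the one at scale `1`. -/
def BG (n : ℕ) : Prop :=
  ∀ K v : ℝ, 0 < v → ∃ v₁ : ℝ, 0 < v₁ ∧ ∀ (M : Type u) [MetricSpace M] [CompleteSpace M]
    [ConnectedSpace M] [ChartedSpace (EuclideanSpace ℝ (Fin n)) M]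
    [IsManifold 𝓘(ℝ, EuclideanSpace ℝ (Fin n)) ∞ M]
    [RiemannianBundle (fun x : M => TangentSpace 𝓘(ℝ, EuclideanSpace ℝ (Fin n)) x)]
    [IsContMDiffRiemannianBundle 𝓘(ℝ, EuclideanSpace ℝ (Fin n)) ∞ (EuclideanSpace ℝ (Fin n))
      (fun x : M => TangentSpace 𝓘(ℝ, EuclideanSpace ℝ (Fin n)) x)]
    [IsRiemannianManifold 𝓘(ℝ, EuclideanSpace ℝ (Fin n)) M]
    [MeasurableSpace M] [BorelSpace M] (q : M),
    HasRicciLowerBound n M K →
    ENNReal.ofReal v ≤ Measure.euclideanHausdorffMeasure n (Metric.ball q 1) →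
    ∀ r : ℝ, 0 < r → r ≤ 1 →
      ENNReal.ofReal (v₁ * r ^ n) ≤ Measure.euclideanHausdorffMeasure n (Metric.ball q r)

/-- The chart conclusion at `(q, ρ)` with constant `L`. -/
def Chart (n : ℕ) {M : Type u} [MetricSpace M] (q : M) (L ρ : ℝ) : Prop :=
  ∃ F : M → EuclideanSpace ℝ (Fin n),
    (∀ x z : M, dist q x < 2 * ρ → dist q z < 2 * ρ →
      L⁻¹ * dist x z ≤ dist (F x) (F z) ∧ dist (F x) (F z) ≤ L * dist x z) ∧
    (∀ x : M, dist q x < ρ → ∀ s : ℝ, 0 < s → s ≤ ρ →
      ∀ y, dist (F x) y < s / L → ∃ z, dist x z < s ∧ F z = y)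

/-- The effective chart theorem at scale one. -/
def EFF1 (n : ℕ) : Prop :=
  ∃ L ρ : ℝ, 1 ≤ L ∧ 0 < ρ ∧ ∀ v : ℝ, 0 < v → ∃ ε : ℝ, 0 < ε ∧
    ∀ (M : Type u) [MetricSpace M] [CompleteSpace M]
    [ConnectedSpace M] [ChartedSpace (EuclideanSpace ℝ (Fin n)) M]
    [IsManifold 𝓘(ℝ, EuclideanSpace ℝ (Fin n)) ∞ M]
    [RiemannianBundle (fun x : M => TangentSpace 𝓘(ℝ, EuclideanSpace ℝ (Fin n)) x)]
    [IsContMDiffRiemannianBundle 𝓘(ℝ, EuclideanSpace ℝ (Fin n)) ∞ (EuclideanSpace ℝ (Fin n))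
      (fun x : M => TangentSpace 𝓘(ℝ, EuclideanSpace ℝ (Fin n)) x)]
    [IsRiemannianManifold 𝓘(ℝ, EuclideanSpace ℝ (Fin n)) M]
    [MeasurableSpace M] [BorelSpace M] (q : M),
    HasRicciLowerBound n M (-ε) →
    IsScaledApprox 1 q (0 : EuclideanSpace ℝ (Fin n)) ε⁻¹ ε →
    ENNReal.ofReal v ≤ Measure.euclideanHausdorffMeasure n (Metric.ball q 1) →
    Chart n q L ρ

/-- Scaling of charts. -/
theorem chart_of_sc {n : ℕ} {M : Type u} [MetricSpace M] (r : {r : ℝ // 0 < r}) {q : M}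
    {L ρ : ℝ} (hL : 1 ≤ L) (h : Chart n (Scal386.toSc r q) L ρ) : Chart n q L (r.1 * ρ) := by
  obtain ⟨F, hF1, hF2⟩ := h
  have hr := r.2
  have hL0 : 0 < L := by linarith
  have hd : ∀ x z : M, dist (Scal386.toSc r x) (Scal386.toSc r z) = r.1⁻¹ * dist x z :=
    fun x z => rfl
  refine ⟨fun x => r.1 • F (Scal386.toSc r x), ?_, ?_⟩
  · intro x z hx hz
    have h1 := hF1 (Scal386.toSc r x) (Scal386.toSc r z)
      (by rw [hd, inv_mul_lt_iff₀ hr]; linarith) (by rw [hd, inv_mul_lt_iff₀ hr]; linarith)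
    rw [hd] at h1
    have h2 : dist (r.1 • F (Scal386.toSc r x)) (r.1 • F (Scal386.toSc r z))
        = r.1 * dist (F (Scal386.toSc r x)) (F (Scal386.toSc r z)) := by
      rw [dist_smul₀, Real.norm_of_nonneg hr.le]
    simp only [h2]
    have h3 := mul_le_mul_of_nonneg_left h1.1 hr.le
    have h4 := mul_le_mul_of_nonneg_left h1.2 hr.le
    have h5 : r.1 * (L⁻¹ * (r.1⁻¹ * dist x z)) = L⁻¹ * dist x z := by
      field_simp
    have h6 : r.1 * (L * (r.1⁻¹ * dist x z)) = L * dist x z := by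
      field_simp
    rw [h5] at h3
    rw [h6] at h4
    exact ⟨h3, h4⟩
  · intro x hx s hs hsρ y hy
    have h1 : dist (F (Scal386.toSc r x)) (r.1⁻¹ • y) < (r.1⁻¹ * s) / L := by
      have h2 : dist (r.1 • F (Scal386.toSc r x)) y
          = r.1 * dist (F (Scal386.toSc r x)) (r.1⁻¹ • y) := by
        conv_lhs => rw [← one_smul ℝ y, ← mul_inv_cancel₀ hr.ne', mul_smul]
        rw [dist_smul₀, Real.norm_of_nonneg hr.le]
      simp only [h2] at hy
      rw [mul_div_assoc, ← div_eq_inv_mul, lt_div_iff₀ hr, mul_comm]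
      exact hy
    obtain ⟨z, hz1, hz2⟩ := hF2 (Scal386.toSc r x) (by
        rw [hd, inv_mul_lt_iff₀ hr]; linarith) (r.1⁻¹ * s) (by positivity)
      (by rw [inv_mul_le_iff₀ hr]; exact hsρ) _ h1
    refine ⟨Scal386.ofSc r z, ?_, ?_⟩
    · have h3 : dist (Scal386.toSc r x) z = r.1⁻¹ * dist x (Scal386.ofSc r z) := rfl
      rw [h3] at hz1
      exact lt_of_mul_lt_mul_left hz1 (by positivity)
    · have h4 : Scal386.toSc r (Scal386.ofSc r z) = z := rfl
      simp only [h4, hz2]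
      rw [smul_smul, mul_inv_cancel₀ hr.ne', one_smul]

/-- **S0381 from the effective theorem.** -/
theorem result_of (n : ℕ) (hBG : BG.{u} n) (hE : EFF1.{u} n) :
    ∃ L : ℝ, 1 ≤ L ∧
      ∀ (K : ℝ) (M : ℕ → Type u) [∀ k, MetricSpace (M k)] [∀ k, CompleteSpace (M k)]
        [∀ k, ConnectedSpace (M k)] [∀ k, ChartedSpace (EuclideanSpace ℝ (Fin n)) (M k)]
        [∀ k, IsManifold 𝓘(ℝ, EuclideanSpace ℝ (Fin n)) ∞ (M k)]
        [∀ k, RiemannianBundle (fun x : M k => TangentSpace 𝓘(ℝ, EuclideanSpace ℝ (Fin n)) x)]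
        [∀ k, IsContMDiffRiemannianBundle 𝓘(ℝ, EuclideanSpace ℝ (Fin n)) ∞ (EuclideanSpace ℝ (Fin n))
          (fun x : M k => TangentSpace 𝓘(ℝ, EuclideanSpace ℝ (Fin n)) x)]
        [∀ k, IsRiemannianManifold 𝓘(ℝ, EuclideanSpace ℝ (Fin n)) (M k)]
        [∀ k, MeasurableSpace (M k)] [∀ k, BorelSpace (M k)] (q : ∀ k, M k),
        (∀ k, HasRicciLowerBound n (M k) K) →
        (∃ v : ℝ, 0 < v ∧ ∀ k, ENNReal.ofReal v ≤
          MeasureTheory.Measure.euclideanHausdorffMeasure n (Metric.ball (q k) 1)) →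
        ∀ (X : Type u) [MetricSpace X] [CompleteSpace X] (p : X),
          SeqPointedTendsto q p → RescalingsTendstoEuclidean p n →
          ∃ U : Set X, IsOpen U ∧ p ∈ U ∧ ∃ F : X → EuclideanSpace ℝ (Fin n), IsOpen (F '' U) ∧
            ∀ x ∈ U, ∀ z ∈ U, L⁻¹ * dist x z ≤ dist (F x) (F z) ∧
              dist (F x) (F z) ≤ L * dist x z := by
  obtain ⟨L, ρ, hL, hρ, hE⟩ := hE
  refine ⟨L, hL, ?_⟩
  intro K M _ _ _ _ _ _ _ _ _ _ q hRic hvol X _ _ p hconv hres
  obtain ⟨v, hv, hvol⟩ := hvol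
  obtain ⟨v₁, hv₁, hBG⟩ := hBG K v hv
  obtain ⟨ε, hε, hE⟩ := hE v₁ hv₁
  obtain ⟨r₀, hr₀, hr₀'⟩ := comp_approx hconv hres (inv_pos.2 hε) hε
  -- choice of the scale
  obtain ⟨r, hr, hr1, hr2, hr3⟩ : ∃ r : ℝ, 0 < r ∧ r < r₀ ∧ r ≤ 1 ∧ -ε ≤ K * r ^ 2 := by
    set r : ℝ := min (r₀ / 2) (min 1 (ε / (|K| + 1))) with hrdef
    have h0 : 0 < r := by rw [hrdef]; positivity
    have h1 : r ≤ r₀ / 2 := min_le_left _ _
    have h2 : r ≤ 1 := (min_le_right _ _).trans (min_le_left _ _)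
    have h3 : r ≤ ε / (|K| + 1) := (min_le_right _ _).trans (min_le_right _ _)
    refine ⟨r, h0, by linarith, h2, ?_⟩
    rw [le_div_iff₀ (by positivity)] at h3
    have h4 : r ^ 2 ≤ r := by nlinarith
    have h5 : -|K| ≤ K := neg_abs_le K
    have h6 : 0 ≤ |K| := abs_nonneg K
    nlinarith [sq_nonneg r]
  have hch : ∀ᶠ k in atTop, Chart n (q k) L (r * ρ) := by
    filter_upwards [hr₀' r hr hr1] with k hk
    have a1 := Scal386.ricciLB_mono (Scal386.ricciLB_sc (n := n) ⟨r, hr⟩ (hRic k)) hr3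
    have a2 := Scal386.approx_sc ⟨r, hr⟩ hk
    have a3 := Scal386.vol_sc ⟨r, hr⟩ n (q k) (hBG (M k) (q k) (hRic k) (hvol k) r hr hr2)
    exact chart_of_sc ⟨r, hr⟩ hL (hE (Scal386.Sc ⟨r, hr⟩ (M k)) _ a1 a2 a3)
  have hF : ∀ k, ∃ F : M k → EuclideanSpace ℝ (Fin n), Chart n (q k) L (r * ρ) →
      ((∀ x z : M k, dist (q k) x < 2 * (r * ρ) → dist (q k) z < 2 * (r * ρ) →
      L⁻¹ * dist x z ≤ dist (F x) (F z) ∧ dist (F x) (F z) ≤ L * dist x z) ∧
    (∀ x : M k, dist (q k) x < r * ρ → ∀ s : ℝ, 0 < s → s ≤ r * ρ →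
      ∀ y, dist (F x) y < s / L → ∃ z, dist x z < s ∧ F z = y)) := by
    intro k
    by_cases hk : Chart n (q k) L (r * ρ)
    · obtain ⟨F, hF⟩ := hk
      exact ⟨F, fun _ => hF⟩
    · exact ⟨fun _ => 0, fun h => absurd h hk⟩
  choose F hF using hF
  exact limit_chart hconv hL (by positivity : 0 < r * ρ) F
    (hch.mono fun k hk => (hF k hk).1) (hch.mono fun k hk => (hF k hk).2)

end Crest.Agent.R247.Lim386
end
end

-- ▼ part R247/Lim4_386

/-!
# R247, limit step (4): S0381 from `VC`, `BGr`, `EFF2`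

* `bg_of_bgr` : `BG n` from Bishop–Gromov `Asm951.BGr n`;
* `eff1_of`   : my `EFF1` from `Asm951.EFF1`;
* `result_of_parts` : the literal statement of S0381 from `Asm951.VC`, `BGr`, `EFF2`.
-/

set_option autoImplicit false
noncomputable section
open Set Filter Topology Bundle MeasureTheory
open scoped ContDiff Manifold
open Crest.GeometryTopology.CoordMetric Crest.GeometryTopology.ChartCurvature
open Crest.GeometryTopology.PointedLimit

namespace Crest.Agent.R247.Lim386

universe u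

theorem bg_of_bgr {n : ℕ} (h : Asm951.BGr.{u} n) : BG.{u} n := by
  intro K v hv
  set δ : ℝ := |K| with hδ
  have hδ0 : 0 ≤ δ := abs_nonneg K
  refine ⟨v * Real.exp (-(δ / 2)), by positivity, ?_⟩
  intro M _ _ _ _ _ _ _ _ _ _ q hRic hvol r hr hr1
  have h1 := h δ hδ0 M q r 1 (Asm951.ricci_mono (neg_abs_le K) hRic) hr hr1
  have h2 := hvol.trans h1
  have hc : 0 < Real.exp (δ * 1 ^ 2 / 2) * (1 / r) ^ n := by positivity
  have h3 : v * Real.exp (-(δ / 2)) * r ^ n =
      v / (Real.exp (δ * 1 ^ 2 / 2) * (1 / r) ^ n) := by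
    rw [eq_div_iff hc.ne']
    have h4 : Real.exp (-(δ / 2)) * Real.exp (δ * 1 ^ 2 / 2) = 1 := by
      rw [← Real.exp_add]
      simp
    have h5 : r ^ n * (1 / r) ^ n = 1 := by
      rw [← mul_pow, mul_one_div_cancel hr.ne', one_pow]
    calc v * Real.exp (-(δ / 2)) * r ^ n * (Real.exp (δ * 1 ^ 2 / 2) * (1 / r) ^ n)
        = v * (Real.exp (-(δ / 2)) * Real.exp (δ * 1 ^ 2 / 2)) * (r ^ n * (1 / r) ^ n) := by ring
      _ = v := by rw [h4, h5, mul_one, mul_one]
  rw [h3, ENNReal.ofReal_div_of_pos hc]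
  exact ENNReal.div_le_of_le_mul' h2

theorem eff1_of {n : ℕ} (h : Asm951.EFF1.{u} n) : EFF1.{u} n := by
  obtain ⟨L, hL, ρ, hρ, _, H⟩ := h
  refine ⟨L, ρ, hL, hρ, fun v hv => ?_⟩
  obtain ⟨ε, hε, H⟩ := H v hv
  refine ⟨ε, hε, ?_⟩
  intro M _ _ _ _ _ _ _ _ _ _ q hRic hA hvol
  rw [← one_div] at hA
  obtain ⟨F, h1, h2⟩ := H M q hRic hA hvol
  refine ⟨F, fun x z hx hz => h1 x ?_ z ?_, fun x hx s hs hsρ y hy => h2 x ?_ s hs hsρ y hy⟩
  · rw [Metric.mem_ball, dist_comm]; exact hx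
  · rw [Metric.mem_ball, dist_comm]; exact hz
  · rw [Metric.mem_ball, dist_comm]; exact hx

/-- **S0381 from volume convergence, Bishop–Gromov and the volume-pinched theorem.** -/
theorem result_of_parts (n : ℕ) (hVC : Asm951.VC.{u} n) (hBG : Asm951.BGr.{u} n)
    (h2 : Asm951.EFF2.{u} n) :
    ∃ L : ℝ, 1 ≤ L ∧
      ∀ (K : ℝ) (M : ℕ → Type u) [∀ k, MetricSpace (M k)] [∀ k, CompleteSpace (M k)]
        [∀ k, ConnectedSpace (M k)] [∀ k, ChartedSpace (EuclideanSpace ℝ (Fin n)) (M k)]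
        [∀ k, IsManifold 𝓘(ℝ, EuclideanSpace ℝ (Fin n)) ∞ (M k)]
        [∀ k, RiemannianBundle (fun x : M k => TangentSpace 𝓘(ℝ, EuclideanSpace ℝ (Fin n)) x)]
        [∀ k, IsContMDiffRiemannianBundle 𝓘(ℝ, EuclideanSpace ℝ (Fin n)) ∞ (EuclideanSpace ℝ (Fin n))
          (fun x : M k => TangentSpace 𝓘(ℝ, EuclideanSpace ℝ (Fin n)) x)]
        [∀ k, IsRiemannianManifold 𝓘(ℝ, EuclideanSpace ℝ (Fin n)) (M k)]
        [∀ k, MeasurableSpace (M k)] [∀ k, BorelSpace (M k)] (q : ∀ k, M k),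
        (∀ k, HasRicciLowerBound n (M k) K) →
        (∃ v : ℝ, 0 < v ∧ ∀ k, ENNReal.ofReal v ≤
          MeasureTheory.Measure.euclideanHausdorffMeasure n (Metric.ball (q k) 1)) →
        ∀ (X : Type u) [MetricSpace X] [CompleteSpace X] (p : X),
          SeqPointedTendsto q p → RescalingsTendstoEuclidean p n →
          ∃ U : Set X, IsOpen U ∧ p ∈ U ∧ ∃ F : X → EuclideanSpace ℝ (Fin n), IsOpen (F '' U) ∧
            ∀ x ∈ U, ∀ z ∈ U, L⁻¹ * dist x z ≤ dist (F x) (F z) ∧
              dist (F x) (F z) ≤ L * dist x z :=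
  result_of n (bg_of_bgr hBG) (eff1_of (Asm951.eff1_of_eff2 hVC hBG h2))

end Crest.Agent.R247.Lim386
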