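import Crest.Agent.R247.Ch1_111
import Crest.Agent.R247.Clo4_858
import Crest.Agent.R247.Far0_553
import Crest.Agent.R247.Num1_824
import Crest.Agent.R247.Exc4_853
import Crest.Agent.R247.FarAsm3_196

-- ▼ part R247/Ch2_111
section

/-!
# (1-CH) part 2: the top chain (from `w` down to radius `1/8`), geometric steps
-/

set_option autoImplicit false
open Finset

noncomputable section
namespace Crest.Agent.R247.Ch111

/-- number of steps and ratio of the geometric top chain -/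
lemma geo_steps {Λ : ℝ} (hΛ : 1 / 2 ≤ Λ) {N : ℕ} (hN : 400 ≤ N) :
    ∃ (M : ℕ) (q : ℝ), 1 ≤ M ∧ 1 < q ∧ q - 1 ≤ 2 / N ∧ 1 / (2 * N) ≤ q - 1 ∧
      q ^ M = Real.exp Λ ∧ (4 : ℝ) ^ M ≤ 4 * Real.exp Λ ^ (2 * N) := by
  have hN0 : (400 : ℝ) ≤ N := by exact_mod_cast hN
  have hNΛ : 200 ≤ N * Λ := by nlinarith
  have hM1 : N * Λ ≤ (⌈N * Λ⌉₊ : ℝ) := Nat.le_ceil _
  have hM2 : (⌈N * Λ⌉₊ : ℝ) < N * Λ + 1 := Nat.ceil_lt_add_one (by linarith)
  set M := ⌈N * Λ⌉₊ with hM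
  have hMpos : (0 : ℝ) < M := by linarith
  have hM0 : 1 ≤ M := by
    have : (0 : ℝ) < M := hMpos
    have : 0 < M := by exact_mod_cast this
    omega
  have hx0 : 0 < Λ / M := by positivity
  have hx1 : Λ / M ≤ 1 / N := by
    rw [div_le_div_iff₀ hMpos (by linarith)]; nlinarith
  have hx2 : 1 / (2 * N) ≤ Λ / M := by
    rw [div_le_div_iff₀ (by linarith) hMpos]; nlinarith
  refine ⟨M, Real.exp (Λ / M), hM0, ?_, ?_, ?_, ?_, ?_⟩
  · exact Real.one_lt_exp_iff.2 hx0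
  · have hx3 : Λ / M ≤ 1 := by
      refine hx1.trans ?_
      rw [div_le_one (by linarith)]; linarith
    have := Real.exp_bound_div_one_sub_of_interval (x := Λ / M) hx0.le (by
      refine lt_of_le_of_lt hx1 ?_
      rw [div_lt_one (by linarith)]; linarith)
    have h1 : 1 / (1 - Λ / M) ≤ 1 + 2 * (Λ / M) := by
      have h2 : Λ / M ≤ 1 / 2 := by
        refine hx1.trans ?_
        rw [div_le_div_iff₀ (by linarith) (by norm_num)]; linarith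
      rw [div_le_iff₀ (by linarith)]
      nlinarith
    have h3 : 2 * (Λ / M) ≤ 2 / N := by
      have : 2 * (1 / (N : ℝ)) = 2 / N := by ring
      linarith
    linarith
  · have := Real.add_one_le_exp (Λ / M)
    linarith
  · rw [← Real.exp_nat_mul]
    congr 1
    field_simp
  · have h4 : (4 : ℝ) = Real.exp (Real.log 4) := by rw [Real.exp_log (by norm_num)]
    have hl4 : Real.log 4 ≤ 2 := by
      have : Real.log 4 = 2 * Real.log 2 := by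
        rw [show (4 : ℝ) = 2 ^ 2 by norm_num, Real.log_pow]; norm_num
      have := Real.log_two_lt_d9
      linarith
    have hl40 : 0 ≤ Real.log 4 := Real.log_nonneg (by norm_num)
    have e1 : (4 : ℝ) ^ M = Real.exp (M * Real.log 4) := by
      rw [Real.exp_nat_mul, ← h4]
    have e2 : 4 * Real.exp Λ ^ (2 * N) = Real.exp (Real.log 4 + (2 * N : ℕ) * Λ) := by
      rw [Real.exp_add, ← h4, Real.exp_nat_mul]
    rw [e1, e2]
    apply Real.exp_le_exp.2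
    push_cast
    have h5 : (M : ℝ) * Real.log 4 ≤ (N * Λ + 1) * Real.log 4 :=
      mul_le_mul_of_nonneg_right hM2.le hl40
    have h6 : (N * Λ) * Real.log 4 ≤ (N * Λ) * 2 :=
      mul_le_mul_of_nonneg_left hl4 (by linarith)
    nlinarith

/-- the exponent of the top chain -/
def topP (Nb : ℕ) : ℕ := 2 * (400 * Nb)

/-- the constant of the top chain -/
def topC (C1 : ℝ) (Nb : ℕ) : ℝ := 128 * C1 * 11 ^ (topP Nb)

/-- the smallness constant of the top chain -/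
def topA (K c C1 : ℝ) (Nb : ℕ) : ℝ :=
  16 * K * (400 * Nb) * (1 + 640 * C1) * 11 ^ (topP Nb) / c

/-- The top chain, sequence form (`i = 0` is the point `w`). -/
theorem top_seq {K c C1 Ts Lm : ℝ} (hK : 0 < K) (hC : 0 ≤ C1) (hTs : 0 ≤ Ts)
    {M : ℕ} {Dp Rp Lp DT : ℕ → ℝ} (hc : 0 < c)
    (hD0 : Dp 0 = 0) (hR1 : ∀ i ≤ M, 1 / 32 ≤ Rp i)
    (hR2 : ∀ i ≤ M, Rp i ≤ 20) (hL1 : ∀ i < M, Lm ≤ Lp i) (hLm : 0 < Lm)
    (hL2 : ∀ i < M, Lp i ≤ 1 / 2) (hDT : ∀ i < M, DT i ≤ 2 * Ts)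
    (hst : ∀ i < M, 2 * K * (√(Lp i * DT i) + Dp i) ≤ c * Lp i →
      Dp (i + 1) / Rp (i + 1) ≤ 2 * (Dp i / Rp i + C1 / Rp i * √(Lp i * DT i)))
    (hsm : 2 * K * ((1 + 640 * C1) * 4 ^ M * √Ts) ≤ c * Lm) :
    Dp M / Rp M ≤ 4 ^ M * (32 * C1 * √Ts) := by
  have hQ0 : 0 ≤ 32 * C1 * √Ts := by positivity
  have hsq0 : 0 ≤ √Ts := Real.sqrt_nonneg _
  have hMlt : (M : ℝ) ≤ 2 ^ M := by exact_mod_cast (Nat.lt_two_pow_self).le
  have hBQ : (2 : ℝ) ^ M * (0 + ∑ k ∈ range M, (fun _ => 32 * C1 * √Ts) k)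
      ≤ 4 ^ M * (32 * C1 * √Ts) := by
    simp only [sum_const, card_range, nsmul_eq_mul, zero_add]
    calc (2 : ℝ) ^ M * (M * (32 * C1 * √Ts)) ≤ 2 ^ M * (2 ^ M * (32 * C1 * √Ts)) := by
          apply mul_le_mul_of_nonneg_left _ (by positivity)
          exact mul_le_mul_of_nonneg_right hMlt hQ0
      _ = 4 ^ M * (32 * C1 * √Ts) := by
          rw [← mul_assoc, ← mul_pow]; norm_num
  have hdM : Dp (M - M) / Rp (M - M) = 0 := by rw [Nat.sub_self, hD0, zero_div]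
  have hmain := chain (M := M) (G := 2) (by norm_num)
    (d := fun j => Dp (M - j) / Rp (M - j)) (q := fun _ => 32 * C1 * √Ts)
    (by simp only [hdM]; exact le_rfl) (fun _ _ => hQ0) (fun j hj hdj => by
      simp only [hdM] at hdj
      have hdj' := hdj.trans hBQ
      obtain ⟨i, hi⟩ : ∃ i, M = j + 1 + i := ⟨M - (j + 1), by omega⟩
      have e1 : M - j = i + 1 := by omega
      have e2 : M - (j + 1) = i := by omega
      have hiM : i < M := by omega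
      rw [e2] at hdj'
      simp only [e1, e2]
      have hRi := hR1 i hiM.le
      have hRi2 := hR2 i hiM.le
      have hRp : 0 < Rp i := by linarith only [hRi]
      have hsqi : √(Lp i * DT i) ≤ √Ts := by
        apply Real.sqrt_le_sqrt
        have h1 := hL2 i hiM
        have h2 : 0 < Lp i := lt_of_lt_of_le hLm (hL1 i hiM)
        calc Lp i * DT i ≤ Lp i * (2 * Ts) := mul_le_mul_of_nonneg_left (hDT i hiM) h2.le
          _ ≤ 1 / 2 * (2 * Ts) := mul_le_mul_of_nonneg_right h1 (by linarith only [hTs])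
          _ = Ts := by ring
      have h4M : (1 : ℝ) ≤ 4 ^ M := one_le_pow₀ (by norm_num)
      have hDi : Dp i ≤ 4 ^ M * (32 * C1 * √Ts) * 20 := by
        have h1 : Dp i = Dp i / Rp i * Rp i := by field_simp
        rw [h1]
        calc Dp i / Rp i * Rp i ≤ 4 ^ M * (32 * C1 * √Ts) * Rp i :=
              mul_le_mul_of_nonneg_right hdj' hRp.le
          _ ≤ 4 ^ M * (32 * C1 * √Ts) * 20 :=
              mul_le_mul_of_nonneg_left hRi2 (by positivity)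
      have hcond : 2 * K * (√(Lp i * DT i) + Dp i) ≤ c * Lp i := by
        have h5 : √Ts ≤ 4 ^ M * √Ts := le_mul_of_one_le_left hsq0 h4M
        have h6 : 4 ^ M * (32 * C1 * √Ts) * 20 = 640 * C1 * 4 ^ M * √Ts := by ring
        have h7 : √(Lp i * DT i) + Dp i ≤ (1 + 640 * C1) * 4 ^ M * √Ts := by
          have : (1 + 640 * C1) * 4 ^ M * √Ts = 4 ^ M * √Ts + 640 * C1 * 4 ^ M * √Ts := by ring
          rw [this]
          linarith only [hsqi, h5, hDi, h6]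
        calc 2 * K * (√(Lp i * DT i) + Dp i) ≤ 2 * K * ((1 + 640 * C1) * 4 ^ M * √Ts) :=
              mul_le_mul_of_nonneg_left h7 (by positivity)
          _ ≤ c * Lm := hsm
          _ ≤ c * Lp i := mul_le_mul_of_nonneg_left (hL1 i hiM) hc.le
      have h8 := hst i hiM hcond
      have h9 : C1 / Rp i * √(Lp i * DT i) ≤ 32 * C1 * √Ts := by
        have h10 : C1 / Rp i ≤ 32 * C1 := by
          rw [div_le_iff₀ hRp]
          calc C1 = 32 * C1 * (1 / 32) := by ring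
            _ ≤ 32 * C1 * Rp i := mul_le_mul_of_nonneg_left hRi (by positivity)
        exact mul_le_mul h10 hsqi (Real.sqrt_nonneg _) (by positivity)
      linarith only [h8, h9]) 0 (Nat.zero_le _)
  simp only [Nat.sub_zero, hdM] at hmain
  rw [← range_eq_Ico] at hmain
  exact hmain.trans hBQ

/-- the exponent bookkeeping of the smallness hypothesis -/
lemma top_sm {K c C1 X0 y : ℝ} {Nb M : ℕ} (hK : 0 < K) (hc : 0 < c) (hC : 0 ≤ C1)
    (hNb : 1 ≤ Nb) (hX0 : 0 < X0) (hy : 0 ≤ y)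
    (h4 : (4 : ℝ) ^ M ≤ 4 * 11 ^ (topP Nb) * X0⁻¹ ^ (topP Nb))
    (hsm : topA K c C1 Nb * y ≤ X0 ^ (topP Nb + 1)) :
    2 * K * ((1 + 640 * C1) * 4 ^ M * y) ≤ c * (X0 / (2 * (400 * Nb))) := by
  have hNb0 : (0 : ℝ) < Nb := by exact_mod_cast hNb
  have h1 : 2 * K * ((1 + 640 * C1) * 4 ^ M * y) ≤ 2 * K * ((1 + 640 * C1) *
      (4 * 11 ^ (topP Nb) * X0⁻¹ ^ (topP Nb)) * y) := by
    apply mul_le_mul_of_nonneg_left _ (by positivity)
    apply mul_le_mul_of_nonneg_right _ hy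
    exact mul_le_mul_of_nonneg_left h4 (by positivity)
  have h2 : 2 * K * ((1 + 640 * C1) * (4 * 11 ^ (topP Nb) * X0⁻¹ ^ (topP Nb)) * y)
      = (c / (2 * (400 * Nb))) * X0⁻¹ ^ (topP Nb) * (topA K c C1 Nb * y) := by
    unfold topA
    field_simp
    ring
  have h3 : (c / (2 * (400 * Nb))) * X0⁻¹ ^ (topP Nb) * (topA K c C1 Nb * y)
      ≤ (c / (2 * (400 * Nb))) * X0⁻¹ ^ (topP Nb) * X0 ^ (topP Nb + 1) :=
    mul_le_mul_of_nonneg_left hsm (by positivity)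
  have h4 : (c / (2 * (400 * Nb))) * X0⁻¹ ^ (topP Nb) * X0 ^ (topP Nb + 1)
      = c * (X0 / (2 * (400 * Nb))) := by
    rw [pow_succ, inv_pow]
    field_simp
  linarith only [h1, h2, h3, h4]

/-- the geometric points of the top chain -/
lemma top_points {Nb : ℕ} (hNb : 1 ≤ Nb) {ℓ X0 s : ℝ} (hℓ2 : 2 ≤ ℓ) (hℓ : ℓ ≤ 10)
    (hX0 : 0 < X0) (hX1 : X0 ≤ 1) (hs : 1 / 16 ≤ s) (hs8 : s ≤ 1 / 8) :
    ∃ (M : ℕ) (p : ℕ → ℝ), 1 ≤ M ∧ p 0 = ℓ ∧ p M = s ∧ (∀ i ≤ M, s ≤ p i) ∧ (∀ i, p i ≤ ℓ) ∧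
      (∀ i, p (i + 1) < p i) ∧ (∀ i < M, X0 / (2 * (400 * Nb)) ≤ p i - p (i + 1)) ∧
      (∀ i < M, p i - p (i + 1) ≤ 1 / 2) ∧ Nb * (ℓ - p 1) ≤ X0 ∧
      (∀ i < M, Nb * (p i - p (i + 1)) ≤ p i) ∧
      (∀ i < M, Nb * (p i - p (i + 1)) ≤ ℓ + X0 - p i) ∧
      (∀ i, (p (i + 1) - p (i + 2)) / 2 ≤ p i - p (i + 1)) ∧
      (∀ i, p i - p (i + 1) ≤ p (i + 1) - p (i + 2)) ∧
      (4 : ℝ) ^ M ≤ 4 * 11 ^ (topP Nb) * X0⁻¹ ^ (topP Nb) := by
  have hNb0 : (1 : ℝ) ≤ Nb := by exact_mod_cast hNb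
  have hN400 : 400 ≤ 400 * Nb := by omega
  have hXJ1 : 15 / 8 ≤ ℓ + X0 - s := by linarith only [hℓ2, hX0, hs8]
  have hXJ2 : ℓ + X0 - s ≤ 11 := by linarith only [hℓ, hX1, hs]
  have hrat : 15 / 8 ≤ (ℓ + X0 - s) / X0 := by
    rw [le_div_iff₀ hX0]; nlinarith only [hXJ1, hX0, hX1]
  have hΛ : 1 / 2 ≤ Real.log ((ℓ + X0 - s) / X0) := by
    rw [Real.le_log_iff_exp_le (by linarith only [hrat])]
    refine le_trans ?_ hrat
    have h1 : Real.exp (1 / 2) ^ 2 ≤ (15 / 8) ^ 2 := by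
      rw [← Real.exp_nat_mul]
      norm_num
      have := Real.exp_one_lt_d9
      linarith only [this]
    exact (pow_le_pow_iff_left₀ (Real.exp_pos _).le (by norm_num) (by norm_num)).1 h1
  obtain ⟨M, q, hM1, hq1, hq2, hq3, hqM, h4M⟩ := geo_steps hΛ hN400
  rw [Real.exp_log (by linarith only [hrat])] at hqM h4M
  have hq0 : 0 < q := by linarith only [hq1]
  have hNr : ((400 * Nb : ℕ) : ℝ) = 400 * Nb := by push_cast; ring
  rw [hNr] at hq2 hq3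
  have hq2' : q - 1 ≤ 1 / (200 * Nb) := by
    refine hq2.trans (le_of_eq ?_)
    field_simp; norm_num
  have hqle2 : q ≤ 2 := by
    have : 1 / (200 * (Nb : ℝ)) ≤ 1 := by
      rw [div_le_one (by linarith only [hNb0])]; linarith only [hNb0]
    linarith only [this, hq2']
  have hpow1 : ∀ i : ℕ, 1 ≤ q ^ i := fun i => one_le_pow₀ hq1.le
  have hXle : ∀ i ≤ M, X0 * q ^ i ≤ 11 := fun i hi => by
    calc X0 * q ^ i ≤ X0 * q ^ M :=
          mul_le_mul_of_nonneg_left (pow_le_pow_right₀ hq1.le hi) hX0.le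
      _ = ℓ + X0 - s := by rw [hqM]; field_simp
      _ ≤ 11 := hXJ2
  have hdiff : ∀ i : ℕ, (ℓ + X0 - X0 * q ^ i) - (ℓ + X0 - X0 * q ^ (i + 1))
      = X0 * q ^ i * (q - 1) := fun i => by rw [pow_succ]; ring
  have hXp : ∀ i : ℕ, 0 < X0 * q ^ i := fun i => by positivity
  have hLb : ∀ i, Nb * (X0 * q ^ i * (q - 1)) ≤ X0 * q ^ i / 200 := fun i => by
    calc Nb * (X0 * q ^ i * (q - 1)) ≤ Nb * (X0 * q ^ i * (1 / (200 * Nb))) := by
          apply mul_le_mul_of_nonneg_left _ (by linarith only [hNb0])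
          exact mul_le_mul_of_nonneg_left hq2' (hXp i).le
      _ = X0 * q ^ i / 200 := by field_simp
  have hLb' : ∀ i, X0 * q ^ i * (q - 1) ≤ X0 * q ^ i / 200 := fun i => by
    have h1 := hLb i
    have h2 : 0 ≤ X0 * q ^ i * (q - 1) := mul_nonneg (hXp i).le (by linarith only [hq1])
    nlinarith only [h1, h2, hNb0]
  refine ⟨M, fun i => ℓ + X0 - X0 * q ^ i, hM1, by simp, ?_, ?_, ?_, ?_, ?_, ?_, ?_, ?_, ?_,
    ?_, ?_, ?_⟩
  · simp only
    rw [hqM]; field_simp; ring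
  · intro i hi
    simp only
    have : X0 * q ^ i ≤ ℓ + X0 - s := by
      calc X0 * q ^ i ≤ X0 * q ^ M :=
            mul_le_mul_of_nonneg_left (pow_le_pow_right₀ hq1.le hi) hX0.le
        _ = ℓ + X0 - s := by rw [hqM]; field_simp
    linarith only [this]
  · intro i
    simp only
    have : X0 * 1 ≤ X0 * q ^ i := mul_le_mul_of_nonneg_left (hpow1 i) hX0.le
    linarith only [this]
  · intro i
    have h1 := hdiff i
    have h2 : 0 < X0 * q ^ i * (q - 1) := mul_pos (hXp i) (by linarith only [hq1])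
    simp only
    linarith only [h1, h2]
  · intro i _
    simp only
    rw [hdiff]
    have h1 : X0 * (1 / (2 * (400 * Nb))) ≤ X0 * q ^ i * (q - 1) := by
      apply mul_le_mul _ hq3 (by positivity) (hXp i).le
      exact le_mul_of_one_le_right hX0.le (hpow1 i)
    calc X0 / (2 * (400 * Nb)) = X0 * (1 / (2 * (400 * Nb))) := by ring
      _ ≤ _ := h1
  · intro i hi
    simp only
    rw [hdiff]
    have := hXle i hi.le
    linarith only [hLb' i, this]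
  · simp only
    have h1 := hLb 0
    have h2 : (ℓ : ℝ) - (ℓ + X0 - X0 * q ^ 1) = X0 * q ^ 0 * (q - 1) := by ring
    rw [h2]
    refine h1.trans ?_
    rw [pow_zero]
    linarith only [hX0]
  · intro i hi
    simp only
    rw [hdiff]
    have h1 := hLb i
    have h2 := hXle i hi.le
    have h3 : X0 * q ^ i ≤ ℓ + X0 - s := by
      calc X0 * q ^ i ≤ X0 * q ^ M :=
            mul_le_mul_of_nonneg_left (pow_le_pow_right₀ hq1.le hi.le) hX0.le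
        _ = ℓ + X0 - s := by rw [hqM]; field_simp
    linarith only [h1, h2, h3, hs]
  · intro i _
    simp only
    rw [hdiff]
    have h1 := hLb i
    have h2 := hXp i
    have h3 : ℓ + X0 - (ℓ + X0 - X0 * q ^ i) = X0 * q ^ i := by ring
    rw [h3]
    linarith only [h1, h2]
  · intro i
    simp only
    have h1 := hdiff i
    have h2 := hdiff (i + 1)
    have h3 : 0 ≤ X0 * q ^ i * (q - 1) := mul_nonneg (hXp i).le (by linarith only [hq1])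
    have h4 : X0 * q ^ (i + 1) * (q - 1) = q * (X0 * q ^ i * (q - 1)) := by
      rw [pow_succ]; ring
    have h5 : (ℓ + X0 - X0 * q ^ (i + 1)) - (ℓ + X0 - X0 * q ^ (i + 2))
        = q * (X0 * q ^ i * (q - 1)) := by rw [← h4, ← h2]
    rw [h1, h5]
    nlinarith only [h3, hqle2]
  · intro i
    simp only
    have h1 := hdiff i
    have h2 := hdiff (i + 1)
    have h3 : 0 ≤ X0 * q ^ i * (q - 1) := mul_nonneg (hXp i).le (by linarith only [hq1])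
    have h4 : X0 * q ^ (i + 1) * (q - 1) = q * (X0 * q ^ i * (q - 1)) := by
      rw [pow_succ]; ring
    have h5 : (ℓ + X0 - X0 * q ^ (i + 1)) - (ℓ + X0 - X0 * q ^ (i + 2))
        = q * (X0 * q ^ i * (q - 1)) := by rw [← h4, ← h2]
    rw [h1, h5]
    nlinarith only [h3, hq1]
  · have hP : topP Nb = 2 * (400 * Nb) := rfl
    have h11 : (4 : ℝ) ^ M ≤ 4 * (11 / X0) ^ (2 * (400 * Nb)) := by
      refine h4M.trans ?_
      apply mul_le_mul_of_nonneg_left _ (by norm_num)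
      apply pow_le_pow_left₀ (by linarith only [hrat])
      exact div_le_div_of_nonneg_right hXJ2 hX0.le
    refine h11.trans (le_of_eq ?_)
    rw [hP, div_eq_mul_inv, mul_pow]; ring

/-- **The top chain.** -/
theorem top_chain {K c C1 : ℝ} (hK : 0 < K) (hc : 0 < c) (hC : 0 ≤ C1) {Nb : ℕ} (hNb : 1 ≤ Nb) {ℓ X0 s : ℝ} {D R T : ℝ → ℝ}
    (hℓ2 : 2 ≤ ℓ) (hℓ : ℓ ≤ 10) (hX0 : 0 < X0) (hX1 : X0 ≤ 1) (hs : 1 / 16 ≤ s)
    (hs8 : s ≤ 1 / 8) (hDℓ : D ℓ = 0)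
    (hR : ∀ τ, s ≤ τ → τ ≤ ℓ → τ / 2 ≤ R τ ∧ R τ ≤ 2 * τ)
    (hT0 : ∀ τ, s ≤ τ → τ ≤ ℓ → 0 ≤ T τ)
    (hT : ∀ τ τ', s ≤ τ → τ ≤ τ' → τ' ≤ ℓ → T τ' ≤ T τ)
    (hst : ∀ τ₁ τ₂ τ₃, s ≤ τ₁ → τ₁ < τ₂ → τ₂ < τ₃ → τ₃ ≤ ℓ → Nb * (τ₂ - τ₁) ≤ τ₂ →
      Nb * (τ₂ - τ₁) ≤ ℓ + X0 - τ₂ → (τ₂ - τ₁) / 2 ≤ τ₃ - τ₂ → τ₃ - τ₂ ≤ τ₂ - τ₁ →
      Stp K c C1 2 D R T (τ₂ - τ₁) τ₁ τ₂ τ₃)
    (hlast : ∀ τ₁, s ≤ τ₁ → τ₁ < ℓ → Nb * (ℓ - τ₁) ≤ X0 →
      2 * K * √((ℓ - τ₁) * T τ₁) ≤ c * (ℓ - τ₁) →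
      D τ₁ / R τ₁ ≤ 2 * (C1 / R ℓ * √((ℓ - τ₁) * T τ₁)))
    (hsm : topA K c C1 Nb * √(T s) ≤ X0 ^ (topP Nb + 1)) :
    D s / R s ≤ topC C1 Nb * X0⁻¹ ^ (topP Nb) * √(T s) := by
  have hsℓ : s ≤ ℓ := by linarith only [hs8, hℓ2]
  have hTs0 : 0 ≤ T s := hT0 s le_rfl hsℓ
  obtain ⟨M, p, hM1, hp0, hpM, hps, hpℓ, hpd, hLm, hL2, hN0, hN1, hN2, hh1, hh2, h4M⟩ :=
    top_points hNb hℓ2 hℓ hX0 hX1 hs hs8
  have hNb0 : (0 : ℝ) < Nb := by exact_mod_cast hNb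
  have hTle : ∀ i ≤ M, T (p i) ≤ T s := fun i hi => hT _ _ le_rfl (hps i hi) (hpℓ i)
  have hTnn : ∀ i ≤ M, 0 ≤ T (p i) := fun i hi => hT0 _ (hps i hi) (hpℓ i)
  have key := top_seq (K := K) (c := c) (C1 := C1) (Ts := T s) (Lm := X0 / (2 * (400 * Nb)))
    hK hC hTs0 (M := M) (Dp := fun i => D (p i)) (Rp := fun i => R (p i))
    (Lp := fun i => p i - p (i + 1))
    (DT := fun i => T (p (i + 1)) - (if i = 0 then 0 else T (p (i - 1)))) hc
    (by simp only [hp0, hDℓ])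
    (fun i hi => by
      have h1 := (hR _ (hps i hi) (hpℓ i)).1
      have h2 := hps i hi
      linarith only [h1, h2, hs])
    (fun i hi => by
      have h1 := (hR _ (hps i hi) (hpℓ i)).2
      have h2 := hpℓ i
      linarith only [h1, h2, hℓ])
    hLm (by positivity) hL2
    (fun i hi => by
      have a1 := hTle (i + 1) hi
      have a2 := hTnn (i + 1) hi
      have a3 : 0 ≤ (if i = 0 then 0 else T (p (i - 1))) := by
        split_ifs
        · exact le_rfl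
        · exact hTnn _ (by omega)
      linarith only [a1, a2, a3])
    (fun i hi hcond => by
      rcases Nat.eq_zero_or_pos i with hi0 | hi0
      · subst hi0
        simp only [if_true, sub_zero, zero_add, hp0, hDℓ, add_zero, zero_div] at hcond ⊢
        exact hlast (p 1) (hps 1 hi) (by have := hpd 0; rwa [hp0] at this) hN0 hcond
      · obtain ⟨k, rfl⟩ : ∃ k, i = k + 1 := ⟨i - 1, by omega⟩
        simp only [Nat.add_one_ne_zero, if_false, Nat.add_sub_cancel] at hcond ⊢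
        exact hst (p (k + 1 + 1)) (p (k + 1)) (p k) (hps _ hi) (hpd _) (hpd _) (hpℓ _)
          (hN1 _ hi) (hN2 _ hi) (hh1 k) (hh2 k) hcond)
    (top_sm hK hc hC hNb hX0 (Real.sqrt_nonneg _) h4M hsm)
  simp only [hpM] at key
  refine key.trans ?_
  calc 4 ^ M * (32 * C1 * √(T s)) ≤ (4 * 11 ^ (topP Nb) * X0⁻¹ ^ (topP Nb)) *
        (32 * C1 * √(T s)) := mul_le_mul_of_nonneg_right h4M (by positivity)
    _ = topC C1 Nb * X0⁻¹ ^ (topP Nb) * √(T s) := by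
        simp only [topC]; ring

end Crest.Agent.R247.Ch111
end
end

-- ▼ part R247/Ch3_111
section

/-!
# (1-CH) part 3: the a-priori iteration (`D_j` small at all scales) and the normalised
inequalities `hB`, `hTop`, `hU` of 858's closing.
-/

set_option autoImplicit false
open Finset

noncomputable section
namespace Crest.Agent.R247.Ch111

/-- data along one line `σ : z → w` (`τ` = arclength from `z`) -/
structure Line (K c C1 Gg CU : ℝ) (Ng Nb : ℕ) (j0 J : ℕ) (t X0 ℓ : ℝ) (bad : ℕ → Prop)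
    (D R T : ℝ → ℝ) : Prop where
  t_pos : 0 < t
  J_ge : 1 / 16 ≤ 2 ^ J * t
  J_le : 2 ^ J * t ≤ 1 / 8
  ℓ_ge : 2 ≤ ℓ
  ℓ_le : ℓ ≤ 10
  X0_pos : 0 < X0
  X0_le : X0 ≤ 1
  D_nonneg : ∀ τ, 0 ≤ D τ
  D_last : D ℓ = 0
  R_le : ∀ τ, 0 ≤ τ → τ ≤ ℓ → |R τ - τ| ≤ t
  T_nonneg : ∀ τ, 0 ≤ T τ
  T_anti : ∀ τ τ', 0 ≤ τ → τ ≤ τ' → τ' ≤ ℓ → T τ' ≤ T τ
  T_le : ∀ τ, 0 ≤ τ → τ ≤ ℓ → T τ ≤ 2 * t
  good : ∀ j, j0 ≤ j → j < J → ¬ bad j → ∀ i < Ng,
    Stp K c C1 Gg D R T (2 ^ j * t / Ng) (2 ^ j * t + i * (2 ^ j * t / Ng))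
      (2 ^ j * t + (i + 1) * (2 ^ j * t / Ng)) (2 ^ j * t + (i + 2) * (2 ^ j * t / Ng))
  always : ∀ τ₁ τ₂ τ₃, 2 ^ j0 * t ≤ τ₁ → τ₁ < τ₂ → τ₂ < τ₃ → τ₃ ≤ ℓ → Nb * (τ₂ - τ₁) ≤ τ₂ →
      Nb * (τ₂ - τ₁) ≤ ℓ + X0 - τ₂ → (τ₂ - τ₁) / 2 ≤ τ₃ - τ₂ → τ₃ - τ₂ ≤ τ₂ - τ₁ →
      Stp K c C1 2 D R T (τ₂ - τ₁) τ₁ τ₂ τ₃
  last : ∀ τ₁, 2 ^ j0 * t ≤ τ₁ → τ₁ < ℓ → Nb * (ℓ - τ₁) ≤ X0 →
      2 * K * √((ℓ - τ₁) * T τ₁) ≤ c * (ℓ - τ₁) →
      D τ₁ / R τ₁ ≤ 2 * (C1 / R ℓ * √((ℓ - τ₁) * T τ₁))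
  U : ∀ τ, 2 ^ j0 * t ≤ τ → τ ≤ 1 / 4 → T (2 * τ) ≤ CU * (D τ ^ 2 / τ)

namespace Line

variable {K c C1 Gg CU : ℝ} {Ng Nb : ℕ} {j0 J : ℕ} {t X0 ℓ : ℝ} {bad : ℕ → Prop}
  {D R T : ℝ → ℝ} (h : Line K c C1 Gg CU Ng Nb j0 J t X0 ℓ bad D R T)
include h

lemma s_pos (j : ℕ) : 0 < 2 ^ j * t := by have := h.t_pos; positivity

lemma s_mono {i j : ℕ} (hij : i ≤ j) : (2 : ℝ) ^ i * t ≤ 2 ^ j * t :=
  mul_le_mul_of_nonneg_right (pow_le_pow_right₀ (by norm_num) hij) h.t_pos.le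

lemma s_le {j : ℕ} (hj : j ≤ J) : (2 : ℝ) ^ j * t ≤ 1 / 8 := (h.s_mono hj).trans h.J_le

lemma R_bd {τ : ℝ} (hτ : 2 * t ≤ τ) (hτℓ : τ ≤ ℓ) : τ / 2 ≤ R τ ∧ R τ ≤ 2 * τ := by
  have h1 := abs_le.1 (h.R_le τ (by linarith [h.t_pos]) hτℓ)
  have := h.t_pos
  constructor <;> linarith [h1.1, h1.2]


/-- one dyadic scale, always (short steps) -/
lemma step_bad (hK : 0 < K) (hc : 0 < c) (hC : 0 ≤ C1) (hNb : 1 ≤ Nb) {j : ℕ} (hj0 : j0 ≤ j)
    (hj1 : 1 ≤ j) (hjJ : j < J) (hNb2 : 4 ≤ Nb)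
    (hsmD : D (2 * (2 ^ j * t)) / R (2 * (2 ^ j * t)) ≤ eps0 K c C1 2 Nb)
    (hsmT : T (2 ^ j * t) ≤ (eps0 K c C1 2 Nb) ^ 2 * (2 ^ j * t)) :
    D (2 ^ j * t) / R (2 ^ j * t) ≤ 2 ^ Nb * (D (2 * (2 ^ j * t)) / R (2 * (2 ^ j * t))
      + 2 * C1 * √(2 * (T (2 ^ j * t) - T (4 * (2 ^ j * t))) / (2 ^ j * t))) := by
  have hs := h.s_pos j
  have hs8 := h.s_le hjJ.le
  have hℓ := h.ℓ_ge
  have ht := h.t_pos
  have h2t : 2 * t ≤ 2 ^ j * t := by
    have := h.s_mono hj1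
    linarith
  have hNb0 : (0 : ℝ) < Nb := by exact_mod_cast (by omega : 0 < Nb)
  have hNb4 : (4 : ℝ) ≤ Nb := by exact_mod_cast hNb2
  have hst0 : (2 : ℝ) ^ j0 * t ≤ 2 ^ j * t := h.s_mono hj0
  refine scale_chain hNb hK hc hC (by norm_num) hs (fun τ _ _ => h.D_nonneg τ)
    (fun τ h1 h2 => ?_) (fun τ _ _ => h.T_nonneg τ)
    (fun τ τ' h1 h2 h3 => h.T_anti τ τ' (by linarith) h2 (by linarith)) (fun i hi => ?_) hsmD hsmT
  · have := h.R_bd (τ := τ) (by linarith) (by linarith)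
    constructor
    · linarith [this.1]
    · have h5 := abs_le.1 (h.R_le τ (by linarith) (by linarith))
      linarith [h5.2]
  · generalize 2 ^ j * t = s at *
    have hi' : (i : ℝ) + 1 ≤ Nb := by exact_mod_cast hi
    have hi0 : (0 : ℝ) ≤ i := Nat.cast_nonneg i
    have hL : 0 < s / Nb := by positivity
    have hNL : Nb * (s / Nb) = s := by field_simp
    have hL4 : s / Nb ≤ s := div_le_self hs.le (by linarith)
    have e1 : s + ((i : ℝ) + 1) * (s / Nb) - (s + i * (s / Nb)) = s / Nb := by ring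
    have e2 : s + ((i : ℝ) + 2) * (s / Nb) - (s + (i + 1) * (s / Nb)) = s / Nb := by ring
    have b1 : ((i : ℝ) + 1) * (s / Nb) ≤ s := by
      calc ((i : ℝ) + 1) * (s / Nb) ≤ Nb * (s / Nb) := mul_le_mul_of_nonneg_right hi' hL.le
        _ = s := hNL
    have b2 : ((i : ℝ) + 2) * (s / Nb) ≤ 2 * s := by
      have : ((i : ℝ) + 2) * (s / Nb) = (i + 1) * (s / Nb) + s / Nb := by ring
      linarith
    have b0 : 0 ≤ (i : ℝ) * (s / Nb) := by positivity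
    have key := h.always (s + i * (s / Nb)) (s + (i + 1) * (s / Nb)) (s + (i + 2) * (s / Nb))
      (by linarith) (by linarith) (by linarith) (by linarith)
      (by rw [e1, hNL]; have : 0 ≤ ((i : ℝ) + 1) * (s / Nb) := by positivity
          linarith)
      (by rw [e1, hNL]; linarith [h.X0_pos]) (by rw [e1, e2]; linarith) (by rw [e1, e2])
    rwa [e1] at key

/-- one dyadic scale, good -/
lemma step_good (hK : 0 < K) (hc : 0 < c) (hC : 0 ≤ C1) (hNg : 1 ≤ Ng) (hGg : 1 ≤ Gg) {j : ℕ}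
    (hj0 : j0 ≤ j) (hj1 : 1 ≤ j) (hjJ : j < J) (hb : ¬ bad j)
    (hsmD : D (2 * (2 ^ j * t)) / R (2 * (2 ^ j * t)) ≤ eps0 K c C1 Gg Ng)
    (hsmT : T (2 ^ j * t) ≤ (eps0 K c C1 Gg Ng) ^ 2 * (2 ^ j * t)) :
    D (2 ^ j * t) / R (2 ^ j * t) ≤ Gg ^ Ng * (D (2 * (2 ^ j * t)) / R (2 * (2 ^ j * t))
      + 2 * C1 * √(2 * (T (2 ^ j * t) - T (4 * (2 ^ j * t))) / (2 ^ j * t))) := by
  have hs := h.s_pos j
  have hs8 := h.s_le hjJ.le
  have hℓ := h.ℓ_ge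
  have ht := h.t_pos
  have h2t : 2 * t ≤ 2 ^ j * t := by
    have := h.s_mono hj1
    linarith
  refine scale_chain hNg hK hc hC hGg hs (fun τ _ _ => h.D_nonneg τ)
    (fun τ h1 h2 => ?_) (fun τ _ _ => h.T_nonneg τ)
    (fun τ τ' h1 h2 h3 => h.T_anti τ τ' (by linarith) h2 (by linarith))
    (h.good j hj0 hjJ hb) hsmD hsmT
  have := h.R_bd (τ := τ) (by linarith) (by linarith)
  constructor
  · linarith [this.1]
  · have h5 := abs_le.1 (h.R_le τ (by linarith) (by linarith))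
    linarith [h5.2]

end Line


end Crest.Agent.R247.Ch111
end
end

-- ▼ part R247/Ch4_111
section

/-!
# (1-CH) part 4: decay of the excess and of the distance to the ray along one line
-/

set_option autoImplicit false
open Finset

noncomputable section
namespace Crest.Agent.R247.Ch111

open Crest.Agent.R247.Clo858

/-- `2^(1/16)` is larger than `(1 + 1/50)/(1 - 1/100)`. -/
lemma kap_le : (1 + 1 / 50 : ℝ) ≤ 2 ^ ((1 : ℝ) / 16) * (1 - 1 / 100) := by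
  have h1 : (104 / 100 : ℝ) ≤ 2 ^ ((1 : ℝ) / 16) := by
    rw [← Real.rpow_le_rpow_iff (z := 16) (by norm_num) (by positivity) (by norm_num),
      ← Real.rpow_mul (by norm_num)]
    norm_num
  nlinarith

/-- change of normalisation `r = D / √(s t)` in one dyadic step -/
lemma renorm {D0 D1 R0 R1 s t G Gb C1 ΔT : ℝ} (hs : 0 < s) (ht : 0 < t)
    (hR1 : 0 < R1) (hR01 : R0 ≤ s * (1 + 1 / 50)) (hR11 : 2 * s * (1 - 1 / 100) ≤ R1)
    (hR0 : 0 < R0) (hG : 0 ≤ G) (hC : 0 ≤ C1) (hD1 : 0 ≤ D1)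
    (hGb : G * 2 ^ ((1 : ℝ) / 16) ≤ Gb)
    (h : D0 / R0 ≤ G * (D1 / R1 + 2 * C1 * √(2 * ΔT / s))) :
    D0 / √(s * t) ≤ Gb * ((√2)⁻¹ * (D1 / √(2 * s * t)) + 3 * C1 * √(ΔT / t)) := by
  have hst : 0 < √(s * t) := Real.sqrt_pos.2 (by positivity)
  have hκ := kap_le
  set κ : ℝ := 2 ^ ((1 : ℝ) / 16) with hκdef
  have hκ1 : 1 ≤ κ := Real.one_le_rpow (by norm_num) (by norm_num)
  have e2 : √(2 * s * t) = √2 * √(s * t) := by
    rw [mul_assoc, Real.sqrt_mul (by norm_num)]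
  have hs2 : 0 < √2 := by positivity
  have hs22 : √2 * √2 = 2 := Real.mul_self_sqrt (by norm_num)
  -- first term
  have a1 : R0 / √(s * t) * (D1 / R1) ≤ κ * ((√2)⁻¹ * (D1 / √(2 * s * t))) := by
    have b1 : (√2)⁻¹ * (D1 / √(2 * s * t)) = D1 / (2 * √(s * t)) := by
      have e3 : (√2)⁻¹ * (D1 / (√2 * √(s * t))) = D1 / ((√2 * √2) * √(s * t)) := by
        field_simp
      rw [e2, e3, hs22]
    rw [b1, div_mul_div_comm, mul_div_assoc', div_le_div_iff₀ (by positivity) (by positivity)]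
    have b2 : R0 * 2 ≤ κ * R1 := by
      calc R0 * 2 ≤ s * (1 + 1 / 50) * 2 := by linarith
        _ ≤ s * (κ * (1 - 1 / 100)) * 2 := by
            have := mul_le_mul_of_nonneg_left hκ hs.le
            linarith
        _ = κ * (2 * s * (1 - 1 / 100)) := by ring
        _ ≤ κ * R1 := mul_le_mul_of_nonneg_left hR11 (by linarith)
    calc R0 * D1 * (2 * √(s * t)) = (R0 * 2) * (D1 * √(s * t)) := by ring
      _ ≤ (κ * R1) * (D1 * √(s * t)) := mul_le_mul_of_nonneg_right b2 (by positivity)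
      _ = κ * D1 * (√(s * t) * R1) := by ring
  -- second term
  have a2 : R0 / √(s * t) * (2 * C1 * √(2 * ΔT / s)) ≤ κ * (3 * C1 * √(ΔT / t)) := by
    have b1 : √(2 * ΔT / s) = √2 * √(ΔT / s) := by
      rw [mul_div_assoc, Real.sqrt_mul (by norm_num)]
    have b3 : √(ΔT / s) * s = √(s * t) * √(ΔT / t) := by
      rw [← Real.sqrt_mul (by positivity)]
      have : s * t * (ΔT / t) = s ^ 2 * (ΔT / s) := by field_simp
      rw [this, Real.sqrt_mul (by positivity), Real.sqrt_sq hs.le]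
      ring
    have b4 : √2 ≤ 3 / 2 := by
      rw [Real.sqrt_le_left (by norm_num)]; norm_num
    rw [b1, div_mul_eq_mul_div, div_le_iff₀ hst]
    have c1 : 0 ≤ √(ΔT / s) := Real.sqrt_nonneg _
    have c2 : 0 ≤ √(ΔT / t) := Real.sqrt_nonneg _
    calc R0 * (2 * C1 * (√2 * √(ΔT / s)))
        ≤ (s * (1 + 1 / 50)) * (2 * C1 * (√2 * √(ΔT / s))) :=
          mul_le_mul_of_nonneg_right hR01 (by positivity)
      _ = ((1 + 1 / 50) * √2) * (2 * C1) * (√(ΔT / s) * s) := by ring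
      _ ≤ (κ * (3 / 2)) * (2 * C1) * (√(ΔT / s) * s) := by
          apply mul_le_mul_of_nonneg_right _ (by positivity)
          apply mul_le_mul_of_nonneg_right _ (by positivity)
          apply mul_le_mul _ b4 hs2.le (by linarith)
          linarith
      _ = κ * (3 * C1 * √(ΔT / t)) * √(s * t) := by rw [b3]; ring
  have e0 : D0 / √(s * t) = R0 / √(s * t) * (D0 / R0) := by field_simp
  rw [e0]
  calc R0 / √(s * t) * (D0 / R0)
      ≤ R0 / √(s * t) * (G * (D1 / R1 + 2 * C1 * √(2 * ΔT / s))) :=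
        mul_le_mul_of_nonneg_left h (by positivity)
    _ = G * (R0 / √(s * t) * (D1 / R1) + R0 / √(s * t) * (2 * C1 * √(2 * ΔT / s))) := by ring
    _ ≤ G * (κ * ((√2)⁻¹ * (D1 / √(2 * s * t))) + κ * (3 * C1 * √(ΔT / t))) :=
        mul_le_mul_of_nonneg_left (add_le_add a1 a2) hG
    _ = G * κ * ((√2)⁻¹ * (D1 / √(2 * s * t)) + 3 * C1 * √(ΔT / t)) := by ring
    _ ≤ Gb * ((√2)⁻¹ * (D1 / √(2 * s * t)) + 3 * C1 * √(ΔT / t)) := by
        apply mul_le_mul_of_nonneg_right hGb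
        positivity

/-- the top bound in normalised form -/
lemma renorm_top {DJ RJ s t X0 TJ Ct a ε : ℝ} {P J : ℕ} (hs16 : 1 / 16 ≤ s) (hs8 : s ≤ 1 / 8)
    (ht : 0 < t) (hst : s = 2 ^ J * t) (hRJ : 0 < RJ) (hRJ2 : RJ ≤ 2 * s) (hT : 0 ≤ TJ)
    (hDJ : 0 ≤ DJ) (ha : 0 ≤ a) (haP : 2 * a * P = ε) (hε : ε ≤ 1)
    (hX : t ^ a ≤ X0) (hX0 : 0 < X0)
    (h : DJ / RJ ≤ Ct * X0⁻¹ ^ P * √TJ) :
    (DJ / √(s * t)) ^ 2 ≤ 8 * Ct ^ 2 * 2 ^ (ε * J) * (TJ / t) := by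
  have hs0 : 0 < s := by linarith
  have h1 : DJ ≤ 2 * s * (Ct * X0⁻¹ ^ P * √TJ) := by
    have e : DJ = RJ * (DJ / RJ) := by field_simp
    rw [e]
    exact mul_le_mul hRJ2 h (by positivity) (by positivity)
  have h2 : DJ ^ 2 ≤ (2 * s * (Ct * X0⁻¹ ^ P * √TJ)) ^ 2 := pow_le_pow_left₀ hDJ h1 2
  have e3 : (2 * s * (Ct * X0⁻¹ ^ P * √TJ)) ^ 2 = 4 * s ^ 2 * Ct ^ 2 * (X0⁻¹ ^ P) ^ 2 * TJ := by
    have : √TJ ^ 2 = TJ := Real.sq_sqrt hT
    calc (2 * s * (Ct * X0⁻¹ ^ P * √TJ)) ^ 2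
        = 4 * s ^ 2 * Ct ^ 2 * (X0⁻¹ ^ P) ^ 2 * √TJ ^ 2 := by ring
      _ = _ := by rw [this]
  -- `X0⁻¹ ^ (2P) ≤ 16 * 2^(ε J)`
  have hta : 0 < t ^ a := Real.rpow_pos_of_pos ht a
  have h4 : (X0⁻¹ ^ P) ^ 2 ≤ 16 * 2 ^ (ε * J) := by
    have c1 : X0⁻¹ ≤ (t ^ a)⁻¹ := inv_anti₀ hta hX
    have c2 : (X0⁻¹ ^ P) ^ 2 ≤ ((t ^ a)⁻¹ ^ P) ^ 2 := by
      apply pow_le_pow_left₀ (by positivity)
      exact pow_le_pow_left₀ (by positivity) c1 P
    have c3 : ((t ^ a)⁻¹ ^ P) ^ 2 = (t⁻¹) ^ ε := by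
      rw [← Real.inv_rpow ht.le, ← Real.rpow_natCast, ← Real.rpow_natCast, ← Real.rpow_mul
        (Real.rpow_nonneg (by positivity) _), ← Real.rpow_mul (by positivity)]
      congr 1
      rw [← haP]; push_cast; ring
    have c4 : t⁻¹ ≤ 16 * 2 ^ J := by
      rw [inv_le_iff_one_le_mul₀ ht]
      rw [hst] at hs16
      linarith
    have hε0 : 0 ≤ ε := by rw [← haP]; positivity
    have c5 : (t⁻¹) ^ ε ≤ (16 * 2 ^ J) ^ ε :=
      Real.rpow_le_rpow (by positivity) c4 hε0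
    have c6 : ((16 : ℝ) * 2 ^ J) ^ ε = 16 ^ ε * 2 ^ (ε * J) := by
      rw [Real.mul_rpow (by norm_num) (by positivity), ← Real.rpow_natCast 2 J,
        ← Real.rpow_mul (by norm_num)]
      congr 2
      ring
    have c7 : (16 : ℝ) ^ ε ≤ 16 := by
      calc (16 : ℝ) ^ ε ≤ 16 ^ (1 : ℝ) := Real.rpow_le_rpow_of_exponent_le (by norm_num) hε
        _ = 16 := Real.rpow_one _
    calc (X0⁻¹ ^ P) ^ 2 ≤ (t⁻¹) ^ ε := c2.trans (le_of_eq c3)
      _ ≤ 16 ^ ε * 2 ^ (ε * J) := c5.trans (le_of_eq c6)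
      _ ≤ 16 * 2 ^ (ε * J) := mul_le_mul_of_nonneg_right c7 (by positivity)
  rw [div_pow, Real.sq_sqrt (by positivity), div_le_iff₀ (by positivity)]
  have hpe : (0 : ℝ) < 2 ^ (ε * J) := by positivity
  calc DJ ^ 2 ≤ 4 * s ^ 2 * Ct ^ 2 * (X0⁻¹ ^ P) ^ 2 * TJ := h2.trans (le_of_eq e3)
    _ ≤ 4 * s ^ 2 * Ct ^ 2 * (16 * 2 ^ (ε * J)) * TJ := by
        apply mul_le_mul_of_nonneg_right _ hT
        exact mul_le_mul_of_nonneg_left h4 (by positivity)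
    _ = (64 * s) * (s * Ct ^ 2 * 2 ^ (ε * J) * TJ) := by ring
    _ ≤ 8 * (s * Ct ^ 2 * 2 ^ (ε * J) * TJ) := by
        apply mul_le_mul_of_nonneg_right _ (by positivity)
        linarith
    _ = 8 * Ct ^ 2 * 2 ^ (ε * J) * (TJ / t) * (s * t) := by
        field_simp

lemma sqrt_pow_mul {t : ℝ} (ht : 0 < t) (i : ℕ) : √(2 ^ i * t * t) = √2 ^ i * t := by
  rw [mul_assoc, Real.sqrt_mul (by positivity), Real.sqrt_mul_self ht.le]
  congr 1
  rw [Real.sqrt_eq_iff_mul_self_eq (by positivity) (by positivity), ← mul_pow,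
    Real.mul_self_sqrt (by norm_num)]

namespace Line

variable {K c C1 Gg CU : ℝ} {Ng Nb : ℕ} {j1 J : ℕ} {t X0 ℓ : ℝ} {bad : ℕ → Prop}
  {D R T : ℝ → ℝ}

open Classical in
/-- (B') in 858's normalisation -/
lemma hB (h : Line K c C1 Gg CU Ng Nb j1 J t X0 ℓ bad D R T) (hK : 0 < K) (hc : 0 < c)
    (hC : 0 ≤ C1) (hGg : 1 ≤ Gg) (hNg : 1 ≤ Ng) (hNb : 4 ≤ Nb)
    (hG : Gg ^ Ng ≤ (2 : ℝ) ^ ((1 : ℝ) / 16)) {ε del : ℝ} (hdel : 0 < del)
    (hε0 : 0 < ε) (hεl1 : ε ≤ eps0 K c C1 Gg Ng) (hεl2 : ε ≤ eps0 K c C1 2 Nb) {i : ℕ}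
    (hi2 : 2 / ε ^ 2 ≤ (2 : ℝ) ^ i) (hi50 : (50 : ℝ) ≤ 2 ^ i) (hi1 : 1 ≤ i) (hij1 : j1 ≤ i)
    (hiJ : i < J) (hsm : D (2 ^ (i + 1) * t) / √(2 ^ (i + 1) * t * t) ≤ ε / 2 * √2 ^ (i + 1)) :
    D (2 ^ i * t) / √(2 ^ i * t * t) ≤
      (if bad i then (2 : ℝ) ^ (Nb + 1) else (2 : ℝ) ^ ((1 : ℝ) / 8)) * ((√2)⁻¹ *
        (D (2 ^ (i + 1) * t) / √(2 ^ (i + 1) * t * t)) +
        3 * C1 * √((1 + del) * (T (2 ^ i * t) / t) - T (4 * (2 ^ i * t)) / t)) := by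
  have ht := h.t_pos
  have hℓ := h.ℓ_ge
  have hsi := h.s_pos i
  have hs := h.s_le hiJ.le
  have e2 : (2 : ℝ) ^ (i + 1) * t = 2 * (2 ^ i * t) := by rw [pow_succ]; ring
  have h2t : 2 * t ≤ 2 ^ i * t := by
    have := h.s_mono hi1
    linarith only [this]
  -- smallness
  have hR1 := h.R_bd (τ := 2 * (2 ^ i * t)) (by linarith only [h2t, ht])
    (by linarith only [hs, hℓ])
  have hR0 := h.R_bd (τ := 2 ^ i * t) h2t (by linarith only [hs, hℓ])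
  have hD1 : D (2 * (2 ^ i * t)) ≤ ε / 2 * (2 * (2 ^ i * t)) := by
    rw [sqrt_pow_mul ht, e2] at hsm
    rw [div_le_iff₀ (by positivity)] at hsm
    refine hsm.trans (le_of_eq ?_)
    have : √2 ^ (i + 1) * √2 ^ (i + 1) = 2 ^ (i + 1) := by
      rw [← mul_pow, Real.mul_self_sqrt (by norm_num)]
    calc ε / 2 * √2 ^ (i + 1) * (√2 ^ (i + 1) * t)
        = ε / 2 * ((√2 ^ (i + 1) * √2 ^ (i + 1)) * t) := by ring
      _ = ε / 2 * (2 * (2 ^ i * t)) := by rw [this, pow_succ]; ring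
  have hsmD : D (2 * (2 ^ i * t)) / R (2 * (2 ^ i * t)) ≤ ε := by
    rw [div_le_iff₀ (by linarith only [hR1.1, hsi])]
    nlinarith only [hR1.1, hD1, hε0]
  have hTi : T (2 ^ i * t) ≤ 2 * t := h.T_le _ hsi.le (by linarith only [hs, hℓ])
  have hsmT : T (2 ^ i * t) ≤ ε ^ 2 * (2 ^ i * t) := by
    refine hTi.trans ?_
    rw [div_le_iff₀ (by positivity)] at hi2
    nlinarith only [hi2, ht]
  have hεsq : ∀ y, ε ≤ y → ε ^ 2 * (2 ^ i * t) ≤ y ^ 2 * (2 ^ i * t) := fun y hy =>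
    mul_le_mul_of_nonneg_right (pow_le_pow_left₀ hε0.le hy 2) hsi.le
  have hR0u : R (2 ^ i * t) ≤ 2 ^ i * t * (1 + 1 / 50) := by
    have h5 := (abs_le.1 (h.R_le (2 ^ i * t) hsi.le (by linarith only [hs, hℓ]))).2
    nlinarith only [h5, hi50, ht]
  have hR1l : 2 * (2 ^ i * t) * (1 - 1 / 100) ≤ R (2 * (2 ^ i * t)) := by
    have h5 := (abs_le.1 (h.R_le (2 * (2 ^ i * t)) (by linarith only [hsi])
      (by linarith only [hs, hℓ]))).1
    nlinarith only [h5, hi50, ht]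
  have hR1p : 0 < R (2 * (2 ^ i * t)) := by linarith only [hR1.1, hsi]
  have hR0p : 0 < R (2 ^ i * t) := by linarith only [hR0.1, hsi]
  have hfin : ∀ Gb : ℝ, 0 ≤ Gb →
      D (2 ^ i * t) / √(2 ^ i * t * t) ≤ Gb * ((√2)⁻¹ *
        (D (2 * (2 ^ i * t)) / √(2 * (2 ^ i * t) * t)) +
        3 * C1 * √((T (2 ^ i * t) - T (4 * (2 ^ i * t))) / t)) →
      D (2 ^ i * t) / √(2 ^ i * t * t) ≤ Gb * ((√2)⁻¹ *
        (D (2 ^ (i + 1) * t) / √(2 ^ (i + 1) * t * t)) +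
        3 * C1 * √((1 + del) * (T (2 ^ i * t) / t) - T (4 * (2 ^ i * t)) / t)) :=
    fun Gb hGb0 hh => by
    rw [e2]
    refine hh.trans ?_
    apply mul_le_mul_of_nonneg_left _ hGb0
    have h1 : √((T (2 ^ i * t) - T (4 * (2 ^ i * t))) / t) ≤
        √((1 + del) * (T (2 ^ i * t) / t) - T (4 * (2 ^ i * t)) / t) := by
      apply Real.sqrt_le_sqrt
      rw [sub_div]
      have : 0 ≤ del * (T (2 ^ i * t) / t) := by
        have := h.T_nonneg (2 ^ i * t)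
        positivity
      linarith only [this]
    exact add_le_add le_rfl (mul_le_mul_of_nonneg_left h1 (by positivity))
  by_cases hb : bad i
  · simp only [if_pos hb]
    refine hfin _ (by positivity) ?_
    have hstep := h.step_bad hK hc hC (by omega) (j := i) hij1 hi1 hiJ hNb (hsmD.trans hεl2)
      (hsmT.trans (hεsq _ hεl2))
    refine renorm hsi ht hR1p hR0u hR1l hR0p (by positivity) hC (h.D_nonneg _) ?_ hstep
    have : (2 : ℝ) ^ ((1 : ℝ) / 16) ≤ 2 := by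
      calc (2 : ℝ) ^ ((1 : ℝ) / 16) ≤ 2 ^ (1 : ℝ) :=
            Real.rpow_le_rpow_of_exponent_le (by norm_num) (by norm_num)
        _ = 2 := Real.rpow_one _
    rw [pow_succ]
    exact mul_le_mul_of_nonneg_left this (by positivity)
  · simp only [if_neg hb]
    refine hfin _ (by positivity) ?_
    have hstep := h.step_good hK hc hC hNg hGg (j := i) hij1 hi1 hiJ hb (hsmD.trans hεl1)
      (hsmT.trans (hεsq _ hεl1))
    refine renorm hsi ht hR1p hR0u hR1l hR0p (by positivity) hC (h.D_nonneg _) ?_ hstep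
    have : (2 : ℝ) ^ ((1 : ℝ) / 8) = 2 ^ ((1 : ℝ) / 16) * 2 ^ ((1 : ℝ) / 16) := by
      rw [← Real.rpow_add (by norm_num)]; norm_num
    rw [this]
    exact mul_le_mul_of_nonneg_right hG (by positivity)

/-- smallness hypothesis of the top chain -/
lemma small_top {A A1 t a X0 Tv : ℝ} {P : ℕ} (hA : 0 ≤ A) (hA1 : A1 = √2 * A + 1) (ht : 0 < t)
    (ht1 : t ≤ 1) (htA : t ≤ A1⁻¹ ^ 4) (htX : t ^ a ≤ X0) (haP : a * (P + 1) ≤ 1 / 4)
    (hT : Tv ≤ 2 * t) : A * √Tv ≤ X0 ^ (P + 1) := by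
  have hA10 : 0 < A1 := by rw [hA1]; positivity
  have hta0 : 0 < t ^ a := Real.rpow_pos_of_pos ht a
  have b1 : (t ^ a) ^ (P + 1) ≤ X0 ^ (P + 1) := pow_le_pow_left₀ hta0.le htX _
  refine le_trans ?_ b1
  have b2 : (t ^ a) ^ (P + 1) = t ^ (a * (P + 1)) := by
    rw [← Real.rpow_natCast, ← Real.rpow_mul ht.le]
    push_cast; ring_nf
  rw [b2]
  have b3 : t ^ ((1 : ℝ) / 4) ≤ t ^ (a * (P + 1)) :=
    Real.rpow_le_rpow_of_exponent_ge ht ht1 haP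
  refine le_trans ?_ b3
  have b4 : √Tv ≤ √2 * √t := by
    rw [← Real.sqrt_mul (by norm_num)]
    exact Real.sqrt_le_sqrt hT
  have b5 : √t = t ^ ((1 : ℝ) / 4) * t ^ ((1 : ℝ) / 4) := by
    rw [Real.sqrt_eq_rpow, ← Real.rpow_add ht]; norm_num
  have b6 : t ^ ((1 : ℝ) / 4) ≤ A1⁻¹ := by
    have : A1⁻¹ = (A1⁻¹ ^ 4) ^ ((1 : ℝ) / 4) := by
      rw [← Real.rpow_natCast (A1⁻¹) 4, ← Real.rpow_mul (by positivity)]
      norm_num
    rw [this]
    exact Real.rpow_le_rpow ht.le htA (by norm_num)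
  have hq0 : 0 ≤ t ^ ((1 : ℝ) / 4) := by positivity
  have b7 : √2 * A * t ^ ((1 : ℝ) / 4) ≤ 1 := by
    calc √2 * A * t ^ ((1 : ℝ) / 4) ≤ A1 * A1⁻¹ := by
          apply mul_le_mul _ b6 hq0 hA10.le
          rw [hA1]; linarith
      _ = 1 := mul_inv_cancel₀ hA10.ne'
  calc A * √Tv ≤ A * (√2 * √t) := mul_le_mul_of_nonneg_left b4 hA
    _ = (√2 * A * t ^ ((1 : ℝ) / 4)) * t ^ ((1 : ℝ) / 4) := by rw [b5]; ring
    _ ≤ 1 * t ^ ((1 : ℝ) / 4) := mul_le_mul_of_nonneg_right b7 hq0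
    _ = t ^ ((1 : ℝ) / 4) := one_mul _

/-- the top bound in 858's normalisation -/
lemma hTop (h : Line K c C1 Gg CU Ng Nb j1 J t X0 ℓ bad D R T) (hK : 0 < K) (hc : 0 < c)
    (hC : 0 ≤ C1) (hNb : 1 ≤ Nb) {A1 a eps : ℝ} (hA1 : A1 = √2 * topA K c C1 Nb + 1)
    (ht1 : t ≤ 1) (htA : t ≤ A1⁻¹ ^ 4) (htX : t ^ a ≤ X0) (ha0 : 0 ≤ a)
    (haP : a * (topP Nb + 1) ≤ 1 / 4) (hae : 2 * a * topP Nb ≤ eps) (hJ1 : 1 ≤ J)
    (hJj1 : j1 ≤ J) :
    (D (2 ^ J * t) / √(2 ^ J * t * t)) ^ 2 ≤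
      8 * topC C1 Nb ^ 2 * (2 : ℝ) ^ (eps * J) * (T (2 ^ J * t) / t) := by
  have ht := h.t_pos
  have hℓ := h.ℓ_ge
  have hsJ := h.s_pos J
  have hsJ8 := h.J_le
  have hsJ16 := h.J_ge
  have hA : 0 ≤ topA K c C1 Nb := by unfold topA; positivity
  have h2t : 2 * t ≤ 2 ^ J * t := by
    have := h.s_mono hJ1
    linarith only [this]
  have hTJ : T (2 ^ J * t) ≤ 2 * t := h.T_le _ hsJ.le (by linarith only [hsJ8, hℓ])
  have hP0 : (0 : ℝ) ≤ topP Nb := Nat.cast_nonneg _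
  have htop := top_chain hK hc hC hNb (ℓ := ℓ) (X0 := X0) (s := 2 ^ J * t) (D := D)
    (R := R) (T := T) h.ℓ_ge h.ℓ_le h.X0_pos h.X0_le hsJ16 hsJ8 h.D_last
    (fun τ h1 h2 => h.R_bd (by linarith only [h1, h2t]) h2) (fun τ _ _ => h.T_nonneg τ)
    (fun τ τ' h1 h2 h3 => h.T_anti τ τ' (by linarith only [h1, hsJ]) h2 h3)
    (fun τ₁ τ₂ τ₃ h1 h2 h3 h4 h5 h6 h7 h8 =>
      h.always τ₁ τ₂ τ₃ ((h.s_mono hJj1).trans h1) h2 h3 h4 h5 h6 h7 h8)
    (fun τ₁ h1 h2 h3 h4 => h.last τ₁ ((h.s_mono hJj1).trans h1) h2 h3 h4)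
    (small_top hA hA1 ht ht1 htA htX haP hTJ)
  have hRJ := h.R_bd (τ := 2 ^ J * t) h2t (by linarith only [hsJ8, hℓ])
  have hrt := renorm_top (s := 2 ^ J * t) (P := topP Nb) (J := J) (a := a)
    (ε := 2 * a * topP Nb) hsJ16 hsJ8
    ht rfl (by linarith only [hRJ.1, hsJ]) hRJ.2 (h.T_nonneg _) (h.D_nonneg _) ha0 rfl
    (by nlinarith only [haP, ha0, hP0]) htX h.X0_pos htop
  refine hrt.trans ?_
  apply mul_le_mul_of_nonneg_right _ (div_nonneg (h.T_nonneg _) ht.le)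
  apply mul_le_mul_of_nonneg_left _ (by positivity)
  apply Real.rpow_le_rpow_of_exponent_le (by norm_num)
  exact mul_le_mul_of_nonneg_right hae (Nat.cast_nonneg _)

end Line

open Classical in
/-- **Decay along one line**: the excess and the distance to the ray decay. -/
theorem line_decay {K c C1 Gg CU : ℝ} {Ng Nb : ℕ} (hK : 0 < K) (hc : 0 < c) (hC : 0 ≤ C1)
    (hGg : 1 ≤ Gg) (hCU : 0 ≤ CU) (hNg : 1 ≤ Ng) (hNb : 4 ≤ Nb)
    (hG : Gg ^ Ng ≤ (2 : ℝ) ^ ((1 : ℝ) / 16)) :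
    ∃ β c3 a : ℝ, 0 < β ∧ 0 < c3 ∧ 0 < a ∧ a ≤ 1 / 4 ∧ ∀ j1 : ℕ, ∃ (j0 : ℕ) (t0 C : ℝ),
      j1 ≤ j0 ∧ 0 < t0 ∧ 0 ≤ C ∧ ∀ (J : ℕ) (t X0 ℓ : ℝ) (bad : ℕ → Prop) (D R T : ℝ → ℝ),
      Line K c C1 Gg CU Ng Nb j1 J t X0 ℓ bad D R T → t ≤ t0 → t ^ a ≤ X0 →
      (∀ j, j ≤ J → (#{i ∈ range j | bad i} : ℝ) ≤ c3 * (1 + j)) →
      ∀ j, j0 ≤ j → j ≤ J → T (2 ^ j * t) ≤ C * t * (2 : ℝ) ^ (-β * j) ∧
        D (2 ^ j * t) ^ 2 ≤ C * t * (2 ^ j * t) * (2 : ℝ) ^ (-β * j) := by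
  have hNb1 : 1 ≤ Nb := by omega
  obtain ⟨β, c3, eps, del, Hη, hβ, hc3, heps, hdel, hHη, hcl⟩ :=
    closing_pre CU (3 * C1) (2 ^ (Nb + 1)) (8 * topC C1 Nb ^ 2) hCU (by positivity)
      (one_le_pow₀ (by norm_num)) (by positivity)
  -- the smallness constants
  have hε1 := eps0_pos (K := K) (c := c) (C1 := C1) (G := Gg) (N := Ng) hK hc hC hGg hNg
  have hε2 := eps0_pos (K := K) (c := c) (C1 := C1) (G := 2) (N := Nb) hK hc hC (by norm_num) hNb1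
  obtain ⟨ε, hε0, hεl1, hεl2⟩ : ∃ ε : ℝ, 0 < ε ∧ ε ≤ eps0 K c C1 Gg Ng ∧
      ε ≤ eps0 K c C1 2 Nb := ⟨_, lt_min hε1 hε2, min_le_left _ _, min_le_right _ _⟩
  obtain ⟨m1, hm10, hm11, hm1e⟩ : ∃ m1 : ℝ, 0 < m1 ∧ m1 ≤ 1 ∧ m1 ≤ eps :=
    ⟨min eps 1, lt_min heps one_pos, min_le_right _ _, min_le_left _ _⟩
  have hP0 : (0 : ℝ) ≤ topP Nb := Nat.cast_nonneg _
  obtain ⟨a, ha0, haP⟩ : ∃ a : ℝ, 0 < a ∧ a * (topP Nb + 1) = m1 / 4 :=
    ⟨m1 / (4 * (topP Nb + 1)), by positivity, by field_simp⟩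
  have haP2 : 2 * a * topP Nb ≤ eps := by nlinarith only [haP, ha0, hP0, hm1e, hm10]
  have ha1 : a ≤ 1 / 4 := by nlinarith only [haP, ha0, hP0, hm11]
  refine ⟨β, c3, a, hβ, hc3, ha0, ha1, fun j1 => ?_⟩
  obtain ⟨j2, hj2⟩ : ∃ j2 : ℕ, max (2 / ε ^ 2) 50 ≤ (2 : ℝ) ^ j2 := by
    obtain ⟨n, hn⟩ := pow_unbounded_of_one_lt (max (2 / ε ^ 2) 50) (one_lt_two (α := ℝ))
    exact ⟨n, hn.le⟩
  have hj2a : 2 / ε ^ 2 ≤ (2 : ℝ) ^ j2 := (le_max_left _ _).trans hj2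
  have hj2b : (50 : ℝ) ≤ (2 : ℝ) ^ j2 := (le_max_right _ _).trans hj2
  obtain ⟨j0, C, hj0, -, hC0, hmain⟩ := hcl (ε / 2) (by positivity) (max j1 (max j2 1))
  have hj01 : j1 ≤ j0 := (le_max_left _ _).trans hj0
  obtain ⟨A1, hA1⟩ : ∃ A1 : ℝ, A1 = √2 * topA K c C1 Nb + 1 := ⟨_, rfl⟩
  have hA10 : 0 < A1 := by rw [hA1]; unfold topA; positivity
  refine ⟨j0, min 1 (A1⁻¹ ^ 4), C, hj01, lt_min one_pos (by positivity), hC0, ?_⟩
  intro J t X0 ℓ bad D R T h ht0 htX hbad j hj0j hjJ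
  have ht := h.t_pos
  have ht1 : t ≤ 1 := ht0.trans (min_le_left _ _)
  have htA : t ≤ A1⁻¹ ^ 4 := ht0.trans (min_le_right _ _)
  have hℓ := h.ℓ_ge
  have hbig : ∀ i, max j1 (max j2 1) ≤ i → 2 / ε ^ 2 ≤ (2 : ℝ) ^ i ∧ (50 : ℝ) ≤ 2 ^ i ∧ 1 ≤ i ∧
      j1 ≤ i := fun i hi => by
    have h1 : j2 ≤ i := ((le_max_left _ _).trans (le_max_right _ _)).trans hi
    have h2 : (2 : ℝ) ^ j2 ≤ 2 ^ i := pow_le_pow_right₀ (by norm_num) h1
    exact ⟨hj2a.trans h2, hj2b.trans h2,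
      ((le_max_right _ _).trans (le_max_right _ _)).trans hi, (le_max_left _ _).trans hi⟩
  have hs8 : ∀ i ≤ J, 2 ^ i * t ≤ 1 / 8 := fun i hi => h.s_le hi
  -- the normalised sequences
  have hres := hmain J (fun i => T (min (2 ^ i * t) ℓ) / t)
    (fun i => D (2 ^ i * t) / √(2 ^ i * t * t)) bad
    (fun i => div_nonneg (h.T_nonneg _) ht.le)
    (fun i => by
      rw [div_le_iff₀ ht]
      exact h.T_le _ (le_min (h.s_pos i).le (by linarith only [hℓ])) (min_le_right _ _))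
    (fun i i' hii => by
      apply div_le_div_of_nonneg_right _ ht.le
      exact h.T_anti _ _ (le_min (h.s_pos i).le (by linarith only [hℓ]))
        (min_le_min_right _ (h.s_mono hii)) (min_le_right _ _))
    (fun i => div_nonneg (h.D_nonneg _) (Real.sqrt_nonneg _))
    (fun i hi hiJ _ => by
      -- (U)
      obtain ⟨-, -, hi1, hij1⟩ := hbig i hi
      have hsi := h.s_pos i
      have hs := hs8 i hiJ.le
      have h1 := h.U (2 ^ i * t) (h.s_mono hij1) (by linarith only [hs])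
      have e0 : (2 : ℝ) ^ (i + 1) * t = 2 * (2 ^ i * t) := by rw [pow_succ]; ring
      have e1 : min (2 ^ (i + 1) * t) ℓ = 2 * (2 ^ i * t) := by
        rw [e0]
        exact min_eq_left (by linarith only [hs, hℓ])
      rw [e1, div_pow, Real.sq_sqrt (by positivity)]
      rw [div_le_iff₀ ht]
      refine h1.trans (le_of_eq ?_)
      field_simp)
    (fun i hi hiJ hsm => by
      -- (B')
      obtain ⟨hi2, hi50, hi1, hij1⟩ := hbig i hi
      have hs := hs8 i hiJ.le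
      have e4 : (2 : ℝ) ^ (i + 2) * t = 4 * (2 ^ i * t) := by rw [pow_add]; ring
      have e1 : min (2 ^ i * t) ℓ = 2 ^ i * t := min_eq_left (by linarith only [hs, hℓ])
      have e1' : min (2 ^ (i + 2) * t) ℓ = 4 * (2 ^ i * t) := by
        rw [e4]; exact min_eq_left (by linarith only [hs, hℓ])
      have key := h.hB hK hc hC hGg hNg hNb hG hdel hε0 hεl1 hεl2 hi2 hi50 hi1 hij1 hiJ hsm
      rw [e1, e1']
      exact key)
    (by
      -- top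
      have hJj : max j1 (max j2 1) ≤ J := hj0.trans (hj0j.trans hjJ)
      obtain ⟨-, -, hJ1, hJj1⟩ := hbig J hJj
      have hsJ8 := h.J_le
      have e1 : min (2 ^ J * t) ℓ = 2 ^ J * t := min_eq_left (by linarith only [hsJ8, hℓ])
      rw [e1]
      exact h.hTop hK hc hC hNb1 hA1 ht1 htA htX ha0.le (by linarith only [haP, hm11]) haP2
        hJ1 hJj1)
    hbad j hj0j hjJ
  obtain ⟨-, hT, hD⟩ := hres
  have hsj := h.s_pos j
  have e1 : min (2 ^ j * t) ℓ = 2 ^ j * t :=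
    min_eq_left (by have := hs8 j hjJ; linarith only [this, hℓ])
  rw [e1, div_le_iff₀ ht] at hT
  rw [div_pow, Real.sq_sqrt (by positivity), div_le_iff₀ (by positivity)] at hD
  refine ⟨hT.trans (le_of_eq (by ring)), hD.trans (le_of_eq (by ring))⟩

end Crest.Agent.R247.Ch111
end
end

-- ▼ part R247/Chb_101
section

/-!
# R247, block (1-CH): bad count along a real base scale, choice of the base scale, conversion
(helper101, for 111)

`t = dy m` is the near scale, `t' ∈ [t, 2t)` a real base scale, `s_j = 2 ^ j * t'`.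
-/

set_option autoImplicit false
open Finset

noncomputable section
namespace Crest.Agent.R247.Chb101

open Crest.Agent.R247.Far553 Crest.Agent.R247.Num824

/-- one of the dyadic scales `dy i` near `2 ^ j * dy m` is bad -/
def badP (Bad : ℕ → Prop) (m j : ℕ) : Prop :=
  3 ≤ j ∧ ∃ i, Bad i ∧ m ≤ i + j + 4 ∧ i + j ≤ m + 3

/-- the same, and the `8` coarsest scales are bad by definition -/
def badQ (Bad : ℕ → Prop) (m j : ℕ) : Prop :=
  3 ≤ j ∧ ((∃ i, Bad i ∧ m ≤ i + j + 4 ∧ i + j ≤ m + 3) ∨ m ≤ j + 8)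


lemma not_badQ {Bad : ℕ → Prop} {m j : ℕ} (hj : 3 ≤ j) (h : ¬ badQ Bad m j) {i : ℕ}
    (h1 : m ≤ i + j + 4) (h2 : i + j ≤ m + 3) : ¬ Bad i ∧ 5 ≤ i := by
  refine ⟨fun hi => h ⟨hj, Or.inl ⟨i, hi, h1, h2⟩⟩, ?_⟩
  have h3 : ¬ m ≤ j + 8 := fun h3 => h ⟨hj, Or.inr h3⟩
  omega

open Classical in
/-- **Count of the bad scales**, for a real base scale. -/
theorem card_badP {c : ℝ} (hc : 0 ≤ c) {Bad : ℕ → Prop} {m : ℕ} (h : ¬ Hit c Bad m) {j : ℕ}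
    (hj : j ≤ m) : (#{i ∈ range j | badP Bad m i} : ℝ) ≤ 40 * c * (1 + j) := by
  -- a bad scale attached to each `i`
  have hex : ∀ i : ℕ, ∃ k : ℕ, badP Bad m i → Bad k ∧ m ≤ k + i + 4 ∧ k + i ≤ m + 3 := by
    intro i
    by_cases hi : badP Bad m i
    · obtain ⟨_, k, hk⟩ := hi
      exact ⟨k, fun _ => hk⟩
    · exact ⟨0, fun h => absurd h hi⟩
  choose f hf using hex
  set W : Finset ℕ := {k ∈ Ico (m - (j + 3)) (m + 1) | Bad k} with hW
  have h1 : #{i ∈ range j | badP Bad m i} ≤ 8 * #W := by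
    refine card_le_mul_card_image_of_maps_to (f := f) (fun i hi => ?_) 8 (fun k _ => ?_)
    · have hi := mem_filter.1 (Finset.mem_coe.1 hi)
      have h2 := hf i hi.2
      have h3 := mem_range.1 hi.1
      have h4 := hi.2.1
      rw [hW]
      refine Finset.mem_coe.2 (mem_filter.2 ⟨mem_Ico.2 ⟨by omega, by omega⟩, h2.1⟩)
    · have h5 : ({i ∈ {i ∈ range j | badP Bad m i} | f i = k} : Finset ℕ) ⊆
          Icc (m - (k + 4)) (m + 3 - k) := by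
        intro i hi
        obtain ⟨hi1, hi2⟩ := mem_filter.1 hi
        have h2 := hf i (mem_filter.1 hi1).2
        rw [hi2] at h2
        rw [mem_Icc]
        omega
      refine (card_le_card h5).trans ?_
      rw [Nat.card_Icc]
      omega
  have h2 : (#W : ℝ) ≤ c * ((j : ℝ) + 4) := by
    rcases le_total (j + 3) m with hjm | hjm
    · have h3 := not_hit h (i := m - (j + 3)) (by omega)
      refine h3.trans (mul_le_mul_of_nonneg_left (le_of_eq ?_) hc)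
      rw [Nat.cast_sub hjm]
      push_cast
      ring
    · have h3 := not_hit h (i := 0) (by omega)
      have h4 : m - (j + 3) = 0 := by omega
      rw [hW, h4]
      refine h3.trans (mul_le_mul_of_nonneg_left ?_ hc)
      have h5 : (m : ℝ) ≤ (j : ℝ) + 3 := by exact_mod_cast hjm
      push_cast
      linarith
  have h6 : (#{i ∈ range j | badP Bad m i} : ℝ) ≤ 8 * #W := by exact_mod_cast h1
  have h7 : (0 : ℝ) ≤ j := Nat.cast_nonneg j
  nlinarith [mul_nonneg hc h7]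

open Classical in
/-- the same, when the coarsest scales are declared to be bad -/
theorem card_badQ {c : ℝ} (hc : 0 < c) {Bad : ℕ → Prop} {m : ℕ} (hm : 8 / c + 8 ≤ m)
    (h : ¬ Hit c Bad m) {j : ℕ} (hj : j ≤ m) :
    (#{i ∈ range j | badQ Bad m i} : ℝ) ≤ 41 * c * (1 + j) := by
  have h1 := card_badP hc.le h hj
  have h7 : (0 : ℝ) ≤ j := Nat.cast_nonneg j
  rcases le_total (j + 8) m with hjm | hjm
  · have h2 : ({i ∈ range j | badQ Bad m i} : Finset ℕ) = {i ∈ range j | badP Bad m i} := by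
      ext i
      simp only [mem_filter, mem_range, badQ, badP]
      constructor
      · rintro ⟨hi, hi3, h4 | h4⟩
        · exact ⟨hi, hi3, h4⟩
        · omega
      · rintro ⟨hi, hi3, h4⟩
        exact ⟨hi, hi3, Or.inl h4⟩
    rw [h2]
    nlinarith [mul_nonneg hc.le h7]
  · have h2 : ({i ∈ range j | badQ Bad m i} : Finset ℕ) ⊆
        {i ∈ range j | badP Bad m i} ∪ Ico (m - 8) m := by
      intro i hi
      simp only [mem_filter, mem_range, badQ, badP, mem_union, mem_Ico] at hi ⊢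
      obtain ⟨hi, hi3, h4 | h4⟩ := hi
      · exact Or.inl ⟨hi, hi3, h4⟩
      · exact Or.inr ⟨by omega, by omega⟩
    have h3 := (card_le_card h2).trans (card_union_le _ _)
    rw [Nat.card_Ico] at h3
    have h4 : #{i ∈ range j | badQ Bad m i} ≤ #{i ∈ range j | badP Bad m i} + 8 := by omega
    have h5 : (#{i ∈ range j | badQ Bad m i} : ℝ) ≤ #{i ∈ range j | badP Bad m i} + 8 := by
      exact_mod_cast h4
    have h6 : (m : ℝ) ≤ (j : ℝ) + 8 := by exact_mod_cast hjm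
    have h8 : 8 / c ≤ 1 + j := by linarith
    have h9 : 8 ≤ c * (1 + j) := by
      rw [div_le_iff₀ hc] at h8
      linarith
    nlinarith

/-- **Choice of the base scale.** -/
theorem exists_base {m j0 : ℕ} {τ : ℝ} (h1 : 2 ^ j0 * dy m ≤ τ) (h2 : τ ≤ 1 / 8) :
    ∃ (j J : ℕ) (t' : ℝ), dy m ≤ t' ∧ t' < 2 * dy m ∧ 2 ^ j * t' = τ ∧ j0 ≤ j ∧ j ≤ J ∧
      J + 3 ≤ m ∧ 1 / 16 ≤ 2 ^ J * t' ∧ 2 ^ J * t' ≤ 1 / 8 := by
  have ht := dy_pos m
  have hp0 : (1 : ℝ) ≤ 2 ^ j0 := one_le_pow₀ (by norm_num)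
  have hτ : 0 < τ := lt_of_lt_of_le (by positivity) h1
  have hx : 1 ≤ τ / dy m := by
    rw [le_div_iff₀ ht]
    nlinarith
  obtain ⟨j, hj1, hj2⟩ := exists_nat_pow_near hx (by norm_num : (1 : ℝ) < 2)
  have hj1 := (le_div_iff₀ ht).1 hj1
  have hj2 := (div_lt_iff₀ ht).1 hj2
  have h2j : (0 : ℝ) < 2 ^ j := by positivity
  set t' := τ / 2 ^ j with ht'
  have he : 2 ^ j * t' = τ := by rw [ht']; field_simp
  have hta : dy m ≤ t' := by rw [ht', le_div_iff₀ h2j]; linarith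
  have htb : t' < 2 * dy m := by
    rw [ht', div_lt_iff₀ h2j]
    rw [pow_succ] at hj2
    linarith
  have ht0 : 0 < t' := lt_of_lt_of_le ht hta
  have hp1 : (1 : ℝ) ≤ 2 ^ j := one_le_pow₀ (by norm_num)
  have hy : 1 ≤ 1 / 8 / t' := by
    rw [le_div_iff₀ ht0]
    nlinarith
  obtain ⟨J, hJ1, hJ2⟩ := exists_nat_pow_near hy (by norm_num : (1 : ℝ) < 2)
  have hJ1 := (le_div_iff₀ ht0).1 hJ1
  have hJ2 := (div_lt_iff₀ ht0).1 hJ2
  have hm8 : (2 : ℝ) ^ J * dy m ≤ 1 / 8 :=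
    (mul_le_mul_of_nonneg_left hta (by positivity)).trans hJ1
  refine ⟨j, J, t', hta, htb, he, ?_, ?_, ?_, ?_, hJ1⟩
  · -- `j0 ≤ j`
    have h3 : (2 : ℝ) ^ j0 < 2 ^ (j + 1) := lt_of_mul_lt_mul_right (h1.trans_lt hj2) ht.le
    have := (pow_lt_pow_iff_right₀ (by norm_num : (1 : ℝ) < 2)).1 h3
    omega
  · -- `j ≤ J`
    have h3 : (2 : ℝ) ^ j < 2 ^ (J + 1) :=
      lt_of_mul_lt_mul_right ((he.trans_le h2).trans_lt hJ2) ht0.le
    have := (pow_lt_pow_iff_right₀ (by norm_num : (1 : ℝ) < 2)).1 h3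
    omega
  · -- `J + 3 ≤ m`
    unfold dy at hm8
    by_contra hcon
    have hcon : m < J + 3 := not_le.1 hcon
    have h4 : (1 / 2 : ℝ) ^ m = 1 / 2 ^ m := by rw [div_pow, one_pow]
    rw [h4] at hm8
    have h5 : (2 : ℝ) ^ m < 2 ^ (J + 3) := pow_lt_pow_right₀ (by norm_num) hcon
    have h6 : (2 : ℝ) ^ J * (1 / 2 ^ m) ≤ 1 / 8 := hm8
    have h7 : (2 : ℝ) ^ J * 8 ≤ 2 ^ m := by
      have hm0 : (0 : ℝ) < 2 ^ m := by positivity
      have h8 : (2 : ℝ) ^ J = 2 ^ J * (1 / 2 ^ m) * 2 ^ m := by field_simp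
      nlinarith
    rw [pow_add] at h5
    norm_num at h5
    linarith
  · rw [pow_succ] at hJ2
    linarith

lemma rpow_base {t' τ β : ℝ} {j : ℕ} (ht : 0 < t') (he : 2 ^ j * t' = τ) :
    (2 : ℝ) ^ (-β * j) = (t' / τ) ^ β := by
  have h1 : t' / τ = ((2 : ℝ) ^ (j : ℝ))⁻¹ := by
    rw [← he, Real.rpow_natCast]
    field_simp
  rw [h1, Real.inv_rpow (by positivity), ← Real.rpow_mul (by norm_num), ← Real.rpow_neg (by norm_num)]
  congr 1
  ring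

/-- **Conversion** from the base scale `t'` to `t`. -/
theorem conv {t t' τ β C A : ℝ} {j : ℕ} (hβ : 0 ≤ β) (hC : 0 ≤ C) (ht : 0 < t) (h1 : t ≤ t')
    (h2 : t' < 2 * t) (he : 2 ^ j * t' = τ) (hA : A ≤ C * t' * (2 : ℝ) ^ (-β * j)) :
    A ≤ C * 2 ^ (1 + β) * t * (t / τ) ^ β := by
  have ht' : 0 < t' := ht.trans_le h1
  have hτ : 0 < τ := by rw [← he]; positivity
  refine hA.trans ?_
  rw [rpow_base ht' he]
  have h3 : (t' / τ) ^ β ≤ 2 ^ β * (t / τ) ^ β := by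
    rw [← Real.mul_rpow (by norm_num) (by positivity)]
    refine Real.rpow_le_rpow (by positivity) ?_ hβ
    rw [← mul_div_assoc]
    exact div_le_div_of_nonneg_right h2.le hτ.le
  have h4 : (2 : ℝ) ^ (1 + β) = 2 * 2 ^ β := by rw [Real.rpow_add (by norm_num), Real.rpow_one]
  rw [h4]
  have h5 : 0 ≤ (t' / τ) ^ β := by positivity
  have h6 : 0 ≤ (2 : ℝ) ^ β * (t / τ) ^ β := by positivity
  calc C * t' * (t' / τ) ^ β ≤ C * t' * (2 ^ β * (t / τ) ^ β) := by gcongr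
    _ ≤ C * (2 * t) * (2 ^ β * (t / τ) ^ β) := by gcongr
    _ = C * (2 * 2 ^ β) * t * (t / τ) ^ β := by ring

/-- conversion with a smaller exponent -/
theorem conv_le {t t' τ β γ C A : ℝ} {j : ℕ} (hγ : γ ≤ β) (hβ : 0 ≤ β) (hC : 0 ≤ C) (ht : 0 < t)
    (h1 : t ≤ t') (h2 : t' < 2 * t) (he : 2 ^ j * t' = τ)
    (hA : A ≤ C * t' * (2 : ℝ) ^ (-β * j)) :
    A ≤ C * 2 ^ (1 + β) * t * (t / τ) ^ γ := by
  have ht' : 0 < t' := ht.trans_le h1
  have hτ : 0 < τ := by rw [← he]; positivity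
  refine (conv hβ hC ht h1 h2 he hA).trans ?_
  have h3 : t / τ ≤ 1 := by
    rw [div_le_one hτ, ← he]
    have : (1 : ℝ) ≤ 2 ^ j := one_le_pow₀ (by norm_num)
    nlinarith
  have h4 : (t / τ) ^ β ≤ (t / τ) ^ γ := Real.rpow_le_rpow_of_exponent_ge (by positivity) h3 hγ
  gcongr

/-- conversion for the squared distance, `D² ≤ C t' s_j 2^{-βj}`, `s_j = τ` -/
theorem conv_sq {t t' τ β γ C A : ℝ} {j : ℕ} (hγ : γ ≤ β) (hβ : 0 ≤ β) (hC : 0 ≤ C) (ht : 0 < t)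
    (h1 : t ≤ t') (h2 : t' < 2 * t) (he : 2 ^ j * t' = τ)
    (hA : A ≤ C * t' * (2 ^ j * t') * (2 : ℝ) ^ (-β * j)) :
    A ≤ C * 2 ^ (1 + β) * t * τ * (t / τ) ^ γ := by
  have ht' : 0 < t' := ht.trans_le h1
  have hτ : 0 < τ := by rw [← he]; positivity
  have h3 : A / τ ≤ C * t' * (2 : ℝ) ^ (-β * j) := by
    rw [div_le_iff₀ hτ]
    rw [he] at hA
    linarith
  have h4 := conv_le hγ hβ hC ht h1 h2 he h3
  rw [div_le_iff₀ hτ] at h4
  linarith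

end Crest.Agent.R247.Chb101
end
end

-- ▼ part R247/Lin_101

/-!
# R247, block (1-CH): the elementary geometry of one line (helper101, for 111)

`w = C.T x lam v`, `σ τ = ray C z w τ`, `R τ = dist x (σ τ)`,
`D τ = dist (σ τ) (ray C x v (R τ))`, `T τ = Exc x w (σ τ)`.
-/

set_option autoImplicit false
set_option linter.unusedSectionVars false
open MeasureTheory Set Filter Topology Metric
open scoped ENNReal NNReal

noncomputable section
namespace Crest.Agent.R247.Lin101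

open Crest.Agent.R247.Mcp688 Crest.Agent.R247.Far553 Crest.Agent.R247.Exc853
open Crest.Agent.R247.FarAsm196 Crest.Agent.R247.Ch111

variable {n : ℕ} {κ : ℝ} {X : Type*} [MetricSpace X] [MeasurableSpace X] [BorelSpace X]
  {μ : Measure X}

/-- distance from `x` along the line -/
def Rl (C : Rad n κ X μ) (x z w : X) (τ : ℝ) : ℝ := dist x (ray C z w τ)

/-- distance from the ray of `v` -/
def Dl (C : Rad n κ X μ) (x z v w : X) (τ : ℝ) : ℝ :=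
  dist (ray C z w τ) (ray C x v (dist x (ray C z w τ)))

/-- excess along the line -/
def Tl (C : Rad n κ X μ) (x z w : X) (τ : ℝ) : ℝ := Exc x w (ray C z w τ)

/-- one line -/
structure Geo (C : Rad n κ X μ) (p x z v : X) (t lam : ℝ) : Prop where
  lam_mem : lam ∈ Ioc (0 : ℝ) 1
  U : (x, v) ∈ C.U
  mem : C.T x lam v ∈ ann p 4 8
  Uz : (z, C.T x lam v) ∈ C.U
  px : dist p x < 1
  xz : dist x z < t
  t_le : t ≤ 1 / 2

lemma ae_geo (C : Rad n κ X μ) (hκ : 0 ≤ κ) {p x z : X} {t lam : ℝ}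
    (hl : lam ∈ Ioc (0 : ℝ) 1) (hp : dist p x < 1) (hz : dist x z < t) (ht : t ≤ 1 / 2) :
    ∀ᵐ v ∂(Law508.Nu C x lam (ann p 4 8)), Geo C p x z v t lam := by
  have hW : MeasurableSet (ann p 4 8) := by
    have hd : Measurable (fun z : X => dist p z) :=
      (continuous_const.dist continuous_id).measurable
    exact (measurableSet_le measurable_const hd).inter (measurableSet_le hd measurable_const)
  have h1 := Law508.Nu_ae C x hl hW
  have h2 : ∀ᵐ v ∂(Law508.Nu C x lam (ann p 4 8)), (z, C.T x lam v) ∈ C.U := by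
    have h3 := Law508.Nu_preimage_le C hκ x hl hW {w | (z, w) ∉ C.U}
    have h4 : μ ({w | (z, w) ∉ C.U} ∩ ann p 4 8) = 0 :=
      measure_mono_null inter_subset_left (C.ae_U z)
    rw [h4] at h3
    exact le_antisymm h3 zero_le
  filter_upwards [h1, h2] with v hv hv2
  exact ⟨hl, hv.1, hv.2.2, hv2, hp, hz, ht⟩

namespace Geo

variable {C : Rad n κ X μ} {p x z v : X} {t lam : ℝ} (h : Geo C p x z v t lam)
include h

lemma t_pos : 0 < t := dist_nonneg.trans_lt h.xz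

lemma xw_gt : 3 < dist x (C.T x lam v) := by
  have h1 := dist_triangle p x (C.T x lam v)
  have h2 := h.mem.1
  have h3 := h.px
  linarith

lemma xw_lt : dist x (C.T x lam v) < 9 := by
  have h1 := dist_triangle x p (C.T x lam v)
  have h2 := h.mem.2
  have h3 := h.px
  rw [dist_comm x p] at h1
  linarith

lemma xw_eq : dist x (C.T x lam v) = lam * dist x v :=
  C.dist_left h.U ⟨h.lam_mem.1.le, h.lam_mem.2⟩

lemma xv_ge : dist x (C.T x lam v) ≤ dist x v := by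
  rw [h.xw_eq]
  have := h.lam_mem.2
  nlinarith [dist_nonneg (x := x) (y := v)]

lemma x_ne_v : x ≠ v := by
  intro hxv
  have h1 := h.xw_gt
  have h2 := h.xv_ge
  rw [← hxv, dist_self] at h2
  rw [← hxv] at h1
  linarith

lemma l_gt : 2 < dist z (C.T x lam v) := by
  have h1 := dist_triangle x z (C.T x lam v)
  have h2 := h.xw_gt
  have h3 := h.xz
  have h4 := h.t_le
  linarith

lemma l_lt : dist z (C.T x lam v) < 10 := by
  have h1 := dist_triangle z x (C.T x lam v)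
  have h2 := h.xw_lt
  have h3 := h.xz
  have h4 := h.t_le
  rw [dist_comm z x] at h1
  linarith


lemma z_ne_w : z ≠ C.T x lam v := by
  intro hzw
  have h1 := h.l_gt
  rw [← hzw, dist_self] at h1
  linarith

lemma isMin : IsMin z (C.T x lam v) (dist z (C.T x lam v)) (fun τ => ray C z (C.T x lam v) τ) :=
  isMin_of_rad C h.Uz h.z_ne_w

lemma R_le {τ : ℝ} (h0 : 0 ≤ τ) (h1 : τ ≤ dist z (C.T x lam v)) :
    |Rl C x z (C.T x lam v) τ - τ| ≤ dist x z := by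
  have h2 : dist z (ray C z (C.T x lam v) τ) = τ := by
    have := h.isMin.dist_le le_rfl h0 h1
    rw [h.isMin.zero] at this
    linarith
  have h3 := dist_triangle x z (ray C z (C.T x lam v) τ)
  have h4 := dist_triangle z x (ray C z (C.T x lam v) τ)
  rw [dist_comm z x] at h4
  unfold Rl
  rw [abs_le]
  constructor <;> linarith

lemma ray_last : ray C z (C.T x lam v) (dist z (C.T x lam v)) = C.T x lam v := h.isMin.last

lemma D_last : Dl C x z v (C.T x lam v) (dist z (C.T x lam v)) = 0 := by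
  unfold Dl
  rw [h.ray_last, h.xw_eq]
  unfold ray
  have hd : dist x v ≠ 0 := (dist_pos.2 h.x_ne_v).ne'
  rw [mul_div_assoc, div_self hd, mul_one, dist_self]

lemma D_nonneg (τ : ℝ) : 0 ≤ Dl C x z v (C.T x lam v) τ := dist_nonneg

lemma T_nonneg (τ : ℝ) : 0 ≤ Tl C x z (C.T x lam v) τ := Exc_nonneg _ _ _

lemma T_anti {τ τ' : ℝ} (h0 : 0 ≤ τ) (h1 : τ ≤ τ') (h2 : τ' ≤ dist z (C.T x lam v)) :
    Tl C x z (C.T x lam v) τ' ≤ Tl C x z (C.T x lam v) τ :=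
  h.isMin.exc_anti x h0 h1 h2

lemma T_le {τ : ℝ} (h0 : 0 ≤ τ) (h1 : τ ≤ dist z (C.T x lam v)) :
    Tl C x z (C.T x lam v) τ ≤ 2 * dist x z :=
  h.isMin.exc_le h0 h1


/-- the form used in 196's `DecayP` -/
lemma T_eq {τ : ℝ} (h0 : 0 ≤ τ) (h1 : τ ≤ dist z (C.T x lam v)) :
    Tl C x z (C.T x lam v) τ = dist x (ray C z (C.T x lam v) τ) - τ +
      (dist z (C.T x lam v) - dist x (C.T x lam v)) := by
  have h2 : dist (ray C z (C.T x lam v) τ) (C.T x lam v) = dist z (C.T x lam v) - τ :=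
    h.isMin.dist_w h0 h1
  unfold Tl Exc
  rw [h2]
  ring

/-- the ray of `v` continues beyond `w` -/
lemma X0_eq {θ : ℝ} (hθ : 0 < θ) (hlam : lam = 1 / (1 + θ)) :
    dist x v - dist x (C.T x lam v) = θ * dist x (C.T x lam v) := by
  rw [h.xw_eq, hlam]
  field_simp
  ring

lemma X0_eq' {θ : ℝ} (hθ : 0 < θ) (hlam : lam = 1 / (1 + θ)) :
    dist x v = (1 + θ) * dist x (C.T x lam v) := by
  have := h.X0_eq hθ hlam
  linarith

/-- **(U)** along the line -/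
lemma U_field {c : FarK} {δ : ℝ} {ph : ℕ → ℝ} (F : FarD c C x δ ph) [ProperSpace X]
    [IsFiniteMeasureOnCompacts μ] (hκ : 0 ≤ κ) (hn : 1 ≤ n)
    (hδ' : -1 ≤ δ) (hδ : δ ≤ 1 / 2) (hκ' : κ * 1600 ≤ 1) {τ : ℝ} (h1 : 2 * t ≤ τ)
    (h2 : τ ≤ 1 / 4) :
    Tl C x z (C.T x lam v) (2 * τ) ≤ (192 * 2 ^ n + 48) *
      (Dl C x z v (C.T x lam v) τ ^ 2 / τ) := by
  have ht := h.t_pos
  have hxz := h.xz
  exact far_U F hκ hn hδ' hδ hκ' (σ := fun τ => ray C z (C.T x lam v) τ) h.U h.x_ne_v h.lam_mem rfl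
    dist_nonneg h.isMin (by linarith [h.xw_lt]) (by linarith [h.xw_gt]) (by linarith)
    (by linarith) h2

/-- **All elementary fields of 111's `Line`**, base scale `t' ∈ [t, 2t)`. -/
theorem line {K c₁ C1 Gg CU : ℝ} {Ng Nb j0 J : ℕ} {t' θ : ℝ} {bad : ℕ → Prop}
    (hθ : 0 < θ) (hθ' : θ ≤ 1 / 20) (ht : t ≤ t')
    (hJ1 : 1 / 16 ≤ 2 ^ J * t') (hJ2 : 2 ^ J * t' ≤ 1 / 8)
    (good : ∀ j, j0 ≤ j → j < J → ¬ bad j → ∀ i < Ng,
      Stp K c₁ C1 Gg (Dl C x z v (C.T x lam v)) (Rl C x z (C.T x lam v))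
        (Tl C x z (C.T x lam v)) (2 ^ j * t' / Ng) (2 ^ j * t' + i * (2 ^ j * t' / Ng))
        (2 ^ j * t' + (i + 1) * (2 ^ j * t' / Ng)) (2 ^ j * t' + (i + 2) * (2 ^ j * t' / Ng)))
    (always : ∀ τ₁ τ₂ τ₃, 2 ^ j0 * t' ≤ τ₁ → τ₁ < τ₂ → τ₂ < τ₃ → τ₃ ≤ dist z (C.T x lam v) →
      Nb * (τ₂ - τ₁) ≤ τ₂ →
      Nb * (τ₂ - τ₁) ≤ dist z (C.T x lam v) + θ * dist x (C.T x lam v) - τ₂ →
      (τ₂ - τ₁) / 2 ≤ τ₃ - τ₂ → τ₃ - τ₂ ≤ τ₂ - τ₁ →
      Stp K c₁ C1 2 (Dl C x z v (C.T x lam v)) (Rl C x z (C.T x lam v))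
        (Tl C x z (C.T x lam v)) (τ₂ - τ₁) τ₁ τ₂ τ₃)
    (last : ∀ τ₁, 2 ^ j0 * t' ≤ τ₁ → τ₁ < dist z (C.T x lam v) →
      Nb * (dist z (C.T x lam v) - τ₁) ≤ θ * dist x (C.T x lam v) →
      2 * K * √((dist z (C.T x lam v) - τ₁) * Tl C x z (C.T x lam v) τ₁) ≤
        c₁ * (dist z (C.T x lam v) - τ₁) →
      Dl C x z v (C.T x lam v) τ₁ / Rl C x z (C.T x lam v) τ₁ ≤
        2 * (C1 / Rl C x z (C.T x lam v) (dist z (C.T x lam v)) *
          √((dist z (C.T x lam v) - τ₁) * Tl C x z (C.T x lam v) τ₁)))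
    (U : ∀ τ, 2 ^ j0 * t' ≤ τ → τ ≤ 1 / 4 → Tl C x z (C.T x lam v) (2 * τ) ≤
      CU * (Dl C x z v (C.T x lam v) τ ^ 2 / τ)) :
    Line K c₁ C1 Gg CU Ng Nb j0 J t' (θ * dist x (C.T x lam v)) (dist z (C.T x lam v)) bad
      (Dl C x z v (C.T x lam v)) (Rl C x z (C.T x lam v)) (Tl C x z (C.T x lam v)) where
  t_pos := h.t_pos.trans_le ht
  J_ge := hJ1
  J_le := hJ2
  ℓ_ge := h.l_gt.le
  ℓ_le := h.l_lt.le
  X0_pos := mul_pos hθ (by linarith [h.xw_gt])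
  X0_le := by
    have h1 := h.xw_lt
    have h2 := h.xw_gt
    calc θ * dist x (C.T x lam v) ≤ 1 / 20 * 9 := by gcongr
      _ ≤ 1 := by norm_num
  D_nonneg := h.D_nonneg
  D_last := h.D_last
  R_le := fun τ h0 h1 => (h.R_le h0 h1).trans (h.xz.le.trans ht)
  T_nonneg := h.T_nonneg
  T_anti := fun τ τ' h0 h1 h2 => h.T_anti h0 h1 h2
  T_le := fun τ h0 h1 => (h.T_le h0 h1).trans (by linarith [h.xz])
  good := good
  always := always
  last := last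
  U := U

end Geo

/-- `θ = dy j ^ a` is small for large `j` -/
lemma exists_theta {a : ℝ} (ha : 0 < a) {ε : ℝ} (hε : 0 < ε) :
    ∃ jm : ℕ, ∀ j, jm ≤ j → dy j ^ a ≤ ε := by
  have h1 : Tendsto (fun j : ℕ => ((1 / 2 : ℝ) ^ a) ^ j) atTop (𝓝 0) := by
    refine tendsto_pow_atTop_nhds_zero_of_lt_one (by positivity) ?_
    exact Real.rpow_lt_one (by norm_num) (by norm_num) ha
  obtain ⟨jm, hjm⟩ := (h1.eventually (ge_mem_nhds hε)).exists_forall_of_atTop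
  refine ⟨jm, fun j hj => ?_⟩
  have h2 := hjm j hj
  have h3 : dy j ^ a = ((1 / 2 : ℝ) ^ a) ^ j := by
    unfold dy
    rw [← Real.rpow_natCast, ← Real.rpow_natCast, ← Real.rpow_mul (by norm_num),
      ← Real.rpow_mul (by norm_num)]
    congr 1
    ring
  rw [h3]
  exact h2

lemma lamj_mem (a : ℝ) (j : ℕ) : lamj a j ∈ Ioc (0 : ℝ) 1 := by
  have h1 : 0 < dy j ^ a := Real.rpow_pos_of_pos (dy_pos j) _
  unfold lamj
  constructor
  · positivity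
  · rw [div_le_one (by positivity)]
    linarith

end Crest.Agent.R247.Lin101
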