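import Crest.Agent.R247.Nis2_710
import Crest.Agent.R247.Iso3_311
import Crest.Agent.R247.Rdg2_879
import Crest.Agent.R247.Ar3_659
import Crest.Agent.R247.Ms7_322
import Crest.Agent.R247.Rdg4_879
import Crest.Agent.R247.Jm1_216
import Crest.Agent.R247.Cal_550

-- ▼ part R247/Nis3_710
section

/-!
# Near isometry of `Ψ`: upper bound (N2), lower bound (N3)+(N4), and the combined form (near)
-/

set_option autoImplicit false
set_option linter.unusedSectionVars false
open MeasureTheory Set Filter Topology Crest.Agent.R247.Pyt710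
open scoped ENNReal NNReal RealInnerProductSpace

noncomputable section
namespace Crest.Agent.R247.Nis710

variable {n : ℕ} {X : Type*} [MetricSpace X] [MeasurableSpace X] [BorelSpace X]
  {μ ν : Measure X} [IsProbabilityMeasure ν]

local notation "𝔼" => EuclideanSpace ℝ (Fin n)

lemma integrable_inner_sq {D : X → 𝔼} (hDm : ∀ ξ, AEStronglyMeasurable (fun w => ⟪D w, ξ⟫) ν)
    (hD1 : ∀ᵐ w ∂ν, ‖D w‖ ≤ 1) (ξ : 𝔼) : Integrable (fun w => ⟪D w, ξ⟫ ^ 2) ν := by
  refine Integrable.mono' (integrable_const (‖ξ‖ ^ 2)) ((hDm ξ).pow 2) ?_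
  filter_upwards [hD1] with w hw
  rw [Real.norm_eq_abs, abs_of_nonneg (sq_nonneg _), ← sq_abs]
  have h1 := abs_real_inner_le_norm (D w) ξ
  have h2 : ‖D w‖ * ‖ξ‖ ≤ 1 * ‖ξ‖ := by gcongr
  have h3 : |⟪D w, ξ⟫| ≤ ‖ξ‖ := by linarith
  gcongr

/-- (N2): upper bound. -/
theorem psi_upper [SecondCountableTopology X] (hn : 0 < n) {p : X} {R ε : ℝ}
    (hν : ∀ᵐ w ∂ν, dist w p ≤ R) (hε : 0 ≤ ε) {D : X → X → 𝔼}
    (hDm : ∀ u ξ, AEStronglyMeasurable (fun w => ⟪D w u, ξ⟫) ν) {S : Set X}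
    (hD1 : ∀ u ∈ S, ∀ᵐ w ∂ν, ‖D w u‖ = 1)
    (hN1 : ∀ u ∈ S, ∀ ξ, ∫ w, ⟪D w u, ξ⟫ ^ 2 ∂ν ≤ (1 + ε) * ‖ξ‖ ^ 2 / n)
    {x y : X} {γ : ℝ → X} (hγ : LipschitzWith 1 γ) (h0 : γ 0 = x) (h1 : γ (dist x y) = y)
    (hder : ∀ᵐ s ∂(volume.restrict (Icc 0 (dist x y))), γ s ∈ S ∧ ∃ ξ : 𝔼, ‖ξ‖ ≤ 1 ∧
      ∀ᵐ w ∂ν, deriv (fun s => dist w (γ s)) s = ⟪D w (γ s), ξ⟫) :
    ‖psi ν x - psi ν y‖ ≤ Real.sqrt ((1 + ε) / n) * dist x y := by
  set B : ℝ := Real.sqrt ((1 + ε) / n) with hB
  have hn' : (0 : ℝ) < n := by exact_mod_cast hn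
  have hB2 : B ^ 2 = (1 + ε) / n := Real.sq_sqrt (by positivity)
  have hstep := path_bound ν hγ (l := dist x y) (B := B) dist_nonneg (by
    filter_upwards [hder] with s hs
    obtain ⟨hS, ξ, hξ, hw⟩ := hs
    have hi := integrable_inner_sq (hDm (γ s)) ((hD1 _ hS).mono fun w h => h.le) ξ
    calc ∫⁻ w, ENNReal.ofReal ((deriv (fun s => dist w (γ s)) s) ^ 2) ∂ν
        = ∫⁻ w, ENNReal.ofReal (⟪D w (γ s), ξ⟫ ^ 2) ∂ν := by
          apply lintegral_congr_ae
          filter_upwards [hw] with w h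
          rw [h]
      _ = ENNReal.ofReal (∫ w, ⟪D w (γ s), ξ⟫ ^ 2 ∂ν) :=
          (ofReal_integral_eq_lintegral_ofReal hi
            (Eventually.of_forall fun w => sq_nonneg _)).symm
      _ ≤ ENNReal.ofReal (B ^ 2) := by
          apply ENNReal.ofReal_le_ofReal
          rw [hB2]
          refine (hN1 _ hS ξ).trans ?_
          have : ‖ξ‖ ^ 2 ≤ 1 := by
            have := norm_nonneg ξ
            nlinarith
          calc (1 + ε) * ‖ξ‖ ^ 2 / n ≤ (1 + ε) * 1 / n := by gcongr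
            _ = _ := by rw [mul_one])
  rw [h0, h1] at hstep
  have hsq := norm_psi_sub_sq hν x y
  have hint : Integrable (fun w => (dist w x - dist w y) ^ 2) ν := by
    have h1 := ((memLp_dist hν x).sub (memLp_dist hν y)).integrable_sq
    simpa using h1
  have h3 : ENNReal.ofReal (‖psi ν x - psi ν y‖ ^ 2) ≤ ENNReal.ofReal ((dist x y * B) ^ 2) := by
    rw [hsq, ofReal_integral_eq_lintegral_ofReal hint (Eventually.of_forall fun w => sq_nonneg _)]
    refine le_trans (le_of_eq ?_) hstep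
    apply lintegral_congr
    intro w
    congr 1
    ring
  have h4 : ‖psi ν x - psi ν y‖ ^ 2 ≤ (dist x y * B) ^ 2 :=
    (ENNReal.ofReal_le_ofReal_iff (sq_nonneg _)).1 h3
  have h5 := (abs_le_of_sq_le_sq' h4 (by positivity)).2
  linarith [mul_comm (dist x y) B]

/-- (N3)+(N4): lower bound. -/
theorem psi_lower (hn : 0 < n) {p : X} {R ε : ℝ}
    (hν : ∀ᵐ w ∂ν, dist w p ≤ R) {D : X → X → 𝔼}
    (hDm : ∀ u ξ, AEStronglyMeasurable (fun w => ⟪D w u, ξ⟫) ν)
    {x y : X} {r ρ τ : ℝ} (hε : 0 ≤ 1 - (n - 1) * ε) (hε0 : 0 ≤ ε)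
    (hsub : Metric.ball y ρ ⊆ Metric.ball x (2 * r))
    (hD1 : ∀ᵐ u ∂(μ.restrict (Metric.ball x (2 * r))), ∀ᵐ w ∂ν, ‖D w u‖ = 1)
    (hN1 : ∀ᵐ u ∂(μ.restrict (Metric.ball x (2 * r))), ∀ ξ,
      ∫ w, ⟪D w u, ξ⟫ ^ 2 ∂ν ≤ (1 + ε) * ‖ξ‖ ^ 2 / n)
    {F : X → 𝔼} (hF : ∀ᵐ u ∂(μ.restrict (Metric.ball x (2 * r))), ‖F u‖ = dist x u)
    {e : X → X → ℝ}
    (hFe : ∀ᵐ u ∂(μ.restrict (Metric.ball x (2 * r))), ∀ᵐ w ∂ν,
      dist w u - dist w x = ⟪F u, D w u⟫ - e u w)
    (hem : AEMeasurable (fun u => ∫⁻ w, ENNReal.ofReal (e u w ^ 2) ∂ν)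
      (μ.restrict (Metric.ball x (2 * r))))
    (hτ : 0 < τ * r) {K : ℝ≥0∞}
    (hK : ∫⁻ u in Metric.ball x (2 * r), ∫⁻ w, ENNReal.ofReal (e u w ^ 2) ∂ν ∂μ
      ≤ ENNReal.ofReal ((τ * r) ^ 2) * K)
    (hKy : K < μ (Metric.ball y ρ)) :
    Real.sqrt ((1 - (n - 1) * ε) / n) * dist x y - (τ * r + 2 * ρ) ≤ ‖psi ν y - psi ν x‖ := by
  classical
  have hn' : (0 : ℝ) < n := by exact_mod_cast hn
  have hn1 : (1 : ℝ) ≤ n := by exact_mod_cast hn
  set α : ℝ := Real.sqrt ((1 - (n - 1) * ε) / n) with hα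
  have hα2 : α ^ 2 = (1 - (n - 1) * ε) / n := Real.sq_sqrt (by positivity)
  have hα0 : 0 ≤ α := Real.sqrt_nonneg _
  have hα1 : α ≤ 1 := by
    rw [hα, Real.sqrt_le_left (by norm_num), one_pow, div_le_one hn']
    have : 0 ≤ (n - 1) * ε := mul_nonneg (by linarith) hε0
    linarith
  -- the two functions as elements of `L²`
  let g : X → X → ℝ := fun u w => ⟪F u, D w u⟫
  let Gv : X → Lp ℝ 2 ν := fun u => if h : MemLp (g u) 2 ν then h.toLp _ else 0
  let Ev : X → Lp ℝ 2 ν := fun u => if h : MemLp (e u) 2 ν then h.toLp _ else 0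
  have hgm : ∀ᵐ u ∂(μ.restrict (Metric.ball x (2 * r))), MemLp (g u) 2 ν := by
    filter_upwards [hD1] with u hu
    refine MemLp.of_bound (C := ‖F u‖) ?_ ?_
    · have := hDm u (F u)
      simpa only [g, real_inner_comm] using this
    · filter_upwards [hu] with w hw
      have := abs_real_inner_le_norm (F u) (D w u)
      rw [hw, mul_one] at this
      exact this
  have hemm : ∀ᵐ u ∂(μ.restrict (Metric.ball x (2 * r))), MemLp (e u) 2 ν := by
    filter_upwards [hgm, hFe] with u hu h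
    have h1 := hu.sub ((memLp_dist hν u).sub (memLp_dist hν x))
    refine (memLp_congr_ae ?_).1 h1
    filter_upwards [h] with w hw
    simp only [Pi.sub_apply, g]
    linarith
  have hdec : ∀ᵐ u ∂(μ.restrict (Metric.ball x (2 * r))), psi ν u - psi ν x = Gv u - Ev u := by
    filter_upwards [hgm, hemm, hFe] with u h1 h2 h3
    simp only [Gv, Ev, dif_pos h1, dif_pos h2]
    rw [psi_eq (memLp_dist hν u), psi_eq (memLp_dist hν x), ← MemLp.toLp_sub, ← MemLp.toLp_sub]
    apply MemLp.toLp_congr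
    filter_upwards [h3] with w hw
    simpa [g] using hw
  have hG : ∀ᵐ u ∂(μ.restrict (Metric.ball x (2 * r))), α * dist x u ≤ ‖Gv u‖ := by
    filter_upwards [hgm, hD1, hN1, hF] with u h1 h2 h3 h4
    simp only [Gv, dif_pos h1]
    have h5 := norm_toLp_sq h1
    have h6 := trace_lower ν (EuclideanSpace.basisFun (Fin n) ℝ) (by simp) hn h2 (hDm u)
      h3 (F u)
    have h7 : (α * dist x u) ^ 2 ≤ ‖h1.toLp (g u)‖ ^ 2 := by
      rw [h5, mul_pow, hα2, ← h4]
      refine le_trans (le_of_eq (by ring)) (h6.trans (le_of_eq ?_))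
      apply integral_congr_ae
      exact Eventually.of_forall fun w => by simp only [g, real_inner_comm]
    exact (abs_le_of_sq_le_sq' h7 (norm_nonneg _)).2
  have hEe : (fun u => ENNReal.ofReal (‖Ev u‖ ^ 2)) =ᵐ[μ.restrict (Metric.ball x (2 * r))]
      fun u => ∫⁻ w, ENNReal.ofReal (e u w ^ 2) ∂ν := by
    filter_upwards [hemm] with u h2
    simp only [Ev, dif_pos h2]
    rw [norm_toLp_sq h2]
    exact ofReal_integral_eq_lintegral_ofReal h2.integrable_sq
      (Eventually.of_forall fun w => sq_nonneg _)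
  have hE := cheb (μ := μ) (E := Ev) (B := Metric.ball x (2 * r)) (hem.congr hEe.symm) hτ
    (K := K) (by rw [lintegral_congr_ae hEe]; exact hK)
  refine lower_of_typical (G := Gv) (E := Ev) (fun u => norm_psi_sub_le hν u y) hα1 hα0 hsub hdec
    hG (lt_of_le_of_lt hE hKy)

/-- Combination of the two bounds into the relative form `|√n‖Ψx-Ψy‖ - d(x,y)| ≤ ε' d(x,y)`. -/
theorem near_of_bounds (hn : 0 < n) {ε τ ρ' d N : ℝ} (hε0 : 0 ≤ ε)
    (hε : (n - 1) * ε ≤ 1) (hd : 0 ≤ d) (hup : N ≤ Real.sqrt ((1 + ε) / n) * d)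
    (hlo : Real.sqrt ((1 - (n - 1) * ε) / n) * d - (τ * d + 2 * (ρ' * d)) ≤ N)
    (hτ : 0 ≤ τ) (hρ : 0 ≤ ρ') :
    |Real.sqrt n * N - d| ≤ (n * ε + Real.sqrt n * (τ + 2 * ρ')) * d := by
  have hn' : (0 : ℝ) < n := by exact_mod_cast hn
  have hn1 : (1 : ℝ) ≤ n := by exact_mod_cast hn
  have hs : 0 < Real.sqrt n := Real.sqrt_pos.2 hn'
  have h1 : Real.sqrt n * Real.sqrt ((1 + ε) / n) = Real.sqrt (1 + ε) := by
    rw [← Real.sqrt_mul hn'.le]
    congr 1
    field_simp
  have h2 : Real.sqrt n * Real.sqrt ((1 - (n - 1) * ε) / n) = Real.sqrt (1 - (n - 1) * ε) := by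
    rw [← Real.sqrt_mul hn'.le]
    congr 1
    field_simp
  have h3 : Real.sqrt (1 + ε) ≤ 1 + ε := by
    rw [Real.sqrt_le_left (by linarith)]
    nlinarith
  have h4 : 1 - (n - 1) * ε ≤ Real.sqrt (1 - (n - 1) * ε) := by
    apply Real.le_sqrt_of_sq_le
    have : 0 ≤ (n - 1) * ε := mul_nonneg (by linarith) hε0
    nlinarith
  rw [abs_le]
  have hub : Real.sqrt n * N ≤ (1 + ε) * d := by
    calc Real.sqrt n * N ≤ Real.sqrt n * (Real.sqrt ((1 + ε) / n) * d) := by gcongr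
      _ = Real.sqrt (1 + ε) * d := by rw [← mul_assoc, h1]
      _ ≤ (1 + ε) * d := by gcongr
  have hlb : (1 - (n - 1) * ε) * d - Real.sqrt n * (τ + 2 * ρ') * d ≤ Real.sqrt n * N := by
    calc (1 - (n - 1) * ε) * d - Real.sqrt n * (τ + 2 * ρ') * d
        ≤ Real.sqrt (1 - (n - 1) * ε) * d - Real.sqrt n * (τ + 2 * ρ') * d := by gcongr
      _ = Real.sqrt n * (Real.sqrt ((1 - (n - 1) * ε) / n) * d - (τ * d + 2 * (ρ' * d))) := by
          rw [← h2]; ring
      _ ≤ Real.sqrt n * N := by gcongr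
  have h5 : 0 ≤ Real.sqrt n * (τ + 2 * ρ') * d := by positivity
  have h6 : 0 ≤ (n : ℝ) * ε * d := by positivity
  have h7 : 0 ≤ (n - 1 : ℝ) * ε * d := by
    have : 0 ≤ (n - 1 : ℝ) := by linarith
    positivity
  have h8 : 0 ≤ ε * d := by positivity
  constructor <;> nlinarith

end Crest.Agent.R247.Nis710
end
end

-- ▼ part R247/Near1_551
section

/-!
R247, block (2a), near isometry (helper551), part 1: the upper bound
`‖Ψ x - Ψ y‖ ≤ √((1+ε)/n) d(x,y)` on a Riemannian manifold, from the isotropy of the far measure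
(`Iso3_311`), by differentiating `d_w` along a minimiser from `x` to `y`.
-/

set_option autoImplicit false
set_option maxSynthPendingDepth 3
set_option linter.unusedSectionVars false
set_option linter.unusedVariables false

open Bundle Set Filter Topology MeasureTheory Metric
open scoped Manifold ContDiff ENNReal NNReal RealInnerProductSpace
open Crest.GeometryTopology.MTW
open Crest.Agent.R226.ChartMet842
open Crest.Agent.R226.CutSmooth77 (SC)
open Crest.Agent.R247.Sm879 Crest.Agent.R247.Mcp688 Crest.Agent.R247.Ms322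
open Crest.Agent.R247.Rdg879 Crest.Agent.R247.Iso311 Crest.Agent.R247.Nis710

noncomputable section
namespace Crest.Agent.R247.Near551

/-! ### unit speed curves from segments -/

section arc

variable {X : Type*} [MetricSpace X]

/-- unit speed version of a segment `T : [0,1] → X` of length `l`, extended by constants -/
def arc (T : ℝ → X) (l s : ℝ) : X := T (max 0 (min 1 (s / l)))

lemma clamp_mem (s : ℝ) : max 0 (min 1 s) ∈ Icc (0 : ℝ) 1 :=
  ⟨le_max_left _ _, max_le zero_le_one (min_le_left _ _)⟩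

lemma clamp_eq {s : ℝ} (hs : s ∈ Icc (0 : ℝ) 1) : max 0 (min 1 s) = s := by
  rw [min_eq_right hs.2, max_eq_right hs.1]

lemma abs_clamp_sub_le (s t : ℝ) : |max 0 (min 1 s) - max 0 (min 1 t)| ≤ |s - t| := by
  refine (abs_max_sub_max_le_max _ _ _ _).trans ?_
  rw [sub_self, abs_zero]
  refine max_le (abs_nonneg _) ?_
  refine (abs_min_sub_min_le_max _ _ _ _).trans ?_
  rw [sub_self, abs_zero]
  exact max_le (abs_nonneg _) le_rfl

lemma lipschitz_arc {x y : X} {T : ℝ → X} (hT : Seg x y T) (hxy : x ≠ y) :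
    LipschitzWith 1 (arc T (dist x y)) := by
  refine LipschitzWith.of_dist_le_mul fun s t => ?_
  have hl := dist_pos.2 hxy
  unfold arc
  rw [hT.dist_T _ (clamp_mem _) _ (clamp_mem _), NNReal.coe_one, one_mul, Real.dist_eq]
  calc |max 0 (min 1 (s / dist x y)) - max 0 (min 1 (t / dist x y))| * dist x y
      ≤ |s / dist x y - t / dist x y| * dist x y := by
        exact mul_le_mul_of_nonneg_right (abs_clamp_sub_le _ _) hl.le
    _ = |s - t| := by
        rw [← sub_div, abs_div, abs_of_pos hl, div_mul_cancel₀ _ hl.ne']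

lemma arc_zero {x y : X} {T : ℝ → X} (hT : Seg x y T) : arc T (dist x y) 0 = x := by
  unfold arc
  rw [zero_div, clamp_eq (by simp), hT.zero]

lemma arc_end {x y : X} {T : ℝ → X} (hT : Seg x y T) (hxy : x ≠ y) :
    arc T (dist x y) (dist x y) = y := by
  unfold arc
  rw [div_self (dist_pos.2 hxy).ne', clamp_eq (by simp), hT.one]

end arc

variable {n : ℕ} {M : Type*} [MetricSpace M] [ChartedSpace (EuclideanSpace ℝ (Fin n)) M]
  [IsManifold (𝓡 n) ∞ M]
  [RiemannianBundle (fun p : M => TangentSpace (𝓡 n) p)]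
  [IsContMDiffRiemannianBundle (𝓡 n) ∞ (EuclideanSpace ℝ (Fin n))
    (fun p : M => TangentSpace (𝓡 n) p)]
  [IsRiemannianManifold (𝓡 n) M] [ProperSpace M] [MeasurableSpace M] [BorelSpace M]
  [SecondCountableTopology M] [Nonempty M]

local notation "𝔼" => EuclideanSpace ℝ (Fin n)

/-! ### derivatives of `d_w` -/

/-- `d_w` is differentiable at `u` when the cost is smooth there. -/
lemma mdiff_dist {w u : M} (h : SC n w u) (hwu : w ≠ u) :
    MDifferentiableAt (𝓡 n) 𝓘(ℝ) (fun z => dist w z) u := by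
  rw [mdifferentiableAt_iff_chart (sel n u) (mem_sel (n := n) u)]
  have h1 := differentiableAt_dist_chart (n := n) (w := w) (x := sel n u) (a := crd n u)
    (crd_mem (n := n) u) (by rw [symm_crd]; exact h) (by rw [symm_crd]; exact hwu)
  exact h1

/-- `|∇ f_x|(u) ≤ d(x,u)` -/
lemma norm_Gr_half_le {x u : M} (h : SC n x u) (hxu : x ≠ u) :
    ‖Gr (n := n) (fun q => halfDistSq q x) u‖ ≤ dist x u := by
  have h1 := mdiff_dist h hxu
  have h2 : (fun q => halfDistSq q x) = fun q : M => (fun s : ℝ => s ^ 2 / 2) (dist x q) := by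
    funext q
    simp only [halfDistSq]
    rw [dist_comm]
  have hd : HasDerivAt (fun s : ℝ => s ^ 2 / 2) (dist x u) (dist x u) := by
    have := ((hasDerivAt_pow 2 (dist x u)).div_const 2)
    simpa using this
  rw [h2, Gr_comp h1 hd.differentiableAt, hd.deriv, norm_smul, Real.norm_eq_abs,
    abs_of_nonneg dist_nonneg]
  have h3 : ‖Gr (n := n) (fun z => dist x z) u‖ ≤ 1 := by
    have := norm_Gr_le_of_lipschitzOn (n := n) (f := fun z : M => dist x z) (z := u) (K := 1)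
      (U := univ) univ_mem ((LipschitzWith.dist_right x).lipschitzOnWith)
    simpa using this
  calc dist x u * ‖Gr (n := n) (fun z => dist x z) u‖ ≤ dist x u * 1 := by gcongr
    _ = dist x u := mul_one _

/-- for fixed `u`, the gradients `∇ d_w (u)` depend measurably on `w`. -/
lemma aesm_inner_Gr {ν : Measure M} {u : M}
    (hd : ∀ᵐ w ∂ν, MDifferentiableAt (𝓡 n) 𝓘(ℝ) (fun z => dist w z) u) (ξ : 𝔼) :
    AEStronglyMeasurable (fun w => ⟪Gr (n := n) (fun z => dist w z) u, ξ⟫) ν := by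
  have key : ∀ j : Fin n, AEMeasurable (fun w => Gr (n := n) (fun z => dist w z) u j) ν := by
    intro j
    set S := chartAt 𝔼 (sel n u) with hS
    set a : 𝔼 := crd n u with ha
    set v : 𝔼 := colv (sel n u) a j with hv
    have ht : Tendsto (fun k : ℕ => ((k : ℝ) + 1)⁻¹) atTop (𝓝[≠] 0) := by
      refine tendsto_nhdsWithin_iff.2 ⟨?_, Eventually.of_forall fun k => ?_⟩
      · have := tendsto_one_div_add_atTop_nhds_zero_nat (𝕜 := ℝ)
        simpa [one_div] using this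
      · simp only [mem_compl_iff, mem_singleton_iff]
        positivity
    refine aemeasurable_of_tendsto_metrizable_ae atTop
      (f := fun (k : ℕ) (w : M) => (((k : ℝ) + 1)⁻¹)⁻¹ *
        (dist w (S.symm (a + ((k : ℝ) + 1)⁻¹ • v)) - dist w (S.symm a))) ?_ ?_
    · intro k
      have : Continuous fun w : M => (((k : ℝ) + 1)⁻¹)⁻¹ *
        (dist w (S.symm (a + ((k : ℝ) + 1)⁻¹ • v)) - dist w (S.symm a)) := by fun_prop
      exact this.measurable.aemeasurable
    · filter_upwards [hd] with w hw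
      rw [mdifferentiableAt_iff_chart (sel n u) (mem_sel (n := n) u)] at hw
      have h1 := hw.hasFDerivAt.hasLineDerivAt v
      have h2 := h1.tendsto_slope_zero.comp ht
      rw [Gr_apply_chart]
      exact h2
  have h2 : (fun w => ⟪Gr (n := n) (fun z => dist w z) u, ξ⟫) =
      fun w => ∑ j, ξ j * Gr (n := n) (fun z => dist w z) u j := by
    funext w
    rw [PiLp.inner_apply]
    simp
  rw [h2]
  exact (Finset.aemeasurable_fun_sum _ fun j _ =>
    (key j).const_mul (ξ j)).aestronglyMeasurable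

/-- derivative of `d_w` along a unit speed minimiser from `x` -/
lemma deriv_arc (hm : ExM M) {x y : M} {T : ℝ → M} (hT : Seg x y T) (hxy : x ≠ y) {s : ℝ}
    (hs : s ∈ Ioo 0 (dist x y)) {φ : M → ℝ}
    (hφ : MDifferentiableAt (𝓡 n) 𝓘(ℝ) φ (arc T (dist x y) s)) :
    deriv (fun s => φ (arc T (dist x y) s)) s =
      ⟪Gr (n := n) φ (arc T (dist x y) s),
        s⁻¹ • Gr (n := n) (fun q => halfDistSq q x) (arc T (dist x y) s)⟫ := by
  set l := dist x y with hl
  have hl0 : 0 < l := dist_pos.2 hxy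
  have ht0 : 0 < s / l := div_pos hs.1 hl0
  have ht1 : s / l < 1 := (div_lt_one hl0).2 hs.2
  have he : arc T l s = T (s / l) := by
    unfold arc
    rw [clamp_eq ⟨ht0.le, ht1.le⟩]
  rw [he] at hφ ⊢
  have h1 := hT.grad_mid hm hxy ht0 ht1 hφ
  have h2 : HasDerivAt (fun s : ℝ => s / l) (1 / l) s := (hasDerivAt_id s).div_const l
  have h3 := HasDerivAt.comp (h₂ := fun t => φ (T t)) (h := fun s : ℝ => s / l) s h1 h2
  have h4 : (fun s => φ (arc T l s)) =ᶠ[𝓝 s] (fun t => φ (T t)) ∘ fun s : ℝ => s / l := by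
    filter_upwards [Ioo_mem_nhds hs.1 hs.2] with r hr
    have hr0 : 0 < r / l := div_pos hr.1 hl0
    have hr1 : r / l < 1 := (div_lt_one hl0).2 hr.2
    simp only [Function.comp_apply, arc]
    rw [clamp_eq ⟨hr0.le, hr1.le⟩]
  rw [(h3.congr_of_eventuallyEq h4).deriv, real_inner_smul_right, real_inner_comm]
  field_simp

/-! ### the upper bound -/

/-- **upper bound** (N2) on `M`, for any probability measure `ν ≪ μ` with isotropy constant
`(1+ε)/n` at the points of `S`. -/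
theorem psi_upper_of {κ : ℝ} (hn : 0 < n) (hm : ExM M)
    {ν : Measure M} [IsProbabilityMeasure ν] {p : M} {R ε : ℝ}
    (hν : ∀ᵐ w ∂ν, dist w p ≤ R) (hε : 0 ≤ ε) {S : Set M}
    (hD : ∀ u ∈ S, ∀ᵐ w ∂ν, MDifferentiableAt (𝓡 n) 𝓘(ℝ) (fun z => dist w z) u ∧
      ‖Gr (n := n) (fun z => dist w z) u‖ = 1)
    (hN1 : ∀ u ∈ S, ∀ ξ : 𝔼, ∫ w, ⟪Gr (n := n) (fun z => dist w z) u, ξ⟫ ^ 2 ∂ν ≤
      (1 + ε) * ‖ξ‖ ^ 2 / n)
    {x y : M} (hS : ∀ z, dist x z + dist z y = dist x y → z ∈ S) :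
    ‖psi ν x - psi ν y‖ ≤ Real.sqrt ((1 + ε) / n) * dist x y := by
  classical
  rcases eq_or_ne x y with rfl | hxy
  · simp
  obtain ⟨T, hT0, hT1, hTd⟩ := HR216.exists_geodesic_of_riemannian n x y
  have hT : Seg x y T := ⟨hT0, hT1, hTd⟩
  have hl0 : 0 < dist x y := dist_pos.2 hxy
  -- replace `D` by `0` outside `S`
  set D : M → M → 𝔼 := fun w u => if u ∈ S then Gr (n := n) (fun z => dist w z) u else 0 with hDdef
  have hDS : ∀ u ∈ S, ∀ w, D w u = Gr (n := n) (fun z => dist w z) u := by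
    intro u hu w
    simp only [hDdef, if_pos hu]
  refine psi_upper (X := M) hn hν hε (D := D) (S := S) ?_ ?_ ?_ (lipschitz_arc hT hxy)
    (arc_zero hT) (arc_end hT hxy) ?_
  · intro u ξ
    by_cases hu : u ∈ S
    · have := aesm_inner_Gr (n := n) ((hD u hu).mono fun w h => h.1) ξ
      simpa only [hDS u hu] using this
    · simp only [hDdef, if_neg hu, inner_zero_left]
      exact aestronglyMeasurable_const
  · intro u hu
    filter_upwards [hD u hu] with w hw
    rw [hDS u hu]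
    exact hw.2
  · intro u hu ξ
    have := hN1 u hu ξ
    simpa only [hDS u hu] using this
  · have h0 : ∀ᵐ s ∂(volume.restrict (Icc 0 (dist x y))), s ∈ Ioo 0 (dist x y) := by
      rw [← restrict_Ioo_eq_restrict_Icc]
      exact ae_restrict_mem measurableSet_Ioo
    filter_upwards [h0] with s hs
    have ht0 : 0 < s / dist x y := div_pos hs.1 hl0
    have ht1 : s / dist x y < 1 := (div_lt_one hl0).2 hs.2
    have he : arc T (dist x y) s = T (s / dist x y) := by
      unfold arc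
      rw [clamp_eq ⟨ht0.le, ht1.le⟩]
    have hI : s / dist x y ∈ Icc (0 : ℝ) 1 := ⟨ht0.le, ht1.le⟩
    have hl := hT.left hI
    have hr := hT.right hI
    have hb : dist x (T (s / dist x y)) + dist (T (s / dist x y)) y = dist x y := by
      rw [hl, hr]; ring
    have hmem : arc T (dist x y) s ∈ S := by
      rw [he]
      exact hS _ hb
    refine ⟨hmem, s⁻¹ • Gr (n := n) (fun q => halfDistSq q x) (arc T (dist x y) s), ?_, ?_⟩
    · have hne : T (s / dist x y) ≠ y := by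
        rw [← dist_pos, hr]
        exact mul_pos (by linarith) hl0
      have hne2 : x ≠ T (s / dist x y) := by
        rw [← dist_pos, hl]
        exact mul_pos ht0 hl0
      have hsc : SC n x (T (s / dist x y)) := sc_of_Om hm (mem_Om_of_btw hne hb)
      have h5 := norm_Gr_half_le hsc hne2
      rw [hl, div_mul_cancel₀ _ hl0.ne'] at h5
      rw [he, norm_smul, Real.norm_eq_abs, abs_of_pos (inv_pos.2 hs.1)]
      calc s⁻¹ * ‖Gr (n := n) (fun q => halfDistSq q x) (T (s / dist x y))‖ ≤ s⁻¹ * s := by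
            gcongr
            exact inv_nonneg.2 hs.1.le
        _ = 1 := inv_mul_cancel₀ hs.1.ne'
    · filter_upwards [hD _ hmem] with w hw
      rw [hDS _ hmem]
      exact deriv_arc hm hT hxy hs hw.1

/-- **upper bound** for the far measure of a pinched manifold: literal form of `Iso3_311.n1`. -/
theorem psi_upper_far (n : ℕ) (hn : 0 < n) {ε : ℝ} (hε : 0 < ε) :
    ∃ c : ℝ, 0 < c ∧ c < 1 ∧ ∀ (M : Type*) [MetricSpace M]
      [ChartedSpace (EuclideanSpace ℝ (Fin n)) M]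
      [IsManifold (𝓡 n) ∞ M] [RiemannianBundle (fun p : M => TangentSpace (𝓡 n) p)]
      [IsContMDiffRiemannianBundle (𝓡 n) ∞ (EuclideanSpace ℝ (Fin n))
        (fun p : M => TangentSpace (𝓡 n) p)]
      [IsRiemannianManifold (𝓡 n) M] [MeasurableSpace M] [BorelSpace M] [ProperSpace M]
      [SecondCountableTopology M] [Nonempty M] [IsFiniteMeasureOnCompacts (μHE[n] : Measure M)]
      (κ : ℝ) (C : Rad n κ M (μHE[n] : Measure M)) (_ : 0 ≤ κ) (_ : κ ≤ c) (_ : ExM M) (p : M)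
      (_ : ENNReal.ofReal ((1 - c) * 8 ^ n) * volume (ball (0 : EuclideanSpace ℝ (Fin n)) 1) ≤
        μHE[n] (ball p 8)),
      ∀ x y : M, dist p x ≤ c / 3 → dist p y ≤ c / 3 →
        ‖psi (nuf (μHE[n] : Measure M) p) x - psi (nuf (μHE[n] : Measure M) p) y‖ ≤
          Real.sqrt ((1 + ε) / n) * dist x y := by
  obtain ⟨c, hc0, hc1, h⟩ := n1 n hn hε
  refine ⟨c, hc0, hc1, ?_⟩
  intro M _ _ _ _ _ _ _ _ _ _ _ _ κ C hκ hκc hm p hvol x y hx hy
  obtain ⟨hprob, hu⟩ := h M κ C hκ hκc hm p hvol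
  have hν : ∀ᵐ w ∂(nuf (μHE[n] : Measure M) p), dist w p ≤ 8 := by
    filter_upwards [ae_nuf_mem (μHE[n] : Measure M) p] with w hw
    rw [dist_comm]
    exact hw.2
  refine psi_upper_of (κ := κ) hn hm hν hε.le (S := closedBall p c) ?_ ?_ ?_
  · intro u hu'
    rw [mem_closedBall, dist_comm] at hu'
    exact (hu u hu').2
  · intro u hu' ξ
    rw [mem_closedBall, dist_comm] at hu'
    exact (hu u hu').1 ξ
  · intro z hz
    rw [mem_closedBall, dist_comm]
    have h1 := dist_triangle p x z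
    have h2 := dist_triangle x p y
    rw [dist_comm x p] at h2
    have h3 := dist_nonneg (x := z) (y := y)
    linarith

end Crest.Agent.R247.Near551
end
end

-- ▼ part R247/Near2_710

/-!
R247, block (2a), near isometry (helper710), part 2: the lower bound
`‖Ψ x - Ψ y‖ ≥ (√((1-(n-1)ε)/n) - τ) d(x,y)` on a Riemannian manifold, from far propagation (F) at
one scale comparable to `d(x,y)`.
-/

set_option autoImplicit false
set_option maxSynthPendingDepth 3
set_option linter.unusedSectionVars false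
set_option linter.unusedVariables false

open Bundle Set Filter Topology MeasureTheory Metric
open scoped Manifold ContDiff ENNReal NNReal RealInnerProductSpace
open Crest.Agent.R226.CutSmooth77 (SC)
open Crest.Agent.R247.Sm879 Crest.Agent.R247.Mcp688 Crest.Agent.R247.Ms322
open Crest.Agent.R247.Rdg879 Crest.Agent.R247.Iso311 Crest.Agent.R247.Nis710
open Crest.Agent.R247.Cal550 Crest.Agent.R247.Jm216
open Crest.Agent.R247.Far553 (ann dy dy_pos dy_succ)

noncomputable section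
namespace Crest.Agent.R247.Near710

variable {n : ℕ} {M : Type*} [MetricSpace M] [ChartedSpace (EuclideanSpace ℝ (Fin n)) M]
  [IsManifold (𝓡 n) ∞ M]
  [RiemannianBundle (fun p : M => TangentSpace (𝓡 n) p)]
  [IsContMDiffRiemannianBundle (𝓡 n) ∞ (EuclideanSpace ℝ (Fin n))
    (fun p : M => TangentSpace (𝓡 n) p)]
  [IsRiemannianManifold (𝓡 n) M] [ProperSpace M] [SecondCountableTopology M] [Nonempty M]
  [MeasurableSpace M] [BorelSpace M]
  [IsFiniteMeasureOnCompacts (μHE[n] : Measure M)]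

local notation "𝔼" => EuclideanSpace ℝ (Fin n)

/-- `Ed G x u w = ⟪Gr f_x u, Gr d_w u⟫` for a.e. `u` -/
lemma Ed_eq {κ : ℝ} (C : Rad n κ M (μHE[n] : Measure M)) (hn : 1 ≤ n) (hm : ExM M)
    {G : M → M → M → ℝ} (hG : GRep C G) (x w : M) :
    ∀ᵐ u ∂(μHE[n] : Measure M), Ed G x u w = ⟪gf n x u, gd n w u⟫ := by
  have h1 : ∀ᵐ z ∂(μHE[n] : Measure M), MDifferentiableAt (𝓡 n) 𝓘(ℝ) (fun z => dist w z) z :=
    ae_mdifferentiableAt (LipschitzWith.dist_right w).locallyLipschitz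
  have h2 := rd_muHE C hn hm x h1
  have h3 := hG.rd_dist (muHE_singleton n hn) x w
  have e : (fun z : M => dist z w) = fun z => dist w z := by
    funext z; exact dist_comm _ _
  rw [e] at h3
  exact h3.unique h2

/-- `‖Gr f_x u‖ = d(x,u)` for a.e. `u` -/
lemma norm_gf {κ : ℝ} (C : Rad n κ M (μHE[n] : Measure M)) (hn : 1 ≤ n) (hm : ExM M)
    {G : M → M → M → ℝ} (hG : GRep C G) (x : M) :
    ∀ᵐ u ∂(μHE[n] : Measure M), ‖gf n x u‖ = dist x u := by
  have h2 := rd_muHE C hn hm x (ae_mdiff_muHE C hn hm x)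
  filter_upwards [(hG.rd x x).unique h2] with u hu
  rw [hG.self, real_inner_self_eq_norm_sq] at hu
  exact ((pow_left_inj₀ dist_nonneg (norm_nonneg _) two_ne_zero).1 hu).symm

/-- a.e. `u`, a.e. `w` -/
lemma Ed_eq_ae {κ : ℝ} (C : Rad n κ M (μHE[n] : Measure M)) (hn : 1 ≤ n) (hm : ExM M)
    {G : M → M → M → ℝ} (hG : GRep C G) (x : M) (ν : Measure M) [SFinite ν] :
    ∀ᵐ u ∂(μHE[n] : Measure M), ∀ᵐ w ∂ν, Ed G x u w = ⟪gf n x u, gd n w u⟫ := by
  have hs : MeasurableSet {p : M × M | Ed G x p.2 p.1 = ⟪gf n x p.2, gd n p.1 p.2⟫} := by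
    apply measurableSet_eq_fun
    · exact (hG.meas_Ed x).comp measurable_swap
    · exact ((measurable_gf_right x).comp measurable_snd).inner measurable_gd
  exact ae_prod_swap_of hs fun w => Ed_eq C hn hm hG x w

/-- measurability of the inner integral -/
lemma aem_ee {κ : ℝ} {C : Rad n κ M (μHE[n] : Measure M)}
    {G : M → M → M → ℝ} (hG : GRep C G) (x : M) (ν : Measure M) [SFinite ν] :
    Measurable (fun u => ∫⁻ w, ENNReal.ofReal (ee G x u w ^ 2) ∂ν) := by
  have h1 : Measurable (fun p : M × M => ee G x p.1 p.2) := by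
    unfold ee
    exact (hG.meas_Ed x).sub ((measurable_fst.dist measurable_snd).sub
      (measurable_const.dist measurable_snd))
  exact ((h1.pow_const 2).ennreal_ofReal).lintegral_prod_right'

/-- the measure of the unit ball as a real number -/
def om (n : ℕ) : ℝ := (volume (ball (0 : EuclideanSpace ℝ (Fin n)) 1)).toReal

lemma om_pos (n : ℕ) : 0 < om n :=
  ENNReal.toReal_pos (measure_ball_pos _ _ one_pos).ne' measure_ball_lt_top.ne

lemma ofReal_om (n : ℕ) : ENNReal.ofReal (om n) = volume (ball (0 : EuclideanSpace ℝ (Fin n)) 1) :=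
  ENNReal.ofReal_toReal measure_ball_lt_top.ne

/-- the lower bound with explicit constants -/
theorem psi_lower_one {κ : ℝ} (hn : 1 ≤ n) (C : Rad n κ M (μHE[n] : Measure M)) (hm : ExM M)
    {G : M → M → M → ℝ} (hG : GRep C G) {p : M} {ε c w0 τ : ℝ} (hε0 : 0 ≤ ε)
    (hε1 : (n - 1) * ε ≤ 1)
    (hprob : IsProbabilityMeasure (nuf (μHE[n] : Measure M) p))
    (hN : ∀ u : M, dist p u ≤ c →
        (∀ ξ : EuclideanSpace ℝ (Fin n),
          ∫ w, (inner ℝ (Gr (n := n) (fun z => dist w z) u) ξ) ^ 2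
            ∂(nuf (μHE[n] : Measure M) p) ≤ (1 + ε) * ‖ξ‖ ^ 2 / n) ∧
        ∀ᵐ w ∂(nuf (μHE[n] : Measure M) p),
          MDifferentiableAt (𝓡 n) 𝓘(ℝ) (fun z => dist w z) u ∧
            ‖Gr (n := n) (fun z => dist w z) u‖ = 1)
    (hw0 : 0 < w0) (hW : ENNReal.ofReal w0 * volume (ball (0 : 𝔼) 1) ≤ μHE[n] (ann p 4 8))
    (hτ : 0 < τ) (hτ1 : τ ≤ 1) {x y : M} {k : ℕ} (hxc : dist p x + dy k ≤ c)
    (hxy0 : 0 < dist x y) (hxy1 : dist x y ≤ dy (k + 1)) (hxy2 : dy (k + 2) ≤ dist x y)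
    (hvol : ∀ s, 0 < s → s ≤ 1 → ENNReal.ofReal (1 / 2 * s ^ n) * volume (ball (0 : 𝔼) 1) ≤
      μHE[n] (ball y s))
    {ε₁ : ℝ} (hε₁ : 0 ≤ ε₁)
    (hε₁' : ε₁ ≤ w0 * om n ^ 2 * (τ / 4) ^ 2 / 16 * (τ / 16) ^ n)
    (hF : ∫⁻ z in ball x (dy k), ∫⁻ w in ann p 4 8, ENNReal.ofReal (ee G x z w ^ 2)
        ∂(μHE[n] : Measure M) ∂(μHE[n] : Measure M) ≤ ENNReal.ofReal (ε₁ * dy k ^ (n + 2))) :
    Real.sqrt ((1 - (n - 1) * ε) / n) * dist x y - τ * dist x y ≤
      ‖psi (nuf (μHE[n] : Measure M) p) y - psi (nuf (μHE[n] : Measure M) p) x‖ := by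
  set ν := nuf (μHE[n] : Measure M) p with hν
  have hk := dy_pos k
  have e1 : dy (k + 1) = dy k / 2 := dy_succ k
  have e2 : dy (k + 2) = dy k / 4 := by rw [dy_succ (k + 1), e1]; ring
  rw [e1] at hxy1
  rw [e2] at hxy2
  set d := dist x y with hd
  set ρ : ℝ := τ / 4 * d with hρ
  have hρ0 : 0 < ρ := by positivity
  have hom := om_pos n
  have e3 : 2 * (dy k / 2) = dy k := by ring
  have hball : ∀ u ∈ ball x (dy k), dist p u ≤ c := fun u hu => by
    rw [mem_ball, dist_comm] at hu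
    linarith [dist_triangle p x u]
  set K : ℝ≥0∞ := ENNReal.ofReal (1 / 4 * (τ / 16) ^ n * dy k ^ n * om n) with hK
  have hmain := psi_lower (ν := ν) (μ := (μHE[n] : Measure M)) (n := n) (by omega)
    (p := p) (R := 8) (ε := ε) (by
      filter_upwards [ae_nuf_mem (μHE[n] : Measure M) p] with w hw
      rw [dist_comm]; exact hw.2)
    (D := fun w u => gd n w u)
    (fun u ξ => ((measurable_gd_left u).inner measurable_const).aestronglyMeasurable)
    (x := x) (y := y) (r := dy k / 2) (ρ := ρ) (τ := τ / 4) (by linarith) hε0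
    (by
      rw [e3]
      intro u hu
      rw [mem_ball] at hu ⊢
      have h1 := dist_triangle u y x
      rw [dist_comm y x] at h1
      have h2 : ρ ≤ 1 / 4 * d := by rw [hρ]; gcongr
      have h3 : 1 / 4 * d ≤ 1 / 4 * (dy k / 2) := by gcongr
      rw [← hd] at h1
      linarith)
    (by
      rw [e3]
      refine (ae_restrict_iff' measurableSet_ball).2 (Eventually.of_forall fun u hu => ?_)
      filter_upwards [(hN u (hball u hu)).2] with w hw
      exact hw.2)
    (by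
      rw [e3]
      refine (ae_restrict_iff' measurableSet_ball).2 (Eventually.of_forall fun u hu ξ => ?_)
      exact (hN u (hball u hu)).1 ξ)
    (F := fun u => gf n x u) (ae_restrict_of_ae (norm_gf C hn hm hG x))
    (e := fun u w => ee G x u w)
    (by
      apply ae_restrict_of_ae
      filter_upwards [Ed_eq_ae C hn hm hG x ν] with u hu
      filter_upwards [hu] with w hw
      unfold ee
      rw [hw, dist_comm u w, dist_comm x w]
      ring)
    (aem_ee hG x ν).aemeasurable (by positivity) (K := K)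
    (by
      rw [e3]
      have hWne : (μHE[n] (ann p 4 8) : ℝ≥0∞)⁻¹ ≤ ENNReal.ofReal ((w0 * om n)⁻¹) := by
        rw [ENNReal.ofReal_inv_of_pos (by positivity)]
        apply ENNReal.inv_le_inv.2
        rw [ENNReal.ofReal_mul hw0.le, ofReal_om]
        exact hW
      calc ∫⁻ u in ball x (dy k), ∫⁻ w, ENNReal.ofReal (ee G x u w ^ 2) ∂ν ∂(μHE[n] : Measure M)
          = ∫⁻ u in ball x (dy k), (μHE[n] (ann p 4 8) : ℝ≥0∞)⁻¹ *
              ∫⁻ w in ann p 4 8, ENNReal.ofReal (ee G x u w ^ 2) ∂(μHE[n] : Measure M)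
                ∂(μHE[n] : Measure M) := by
            apply lintegral_congr
            intro u
            rw [hν, nuf, lintegral_smul_measure, smul_eq_mul]
        _ = (μHE[n] (ann p 4 8) : ℝ≥0∞)⁻¹ * ∫⁻ u in ball x (dy k),
              ∫⁻ w in ann p 4 8, ENNReal.ofReal (ee G x u w ^ 2) ∂(μHE[n] : Measure M)
                ∂(μHE[n] : Measure M) := by
            apply lintegral_const_mul'
            exact ne_top_of_le_ne_top ENNReal.ofReal_ne_top hWne
        _ ≤ ENNReal.ofReal ((w0 * om n)⁻¹) * ENNReal.ofReal (ε₁ * dy k ^ (n + 2)) := by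
            gcongr
        _ = ENNReal.ofReal ((w0 * om n)⁻¹ * (ε₁ * dy k ^ (n + 2))) := by
            rw [← ENNReal.ofReal_mul (by positivity)]
        _ ≤ ENNReal.ofReal ((τ / 4 * (dy k / 2)) ^ 2 *
              (1 / 4 * (τ / 16) ^ n * dy k ^ n * om n)) := by
            apply ENNReal.ofReal_le_ofReal
            rw [inv_mul_le_iff₀ (by positivity)]
            calc ε₁ * dy k ^ (n + 2)
                ≤ (w0 * om n ^ 2 * (τ / 4) ^ 2 / 16 * (τ / 16) ^ n) * dy k ^ (n + 2) := by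
                  gcongr
              _ = w0 * om n * ((τ / 4 * (dy k / 2)) ^ 2 *
                    (1 / 4 * (τ / 16) ^ n * dy k ^ n * om n)) := by ring
        _ = ENNReal.ofReal ((τ / 4 * (dy k / 2)) ^ 2) * K := by
            rw [hK, ← ENNReal.ofReal_mul (by positivity)])
    (by
      have h1 : τ / 16 * dy k ≤ ρ := by
        rw [hρ]
        calc τ / 16 * dy k = τ / 4 * (dy k / 4) := by ring
          _ ≤ τ / 4 * d := by gcongr
      have hρ1 : ρ ≤ 1 := by
        have h2 : d ≤ 1 := by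
          have := Crest.Agent.R247.Far553.dy_le_one k
          linarith
        rw [hρ]
        calc τ / 4 * d ≤ 1 * 1 := by gcongr; linarith
          _ = 1 := one_mul 1
      refine lt_of_lt_of_le ?_ (hvol ρ hρ0 hρ1)
      rw [← ofReal_om, ← ENNReal.ofReal_mul (by positivity), hK]
      rw [ENNReal.ofReal_lt_ofReal_iff (by positivity)]
      have h3 : (τ / 16 * dy k) ^ n ≤ ρ ^ n := by gcongr
      rw [mul_pow] at h3
      have h4 : 0 < (τ / 16) ^ n * dy k ^ n := by positivity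
      have h5 : 1 / 4 * (τ / 16) ^ n * dy k ^ n < 1 / 2 * ρ ^ n := by nlinarith
      exact mul_lt_mul_of_pos_right h5 hom)
  have h9 : τ / 4 * (dy k / 2) + 2 * ρ ≤ τ * d := by
    rw [hρ]
    have : dy k / 2 ≤ 2 * d := by linarith
    calc τ / 4 * (dy k / 2) + 2 * (τ / 4 * d) ≤ τ / 4 * (2 * d) + 2 * (τ / 4 * d) := by gcongr
      _ = τ * d := by ring
  linarith

/-- **Lower bound of the near isometry**, in the form promised to helper551. -/
theorem psi_lower_far (n : ℕ) (hn : 0 < n) {ε : ℝ} (hε : 0 < ε) (hε1 : (n - 1) * ε ≤ 1) :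
    ∃ c : ℝ, 0 < c ∧ c < 1 ∧ ∀ τ : ℝ, 0 < τ → ∃ ε₁ : ℝ, 0 < ε₁ ∧
    ∀ (M : Type*) [MetricSpace M] [ChartedSpace (EuclideanSpace ℝ (Fin n)) M]
      [IsManifold (𝓡 n) ∞ M] [RiemannianBundle (fun p : M => TangentSpace (𝓡 n) p)]
      [IsContMDiffRiemannianBundle (𝓡 n) ∞ (EuclideanSpace ℝ (Fin n))
        (fun p : M => TangentSpace (𝓡 n) p)]
      [IsRiemannianManifold (𝓡 n) M] [MeasurableSpace M] [BorelSpace M] [ProperSpace M]
      [SecondCountableTopology M] [Nonempty M] [IsFiniteMeasureOnCompacts (μHE[n] : Measure M)]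
      (κ : ℝ) (C : Rad n κ M (μHE[n] : Measure M)) (_ : 0 ≤ κ) (_ : κ ≤ c) (_ : ExM M)
      (G : M → M → M → ℝ) (_ : GRep C G) (p : M)
      (_ : ENNReal.ofReal ((1 - c) * 8 ^ n) * volume (ball (0 : EuclideanSpace ℝ (Fin n)) 1) ≤
        μHE[n] (ball p 8)) (x y : M) (k : ℕ), dist p x + dy k ≤ c → 0 < dist x y →
      dist x y ≤ dy (k + 1) → dy (k + 2) ≤ dist x y →
      (∀ s, 0 < s → s ≤ 1 → ENNReal.ofReal (1 / 2 * s ^ n) *
        volume (ball (0 : EuclideanSpace ℝ (Fin n)) 1) ≤ μHE[n] (ball y s)) →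
      ∫⁻ z in ball x (dy k), ∫⁻ w in ann p 4 8, ENNReal.ofReal (ee G x z w ^ 2)
        ∂(μHE[n] : Measure M) ∂(μHE[n] : Measure M) ≤ ENNReal.ofReal (ε₁ * dy k ^ (n + 2)) →
      Real.sqrt ((1 - (n - 1) * ε) / n) * dist x y - τ * dist x y ≤
        ‖psi (nuf (μHE[n] : Measure M) p) y - psi (nuf (μHE[n] : Measure M) p) x‖ := by
  obtain ⟨c₁, hc₁, hc₁1, H₁⟩ := n1 n hn hε
  obtain ⟨c₂, hc₂, hc₂1, -, hpos⟩ := exists_const n hn hε
  refine ⟨min c₁ c₂, lt_min hc₁ hc₂, (min_le_left _ _).trans_lt hc₁1, ?_⟩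
  intro τ hτ
  set w0 : ℝ := (1 - c₂) * 8 ^ n - Real.exp (8 * c₂) * 4 ^ n with hw0
  set t : ℝ := min τ 1 with ht
  have ht0 : 0 < t := lt_min hτ one_pos
  refine ⟨w0 * om n ^ 2 * (t / 4) ^ 2 / 16 * (t / 16) ^ n, ?_, ?_⟩
  · have := om_pos n
    positivity
  intro M _ _ _ _ _ _ _ _ _ _ _ _ κ C hκ hκc hm G hG p hvol8 x y k hxc hxy0 hxy1 hxy2 hvol hF
  have h8 : (0 : ℝ) < 8 ^ n := by positivity
  have hv1 : ENNReal.ofReal ((1 - c₁) * 8 ^ n) * volume (ball (0 : EuclideanSpace ℝ (Fin n)) 1) ≤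
      μHE[n] (ball p 8) := by
    refine le_trans ?_ hvol8
    gcongr
    exact min_le_left _ _
  have hv2 : ENNReal.ofReal ((1 - c₂) * 8 ^ n) * volume (ball (0 : EuclideanSpace ℝ (Fin n)) 1) ≤
      μHE[n] (ball p 8) := by
    refine le_trans ?_ hvol8
    gcongr
    exact min_le_right _ _
  obtain ⟨hprob, hN⟩ := H₁ M κ C hκ (hκc.trans (min_le_left _ _)) hm p hv1
  have hW := ann_ge C hκ hc₂ hc₂1 (hκc.trans (min_le_right _ _)) p hv2
  have h := psi_lower_one (n := n) hn C hm hG (p := p) (ε := ε) (c := c₁) (w0 := w0) (τ := t)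
    hε.le hε1 hprob hN hpos hW ht0 (min_le_right _ _) (x := x) (y := y) (k := k)
    (hxc.trans (min_le_left _ _)) hxy0 hxy1 hxy2 hvol
    (ε₁ := w0 * om n ^ 2 * (t / 4) ^ 2 / 16 * (t / 16) ^ n)
    (by have := om_pos n; positivity) le_rfl hF
  have h2 : t * dist x y ≤ τ * dist x y := by
    gcongr
    exact min_le_left _ _
  linarith

end Crest.Agent.R247.Near710
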