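import Crest.Agent.R247.GluM3_923
import Crest.Agent.R247.Scal4_386
import Crest.Agent.R247.Lim4_386
import Crest.Agent.R247.Far0_553
import Crest.Agent.R247.VC3_402
import Crest.Prelude.Def_PointedLimit
import Crest.Agent.R247.Ar4_659
import Crest.Agent.R247.Rdg2_879
import Crest.Agent.R247.GluM1_923
import Crest.Agent.R247.Asm1_951
import Crest.Agent.R247.Bgr_546

-- ▼ part R247/Sk2_656
section

/-!
# R247, chain file (2): rescaling of `GlueData`

`glueData_of_scaled : 1 ≤ b → GlueDataT b n → GlueData n` (`GlueDataT b n` is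
`GluM923.GlueData n` with the volume pinching hypothesis for all radii `r ≤ b` instead of `r ≤ 1`),
by applying the hypothesis to the manifold with the distance `b * dist`.
-/

set_option autoImplicit false
noncomputable section
open Set Filter Topology MeasureTheory Metric
open scoped ContDiff Manifold ENNReal NNReal
open Bundle Crest.GeometryTopology.CoordMetric Crest.GeometryTopology.ChartCurvature
  Crest.GeometryTopology.PointedLimit

namespace Crest.Agent.R247.Skel656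

open Crest.Agent.R247.GluM923 Crest.Agent.R247.Scal386

universe u

/-- change of scale in `GlueOn`: the distance of `X` is `b` times the distance of `M`. -/
theorem GlueOn.scale {M X H : Type*} [MetricSpace M] [MetricSpace X] [NormedAddCommGroup H]
    [InnerProductSpace ℝ H] {n : ℕ} {Ψ : X → H} {P : ℕ → X → H →L[ℝ] H} {D : ℕ → X → ℝ}
    {S : Set X} {R C c η b : ℝ} (hb : 0 < b) (e : M → X)
    (he : ∀ x y, dist (e x) (e y) = b * dist x y) (h : GlueOn n Ψ P D S R C c η) :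
    GlueOn n (fun x => b⁻¹ • Ψ (e x)) (fun k x => P k (e x)) (fun k x => D k (e x)) (e ⁻¹' S)
      (R / b) C c η := by
  have hb' : 0 ≤ b⁻¹ := by positivity
  have hn : ∀ x y, ‖b⁻¹ • Ψ (e x) - b⁻¹ • Ψ (e y)‖ = b⁻¹ * ‖Ψ (e x) - Ψ (e y)‖ := by
    intro x y
    rw [← smul_sub, norm_smul, Real.norm_eq_abs, abs_of_nonneg hb']
  have hR : ∀ k : ℕ, ∀ x y, dist x y ≤ 8 * (R / b / 2 ^ k) → dist (e x) (e y) ≤ 8 * (R / 2 ^ k) := by
    intro k x y hxy
    rw [he]
    calc b * dist x y ≤ b * (8 * (R / b / 2 ^ k)) := by gcongr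
      _ = 8 * (R / 2 ^ k) := by field_simp
  refine ⟨?_, ?_, ?_, ?_, ?_, ?_, ?_, ?_, ?_⟩
  · intro x hx y hy
    rw [hn]
    have := h.Ψ_le _ hx _ hy
    rw [he] at this
    calc b⁻¹ * ‖Ψ (e x) - Ψ (e y)‖ ≤ b⁻¹ * (b * dist x y) := by gcongr
      _ = dist x y := by field_simp
  · intro x hx y hy
    rw [hn]
    have := h.near _ hx _ hy
    rw [he] at this
    have h1 : c * (b⁻¹ * ‖Ψ (e x) - Ψ (e y)‖) - dist x y =
        b⁻¹ * (c * ‖Ψ (e x) - Ψ (e y)‖ - b * dist x y) := by field_simp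
    rw [h1, abs_mul, abs_of_nonneg hb']
    calc b⁻¹ * |c * ‖Ψ (e x) - Ψ (e y)‖ - b * dist x y| ≤ b⁻¹ * (η * (b * dist x y)) := by gcongr
      _ = η * dist x y := by field_simp
  · intro k hk x hx
    exact h.D_nonneg k hk _ hx
  · intro x hx m
    exact h.D_sum _ hx m
  · intro k hk x hx
    exact h.proj k hk _ hx
  · intro x hx
    exact h.rank _ hx
  · intro k hk x hx y hy hxy
    have h1 := h.A1 k hk _ hx _ hy (hR k x y hxy)
    have h2 : (1 - P k (e x)) (b⁻¹ • Ψ (e y) - b⁻¹ • Ψ (e x)) =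
        b⁻¹ • (1 - P k (e x)) (Ψ (e y) - Ψ (e x)) := by
      rw [← smul_sub, map_smul]
    rw [h2, norm_smul, Real.norm_eq_abs, abs_of_nonneg hb']
    calc b⁻¹ * ‖(1 - P k (e x)) (Ψ (e y) - Ψ (e x))‖
        ≤ b⁻¹ * (C * (Real.sqrt (D k (e x)) + Real.sqrt (D k (e y))) * (R / 2 ^ k)) := by gcongr
      _ = C * (Real.sqrt (D k (e x)) + Real.sqrt (D k (e y))) * (R / b / 2 ^ k) := by
          field_simp
  · intro k hk x hx y hy hxy
    exact h.A2 k hk _ hx _ hy (hR k x y hxy)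
  · intro k hk x hx
    exact h.A3 k hk _ hx

/-- **Rescaling**: it is enough to prove `GlueData` with pinching for all radii `r ≤ b`. -/
theorem glueData_of_scaled {b : ℝ} (hb : 1 ≤ b) {n : ℕ} (h : GlueDataT.{u} b n) :
    GlueData.{u} n := by
  have hb0 : 0 < b := by linarith
  obtain ⟨C, hC, c, hc, h⟩ := h
  refine ⟨C, hC, c, hc, fun η hη => ?_⟩
  obtain ⟨R, hR, hR1, R₀, hR₀, δ, hδ, H⟩ := h η hη
  refine ⟨R / b, by positivity, ?_, R₀, hR₀, δ, hδ, ?_⟩
  · rw [div_le_one hb0]; linarith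
  intro M _ _ _ _ _ _ _ _ _ _ q hRic hvol
  set r : {r : ℝ // 0 < r} := ⟨b⁻¹, by positivity⟩ with hr
  have hd : ∀ x y : M, dist (toSc r x) (toSc r y) = b * dist x y := by
    intro x y
    rw [dist_toSc]
    simp only [hr, inv_inv]
  have hRic' : HasRicciLowerBound n (Sc r M) (-δ) := by
    refine ricciLB_mono (ricciLB_sc r hRic) ?_
    have h1 : r.1 ^ 2 ≤ 1 := by
      have h2 : b⁻¹ ≤ 1 := inv_le_one_of_one_le₀ hb
      have h3 : 0 ≤ b⁻¹ := by positivity
      simp only [hr]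
      nlinarith
    nlinarith
  have hvol' : ∀ x ∈ ball (toSc r q) R₀, ∀ s : ℝ, 0 < s → s ≤ b →
      ENNReal.ofReal (1 - δ) * volume (ball (0 : EuclideanSpace ℝ (Fin n)) s) ≤
        Measure.euclideanHausdorffMeasure n (ball x s) := by
    intro x hx s hs hsb
    have hx' : ofSc r x ∈ ball q R₀ := by
      have h1 : dist x (toSc r q) < R₀ := hx
      have h2 : dist x (toSc r q) = b * dist (ofSc r x) q := hd (ofSc r x) q
      rw [mem_ball]
      have h3 : 0 ≤ dist (ofSc r x) q := dist_nonneg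
      nlinarith
    have hs1 : r.1 * s ≤ 1 := by
      simp only [hr]
      rw [inv_mul_le_iff₀ hb0]
      linarith
    have hrs : 0 < r.1 * s := mul_pos r.2 hs
    have h1 := hvol (ofSc r x) hx' (r.1 * s) hrs hs1
    have h2 := muHE_sc r n (ball (ofSc r x) (r.1 * s))
    rw [ball_sc] at h2
    have h3 : toSc r (ofSc r x) = x := rfl
    rw [h3] at h2
    have h4 := h1.trans h2
    have h5 : volume (ball (0 : EuclideanSpace ℝ (Fin n)) (r.1 * s)) =
        ENNReal.ofReal (r.1 ^ n) * volume (ball (0 : EuclideanSpace ℝ (Fin n)) s) := by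
      rw [Asm951.volume_ball_scale _ hrs, Asm951.volume_ball_scale _ hs, mul_pow,
        ENNReal.ofReal_mul (by have := r.2; positivity), mul_assoc]
    rw [h5, mul_left_comm] at h4
    have h6 : ENNReal.ofReal (r.1 ^ n) ≠ 0 := by
      have := r.2
      rw [Ne, ENNReal.ofReal_eq_zero, not_le]
      positivity
    exact (ENNReal.mul_le_mul_iff_right h6 ENNReal.ofReal_ne_top).1 h4
  obtain ⟨H', i1, i2, i3, Ψ, P, D, hG⟩ := H (Sc r M) (toSc r q) hRic' hvol'
  have h1 := GlueOn.scale hb0 (toSc r : M → Sc r M) hd hG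
  have h2 : (toSc r ⁻¹' ball (toSc r q) (R / 2) : Set M) = ball q (R / b / 2) := by
    ext x
    rw [mem_preimage, mem_ball, mem_ball, hd, ← lt_div_iff₀' hb0,
      show R / b / 2 = R / 2 / b by ring]
  rw [h2] at h1
  exact ⟨H', i1, i2, i3, _, _, _, h1⟩

end Crest.Agent.R247.Skel656
end
end

-- ▼ part R247/Skel_656
section

/-!
# R247, official chain file (helper656): S0381 from the open literal Props

* `RAD n` : every complete `n`-manifold with `Ric ≥ -κ` carries 688's structure `Rad n κ`;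
* `bgr_of_rad : RAD n → Asm951.BGr n`;
* `s0381_of` : the literal statement of S0381 from `VC`, `RAD`, `GlueDataT 40`.
-/

set_option autoImplicit false
noncomputable section
open Set Filter Topology MeasureTheory Metric
open scoped ContDiff Manifold ENNReal NNReal
open Bundle Crest.GeometryTopology.CoordMetric Crest.GeometryTopology.ChartCurvature
  Crest.GeometryTopology.PointedLimit

namespace Crest.Agent.R247.Skel656

open Crest.Agent.R247.Mcp688

universe u

/-- **Radial contractions on manifolds** (816, 688, 879, 582, 322, 216). -/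
def RAD (n : ℕ) : Prop := ∀ κ : ℝ, 0 ≤ κ →
  ∀ (M : Type u) [MetricSpace M] [CompleteSpace M] [ConnectedSpace M]
    [ChartedSpace (EuclideanSpace ℝ (Fin n)) M]
    [IsManifold 𝓘(ℝ, EuclideanSpace ℝ (Fin n)) ∞ M]
    [RiemannianBundle (fun x : M => TangentSpace 𝓘(ℝ, EuclideanSpace ℝ (Fin n)) x)]
    [IsContMDiffRiemannianBundle 𝓘(ℝ, EuclideanSpace ℝ (Fin n)) ∞ (EuclideanSpace ℝ (Fin n))
      (fun x : M => TangentSpace 𝓘(ℝ, EuclideanSpace ℝ (Fin n)) x)]
    [IsRiemannianManifold 𝓘(ℝ, EuclideanSpace ℝ (Fin n)) M]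
    [MeasurableSpace M] [BorelSpace M],
    HasRicciLowerBound n M (-κ) →
    Nonempty (Rad n κ M (Measure.euclideanHausdorffMeasure n : Measure M))

theorem bgr_of_rad {n : ℕ} (h : RAD.{u} n) : Asm951.BGr.{u} n := by
  intro δ hδ M _ _ _ _ _ _ _ _ _ _ x r R hRic hr hrR
  obtain ⟨C⟩ := h δ hδ M hRic
  exact C.mu_ball_le hδ x hr hrR

/-- **S0381** from the three open Props. -/
theorem s0381_of (n : ℕ) (hVC : Asm951.VC.{u} n) (hR : RAD.{u} n) (hG : GluM923.GlueDataT.{u} 40 n) :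
    ∃ L : ℝ, 1 ≤ L ∧
      ∀ (K : ℝ) (M : ℕ → Type u) [∀ k, MetricSpace (M k)] [∀ k, CompleteSpace (M k)]
        [∀ k, ConnectedSpace (M k)] [∀ k, ChartedSpace (EuclideanSpace ℝ (Fin n)) (M k)]
        [∀ k, IsManifold 𝓘(ℝ, EuclideanSpace ℝ (Fin n)) ∞ (M k)]
        [∀ k, RiemannianBundle (fun x : M k => TangentSpace 𝓘(ℝ, EuclideanSpace ℝ (Fin n)) x)]
        [∀ k, IsContMDiffRiemannianBundle 𝓘(ℝ, EuclideanSpace ℝ (Fin n)) ∞ (EuclideanSpace ℝ (Fin n))
          (fun x : M k => TangentSpace 𝓘(ℝ, EuclideanSpace ℝ (Fin n)) x)]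
        [∀ k, IsRiemannianManifold 𝓘(ℝ, EuclideanSpace ℝ (Fin n)) (M k)]
        [∀ k, MeasurableSpace (M k)] [∀ k, BorelSpace (M k)] (q : ∀ k, M k),
        (∀ k, HasRicciLowerBound n (M k) K) →
        (∃ v : ℝ, 0 < v ∧ ∀ k, ENNReal.ofReal v ≤
          MeasureTheory.Measure.euclideanHausdorffMeasure n (Metric.ball (q k) 1)) →
        ∀ (X : Type u) [MetricSpace X] [CompleteSpace X] (p : X),
          SeqPointedTendsto q p → RescalingsTendstoEuclidean p n →
          ∃ U : Set X, IsOpen U ∧ p ∈ U ∧ ∃ F : X → EuclideanSpace ℝ (Fin n), IsOpen (F '' U) ∧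
            ∀ x ∈ U, ∀ z ∈ U, L⁻¹ * dist x z ≤ dist (F x) (F z) ∧
              dist (F x) (F z) ≤ L * dist x z :=
  Lim386.result_of_parts n hVC (bgr_of_rad hR)
    (GluM923.eff2_of_glueData (bgr_of_rad hR) (glueData_of_scaled (by norm_num) hG))

end Crest.Agent.R247.Skel656
end
end

-- ▼ part R247/VC4_402
section

/-!
# R247, block (3), file 4: the divergence inequality for the push-forward measure
-/

set_option autoImplicit false
set_option linter.unusedSectionVars false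
set_option linter.unusedVariables false

noncomputable section

open MeasureTheory Filter Topology Set
open scoped ENNReal NNReal RealInnerProductSpace

namespace Crest.Agent.R247.VC402

/-- basis vectors -/
abbrev ee {n : ℕ} (i : Fin n) : E n := EuclideanSpace.single i (1 : ℝ)

lemma norm_ee {n : ℕ} (i : Fin n) : ‖ee i‖ = 1 := by simp [ee]

lemma inner_ee {n : ℕ} (x : E n) (i : Fin n) : ⟪x, ee i⟫ = x i := by
  simp [ee, EuclideanSpace.inner_single_right]

lemma ee_orth {n : ℕ} {i j : Fin n} (h : i ≠ j) : ⟪ee i, ee j⟫ = 0 := by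
  rw [inner_ee]; simp [ee, Ne.symm h]

lemma norm_le_sum {n : ℕ} (x : E n) : ‖x‖ ≤ ∑ i, |x i| := by
  have h : x = ∑ i, x i • ee i := by
    ext j
    simp [ee, Pi.single_apply]
  calc ‖x‖ = ‖∑ i, x i • ee i‖ := by rw [← h]
    _ ≤ ∑ i, ‖x i • ee i‖ := norm_sum_le _ _
    _ = ∑ i, |x i| := by
        refine Finset.sum_congr rfl fun i _ => ?_
        rw [norm_smul, norm_ee, mul_one, Real.norm_eq_abs]

lemma norm_le_of_forall {n : ℕ} (x : E n) {a : ℝ} (h : ∀ i, |x i| ≤ a) : ‖x‖ ≤ n * a := by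
  refine (norm_le_sum x).trans ?_
  calc ∑ i, |x i| ≤ ∑ _i : Fin n, a := Finset.sum_le_sum fun i _ => h i
    _ = n * a := by simp

lemma abs_apply_le {n : ℕ} (x : E n) (i : Fin n) : |x i| ≤ ‖x‖ := by
  have := PiLp.norm_apply_le x i
  rwa [Real.norm_eq_abs] at this

/-- the map `Φ` -/
def Φ {n : ℕ} {M : Type*} (β : E n → M → ℝ) (x : M) : E n := WithLp.toLp 2 (fun i => β (ee i) x)

@[simp] lemma Φ_apply {n : ℕ} {M : Type*} (β : E n → M → ℝ) (x : M) (i : Fin n) :
    Φ β x i = β (ee i) x := rfl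

/-- divergence -/
def dv {n : ℕ} (X : E n → E n) (z : E n) : ℝ := ∑ j, (fderiv ℝ X z (ee j)) j

namespace Dirs

variable {n : ℕ} {M : Type*} [MetricSpace M] [ProperSpace M] [MeasurableSpace M] [BorelSpace M]
  {ν : Measure M} [IsFiniteMeasureOnCompacts ν] {S : Setup n M ν} {p : M} {φ : M → E n} {ψ κ : ℝ}
  {β : E n → M → ℝ} (h : Dirs S p φ ψ κ β)

include h

lemma Φ_close {x : M} (hx : dist p x < 5) : ‖Φ β x - φ x‖ ≤ n * ψ := by
  refine norm_le_of_forall _ fun i => ?_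
  have := h.close (ee i) (norm_ee i) x hx
  rw [inner_ee] at this
  simpa using this

lemma Φ_lip (x y : M) : ‖Φ β x - Φ β y‖ ≤ n * dist x y := by
  refine norm_le_of_forall _ fun i => ?_
  have := (h.lip (ee i) (norm_ee i)).dist_le_mul x y
  rw [Real.dist_eq] at this
  simpa using this

lemma Φ_lipschitz : LipschitzWith n (Φ β) := by
  refine LipschitzWith.of_dist_le_mul fun x y => ?_
  rw [dist_eq_norm]
  simpa using h.Φ_lip x y

lemma Φ_cont : Continuous (Φ β) := h.Φ_lipschitz.continuous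

lemma chain_X {X : E n → E n} (hX : Differentiable ℝ X) (j : Fin n) {x : M}
    (hD : ∀ i, S.cd.D (β (ee i)) x) :
    S.cd.D (fun y => X (Φ β y) j) x ∧ ∀ g, S.cd.D g x →
      S.cd.Γ (fun y => X (Φ β y) j) g x
        = ∑ i, (fderiv ℝ X (Φ β x) (ee i)) j * S.cd.Γ (β (ee i)) g x := by
  set L : (Fin n → ℝ) →L[ℝ] E n := ((PiLp.continuousLinearEquiv 2 ℝ (fun _ : Fin n => ℝ)).symm :
    (Fin n → ℝ) →L[ℝ] E n) with hL
  have hLa : ∀ v : Fin n → ℝ, L v = WithLp.toLp 2 v := fun v => rfl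
  set pr : E n →L[ℝ] ℝ := EuclideanSpace.proj j with hpr
  have hF : HasFDerivAt (fun v : Fin n → ℝ => X (WithLp.toLp 2 v) j)
      (pr.comp ((fderiv ℝ X (Φ β x)).comp L)) (fun i => β (ee i) x) := by
    have h1 : HasFDerivAt (fun v : Fin n → ℝ => L v) L (fun i => β (ee i) x) := L.hasFDerivAt
    have h2 : HasFDerivAt X (fderiv ℝ X (Φ β x)) (L (fun i => β (ee i) x)) := by
      have : L (fun i => β (ee i) x) = Φ β x := rfl
      rw [this]
      exact (hX _).hasFDerivAt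
    have h3 := h2.comp _ h1
    exact pr.hasFDerivAt.comp _ h3
  have key := S.cd.chain (fun v : Fin n → ℝ => X (WithLp.toLp 2 v) j) _ (fun i => β (ee i)) x hD hF
  refine ⟨key.1, fun g hg => ?_⟩
  rw [show (fun y => X (Φ β y) j) = fun y => (fun v : Fin n → ℝ => X (WithLp.toLp 2 v) j)
    (fun i => β (ee i) y) from rfl, key.2 g hg]
  refine Finset.sum_congr rfl fun i _ => ?_
  congr 1

/-- the divergence inequality -/
lemma div_ineq (hsmall : 3 * κ + 548 * √ψ ≤ 1) {X : E n → E n} {A : ℝ} (hA : 0 ≤ A)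
    (hX : ContDiff ℝ 1 X) (hXb : ∀ z, ‖X z‖ ≤ A) (hXd : ∀ z, ‖fderiv ℝ X z‖ ≤ A)
    (hreg : ∀ x, 3 / 2 ≤ dist p x → dist p x < 5 → X (Φ β x) = 0) :
    ∫ x, co p (3 / 2) x * dv X (Φ β x) ∂ν ≤
      n * (A * ((3 * κ + 548 * √ψ) * V ν p) + n * (A * (307 * √ψ * V ν p))) := by
  have hXdiff : Differentiable ℝ X := hX.differentiable (by norm_num)
  have hψ0 := h.ψ0
  have hκ0 := h.κ0
  have hV : 0 ≤ V ν p := V_nonneg
  have hs : 0 ≤ √ψ := Real.sqrt_nonneg _
  have hLb : ∀ i : Fin n, Lp (β (ee i)) := fun i => h.lp _ (norm_ee i)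
  have hΦc := h.Φ_cont
  have hXlip : LipschitzWith ⟨A, hA⟩ X := by
    apply lipschitzWith_of_nnnorm_fderiv_le hXdiff
    intro z
    exact hXd z
  -- entries of the derivative
  set a : Fin n → Fin n → M → ℝ := fun i j x => (fderiv ℝ X (Φ β x) (ee i)) j with ha
  have hac : ∀ i j, Continuous (a i j) := by
    intro i j
    have h1 : Continuous (fderiv ℝ X) := hX.continuous_fderiv (by norm_num)
    have h2 : Continuous fun x => fderiv ℝ X (Φ β x) (ee i) :=
      (h1.comp hΦc).clm_apply continuous_const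
    exact (EuclideanSpace.proj j : E n →L[ℝ] ℝ).continuous.comp h2
  have hab : ∀ i j x, |a i j x| ≤ A := by
    intro i j x
    calc |a i j x| ≤ ‖fderiv ℝ X (Φ β x) (ee i)‖ := abs_apply_le _ _
      _ ≤ ‖fderiv ℝ X (Φ β x)‖ * ‖ee i‖ := ContinuousLinearMap.le_opNorm _ _
      _ ≤ A * 1 := by rw [norm_ee]; gcongr; exact hXd _
      _ = A := mul_one A
  have hXL : ∀ j, Lp (fun x => X (Φ β x) j) := by
    intro j
    refine lip_of (K := A * n) (by positivity) fun x y => ?_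
    have h1 := (hXlip.dist_le_mul (Φ β x) (Φ β y))
    have h2 := h.Φ_lip x y
    rw [← dist_eq_norm] at h2
    calc |X (Φ β x) j - X (Φ β y) j| = |(X (Φ β x) - X (Φ β y)) j| := by simp
      _ ≤ ‖X (Φ β x) - X (Φ β y)‖ := abs_apply_le _ _
      _ = dist (X (Φ β x)) (X (Φ β y)) := (dist_eq_norm _ _).symm
      _ ≤ A * dist (Φ β x) (Φ β y) := h1
      _ ≤ A * (n * dist x y) := by gcongr
      _ = A * n * dist x y := by ring
  have hc : T p (co p (3 / 2)) := co_T (by norm_num)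
  have hG : ∀ j, T p (fun x => co p (3 / 2) x * X (Φ β x) j) := fun j => hc.mul (hXL j)
  have hGd : ∀ j x, |co p (3 / 2) x * X (Φ β x) j| ≤ A * co p 3 x := by
    intro j x
    by_cases hx : dist p x ≤ 3
    · rw [co_eq_one hx, mul_one, abs_mul, abs_of_nonneg (co_nonneg (p := p) (3 / 2) x)]
      calc co p (3 / 2) x * |X (Φ β x) j| ≤ 1 * A := by
            have := co_le_one (p := p) (3 / 2) x
            gcongr
            exact (abs_apply_le _ _).trans (hXb _)
        _ = A := one_mul A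
    · push Not at hx
      rw [co_eq_zero (a := 3 / 2) (by linarith)]
      have := co_nonneg (p := p) 3 x
      simp only [zero_mul, abs_zero]; positivity
  have hIj : ∀ j : Fin n, |∫ x, S.cd.Γ (β (ee j)) (fun x => co p (3 / 2) x * X (Φ β x) j) x ∂ν|
      ≤ A * ((3 * κ + 548 * √ψ) * V ν p) := fun j =>
    h.intΓ_le hA (ee j) (norm_ee j) (hG j) (hGd j)
  -- measurability/boundedness of the pieces
  have hm : ∀ i j : Fin n, AEStronglyMeasurable
      (fun x => co p (3 / 2) x * (a i j x * S.cd.Γ (β (ee i)) (β (ee j)) x)) ν := by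
    intro i j
    refine AEStronglyMeasurable.mul hc.1.continuous.aestronglyMeasurable ?_
    exact (hac i j).aestronglyMeasurable.mul (S.meas _ _ (hLb i) (hLb j))
  have hb : ∀ i j : Fin n, ∀ᵐ x ∂ν,
      |co p (3 / 2) x * (a i j x * S.cd.Γ (β (ee i)) (β (ee j)) x)| ≤ A := by
    intro i j
    filter_upwards [S.rad _ (hLb i), S.rad _ (hLb j)] with x h1 h2
    have hg := S.cd.abs_Γ_le_lip h1 h2 (h.lip _ (norm_ee i)) (h.lip _ (norm_ee j))
    have h5 := co_nonneg (p := p) (3 / 2) x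
    have h6 := co_le_one (p := p) (3 / 2) x
    rw [abs_mul, abs_mul, abs_of_nonneg h5]
    calc co p (3 / 2) x * (|a i j x| * |S.cd.Γ (β (ee i)) (β (ee j)) x|)
        ≤ 1 * (A * ((1 : ℝ≥0) * (1 : ℝ≥0))) := by
          have := hab i j x
          gcongr
      _ = A := by norm_num
  have hz : ∀ i j : Fin n, ∀ᵐ x ∂ν, 5 ≤ dist p x →
      co p (3 / 2) x * (a i j x * S.cd.Γ (β (ee i)) (β (ee j)) x) = 0 := fun i j =>
    Eventually.of_forall fun x hx => by rw [hc.2 x (by linarith), zero_mul]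
  have hi : ∀ i j : Fin n, Integrable
      (fun x => co p (3 / 2) x * (a i j x * S.cd.Γ (β (ee i)) (β (ee j)) x)) ν := fun i j =>
    integrable_of_bdd (hm i j) (hb i j) (hz i j)
  -- the off-diagonal terms
  have hoff : ∀ i j : Fin n, i ≠ j →
      |∫ x, co p (3 / 2) x * (a i j x * S.cd.Γ (β (ee i)) (β (ee j)) x) ∂ν|
        ≤ A * (307 * √ψ * V ν p) := by
    intro i j hij
    have ho := h.orth (ee i) (ee j) (norm_ee i) (norm_ee j) (ee_orth hij) hsmall
    have hc2 : T p (co p 2) := co_T (by norm_num)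
    have hm3 : AEStronglyMeasurable
        (fun x => (co p 2 x) ^ 2 * |S.cd.Γ (β (ee i)) (β (ee j)) x|) ν := by
      refine AEStronglyMeasurable.mul ?_ (S.meas _ _ (hLb i) (hLb j)).norm
      have hcc := hc2.1.continuous
      exact (by fun_prop : Continuous fun x => (co p 2 x) ^ 2).aestronglyMeasurable
    have hb3 : ∀ᵐ x ∂ν, |(co p 2 x) ^ 2 * (|S.cd.Γ (β (ee i)) (β (ee j)) x|)| ≤ 1 := by
      filter_upwards [S.rad _ (hLb i), S.rad _ (hLb j)] with x h1 h2
      have hg := S.cd.abs_Γ_le_lip h1 h2 (h.lip _ (norm_ee i)) (h.lip _ (norm_ee j))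
      have h5 := co_nonneg (p := p) 2 x
      have h6 := co_le_one (p := p) 2 x
      rw [abs_of_nonneg (by positivity)]
      calc (co p 2 x) ^ 2 * |S.cd.Γ (β (ee i)) (β (ee j)) x|
          ≤ 1 ^ 2 * ((1 : ℝ≥0) * (1 : ℝ≥0)) := by gcongr
        _ = 1 := by norm_num
    have hz3 : ∀ᵐ x ∂ν, 5 ≤ dist p x →
        (co p 2 x) ^ 2 * |S.cd.Γ (β (ee i)) (β (ee j)) x| = 0 :=
      Eventually.of_forall fun x hx => by rw [hc2.2 x (by linarith)]; simp
    have hi3 := integrable_of_bdd hm3 hb3 hz3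
    calc |∫ x, co p (3 / 2) x * (a i j x * S.cd.Γ (β (ee i)) (β (ee j)) x) ∂ν|
        ≤ ∫ x, |co p (3 / 2) x * (a i j x * S.cd.Γ (β (ee i)) (β (ee j)) x)| ∂ν :=
          abs_integral_le_integral_abs
      _ ≤ ∫ x, A * ((co p 2 x) ^ 2 * |S.cd.Γ (β (ee i)) (β (ee j)) x|) ∂ν := by
          refine integral_mono (hi i j).abs (hi3.const_mul A) fun x => ?_
          show |co p (3 / 2) x * (a i j x * S.cd.Γ (β (ee i)) (β (ee j)) x)|
            ≤ A * ((co p 2 x) ^ 2 * |S.cd.Γ (β (ee i)) (β (ee j)) x|)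
          rw [abs_mul, abs_mul, abs_of_nonneg (co_nonneg (3 / 2) x)]
          have h0 := co_nonneg (p := p) (3 / 2) x
          have h1 := co_le_one (p := p) (3 / 2) x
          have h2 := hab i j x
          by_cases hx : dist p x ≤ 2
          · rw [co_eq_one hx, one_pow, one_mul]
            calc co p (3 / 2) x * (|a i j x| * |S.cd.Γ (β (ee i)) (β (ee j)) x|)
                ≤ 1 * (A * |S.cd.Γ (β (ee i)) (β (ee j)) x|) := by gcongr
              _ = A * |S.cd.Γ (β (ee i)) (β (ee j)) x| := one_mul _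
          · push Not at hx
            rw [co_eq_zero (a := 3 / 2) (by linarith), zero_mul]
            positivity
      _ = A * ∫ x, (co p 2 x) ^ 2 * |S.cd.Γ (β (ee i)) (β (ee j)) x| ∂ν := integral_const_mul _ _
      _ ≤ A * (307 * √ψ * V ν p) := by gcongr
  -- the expansion of Γ(b_j, G_j)
  have hexp : ∀ j : Fin n, ∀ᵐ x ∂ν,
      S.cd.Γ (β (ee j)) (fun x => co p (3 / 2) x * X (Φ β x) j) x
        = ∑ i, co p (3 / 2) x * (a i j x * S.cd.Γ (β (ee i)) (β (ee j)) x) := by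
    intro j
    have hall : ∀ᵐ x ∂ν, ∀ i : Fin n, S.cd.D (β (ee i)) x := by
      rw [ae_all_iff]; exact fun i => S.rad _ (hLb i)
    filter_upwards [hall, S.rad _ (lp_dist p)] with x hD hd
    have hcut := S.cd.chain₁ (cut (3 / 2)) _ hd (hasDerivAt_cut (3 / 2) (dist p x))
    have hXc := h.chain_X hXdiff j hD
    have e1 : S.cd.Γ (co p (3 / 2)) (β (ee j)) x
        = cut' (3 / 2) (dist p x) * S.cd.Γ (fun y => dist p y) (β (ee j)) x :=
      hcut.2 _ (hD j)
    have hDco : S.cd.D (co p (3 / 2)) x := hcut.1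
    rw [S.cd.symm, S.cd.Γ_mul hDco hXc.1 (hD j), hXc.2 _ (hD j), e1]
    have hzero : X (Φ β x) j * (cut' (3 / 2) (dist p x) * S.cd.Γ (fun y => dist p y) (β (ee j)) x) = 0 := by
      by_cases hx1 : dist p x ≤ 3 / 2
      · rw [cut'_eq_zero_of_le hx1]; ring
      · push Not at hx1
        by_cases hx2 : dist p x < 5
        · rw [hreg x hx1.le hx2]; simp
        · push Not at hx2
          rw [cut'_eq_zero_of_ge (by linarith)]; ring
    rw [hzero, zero_add, Finset.mul_sum]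
  have hdiag : ∀ j : Fin n, ∫ x, co p (3 / 2) x * a j j x ∂ν ≤
      A * ((3 * κ + 548 * √ψ) * V ν p) + n * (A * (307 * √ψ * V ν p)) := by
    intro j
    have e1 : ∫ x, co p (3 / 2) x * a j j x ∂ν
        = ∫ x, co p (3 / 2) x * (a j j x * S.cd.Γ (β (ee j)) (β (ee j)) x) ∂ν := by
      refine integral_congr_ae ?_
      filter_upwards [h.unit (ee j) (norm_ee j)] with x hx
      rw [hx, mul_one]
    have e2 : ∫ x, S.cd.Γ (β (ee j)) (fun x => co p (3 / 2) x * X (Φ β x) j) x ∂ν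
        = ∑ i, ∫ x, co p (3 / 2) x * (a i j x * S.cd.Γ (β (ee i)) (β (ee j)) x) ∂ν := by
      rw [integral_congr_ae (hexp j), integral_finsetSum _ fun i _ => hi i j]
    rw [← Finset.add_sum_erase _ _ (Finset.mem_univ j)] at e2
    rw [e1]
    have h1 := (abs_le.1 (hIj j)).2
    have h2 : -(∑ i ∈ Finset.univ.erase j,
        ∫ x, co p (3 / 2) x * (a i j x * S.cd.Γ (β (ee i)) (β (ee j)) x) ∂ν)
        ≤ n * (A * (307 * √ψ * V ν p)) := by
      rw [← Finset.sum_neg_distrib]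
      calc ∑ i ∈ Finset.univ.erase j,
            -∫ x, co p (3 / 2) x * (a i j x * S.cd.Γ (β (ee i)) (β (ee j)) x) ∂ν
          ≤ ∑ i ∈ Finset.univ.erase j, A * (307 * √ψ * V ν p) := by
            refine Finset.sum_le_sum fun i hi' => ?_
            have := (abs_le.1 (hoff i j (Finset.ne_of_mem_erase hi'))).1
            linarith
        _ ≤ ∑ i : Fin n, A * (307 * √ψ * V ν p) := by
            refine Finset.sum_le_sum_of_subset_of_nonneg (Finset.erase_subset _ _) ?_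
            intros; positivity
        _ = n * (A * (307 * √ψ * V ν p)) := by simp
    linarith
  have hint : ∀ j : Fin n, Integrable (fun x => co p (3 / 2) x * a j j x) ν := by
    intro j
    have := hi j j
    refine this.congr ?_
    filter_upwards [h.unit (ee j) (norm_ee j)] with x hx
    rw [hx, mul_one]
  calc ∫ x, co p (3 / 2) x * dv X (Φ β x) ∂ν
      = ∫ x, ∑ j, co p (3 / 2) x * a j j x ∂ν := by
        refine integral_congr_ae (Eventually.of_forall fun x => ?_)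
        simp only [dv, ha, Finset.mul_sum]
    _ = ∑ j, ∫ x, co p (3 / 2) x * a j j x ∂ν := integral_finsetSum _ fun j _ => hint j
    _ ≤ ∑ _j : Fin n, (A * ((3 * κ + 548 * √ψ) * V ν p) + n * (A * (307 * √ψ * V ν p))) :=
        Finset.sum_le_sum fun j _ => hdiag j
    _ = n * (A * ((3 * κ + 548 * √ψ) * V ν p) + n * (A * (307 * √ψ * V ν p))) := by
        simp only [Finset.sum_const, Finset.card_univ, Fintype.card_fin, nsmul_eq_mul]

end Dirs

end Crest.Agent.R247.VC402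
end
end

-- ▼ part R247/VC5_402
section

/-!
# R247, block (3), file 5: the explicit test field `X₀ z = -(9-|z|²)₊^{4n+1} z`
-/

set_option autoImplicit false
set_option linter.unusedSectionVars false
set_option linter.unusedVariables false

noncomputable section

open MeasureTheory Filter Topology Set
open scoped ENNReal NNReal RealInnerProductSpace

namespace Crest.Agent.R247.VC402

lemma contDiff_posPow (m : ℕ) (hm : 1 ≤ m) : ContDiff ℝ 1 (fun t : ℝ => (max 0 t) ^ (m + 1)) := by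
  rw [contDiff_one_iff_deriv]
  refine ⟨fun t => (hasDerivAt_posPow m hm t).differentiableAt, ?_⟩
  have : deriv (fun t : ℝ => (max 0 t) ^ (m + 1)) = fun t => ((m + 1 : ℕ) : ℝ) * (max 0 t) ^ m := by
    funext t; exact (hasDerivAt_posPow m hm t).deriv
  rw [this]
  fun_prop

variable {n : ℕ}

/-- profile -/
def gg (n : ℕ) (t : ℝ) : ℝ := (max 0 t) ^ (4 * n + 1)

/-- test field -/
def X₀ (z : E n) : E n := (-(gg n (9 - ‖z‖ ^ 2))) • z

lemma X₀_eq_zero {z : E n} (hz : 3 ≤ ‖z‖) : X₀ z = 0 := by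
  unfold X₀ gg
  rw [max_eq_left (by nlinarith)]
  simp

lemma contDiff_X₀ (hn : 1 ≤ n) : ContDiff ℝ 1 (X₀ : E n → E n) := by
  unfold X₀
  have h1 : ContDiff ℝ 1 (fun z : E n => gg n (9 - ‖z‖ ^ 2)) := by
    have h2 : ContDiff ℝ 1 (fun z : E n => 9 - ‖z‖ ^ 2) := by
      exact contDiff_const.sub (contDiff_norm_sq ℝ)
    exact (contDiff_posPow (4 * n) (by omega)).comp h2
  exact h1.neg.smul contDiff_id

lemma dv_X₀ (hn : 1 ≤ n) (z : E n) :
    dv X₀ z = (max 0 (9 - ‖z‖ ^ 2)) ^ (4 * n) * ((9 * n + 2) * ‖z‖ ^ 2 - 9 * n) := by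
  set g' : ℝ := ((4 * n + 1 : ℕ) : ℝ) * (max 0 (9 - ‖z‖ ^ 2)) ^ (4 * n) with hg'
  set ℓ : E n →L[ℝ] ℝ := innerSL ℝ z with hℓ
  have h1 : HasFDerivAt (fun z : E n => ‖z‖ ^ 2) (2 • ℓ) z := by
    exact (hasStrictFDerivAt_norm_sq z).hasFDerivAt
  have h2 : HasFDerivAt (fun z : E n => 9 - ‖z‖ ^ 2) (-(2 • ℓ)) z := h1.const_sub 9
  have h3 : HasFDerivAt (fun z : E n => gg n (9 - ‖z‖ ^ 2)) (g' • (-(2 • ℓ) : E n →L[ℝ] ℝ)) z :=
    HasDerivAt.comp_hasFDerivAt (f := fun z : E n => 9 - ‖z‖ ^ 2) z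
      (hasDerivAt_posPow (4 * n) (by omega) (9 - ‖z‖ ^ 2)) h2
  have h4 := h3.fun_neg.fun_smul (hasFDerivAt_id z)
  have h5 : fderiv ℝ (X₀ : E n → E n) z = _ := h4.fderiv
  unfold dv
  rw [h5]
  have e : ∀ j : Fin n, (((-gg n (9 - ‖z‖ ^ 2)) • ContinuousLinearMap.id ℝ (E n)
        + (-(g' • (-(2 • ℓ) : E n →L[ℝ] ℝ)) : E n →L[ℝ] ℝ).smulRight (id z)) (ee j)) j
      = -gg n (9 - ‖z‖ ^ 2) + 2 * g' * (z j) ^ 2 := by
    intro j
    have hin : ℓ (ee j) = z j := by
      rw [hℓ, innerSL_apply_apply, inner_ee]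
    simp only [ContinuousLinearMap.add_apply, ContinuousLinearMap.smul_apply,
      ContinuousLinearMap.id_apply, ContinuousLinearMap.smulRight_apply, id,
      ContinuousLinearMap.neg_apply, hin, PiLp.add_apply, PiLp.smul_apply, smul_eq_mul]
    simp [ee]
    ring
  simp only [e]
  rw [Finset.sum_add_distrib, ← Finset.mul_sum, Finset.sum_const, Finset.card_univ, Fintype.card_fin,
    nsmul_eq_mul, ← EuclideanSpace.real_norm_sq_eq z]
  rw [hg']
  unfold gg
  rw [pow_succ]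
  set w := max 0 (9 - ‖z‖ ^ 2) with hw
  by_cases h9 : ‖z‖ ^ 2 ≤ 9
  · have hw' : w = 9 - ‖z‖ ^ 2 := max_eq_right (by linarith)
    have : (n : ℝ) * -(w ^ (4 * n) * w) + 2 * (((4 * n + 1 : ℕ) : ℝ) * w ^ (4 * n)) * ‖z‖ ^ 2
        = w ^ (4 * n) * (2 * (4 * n + 1) * ‖z‖ ^ 2 - n * w) := by push_cast; ring
    rw [this, hw']
    ring
  · push Not at h9
    have hw' : w = 0 := max_eq_left (by linarith)
    rw [hw', zero_pow (by omega)]
    ring

lemma dv_X₀_nonneg (hn : 1 ≤ n) {z : E n} (hz : 1 ≤ ‖z‖) : 0 ≤ dv X₀ z := by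
  rw [dv_X₀ hn]
  have h1 : 1 ≤ ‖z‖ ^ 2 := by nlinarith
  have h2 : (0 : ℝ) ≤ n := Nat.cast_nonneg n
  have h3 : 0 ≤ (9 * (n : ℝ) + 2) * ‖z‖ ^ 2 - 9 * n := by nlinarith
  positivity

lemma one_le_dv_X₀ (hn : 1 ≤ n) {z : E n} (hz : 1 ≤ ‖z‖) (hz2 : ‖z‖ ≤ 2) : 1 ≤ dv X₀ z := by
  rw [dv_X₀ hn]
  have h1 : 1 ≤ ‖z‖ ^ 2 := by nlinarith
  have h2 : (0 : ℝ) ≤ n := Nat.cast_nonneg n
  have h3 : 1 ≤ (9 * (n : ℝ) + 2) * ‖z‖ ^ 2 - 9 * n := by nlinarith
  have h4 : 1 ≤ max 0 (9 - ‖z‖ ^ 2) := by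
    have : ‖z‖ ^ 2 ≤ 4 := by nlinarith
    exact le_max_of_le_right (by linarith)
  have h5 : 1 ≤ (max 0 (9 - ‖z‖ ^ 2)) ^ (4 * n) := one_le_pow₀ h4
  nlinarith

lemma fderiv_X₀_eq_zero {z : E n} (hz : 3 < ‖z‖) : fderiv ℝ (X₀ : E n → E n) z = 0 := by
  have : (X₀ : E n → E n) =ᶠ[𝓝 z] fun _ => 0 := by
    have ho : IsOpen {w : E n | 3 < ‖w‖} := isOpen_lt continuous_const continuous_norm
    filter_upwards [ho.mem_nhds hz] with w hw
    exact X₀_eq_zero (le_of_lt hw)
  rw [this.fderiv_eq]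
  simp

lemma exists_bound_X₀ (hn : 1 ≤ n) : ∃ A : ℝ, 0 ≤ A ∧ (∀ z : E n, ‖X₀ z‖ ≤ A) ∧
    ∀ z : E n, ‖fderiv ℝ (X₀ : E n → E n) z‖ ≤ A := by
  have hX := contDiff_X₀ hn
  have hc1 : HasCompactSupport (X₀ : E n → E n) :=
    HasCompactSupport.intro (isCompact_closedBall (0 : E n) 3) fun z hz => by
      rw [Metric.mem_closedBall, dist_zero_right, not_le] at hz
      exact X₀_eq_zero hz.le
  have hc2 : HasCompactSupport (fderiv ℝ (X₀ : E n → E n)) := hc1.fderiv ℝ
  obtain ⟨A1, hA1⟩ := hX.continuous.bounded_above_of_compact_support hc1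
  obtain ⟨A2, hA2⟩ := (hX.continuous_fderiv (by norm_num)).bounded_above_of_compact_support hc2
  refine ⟨max A1 A2, ?_, fun z => (hA1 z).trans (le_max_left _ _),
    fun z => (hA2 z).trans (le_max_right _ _)⟩
  exact (norm_nonneg _).trans ((hA1 0).trans (le_max_left _ _))

/-- scaled and translated field -/
def XX (r : ℝ) (y z : E n) : E n := r • X₀ (r⁻¹ • (z - y))

lemma contDiff_XX (hn : 1 ≤ n) (r : ℝ) (y : E n) : ContDiff ℝ 1 (XX r y) := by
  unfold XX
  have h1 : ContDiff ℝ 1 (fun z : E n => r⁻¹ • (z - y)) := by fun_prop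
  exact ((contDiff_X₀ hn).comp h1).const_smul r

lemma fderiv_XX (hn : 1 ≤ n) {r : ℝ} (hr : 0 < r) (y z : E n) :
    fderiv ℝ (XX r y) z = fderiv ℝ (X₀ : E n → E n) (r⁻¹ • (z - y)) := by
  have h1 : HasFDerivAt (fun z : E n => r⁻¹ • (z - y)) (r⁻¹ • ContinuousLinearMap.id ℝ (E n)) z :=
    ((hasFDerivAt_id z).sub_const y).const_smul r⁻¹
  have h2 : HasFDerivAt (X₀ : E n → E n) (fderiv ℝ (X₀ : E n → E n) (r⁻¹ • (z - y))) (r⁻¹ • (z - y)) :=
    ((contDiff_X₀ hn).differentiable (by norm_num) _).hasFDerivAt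
  have h3 := (h2.comp z h1).const_smul r
  have h4 : fderiv ℝ (XX r y) z = _ := h3.fderiv
  rw [h4]
  ext v
  simp [smul_smul, hr.ne']

lemma dv_XX (hn : 1 ≤ n) {r : ℝ} (hr : 0 < r) (y z : E n) :
    dv (XX r y) z = dv X₀ (r⁻¹ • (z - y)) := by
  unfold dv; rw [fderiv_XX hn hr]

lemma norm_arg {r : ℝ} (hr : 0 < r) (y z : E n) : ‖r⁻¹ • (z - y)‖ = ‖z - y‖ / r := by
  rw [norm_smul, norm_inv, Real.norm_of_nonneg hr.le]; ring

lemma XX_eq_zero {r : ℝ} (hr : 0 < r) {y z : E n} (h : 3 * r ≤ ‖z - y‖) : XX r y z = 0 := by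
  unfold XX
  rw [X₀_eq_zero, smul_zero]
  rw [norm_arg hr, le_div_iff₀ hr]; exact h

lemma fderiv_XX_eq_zero (hn : 1 ≤ n) {r : ℝ} (hr : 0 < r) {y z : E n} (h : 3 * r < ‖z - y‖) :
    fderiv ℝ (XX r y) z = 0 := by
  rw [fderiv_XX hn hr, fderiv_X₀_eq_zero]
  rw [norm_arg hr, lt_div_iff₀ hr]; exact h

/-- finite sum of fields -/
def XS (F : Finset (E n)) (r : E n → ℝ) (z : E n) : E n := ∑ y ∈ F, XX (r y) y z

lemma contDiff_XS (hn : 1 ≤ n) (F : Finset (E n)) (r : E n → ℝ) : ContDiff ℝ 1 (XS F r) := by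
  unfold XS
  exact ContDiff.sum fun y _ => contDiff_XX hn (r y) y

lemma fderiv_XS (hn : 1 ≤ n) (F : Finset (E n)) (r : E n → ℝ) (z : E n) :
    fderiv ℝ (XS F r) z = ∑ y ∈ F, fderiv ℝ (XX (r y) y) z := by
  unfold XS
  rw [fderiv_fun_sum fun y _ => (contDiff_XX hn (r y) y).differentiable (by norm_num) z]

lemma dv_XS (hn : 1 ≤ n) (F : Finset (E n)) (r : E n → ℝ) (z : E n) :
    dv (XS F r) z = ∑ y ∈ F, dv (XX (r y) y) z := by
  unfold dv
  rw [fderiv_XS hn, Finset.sum_comm]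
  refine Finset.sum_congr rfl fun j _ => ?_
  simp [Finset.sum_apply]

lemma bound_XS (hn : 1 ≤ n) {A : ℝ} (hA : 0 ≤ A) (hA1 : ∀ z : E n, ‖X₀ z‖ ≤ A)
    (hA2 : ∀ z : E n, ‖fderiv ℝ (X₀ : E n → E n) z‖ ≤ A) (F : Finset (E n)) (r : E n → ℝ)
    (hr : ∀ y ∈ F, 0 < r y ∧ r y ≤ 1)
    (hdisj : (F : Set (E n)).PairwiseDisjoint fun y => Metric.closedBall y (3 * r y)) (z : E n) :
    ‖XS F r z‖ ≤ A ∧ ‖fderiv ℝ (XS F r) z‖ ≤ A := by
  rw [fderiv_XS hn]
  unfold XS
  by_cases h : ∃ y ∈ F, z ∈ Metric.closedBall y (3 * r y)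
  · obtain ⟨y, hy, hz⟩ := h
    have hoth : ∀ y' ∈ F, y' ≠ y → 3 * r y' < ‖z - y'‖ := by
      intro y' hy' hne
      have hd := hdisj hy' hy hne
      have : z ∉ Metric.closedBall y' (3 * r y') := fun hz' =>
        (Set.disjoint_left.1 hd hz') hz
      rwa [Metric.mem_closedBall, not_le, dist_eq_norm] at this
    rw [Finset.sum_eq_single_of_mem y hy fun y' hy' hne => XX_eq_zero (hr y' hy').1 (hoth y' hy' hne).le,
      Finset.sum_eq_single_of_mem y hy fun y' hy' hne => fderiv_XX_eq_zero hn (hr y' hy').1 (hoth y' hy' hne)]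
    constructor
    · unfold XX
      rw [norm_smul, Real.norm_of_nonneg (hr y hy).1.le]
      calc r y * ‖X₀ ((r y)⁻¹ • (z - y))‖ ≤ 1 * A :=
            mul_le_mul (hr y hy).2 (hA1 _) (norm_nonneg _) zero_le_one
        _ = A := one_mul A
    · rw [fderiv_XX hn (hr y hy).1]; exact hA2 _
  · push Not at h
    have h' : ∀ y ∈ F, 3 * r y < ‖z - y‖ := by
      intro y hy
      have := h y hy
      rwa [Metric.mem_closedBall, not_le, dist_eq_norm] at this
    rw [Finset.sum_eq_zero fun y hy => XX_eq_zero (hr y hy).1 (h' y hy).le,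
      Finset.sum_eq_zero fun y hy => fderiv_XX_eq_zero hn (hr y hy).1 (h' y hy)]
    simpa using hA

end Crest.Agent.R247.VC402
end
end

-- ▼ part R247/VC6_402
section

/-!
# R247, block (3), file 6: maximal empty balls, Vitali covering, the image is almost full
-/

set_option autoImplicit false
set_option linter.unusedSectionVars false
set_option linter.unusedVariables false

noncomputable section

open MeasureTheory Filter Topology Set
open scoped ENNReal NNReal RealInnerProductSpace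

namespace Crest.Agent.R247.VC402

namespace Dirs

variable {n : ℕ} {M : Type*} [MetricSpace M] [ProperSpace M] [MeasurableSpace M] [BorelSpace M]
  {ν : Measure M} [IsFiniteMeasureOnCompacts ν] {S : Setup n M ν} {p : M} {φ : M → E n} {ψ κ : ℝ}
  {β : E n → M → ℝ} (h : Dirs S p φ ψ κ β)

include h

/-- norm estimate for `Φ` from the approximation property -/
lemma norm_Φ {ε : ℝ} (hp : φ p = 0)
    (hφ : ∀ x, dist p x < 5 → |‖φ x‖ - dist p x| ≤ ε) {x : M} (hx : dist p x < 5) :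
    |‖Φ β x‖ - dist p x| ≤ ε + n * ψ := by
  have h1 := abs_le.1 (hφ x hx)
  have h2 := h.Φ_close hx
  have h3 : |‖Φ β x‖ - ‖φ x‖| ≤ ‖Φ β x - φ x‖ := abs_norm_sub_norm_le _ _
  have h4 := abs_le.1 (h3.trans h2)
  rw [abs_le]; constructor <;> linarith

/-- finite families of empty balls -/
lemma finite_sum_le (hn : 1 ≤ n) (hsmall : 3 * κ + 548 * √ψ ≤ 1) {ε c A : ℝ}
    (hp : φ p = 0) (hφ : ∀ x, dist p x < 5 → |‖φ x‖ - dist p x| ≤ ε)
    (hθ : ε + n * ψ ≤ 1 / 40) (hc : 0 ≤ c)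
    (hvol : ∀ x, dist p x ≤ 2 → ∀ r, 0 < r → r ≤ 1 → c * r ^ n ≤ ν.real (Metric.ball x r))
    (hA : 0 ≤ A) (hA1 : ∀ z : E n, ‖X₀ z‖ ≤ A)
    (hA2 : ∀ z : E n, ‖fderiv ℝ (X₀ : E n → E n) z‖ ≤ A)
    (F : Finset (E n)) (r : E n → ℝ) (hr : ∀ y ∈ F, 0 < r y ∧ r y ≤ 1 / 40)
    (hF : ∀ y ∈ F, ‖y‖ < 1)
    (hempty : ∀ y ∈ F, ∀ x, dist p x ≤ 2 → r y ≤ ‖Φ β x - y‖)
    (hatt : ∀ y ∈ F, ∃ x, dist p x ≤ 2 ∧ ‖Φ β x - y‖ = r y)
    (hdisj : (F : Set (E n)).PairwiseDisjoint fun y => Metric.closedBall y (3 * r y)) :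
    ∑ y ∈ F, c * (r y / n) ^ n ≤
      n * (A * ((3 * κ + 548 * √ψ) * V ν p) + n * (A * (307 * √ψ * V ν p))) := by
  classical
  have hn0 : (0 : ℝ) < n := by exact_mod_cast hn
  have hn1 : (1 : ℝ) ≤ n := by exact_mod_cast hn
  -- centres on M
  have : Nonempty M := ⟨p⟩
  choose! x' hx'1 hx'2 using hatt
  have hx'3 : ∀ y ∈ F, dist p (x' y) ≤ 11 / 10 := by
    intro y hy
    have h1 := abs_le.1 (h.norm_Φ hp hφ (x := x' y) (by linarith [hx'1 y hy]))
    have h2 : ‖Φ β (x' y)‖ ≤ ‖y‖ + r y := by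
      have := norm_add_le y (Φ β (x' y) - y)
      rw [add_sub_cancel, hx'2 y hy] at this
      exact this
    have h3 := hF y hy
    have h4 := (hr y hy).2
    linarith
  have hbd := bound_XS hn hA hA1 hA2 F r (fun y hy => ⟨(hr y hy).1, by linarith [(hr y hy).2]⟩) hdisj
  have hXS := contDiff_XS hn F r
  have hfar : ∀ x, 3 / 2 ≤ dist p x → dist p x < 5 → ∀ y ∈ F, 3 * r y < ‖Φ β x - y‖ := by
    intro x hx1 hx2 y hy
    have h1 := abs_le.1 (h.norm_Φ hp hφ hx2)
    have h2 : ‖Φ β x‖ ≤ ‖y‖ + ‖Φ β x - y‖ := by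
      have := norm_add_le y (Φ β x - y)
      rwa [add_sub_cancel] at this
    have h3 := hF y hy
    have h4 := (hr y hy).2
    linarith
  have hreg : ∀ x, 3 / 2 ≤ dist p x → dist p x < 5 → XS F r (Φ β x) = 0 := by
    intro x hx1 hx2
    unfold XS
    exact Finset.sum_eq_zero fun y hy => XX_eq_zero (hr y hy).1 (hfar x hx1 hx2 y hy).le
  have hdiv := h.div_ineq hsmall hA hXS (fun z => (hbd z).1) (fun z => (hbd z).2) hreg
  refine le_trans ?_ hdiv
  -- lower bound of the integrand by the indicator functions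
  have hlow : ∀ x, ∑ y ∈ F, (Metric.ball (x' y) (r y / n)).indicator (fun _ => (1 : ℝ)) x
      ≤ co p (3 / 2) x * dv (XS F r) (Φ β x) := by
    intro x
    have hind : ∀ y ∈ F, 3 / 2 ≤ dist p x →
        (Metric.ball (x' y) (r y / n)).indicator (fun _ => (1 : ℝ)) x = 0 := by
      intro y hy hx
      apply indicator_of_notMem
      intro hmem
      rw [Metric.mem_ball, dist_comm] at hmem
      have h1 := dist_triangle p (x' y) x
      have h2 := hx'3 y hy
      have h3 : r y / n ≤ r y := div_le_self (hr y hy).1.le hn1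
      have h4 := (hr y hy).2
      linarith
    by_cases hx : dist p x < 3 / 2
    · rw [co_eq_one hx.le, one_mul, dv_XS hn]
      refine Finset.sum_le_sum fun y hy => ?_
      rw [dv_XX hn (hr y hy).1]
      have hr0 := (hr y hy).1
      have h1 : 1 ≤ ‖(r y)⁻¹ • (Φ β x - y)‖ := by
        rw [norm_arg hr0, le_div_iff₀ hr0, one_mul]
        exact hempty y hy x (by linarith)
      by_cases hb : x ∈ Metric.ball (x' y) (r y / n)
      · rw [indicator_of_mem hb]
        refine one_le_dv_X₀ hn h1 ?_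
        rw [norm_arg hr0, div_le_iff₀ hr0]
        rw [Metric.mem_ball] at hb
        have h2 := h.Φ_lip x (x' y)
        have h3 : (n : ℝ) * dist x (x' y) ≤ r y := by
          calc (n : ℝ) * dist x (x' y) ≤ n * (r y / n) := by gcongr
            _ = r y := by field_simp
        have h4 : ‖Φ β x - y‖ ≤ ‖Φ β x - Φ β (x' y)‖ + ‖Φ β (x' y) - y‖ := by
          have := norm_add_le (Φ β x - Φ β (x' y)) (Φ β (x' y) - y)
          rwa [sub_add_sub_cancel] at this
        rw [hx'2 y hy] at h4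
        linarith
      · rw [indicator_of_notMem hb]
        exact dv_X₀_nonneg hn h1
    · push Not at hx
      rw [Finset.sum_eq_zero fun y hy => hind y hy hx]
      by_cases hx2 : dist p x < 5
      · have : dv (XS F r) (Φ β x) = 0 := by
          unfold dv
          have h0 : fderiv ℝ (XS F r) (Φ β x) = 0 := by
            rw [fderiv_XS hn]
            exact Finset.sum_eq_zero fun y hy => fderiv_XX_eq_zero hn (hr y hy).1 (hfar x hx hx2 y hy)
          rw [h0]; simp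
        rw [this, mul_zero]
      · push Not at hx2
        rw [co_eq_zero (a := 3 / 2) (by linarith), zero_mul]
  -- integrate
  have hballfin : ∀ y, ν (Metric.ball (x' y) (r y / n)) ≠ ⊤ := fun y =>
    (lt_of_le_of_lt (measure_mono Metric.ball_subset_closedBall)
      ((isCompact_closedBall _ _).measure_lt_top (μ := ν))).ne
  have hint1 : ∀ y ∈ F, Integrable ((Metric.ball (x' y) (r y / n)).indicator (fun _ => (1 : ℝ))) ν := by
    intro y hy
    rw [integrable_indicator_iff Metric.isOpen_ball.measurableSet]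
    exact integrableOn_const (hballfin y)
  have hint2 : Integrable (fun x => co p (3 / 2) x * dv (XS F r) (Φ β x)) ν := by
    have hcont : Continuous fun x => co p (3 / 2) x * dv (XS F r) (Φ β x) := by
      have h1 : Continuous (fderiv ℝ (XS F r)) := hXS.continuous_fderiv (by norm_num)
      have h2 : Continuous (co p (3 / 2)) := (co_lip p (3 / 2)).continuous
      refine h2.mul ?_
      unfold dv
      refine continuous_finsetSum _ fun j _ => ?_
      exact (EuclideanSpace.proj j : E n →L[ℝ] ℝ).continuous.comp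
        ((h1.comp h.Φ_cont).clm_apply continuous_const)
    refine hcont.integrable_of_hasCompactSupport ?_
    refine HasCompactSupport.intro (isCompact_closedBall p 2) fun x hx => ?_
    rw [Metric.mem_closedBall, not_le, dist_comm] at hx
    rw [co_eq_zero (a := 3 / 2) (by linarith), zero_mul]
  calc ∑ y ∈ F, c * (r y / n) ^ n ≤ ∑ y ∈ F, ν.real (Metric.ball (x' y) (r y / n)) := by
        refine Finset.sum_le_sum fun y hy => ?_
        refine hvol (x' y) (hx'1 y hy) (r y / n) (div_pos (hr y hy).1 hn0) ?_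
        have h3 : r y / n ≤ r y := div_le_self (hr y hy).1.le hn1
        linarith [(hr y hy).2]
    _ = ∑ y ∈ F, ∫ x, (Metric.ball (x' y) (r y / n)).indicator (fun _ => (1 : ℝ)) x ∂ν := by
        refine Finset.sum_congr rfl fun y hy => ?_
        rw [integral_indicator Metric.isOpen_ball.measurableSet, setIntegral_const, smul_eq_mul, mul_one]
    _ = ∫ x, ∑ y ∈ F, (Metric.ball (x' y) (r y / n)).indicator (fun _ => (1 : ℝ)) x ∂ν :=
        (integral_finsetSum _ hint1).symm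
    _ ≤ ∫ x, co p (3 / 2) x * dv (XS F r) (Φ β x) ∂ν :=
        integral_mono (integrable_finsetSum _ hint1) hint2 hlow

/-- almost full image -/
lemma image_almost_full (hn : 1 ≤ n) (hsmall : 3 * κ + 548 * √ψ ≤ 1) {ε c A : ℝ}
    (hp : φ p = 0) (hφ : ∀ x, dist p x < 5 → |‖φ x‖ - dist p x| ≤ ε)
    (hcov : ∀ y : E n, ‖y‖ < 1 → ∃ x, dist p x < 5 ∧ ‖φ x - y‖ ≤ ε)
    (hε : 0 ≤ ε) (hθ : ε + n * ψ ≤ 1 / 40) (hc : 0 < c)
    (hvol : ∀ x, dist p x ≤ 2 → ∀ r, 0 < r → r ≤ 1 → c * r ^ n ≤ ν.real (Metric.ball x r))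
    (hA : 0 ≤ A) (hA1 : ∀ z : E n, ‖X₀ z‖ ≤ A)
    (hA2 : ∀ z : E n, ‖fderiv ℝ (X₀ : E n → E n) z‖ ≤ A) :
    volume (Metric.ball (0 : E n) 1 \ (Φ β '' Metric.closedBall p 2)) ≤
      ENNReal.ofReal ((5 * 3) ^ n * (n ^ n / c *
        (n * (A * ((3 * κ + 548 * √ψ) * V ν p) + n * (A * (307 * √ψ * V ν p))))))
        * volume (Metric.ball (0 : E n) 1) := by
  classical
  set Q := n * (A * ((3 * κ + 548 * √ψ) * V ν p) + n * (A * (307 * √ψ * V ν p))) with hQ
  have hψ0 := h.ψ0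
  have hn0 : (0 : ℝ) < n := by exact_mod_cast hn
  set K : Set (E n) := Φ β '' Metric.closedBall p 2 with hK
  have hKc : IsCompact K := (isCompact_closedBall p 2).image h.Φ_cont
  have hKn : K.Nonempty := ⟨Φ β p, p, by simp, rfl⟩
  set t := Metric.ball (0 : E n) 1 \ K with ht
  set r : E n → ℝ := fun y => Metric.infDist y K with hr
  have hrpos : ∀ y ∈ t, 0 < r y := fun y hy => (hKc.isClosed.notMem_iff_infDist_pos hKn).1 hy.2
  have htn : ∀ y ∈ t, ‖y‖ < 1 := fun y hy => by simpa using hy.1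
  have hrle : ∀ y ∈ t, r y ≤ 1 / 40 := by
    intro y hy
    obtain ⟨x, hx, hxy⟩ := hcov y (htn y hy)
    have h1 := abs_le.1 (hφ x hx)
    have h2 : ‖φ x‖ ≤ ‖y‖ + ε := by
      have := norm_add_le y (φ x - y)
      rw [add_sub_cancel] at this
      linarith
    have h3 := htn y hy
    have hnψ : 0 ≤ n * ψ := by positivity
    have hx2 : dist p x ≤ 2 := by linarith
    have hmem : Φ β x ∈ K := ⟨x, by rw [Metric.mem_closedBall, dist_comm]; exact hx2, rfl⟩
    calc r y ≤ dist y (Φ β x) := Metric.infDist_le_dist_of_mem hmem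
      _ = ‖Φ β x - y‖ := by rw [dist_comm, dist_eq_norm]
      _ ≤ ‖Φ β x - φ x‖ + ‖φ x - y‖ := by
          have := norm_add_le (Φ β x - φ x) (φ x - y)
          rwa [sub_add_sub_cancel] at this
      _ ≤ n * ψ + ε := add_le_add (h.Φ_close hx) hxy
      _ ≤ 1 / 40 := by linarith
  have hempty : ∀ y, ∀ x, dist p x ≤ 2 → r y ≤ ‖Φ β x - y‖ := by
    intro y x hx
    have hmem : Φ β x ∈ K := ⟨x, by rw [Metric.mem_closedBall, dist_comm]; exact hx, rfl⟩
    have := Metric.infDist_le_dist_of_mem (x := y) hmem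
    rwa [dist_comm, dist_eq_norm] at this
  have hatt : ∀ y, ∃ x, dist p x ≤ 2 ∧ ‖Φ β x - y‖ = r y := by
    intro y
    obtain ⟨z, ⟨x, hx, rfl⟩, hz⟩ := hKc.exists_infDist_eq_dist hKn y
    refine ⟨x, by rw [Metric.mem_closedBall, dist_comm] at hx; exact hx, ?_⟩
    rw [hr]; simp only
    rw [hz, dist_comm, dist_eq_norm]
  obtain ⟨u, hut, hud, huc⟩ := Vitali.exists_disjoint_subfamily_covering_enlargement_closedBall
    t id (fun y => 3 * r y) (3 / 40) (fun y hy => by have := hrle y hy; linarith) 5 (by norm_num)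
  have hucount : u.Countable := by
    refine hud.countable_of_nonempty_interior fun y hy => ?_
    refine ⟨y, ?_⟩
    rw [mem_interior_iff_mem_nhds]
    exact Metric.closedBall_mem_nhds y (by have := hrpos y (hut hy); positivity)
  have hcover : t ⊆ ⋃ y ∈ u, Metric.closedBall y (5 * (3 * r y)) := by
    intro y hy
    obtain ⟨b, hb, hsub⟩ := huc y hy
    rw [mem_iUnion₂]
    exact ⟨b, hb, hsub (Metric.mem_closedBall_self (by have := hrpos y hy; positivity))⟩
  have hQ0 : 0 ≤ Q := by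
    have hV : 0 ≤ V ν p := V_nonneg
    have := h.κ0
    have := Real.sqrt_nonneg ψ
    positivity
  have hfin : ∀ F : Finset (E n), (F : Set (E n)) ⊆ u → ∑ y ∈ F, r y ^ n ≤ n ^ n / c * Q := by
    intro F hF
    have h1 := h.finite_sum_le hn hsmall hp hφ hθ hc.le hvol hA hA1 hA2 F r
      (fun y hy => ⟨hrpos y (hut (hF hy)), hrle y (hut (hF hy))⟩)
      (fun y hy => htn y (hut (hF hy))) (fun y _ => hempty y) (fun y _ => hatt y)
      (hud.subset hF)
    have h2 : ∑ y ∈ F, c * (r y / n) ^ n = (c / n ^ n) * ∑ y ∈ F, r y ^ n := by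
      rw [Finset.mul_sum]
      refine Finset.sum_congr rfl fun y _ => ?_
      rw [div_pow]; ring
    rw [h2] at h1
    have hnn : (0 : ℝ) < (n : ℝ) ^ n := by positivity
    rw [div_mul_eq_mul_div, div_le_iff₀ hnn] at h1
    rw [div_mul_eq_mul_div, le_div_iff₀ hc]
    calc (∑ y ∈ F, r y ^ n) * c = c * ∑ y ∈ F, r y ^ n := by ring
      _ ≤ Q * n ^ n := h1
      _ = n ^ n * Q := by ring
  calc volume t ≤ volume (⋃ y ∈ u, Metric.closedBall y (5 * (3 * r y))) := measure_mono hcover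
    _ ≤ ∑' y : u, volume (Metric.closedBall (y : E n) (5 * (3 * r y))) :=
        measure_biUnion_le _ hucount _
    _ = ∑' y : u, ENNReal.ofReal ((5 * (3 * r y)) ^ n) * volume (Metric.ball (0 : E n) 1) := by
        refine tsum_congr fun y => ?_
        have := hrpos y (hut y.2)
        rw [Measure.addHaar_closedBall _ _ (by positivity)]
        simp
    _ ≤ ENNReal.ofReal ((5 * 3) ^ n * (n ^ n / c * Q)) * volume (Metric.ball (0 : E n) 1) := by
        rw [ENNReal.tsum_mul_right]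
        refine mul_le_mul_left ?_ _
        rw [ENNReal.tsum_eq_iSup_sum]
        refine iSup_le fun s => ?_
        have hpos : ∀ y ∈ s, 0 ≤ (5 * (3 * r (y : E n))) ^ n := fun y _ => by
          have := hrpos y (hut y.2); positivity
        rw [← ENNReal.ofReal_sum_of_nonneg hpos]
        apply ENNReal.ofReal_le_ofReal
        have h1 := hfin (s.map (Function.Embedding.subtype _)) (by
          intro y hy
          simp only [Finset.coe_map, Function.Embedding.coe_subtype, mem_image, Finset.mem_coe] at hy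
          obtain ⟨z, _, rfl⟩ := hy
          exact z.2)
        rw [Finset.sum_map] at h1
        simp only [Function.Embedding.coe_subtype] at h1
        calc ∑ y ∈ s, (5 * (3 * r (y : E n))) ^ n = (5 * 3) ^ n * ∑ y ∈ s, r (y : E n) ^ n := by
              rw [Finset.mul_sum]
              refine Finset.sum_congr rfl fun y _ => ?_
              rw [← mul_pow]; ring
          _ ≤ (5 * 3) ^ n * (n ^ n / c * Q) := by gcongr

/-- main inequality -/
theorem volume_le (hn : 1 ≤ n) (hsmall : 3 * κ + 548 * √ψ ≤ 1) {ε c A : ℝ}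
    (hp : φ p = 0) (hφ : ∀ x, dist p x < 5 → |‖φ x‖ - dist p x| ≤ ε)
    (hcov : ∀ y : E n, ‖y‖ < 1 → ∃ x, dist p x < 5 ∧ ‖φ x - y‖ ≤ ε)
    (hε : 0 ≤ ε) (hθ : ε + n * ψ ≤ 1 / 40) (hc : 0 < c)
    (hvol : ∀ x, dist p x ≤ 2 → ∀ r, 0 < r → r ≤ 1 → c * r ^ n ≤ ν.real (Metric.ball x r))
    (hA : 0 ≤ A) (hA1 : ∀ z : E n, ‖X₀ z‖ ≤ A)
    (hA2 : ∀ z : E n, ‖fderiv ℝ (X₀ : E n → E n) z‖ ≤ A) :
    ENNReal.ofReal ((1 - (ε + n * ψ)) ^ n) * volume (Metric.ball (0 : E n) 1) ≤
      ν (Metric.ball p 1) +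
      ENNReal.ofReal ((5 * 3) ^ n * (n ^ n / c *
        (n * (A * ((3 * κ + 548 * √ψ) * V ν p) + n * (A * (307 * √ψ * V ν p))))))
        * volume (Metric.ball (0 : E n) 1) := by
  have hψ0 := h.ψ0
  have hnψ : 0 ≤ n * ψ := by positivity
  have h0 : (0 : ℝ) < 1 - (ε + n * ψ) := by linarith
  have e1 : ENNReal.ofReal ((1 - (ε + n * ψ)) ^ n) * volume (Metric.ball (0 : E n) 1)
      = volume (Metric.ball (0 : E n) (1 - (ε + n * ψ))) := by
    rw [Measure.addHaar_ball_of_pos _ _ h0]; simp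
  rw [e1]
  have hsub : Metric.ball (0 : E n) (1 - (ε + n * ψ)) ⊆
      (Φ β '' Metric.ball p 1) ∪ (Metric.ball (0 : E n) 1 \ (Φ β '' Metric.closedBall p 2)) := by
    intro y hy
    rw [Metric.mem_ball, dist_zero_right] at hy
    by_cases hyK : y ∈ Φ β '' Metric.closedBall p 2
    · left
      obtain ⟨x, hx, rfl⟩ := hyK
      rw [Metric.mem_closedBall, dist_comm] at hx
      refine ⟨x, ?_, rfl⟩
      have := abs_le.1 (h.norm_Φ hp hφ (x := x) (by linarith))
      rw [Metric.mem_ball, dist_comm]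
      linarith [this.1]
    · right
      refine ⟨?_, hyK⟩
      rw [Metric.mem_ball, dist_zero_right]
      linarith
  have hΦ : volume (Φ β '' Metric.ball p 1) ≤ ν (Metric.ball p 1) := by
    refine S.area (fun i => β (ee i)) ?_ _ Metric.isOpen_ball.measurableSet
    intro i x y
    have := (h.lip (ee i) (norm_ee i)).dist_le_mul x y
    rwa [Real.dist_eq, NNReal.coe_one, one_mul] at this
  calc volume (Metric.ball (0 : E n) (1 - (ε + n * ψ)))
      ≤ volume ((Φ β '' Metric.ball p 1) ∪ (Metric.ball (0 : E n) 1 \ (Φ β '' Metric.closedBall p 2))) :=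
        measure_mono hsub
    _ ≤ volume (Φ β '' Metric.ball p 1) + volume (Metric.ball (0 : E n) 1 \ (Φ β '' Metric.closedBall p 2)) :=
        measure_union_le _ _
    _ ≤ _ := add_le_add hΦ (h.image_almost_full hn hsmall hp hφ hcov hε hθ hc hvol hA hA1 hA2)

end Dirs

end Crest.Agent.R247.VC402
end
end

-- ▼ part R247/VC7_402
section

/-!
# R247, block (3), file 7: volume convergence, abstract form
-/

set_option autoImplicit false
set_option linter.unusedSectionVars false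
set_option linter.unusedVariables false

noncomputable section

open MeasureTheory Filter Topology Set
open scoped ENNReal NNReal RealInnerProductSpace
open Crest.GeometryTopology.PointedLimit

namespace Crest.Agent.R247.VC402

lemma norm_shift {n : ℕ} {ξ v : E n} (hv : ‖v‖ = 1) {R : ℝ} (hR : 12 ≤ R) (hξ : ‖ξ‖ ≤ 6) :
    |‖R • v + ξ‖ - R - ⟪ξ, v⟫| ≤ 36 / R := by
  have hR0 : 0 < R := by linarith
  set s := ⟪ξ, v⟫ with hs
  have hs6 : |s| ≤ 6 := by
    calc |s| ≤ ‖ξ‖ * ‖v‖ := abs_real_inner_le_norm _ _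
      _ ≤ 6 := by rw [hv, mul_one]; exact hξ
  have hs' := abs_le.1 hs6
  have hsq : ‖R • v + ξ‖ ^ 2 = R ^ 2 + 2 * R * s + ‖ξ‖ ^ 2 := by
    rw [norm_add_sq_real, norm_smul, hv, Real.norm_of_nonneg hR0.le, real_inner_smul_left,
      real_inner_comm]
    ring
  set N := ‖R • v + ξ‖ with hN
  have hN0 : 0 ≤ N := norm_nonneg _
  have hsξ : s ^ 2 ≤ ‖ξ‖ ^ 2 := by
    have : |s| ≤ ‖ξ‖ := by
      calc |s| ≤ ‖ξ‖ * ‖v‖ := abs_real_inner_le_norm _ _
        _ = ‖ξ‖ := by rw [hv, mul_one]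
    exact sq_le_sq' (abs_le.1 this).1 (abs_le.1 this).2
  have hξ2 : ‖ξ‖ ^ 2 ≤ 36 := by nlinarith [norm_nonneg ξ]
  have hRs : 0 < R + s := by linarith
  have hge : R + s ≤ N := by
    rw [← sq_le_sq₀ hRs.le hN0, hsq]
    nlinarith
  have hfac : (N - (R + s)) * (N + (R + s)) = ‖ξ‖ ^ 2 - s ^ 2 := by
    have : (N - (R + s)) * (N + (R + s)) = N ^ 2 - (R + s) ^ 2 := by ring
    rw [this, hsq]; ring
  have hsum : R ≤ N + (R + s) := by linarith
  have hup : (N - (R + s)) * R ≤ 36 := by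
    calc (N - (R + s)) * R ≤ (N - (R + s)) * (N + (R + s)) := by
          apply mul_le_mul_of_nonneg_left hsum; linarith
      _ = ‖ξ‖ ^ 2 - s ^ 2 := hfac
      _ ≤ 36 := by nlinarith [sq_nonneg s]
  rw [show N - R - s = N - (R + s) by ring, abs_of_nonneg (by linarith), le_div_iff₀ hR0]
  exact hup


end Crest.Agent.R247.VC402
end
end

-- ▼ part R247/VC8_402
section

/-!
# R247, block (3), file 8: volume convergence, abstract form relative to the volume of the ball
-/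

set_option autoImplicit false
set_option linter.unusedSectionVars false
set_option linter.unusedVariables false

noncomputable section

open MeasureTheory Filter Topology Set
open scoped ENNReal NNReal RealInnerProductSpace
open Crest.GeometryTopology.PointedLimit

namespace Crest.Agent.R247.VC402

set_option maxHeartbeats 2000000 in
/-- **Volume convergence, abstract form, relative to the volume of the 5-ball** (scale invariant
in the measure: neither a lower nor an upper bound of the volume is needed). -/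
theorem vol_conv_rel (n : ℕ) (hn : 1 ≤ n) {c δ : ℝ} (hc : 0 < c) (hδ : 0 < δ) :
    ∃ κ₀ : ℝ, 0 < κ₀ ∧ κ₀ ≤ 1 ∧ ∀ L : ℝ, ∃ ε₀ : ℝ, 0 < ε₀ ∧ ∀ ε : ℝ, 0 < ε → ε ≤ ε₀ →
      ∀ (M : Type*) [MetricSpace M] [ProperSpace M] [MeasurableSpace M] [BorelSpace M]
        (ν : Measure M) [IsFiniteMeasureOnCompacts ν] (S : Setup n M ν) (p : M),
        (∀ q, L ≤ dist p q → dist p q < ε⁻¹ → S.Pos (fun y => dist q y) κ₀ p) →
        IsScaledApprox 1 p (0 : EuclideanSpace ℝ (Fin n)) ε⁻¹ ε →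
        0 < V ν p →
        (∀ x, dist p x ≤ 2 → ∀ r, 0 < r → r ≤ 1 → c * V ν p * r ^ n ≤ ν.real (Metric.ball x r)) →
        ENNReal.ofReal (1 - δ) * volume (Metric.ball (0 : EuclideanSpace ℝ (Fin n)) 1) ≤
          ν (Metric.ball p 1) := by
  obtain ⟨A, hA, hA1, hA2⟩ := exists_bound_X₀ hn
  have hn0 : (0 : ℝ) < n := by exact_mod_cast hn
  have hn1 : (1 : ℝ) ≤ n := by exact_mod_cast hn
  -- the big constant
  obtain ⟨K, hK⟩ : ∃ K : ℝ, K = (5 * 3) ^ n * (n ^ n / c * (n * A * (551 + 307 * n))) + 1 :=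
    ⟨_, rfl⟩
  have hK1 : 1 ≤ K := by
    have : 0 ≤ (5 * 3 : ℝ) ^ n * (n ^ n / c * (n * A * (551 + 307 * n))) := by positivity
    linarith
  have hK0 : 0 < K := by linarith
  obtain ⟨κ₀, hκ₀pos, hκ₀6, hκ₀δ⟩ : ∃ κ₀ : ℝ, 0 < κ₀ ∧ κ₀ ≤ 1 / 6 ∧ κ₀ ≤ δ / (4 * K) :=
    ⟨min (1 / 6) (δ / (4 * K)), by positivity, min_le_left _ _, min_le_right _ _⟩
  refine ⟨κ₀, hκ₀pos, by linarith, fun L => ?_⟩
  -- τ bounds √ψ
  obtain ⟨τ, hτpos, hτ1, hτδ⟩ : ∃ τ : ℝ, 0 < τ ∧ τ ≤ 1 / 1200 ∧ τ ≤ δ / (4 * K) :=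
    ⟨min (1 / 1200) (δ / (4 * K)), by positivity, min_le_left _ _, min_le_right _ _⟩
  have hL20 : 0 < |L| + 20 := by positivity
  obtain ⟨ε₀, hε₀, c1, c2, c3, c4⟩ : ∃ ε₀ : ℝ, 0 < ε₀ ∧ ε₀ ≤ 1 / (2 * (|L| + 20)) ∧
      ε₀ ≤ τ ^ 2 / 74 ∧ ε₀ ≤ 1 / (40 * (75 * n)) ∧ ε₀ ≤ δ / (2 * (75 * n ^ 2)) :=
    ⟨min (min (1 / (2 * (|L| + 20))) (τ ^ 2 / 74))
      (min (1 / (40 * (75 * n))) (δ / (2 * (75 * n ^ 2)))), by positivity,
      (min_le_left _ _).trans (min_le_left _ _), (min_le_left _ _).trans (min_le_right _ _),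
      (min_le_right _ _).trans (min_le_left _ _), (min_le_right _ _).trans (min_le_right _ _)⟩
  refine ⟨ε₀, hε₀, ?_⟩
  intro ε hε hεε M _ _ _ _ ν _ S p hPos happ hV hvol
  have b1 : ε ≤ 1 / (2 * (|L| + 20)) := hεε.trans c1
  have b2 : ε ≤ τ ^ 2 / 74 := hεε.trans c2
  have b3 : ε ≤ 1 / (40 * (75 * n)) := hεε.trans c3
  have b4 : ε ≤ δ / (2 * (75 * n ^ 2)) := hεε.trans c4
  -- R' = 1/(2ε)
  obtain ⟨R', hR'⟩ : ∃ R' : ℝ, R' = ε⁻¹ / 2 := ⟨_, rfl⟩
  have hR'L : |L| + 20 ≤ R' := by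
    rw [le_div_iff₀ (by positivity)] at b1
    rw [hR', le_div_iff₀ (by norm_num), le_inv_comm₀ (by positivity) hε, ← one_div,
      le_div_iff₀ (by positivity)]
    linarith
  have hL' := le_abs_self L
  have hLabs := abs_nonneg L
  have hR'20 : 20 ≤ R' := by linarith
  have hεinv : ε⁻¹ = 2 * R' := by rw [hR']; ring
  have hε0' : ε ≤ 1 / 2000 := by
    have h2000 : (2000 : ℝ) ≤ 40 * (75 * n) := by linarith
    exact b3.trans (one_div_le_one_div_of_le (by norm_num) h2000)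
  have hε1 : ε ≤ 1 / 40 := by linarith
  obtain ⟨φ, hφp, hφd, hφc⟩ := happ
  simp only [one_mul] at hφd hφc
  have hφn : ∀ x, dist p x < ε⁻¹ → |‖φ x‖ - dist p x| ≤ ε := by
    intro x hx
    have h1 := hφd x p hx (by rw [dist_self]; positivity)
    rw [hφp, dist_zero_right, dist_comm x p] at h1
    exact h1
  -- far points
  have hex : ∀ v : E n, ‖v‖ = 1 → ∃ q, dist p q < ε⁻¹ ∧ dist (φ q) (-(R' • v)) ≤ ε := by
    intro v hv
    apply hφc
    rw [dist_zero_left, norm_neg, norm_smul, hv, Real.norm_of_nonneg (by linarith), hεinv]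
    linarith
  have : Nonempty M := ⟨p⟩
  choose! q hq1 hq2 using hex
  set β : E n → M → ℝ := fun v x => dist (q v) x - R' with hβ
  obtain ⟨ψ, hψ⟩ : ∃ ψ : ℝ, ψ = 74 * ε := ⟨_, rfl⟩
  have hψpos : 0 < ψ := by rw [hψ]; positivity
  have hψτ : √ψ ≤ τ := by
    rw [Real.sqrt_le_left hτpos.le]
    rw [le_div_iff₀ (by norm_num)] at b2
    linarith
  have hqd : ∀ v, ‖v‖ = 1 → L ≤ dist p (q v) := by
    intro v hv
    have h1 := abs_le.1 (hφn (q v) (hq1 v hv))
    have h2 : ‖-(R' • v)‖ ≤ ‖φ (q v)‖ + ε := by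
      have h3 := norm_le_norm_add_norm_sub' (-(R' • v)) (φ (q v))
      have h4 := hq2 v hv
      rw [dist_eq_norm, norm_sub_rev] at h4
      linarith
    rw [norm_neg, norm_smul, hv, Real.norm_of_nonneg (by linarith), mul_one] at h2
    linarith
  have hDirs : Dirs S p φ ψ κ₀ β := by
    refine ⟨?_, ?_, ?_, ?_, hψpos, ?_, hκ₀pos.le, by linarith⟩
    · intro v hv
      have h1 : LipschitzWith 1 (fun x => dist (q v) x) := LipschitzWith.dist_right _
      have h2 := h1.sub (LipschitzWith.const R')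
      simpa using h2
    · intro v hv χ hχ h0
      have h1 := hPos (q v) (hqd v hv) (hq1 v hv) χ hχ h0
      have e : S.Λ (β v) κ₀ χ = S.Λ (fun y => dist (q v) y) κ₀ χ := by
        unfold Setup.Λ
        congr 1
        refine integral_congr_ae ?_
        filter_upwards [S.rad _ (lp_dist (q v)), S.rad _ hχ.1] with x h2 h3
        exact S.cd.Γ_sub_const R' h2 h3
      rw [e]; exact h1
    · intro v hv
      filter_upwards [S.rad _ (lp_dist (q v)), S.unit (q v)] with x h2 h3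
      have hD := S.cd.D_sub_const R' h2
      simp only [hβ]
      rw [S.cd.Γ_sub_const R' h2 hD, S.cd.symm, S.cd.Γ_sub_const R' h2 h2, h3]
    · intro v hv x hx
      have h1 := abs_le.1 (hφd (q v) x (hq1 v hv) (by rw [hεinv]; linarith))
      have h2 := hq2 v hv
      have h3 := abs_le.1 (hφn x (by rw [hεinv]; linarith))
      have h4 := abs_le.1 (norm_shift (ξ := φ x) hv (R := R') (by linarith) (by linarith))
      have h5 : |dist (φ (q v)) (φ x) - ‖R' • v + φ x‖| ≤ ε := by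
        have e1 : ‖R' • v + φ x‖ = dist (-(R' • v)) (φ x) := by
          rw [dist_eq_norm, ← norm_neg]; congr 1; abel
        rw [e1]
        exact (abs_dist_sub_le _ _ _).trans h2
      have h5' := abs_le.1 h5
      have h6 : 36 / R' = 72 * ε := by
        rw [hR']; field_simp; norm_num
      rw [h6] at h4
      rw [abs_le]
      simp only [hβ]
      rw [hψ]
      constructor <;> linarith
    · rw [hψ]; linarith
  have hsm : 3 * κ₀ + 548 * √ψ ≤ 1 := by linarith
  have hε40 : ε * (40 * (75 * n)) ≤ 1 := by rwa [le_div_iff₀ (by positivity)] at b3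
  have hεn : ε ≤ n * ε := le_mul_of_one_le_left hε.le hn1
  have hθ : ε + n * ψ ≤ 1 / 40 := by
    rw [hψ]; linarith
  have hcov : ∀ y : E n, ‖y‖ < 1 → ∃ x, dist p x < 5 ∧ ‖φ x - y‖ ≤ ε := by
    intro y hy
    obtain ⟨x, hx1, hx2⟩ := hφc y (by rw [dist_zero_left, hεinv]; linarith)
    refine ⟨x, ?_, by rwa [← dist_eq_norm]⟩
    have h1 := abs_le.1 (hφn x hx1)
    have h2 : ‖φ x‖ ≤ ‖y‖ + ε := by
      rw [dist_eq_norm] at hx2
      have := norm_add_le y (φ x - y)
      rw [add_sub_cancel] at this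
      linarith
    linarith
  have hmain := hDirs.volume_le hn hsm hφp (fun x hx => hφn x (by rw [hεinv]; linarith)) hcov
    hε.le hθ (mul_pos hc hV) hvol hA hA1 hA2
  -- arithmetic
  obtain ⟨B, hB⟩ : ∃ B : ℝ, B = (5 * 3 : ℝ) ^ n * (n ^ n / (c * V ν p) *
        (n * (A * ((3 * κ₀ + 548 * √ψ) * V ν p) + n * (A * (307 * √ψ * V ν p))))) := ⟨_, rfl⟩
  rw [← hB] at hmain
  have hs0 : 0 ≤ √ψ := Real.sqrt_nonneg _
  have hB0 : 0 ≤ B := by rw [hB]; positivity
  have hBle : B ≤ δ / 2 := by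
    have hm0 : 0 ≤ κ₀ + √ψ := by positivity
    have h1 : 3 * κ₀ + 548 * √ψ ≤ 551 * (κ₀ + √ψ) := by linarith
    have h2 : 307 * √ψ ≤ 307 * (κ₀ + √ψ) := by linarith
    have hBe : B = (5 * 3 : ℝ) ^ n * (n ^ n / c *
        (n * (A * (3 * κ₀ + 548 * √ψ) + n * (A * (307 * √ψ))))) := by
      rw [hB]
      field_simp
    have h3 : A * (3 * κ₀ + 548 * √ψ) + n * (A * (307 * √ψ))
        ≤ A * (551 + 307 * n) * (κ₀ + √ψ) := by
      calc A * (3 * κ₀ + 548 * √ψ) + n * (A * (307 * √ψ))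
          ≤ A * (551 * (κ₀ + √ψ)) + n * (A * (307 * (κ₀ + √ψ))) := by gcongr
        _ = A * (551 + 307 * n) * (κ₀ + √ψ) := by ring
    have h4 : B ≤ (K - 1) * (κ₀ + √ψ) := by
      rw [hBe, hK, add_sub_cancel_right]
      calc (5 * 3 : ℝ) ^ n * (n ^ n / c *
            (n * (A * (3 * κ₀ + 548 * √ψ) + n * (A * (307 * √ψ)))))
          ≤ (5 * 3 : ℝ) ^ n * (n ^ n / c * (n * (A * (551 + 307 * n) * (κ₀ + √ψ)))) := by
            gcongr
        _ = (5 * 3) ^ n * (n ^ n / c * (n * A * (551 + 307 * n))) * (κ₀ + √ψ) := by ring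
    have h5 : (K - 1) * (κ₀ + √ψ) ≤ K * (δ / (4 * K) + δ / (4 * K)) := by
      apply mul_le_mul (by linarith) _ hm0 hK0.le
      linarith
    have h6 : K * (δ / (4 * K) + δ / (4 * K)) = δ / 2 := by field_simp; ring
    linarith
  have hbern : 1 - n * (ε + n * ψ) ≤ (1 - (ε + n * ψ)) ^ n := by
    have := one_add_mul_le_pow (a := -(ε + n * ψ)) (by linarith) n
    calc 1 - n * (ε + n * ψ) = 1 + n * (-(ε + n * ψ)) := by ring
      _ ≤ (1 + -(ε + n * ψ)) ^ n := this
      _ = (1 - (ε + n * ψ)) ^ n := by rw [← sub_eq_add_neg]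
  have hnθ : n * (ε + n * ψ) ≤ δ / 2 := by
    have h1 : ε * (2 * (75 * n ^ 2)) ≤ δ := by rwa [le_div_iff₀ (by positivity)] at b4
    have h2 : n * (ε + n * ψ) = ε * (n + 74 * n ^ 2) := by rw [hψ]; ring
    rw [h2]
    have h3 : (n : ℝ) ≤ n ^ 2 := le_self_pow₀ hn1 (by norm_num)
    have h4 : ε * (n + 74 * n ^ 2) ≤ ε * (75 * n ^ 2) := by
      apply mul_le_mul_of_nonneg_left _ hε.le
      linarith
    linarith
  have hfin : 1 - δ ≤ (1 - (ε + n * ψ)) ^ n - B := by linarith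
  set ω := volume (Metric.ball (0 : EuclideanSpace ℝ (Fin n)) 1) with hω
  have hωt : ω ≠ ⊤ := MeasureTheory.measure_ball_lt_top.ne
  calc ENNReal.ofReal (1 - δ) * ω ≤ ENNReal.ofReal ((1 - (ε + n * ψ)) ^ n - B) * ω := by
        gcongr
    _ = ENNReal.ofReal ((1 - (ε + n * ψ)) ^ n) * ω - ENNReal.ofReal B * ω := by
        rw [ENNReal.ofReal_sub _ hB0, ENNReal.sub_mul fun _ _ => hωt]
    _ ≤ ν (Metric.ball p 1) := by
        rw [tsub_le_iff_right]; exact hmain

end Crest.Agent.R247.VC402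
end
end

-- ▼ part R247/VC9_402
section

/-!
# R247, block (3), file 9: from `Δ (d_q²/2) ≤ n + K d_q²` to `Δ d_q ≤ κ₀` on `B_5(p)` for far points `q`
-/

set_option autoImplicit false
set_option linter.unusedSectionVars false
set_option linter.unusedVariables false

noncomputable section

open MeasureTheory Filter Topology Set
open scoped ENNReal NNReal

namespace Crest.Agent.R247.VC402

variable {n : ℕ} {M : Type*} [MetricSpace M] [ProperSpace M] [MeasurableSpace M] [BorelSpace M]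
  {ν : Measure M} [IsFiniteMeasureOnCompacts ν] (S : Setup n M ν) {p q : M} {χ : M → ℝ}

/-- weak Laplacian comparison for `d_q²/2` tested with Lipschitz functions of bounded support -/
def Setup.Lap (q : M) (K : ℝ) : Prop := ∀ φ : M → ℝ, Lp φ → (∃ R : ℝ, ∀ x, R ≤ dist q x → φ x = 0) →
  (∀ x, 0 ≤ φ x) →
  0 ≤ ∫ x, ((n + K * dist q x ^ 2) * φ x + S.cd.Γ (fun y => dist q y ^ 2 / 2) φ x) ∂ν

/-- `1 / max (d_q) ℓ` -/
def rw' (q : M) (ℓ : ℝ) (x : M) : ℝ := (max (dist q x) ℓ)⁻¹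

lemma lp_rw' {ℓ : ℝ} (hℓ : 0 < ℓ) : Lp (rw' q ℓ) := by
  refine lip_of (K := (ℓ⁻¹) ^ 2) (by positivity) fun x y => ?_
  unfold rw'
  set a := max (dist q x) ℓ with ha
  set b := max (dist q y) ℓ with hb
  have ha0 : ℓ ≤ a := le_max_right _ _
  have hb0 : ℓ ≤ b := le_max_right _ _
  have ha1 : 0 < a := hℓ.trans_le ha0
  have hb1 : 0 < b := hℓ.trans_le hb0
  have hab : |a - b| ≤ dist x y := by
    refine (abs_max_sub_max_le_abs _ _ _).trans ?_
    rw [dist_comm q x, dist_comm q y]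
    exact abs_dist_sub_le x y q
  rw [inv_sub_inv ha1.ne' hb1.ne', abs_div, abs_sub_comm, abs_of_pos (mul_pos ha1 hb1)]
  rw [div_le_iff₀ (mul_pos ha1 hb1)]
  have h1 : ℓ⁻¹ ^ 2 * (a * b) ≥ 1 := by
    have : ℓ * ℓ ≤ a * b := mul_le_mul ha0 hb0 hℓ.le ha1.le
    calc ℓ⁻¹ ^ 2 * (a * b) ≥ ℓ⁻¹ ^ 2 * (ℓ * ℓ) := by gcongr
      _ = 1 := by field_simp
  calc |a - b| ≤ dist x y := hab
    _ = 1 * dist x y := (one_mul _).symm
    _ ≤ (ℓ⁻¹ ^ 2 * (a * b)) * dist x y := by gcongr
    _ = _ := by ring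

theorem pos_of_lap {K κ₀ L D : ℝ} (hK : 0 ≤ K) (h : S.Lap q K) (hn : 1 ≤ n) (hL : 5 < L)
    (h1 : L ≤ dist p q) (h2 : dist p q ≤ D) (h3 : (n - 1) / (L - 5) + K * (D + 5) ≤ κ₀) :
    S.Pos (fun y => dist q y) κ₀ p := by
  intro χ hχ h0
  have hℓ : 0 < L - 5 := by linarith
  have hD0 : 0 ≤ D + 5 := by have := dist_nonneg (x := p) (y := q); linarith
  set w := rw' q (L - 5) with hw
  have hwL : Lp w := lp_rw' hℓ
  set φ : M → ℝ := fun x => χ x * w x with hφ
  have hφT : T p φ := hχ.mul hwL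
  have hw0 : ∀ x, 0 < w x := fun x => by
    rw [hw]; unfold rw'
    exact inv_pos.2 (hℓ.trans_le (le_max_right _ _))
  have hdq : ∀ x, dist p x < 5 → L - 5 < dist q x := fun x hx => by
    have := dist_triangle p x q
    rw [dist_comm x q] at this
    linarith
  have hdq' : ∀ x, dist p x < 5 → dist q x < D + 5 := fun x hx => by
    have := dist_triangle q p x
    rw [dist_comm q p] at this
    linarith
  have hwx : ∀ x, dist p x < 5 → w x = (dist q x)⁻¹ := fun x hx => by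
    rw [hw]; unfold rw'
    rw [max_eq_left (hdq x hx).le]
  have key := h φ hφT.1 ⟨dist p q + 5, fun x hx => hφT.2 x (by
    have := dist_triangle q p x
    rw [dist_comm q p] at this
    linarith)⟩ (fun x => mul_nonneg (h0 x) (hw0 x).le)
  -- the test function g = (κ₀ - (n-1) w - K d_q) χ
  have hgT : T p (fun x => χ x * (κ₀ - (n - 1) * w x - K * dist q x)) :=
    hχ.mul (((Lp.const κ₀).sub (hwL.smul (n - 1))).sub ((lp_dist q).smul K))
  have hfq : Lp (fun y => dist q y) := lp_dist q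
  have e1 : (fun x => (n + K * dist q x ^ 2) * φ x + S.cd.Γ (fun y => dist q y ^ 2 / 2) φ x) =ᵐ[ν]
      fun x => (κ₀ * χ x + S.cd.Γ (fun y => dist q y) χ x) -
        χ x * (κ₀ - (n - 1) * w x - K * dist q x) := by
    filter_upwards [S.rad _ hfq, S.rad _ hχ.1, S.rad _ hwL, S.unit q] with x d1 d2 d3 d4
    have hDφ : S.cd.D φ x := S.cd.D_mul d2 d3
    have hsq : S.cd.Γ (fun y => dist q y ^ 2 / 2) φ x = dist q x * S.cd.Γ (fun y => dist q y) φ x := by
      refine (S.cd.chain₁ (fun s => s ^ 2 / 2) (dist q x) d1 ?_).2 _ hDφ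
      have := ((hasDerivAt_id (dist q x)).pow 2).div_const 2
      simpa using this
    by_cases hx : dist p x < 5
    · have hd0 : 0 < dist q x := hℓ.trans (hdq x hx)
      have hΓw : S.cd.Γ w (fun y => dist q y) x = -(dist q x ^ 2)⁻¹ := by
        have hev : (fun y => (dist q y)⁻¹) =ᶠ[𝓝 x] w := by
          have : IsOpen {y | dist p y < 5} := isOpen_lt (by fun_prop) continuous_const
          filter_upwards [this.mem_nhds hx] with y hy
          exact (hwx y hy).symm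
        have hc := S.cd.chain₁ (fun s => s⁻¹) (-(dist q x ^ 2)⁻¹) d1 (hasDerivAt_inv hd0.ne')
        rw [← (S.cd.congr _ _ x hev hc.1).2 _ d1, hc.2 _ d1, d4, mul_one]
      have hΓφ : S.cd.Γ (fun y => dist q y) φ x =
          w x * S.cd.Γ (fun y => dist q y) χ x + χ x * (-(dist q x ^ 2)⁻¹) := by
        rw [S.cd.symm, S.cd.Γ_mul d2 d3 d1, hΓw, S.cd.symm χ]
      rw [hsq, hΓφ, hφ]
      simp only
      rw [hwx x hx]
      field_simp
      ring
    · push Not at hx
      have hχ0 : χ x = 0 := hχ.2 x (by linarith)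
      have hev : χ =ᶠ[𝓝 x] fun _ => 0 := by
        have : IsOpen {y | 9 / 2 < dist p y} := isOpen_lt continuous_const (by fun_prop)
        filter_upwards [this.mem_nhds (show (9 / 2 : ℝ) < dist p x by linarith)] with y hy
        exact hχ.2 y (le_of_lt hy)
      have hev' : φ =ᶠ[𝓝 x] fun _ => 0 := by
        filter_upwards [hev] with y hy
        rw [hφ]; simp [hy]
      rw [hsq, S.cd.symm, S.cd.Γ_eq_zero_of_eventually_const 0 hev' d1,
        S.cd.symm _ χ, S.cd.Γ_eq_zero_of_eventually_const 0 hev d1, hφ]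
      simp [hχ0]
  have hI1 : Integrable (fun x => κ₀ * χ x + S.cd.Γ (fun y => dist q y) χ x) ν :=
    (hχ.integrable.const_mul κ₀).add (S.Γ_int hfq hχ)
  rw [integral_congr_ae e1, integral_sub hI1
    hgT.integrable, integral_add (hχ.integrable.const_mul κ₀) (S.Γ_int hfq hχ),
    integral_const_mul] at key
  have hg0 : 0 ≤ ∫ x, χ x * (κ₀ - (n - 1) * w x - K * dist q x) ∂ν := by
    refine integral_nonneg fun x => ?_
    by_cases hx : dist p x < 5
    · refine mul_nonneg (h0 x) ?_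
      have hn1 : (0 : ℝ) ≤ n - 1 := by
        have : (1 : ℝ) ≤ n := by exact_mod_cast hn
        linarith
      have h4 : (n - 1) * w x ≤ (n - 1) / (L - 5) := by
        rw [hwx x hx, div_eq_mul_inv]
        have := inv_anti₀ hℓ (hdq x hx).le
        gcongr
      have h5 : K * dist q x ≤ K * (D + 5) := by
        have := (hdq' x hx).le
        gcongr
      linarith
    · push Not at hx
      show 0 ≤ χ x * _
      rw [hχ.2 x (by linarith), zero_mul]
  unfold Setup.Λ
  linarith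

end Crest.Agent.R247.VC402
end
end

-- ▼ part R247/VC10_402
section

/-!
# R247, block (3), file 10: `Asm951.VC n` from the radial structure and Bishop–Gromov

* `RadM n` : every `M` of S0381 with `Ric ≥ -κ` carries a radial structure `Rad n κ M μHE[n]`;
* `lap_of_rad` : weak Laplacian comparison in the calculus of `Ar659.setup`;
* `vc_of_rad : RadM n → Asm951.BGr n → Asm951.VC n`.
-/

set_option autoImplicit false
set_option maxSynthPendingDepth 3
set_option linter.unusedSectionVars false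
set_option linter.unusedVariables false

noncomputable section

open MeasureTheory Filter Topology Set Metric
open scoped ENNReal NNReal ContDiff Manifold
open Bundle Crest.GeometryTopology.CoordMetric Crest.GeometryTopology.ChartCurvature
  Crest.GeometryTopology.PointedLimit
open Crest.Agent.R247.Mcp688

namespace Crest.Agent.R247.VC402

universe u

/-- every manifold of S0381 with `Ric ≥ -κ` carries a radial structure -/
def RadM (n : ℕ) : Prop := ∀ κ : ℝ, 0 ≤ κ →
  ∀ (M : Type u) [MetricSpace M] [CompleteSpace M] [ConnectedSpace M]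
    [ChartedSpace (EuclideanSpace ℝ (Fin n)) M]
    [IsManifold 𝓘(ℝ, EuclideanSpace ℝ (Fin n)) ∞ M]
    [RiemannianBundle (fun x : M => TangentSpace 𝓘(ℝ, EuclideanSpace ℝ (Fin n)) x)]
    [IsContMDiffRiemannianBundle 𝓘(ℝ, EuclideanSpace ℝ (Fin n)) ∞ (EuclideanSpace ℝ (Fin n))
      (fun x : M => TangentSpace 𝓘(ℝ, EuclideanSpace ℝ (Fin n)) x)]
    [IsRiemannianManifold 𝓘(ℝ, EuclideanSpace ℝ (Fin n)) M]
    [MeasurableSpace M] [BorelSpace M],
    HasRicciLowerBound n M (-κ) →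
    Nonempty (Rad n κ M (Measure.euclideanHausdorffMeasure n))

section mfd

variable {n : ℕ} {M : Type*} [MetricSpace M] [ChartedSpace (EuclideanSpace ℝ (Fin n)) M]
  [IsManifold (𝓡 n) ∞ M]
  [RiemannianBundle (fun p : M => TangentSpace (𝓡 n) p)]
  [IsContMDiffRiemannianBundle (𝓡 n) ∞ (EuclideanSpace ℝ (Fin n)) (fun p : M => TangentSpace (𝓡 n) p)]
  [IsRiemannianManifold (𝓡 n) M] [ProperSpace M] [SecondCountableTopology M] [Nonempty M]
  [MeasurableSpace M] [BorelSpace M] [CompleteSpace M] [Nontrivial M]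
  [IsFiniteMeasureOnCompacts (μHE[n] : Measure M)]

theorem lap_of_rad (hn : 1 ≤ n) {κ : ℝ} (hκ : 0 ≤ κ)
    (C : Rad n κ M (μHE[n] : Measure M)) (hm : Sm879.ExM M) (q : M) :
    (Ar659.setup n M hn).Lap q κ := by
  intro φ hφ hsupp h0
  obtain ⟨R, hR⟩ := hsupp
  obtain ⟨L, hL0, hL⟩ := hφ.bound
  have hmd : ∀ᵐ z ∂(μHE[n] : Measure M), MDifferentiableAt (𝓡 n) 𝓘(ℝ) φ z :=
    (Ar659.setup n M hn).rad φ hφ
  have hRD := Rdg879.rd_grad C hκ hm q hmd
  have key := (C.weak_lap' hκ q (R := max R 0) (L := L) hφ.continuous.measurable h0 hL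
    (le_max_right _ _) (fun z hz => hR z ((le_max_left _ _).trans hz.le))
    ((isCompact_closedBall q _).measure_lt_top (μ := (μHE[n] : Measure M))).ne hRD).2.2
  have e : (fun z : M => Crest.GeometryTopology.MTW.halfDistSq z q) = fun z => dist q z ^ 2 / 2 := by
    funext z
    simp only [Crest.GeometryTopology.MTW.halfDistSq, dist_comm z q]
  rw [e] at key
  exact key

end mfd

set_option maxHeartbeats 1000000 in
/-- **Volume convergence (block (3)).** -/
theorem vc_of_rad {n : ℕ} (hn : 1 ≤ n) (hR : RadM.{u} n) (hB : Asm951.BGr.{u} n) :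
    Asm951.VC.{u} n := by
  intro v δ hv hδ
  have hn0 : (0 : ℝ) < n := by exact_mod_cast hn
  have hn1 : (1 : ℝ) ≤ n := by exact_mod_cast hn
  set c : ℝ := (Real.exp 25 * 7 ^ n)⁻¹ with hc
  have hcpos : 0 < c := by positivity
  obtain ⟨κ₀, hκ₀, hκ₁, H⟩ := vol_conv_rel n hn hcpos hδ
  -- the radius L
  obtain ⟨ε₀, hε₀, H⟩ := H (5 + 2 * n / κ₀)
  obtain ⟨ε₁, hε₁, hε₁₀, hε₁1⟩ : ∃ ε₁ : ℝ, 0 < ε₁ ∧ ε₁ ≤ ε₀ ∧ ε₁ ≤ 1 / 10 :=
    ⟨min ε₀ (1 / 10), by positivity, min_le_left _ _, min_le_right _ _⟩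
  have hD0 : 0 < ε₁⁻¹ + 5 := by positivity
  obtain ⟨κ, hκ, hκ1, hκ2⟩ : ∃ κ : ℝ, 0 < κ ∧ κ ≤ ε₁ / 2 ∧ κ ≤ κ₀ / (2 * (ε₁⁻¹ + 5)) :=
    ⟨min (ε₁ / 2) (κ₀ / (2 * (ε₁⁻¹ + 5))), by positivity, min_le_left _ _, min_le_right _ _⟩
  refine ⟨κ, hκ, ?_⟩
  intro M _ _ _ _ _ _ _ _ _ _ p hRic happ hvol
  haveI : ProperSpace M := HR216.properSpace_of_riemannian n M
  haveI : SecondCountableTopology M := HR216.secondCountable_of_riemannian n M
  haveI : Nontrivial M := Rdg879.nontrivial_of_ne_zero (n := n) (by omega)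
  haveI : IsLocallyFiniteMeasure (μHE[n] : Measure M) := GluM923.isLocallyFinite n M
  have hm : Sm879.ExM M := by
    intro a b t ht
    exact HR216.exactMid_of_riemannian n M a b t ht.1 ht.2
  obtain ⟨C⟩ := hR κ hκ.le M hRic
  have hinv : ε₁⁻¹ ≤ 1 / κ := by
    rw [← one_div]
    exact one_div_le_one_div_of_le hκ (by linarith)
  have happ' : IsScaledApprox 1 p (0 : EuclideanSpace ℝ (Fin n)) ε₁⁻¹ ε₁ := by
    refine Asm951.approx_centre (ρ := 0) happ (by rw [dist_self]) (by positivity) (by positivity)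
      (by linarith) (by linarith) hε₁
  have hset : {x : M | dist p x < 5} = ball p 5 := by
    ext x; rw [mem_setOf_eq, mem_ball, dist_comm]
  have hfin : (μHE[n] : Measure M) (ball p 5) < ⊤ := GluM923.ball_lt_top n M p 5
  have hV : 0 < V (μHE[n] : Measure M) p := by
    unfold V Measure.real
    rw [hset]
    refine ENNReal.toReal_pos ?_ hfin.ne
    have h1 : 0 < ENNReal.ofReal v := ENNReal.ofReal_pos.2 hv
    exact (h1.trans_le (hvol.trans (measure_mono (ball_subset_ball (by norm_num))))).ne'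
  refine H ε₁ hε₁ hε₁₀ M (μHE[n] : Measure M) (Ar659.setup n M hn) p ?_ happ' hV ?_
  · intro q hq1 hq2
    refine pos_of_lap (K := κ) (L := 5 + 2 * n / κ₀) (D := ε₁⁻¹) _ hκ.le
      (lap_of_rad hn hκ.le C hm q) hn ?_ hq1 hq2.le ?_
    · have : 0 < 2 * n / κ₀ := by positivity
      linarith
    · have h1 : (n - 1) / (5 + 2 * n / κ₀ - 5) ≤ κ₀ / 2 := by
        rw [add_sub_cancel_left, div_le_iff₀ (by positivity)]
        have : κ₀ / 2 * (2 * n / κ₀) = n := by field_simp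
        rw [this]; linarith
      have h2 : κ * (ε₁⁻¹ + 5) ≤ κ₀ / 2 := by
        rw [le_div_iff₀ (by positivity)] at hκ2
        linarith
      linarith
  · intro x hx r hr hr1
    have h1 := hB κ hκ.le M x r 7 hRic hr (by linarith)
    have hfx : (μHE[n] : Measure M) (ball x r) ≠ ⊤ := (GluM923.ball_lt_top n M x r).ne
    have hfx7 : (μHE[n] : Measure M) (ball x 7) ≠ ⊤ := (GluM923.ball_lt_top n M x 7).ne
    have h2 : V (μHE[n] : Measure M) p ≤ (μHE[n] : Measure M).real (ball x 7) := by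
      unfold V
      rw [hset]
      refine measureReal_mono ?_ hfx7
      refine ball_subset_ball' ?_
      linarith
    have h3 : (μHE[n] : Measure M).real (ball x 7) ≤
        Real.exp (κ * 7 ^ 2 / 2) * (7 / r) ^ n * (μHE[n] : Measure M).real (ball x r) := by
      unfold Measure.real
      have := ENNReal.toReal_mono (ENNReal.mul_ne_top ENNReal.ofReal_ne_top hfx) h1
      rwa [ENNReal.toReal_mul, ENNReal.toReal_ofReal (by positivity)] at this
    have h4 : Real.exp (κ * 7 ^ 2 / 2) ≤ Real.exp 25 := by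
      apply Real.exp_le_exp.2
      linarith
    have h5 : V (μHE[n] : Measure M) p ≤
        Real.exp 25 * (7 / r) ^ n * (μHE[n] : Measure M).real (ball x r) := by
      refine h2.trans (h3.trans ?_)
      have : 0 ≤ (μHE[n] : Measure M).real (ball x r) := measureReal_nonneg
      gcongr
    calc c * V (μHE[n] : Measure M) p * r ^ n
        ≤ c * (Real.exp 25 * (7 / r) ^ n * (μHE[n] : Measure M).real (ball x r)) * r ^ n := by
          gcongr
      _ = (μHE[n] : Measure M).real (ball x r) := by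
          rw [hc, div_pow]
          have hrn : r ^ n ≠ 0 := by positivity
          have h7 : (7 : ℝ) ^ n ≠ 0 := by positivity
          field_simp

end Crest.Agent.R247.VC402
end
end

-- ▼ part R247/VC11_402

/-!
# R247, block (3), file 11: `Asm951.VC n` from `Bgr546.RAD n`
-/

set_option autoImplicit false

namespace Crest.Agent.R247.VC402

universe u

/-- **Volume convergence from the radial structure alone.** -/
theorem vc_of_RAD {n : ℕ} (hn : 1 ≤ n) (hR : Bgr546.RAD.{u} n) : Asm951.VC.{u} n :=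
  vc_of_rad hn hR (Bgr546.bgr_of_rad hR)

end Crest.Agent.R247.VC402
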