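import Crest.Agent.R247.Bgr_546
import Crest.Agent.R247.GluM3_923
import Crest.Agent.R247.VC11_402_Mg
import Crest.Agent.R247.Bgr3_546
import Crest.Agent.R247.Ch5_111
import Crest.Agent.R247.Stp2_553
import Crest.Agent.R247.BL7_562
import Crest.Agent.R247.Lx6_149
import Crest.Agent.R247.Fin3_508_Mg
import Crest.Agent.R247.Near2_710_Mg
import Crest.Agent.R247.Q9_550
import Crest.Agent.R247.Cal_550
import Crest.Agent.R247.Pyt1_710

-- ▼ part R247/N0_322
section

/-!
R247, the case `n = 0` (helper322): `M` is one point.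
-/

set_option autoImplicit false
noncomputable section
open Set Filter Topology MeasureTheory Metric
open scoped ContDiff Manifold ENNReal NNReal
open Bundle Crest.GeometryTopology.CoordMetric Crest.GeometryTopology.ChartCurvature
  Crest.GeometryTopology.PointedLimit

namespace Crest.Agent.R247.N0322

universe u

theorem isometry_zero {M : Type*} [MetricSpace M] [Subsingleton M] :
    Isometry (fun _ : M => (0 : EuclideanSpace ℝ (Fin 0))) := by
  intro x y
  rw [Subsingleton.elim x y]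
  simp

theorem muHE_ball {M : Type*} [MetricSpace M] [Subsingleton M] [MeasurableSpace M] [BorelSpace M]
    (x : M) {r : ℝ} (hr : 0 < r) :
    Measure.euclideanHausdorffMeasure 0 (ball x r) =
      volume (ball (0 : EuclideanSpace ℝ (Fin 0)) 1) := by
  have h := (isometry_zero (M := M)).euclideanHausdorffMeasure_image (d := 0) (ball x r)
  rw [← h]
  have e : (fun _ : M => (0 : EuclideanSpace ℝ (Fin 0))) '' ball x r =
      ball (0 : EuclideanSpace ℝ (Fin 0)) 1 := by
    ext z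
    have hz : z = 0 := Subsingleton.elim _ _
    subst hz
    constructor
    · intro _; exact mem_ball_self one_pos
    · intro _; exact ⟨x, mem_ball_self hr, rfl⟩
  rw [e, EuclideanSpace.euclideanHausdorffMeasure_eq_volume]

/-- volume convergence for `n = 0`. -/
theorem vc_zero : Asm951.VC.{u} 0 := by
  intro v δ hv hδ
  refine ⟨1, one_pos, ?_⟩
  intro M _ _ _ _ _ _ _ _ _ _ x _ _ _
  have : Subsingleton M := Bgr546.subsingleton_of_zero M
  rw [muHE_ball x one_pos]
  calc ENNReal.ofReal (1 - δ) * volume (ball (0 : EuclideanSpace ℝ (Fin 0)) 1)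
      ≤ 1 * volume (ball (0 : EuclideanSpace ℝ (Fin 0)) 1) := by
        gcongr
        rw [← ENNReal.ofReal_one]
        exact ENNReal.ofReal_le_ofReal (by linarith)
    _ = _ := one_mul _


end Crest.Agent.R247.N0322
end
end

-- ▼ part R247/Top_546
section

/-!
# R247: the top of the chain, from `GlueDataT 40 n` alone

`vc_all n : VC n` (unconditional) and `s0381_of_glue : GlueDataT 40 n → S0381`.
-/

set_option autoImplicit false
noncomputable section
open Set Filter Topology MeasureTheory Metric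
open scoped ContDiff Manifold ENNReal NNReal
open Bundle Crest.GeometryTopology.CoordMetric Crest.GeometryTopology.ChartCurvature
  Crest.GeometryTopology.PointedLimit

namespace Crest.Agent.R247.Top546

universe u

/-- **Volume convergence**, every dimension. -/
theorem vc_all (n : ℕ) : Asm951.VC.{u} n := by
  rcases Nat.eq_zero_or_pos n with hn | hn
  · subst hn
    exact N0322.vc_zero
  · exact VC402.vc_of_RAD hn (Bgr546.rad_all n)

/-- **S0381** from the planes/far data alone. -/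
theorem s0381_of_glue (n : ℕ) (hG : GluM923.GlueDataT.{u} 40 n) :
    ∃ L : ℝ, 1 ≤ L ∧
      ∀ (K : ℝ) (M : ℕ → Type u) [∀ k, MetricSpace (M k)] [∀ k, CompleteSpace (M k)]
        [∀ k, ConnectedSpace (M k)] [∀ k, ChartedSpace (EuclideanSpace ℝ (Fin n)) (M k)]
        [∀ k, IsManifold 𝓘(ℝ, EuclideanSpace ℝ (Fin n)) ∞ (M k)]
        [∀ k, RiemannianBundle (fun x : M k => TangentSpace 𝓘(ℝ, EuclideanSpace ℝ (Fin n)) x)]
        [∀ k, IsContMDiffRiemannianBundle 𝓘(ℝ, EuclideanSpace ℝ (Fin n)) ∞ (EuclideanSpace ℝ (Fin n))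
          (fun x : M k => TangentSpace 𝓘(ℝ, EuclideanSpace ℝ (Fin n)) x)]
        [∀ k, IsRiemannianManifold 𝓘(ℝ, EuclideanSpace ℝ (Fin n)) (M k)]
        [∀ k, MeasurableSpace (M k)] [∀ k, BorelSpace (M k)] (q : ∀ k, M k),
        (∀ k, HasRicciLowerBound n (M k) K) →
        (∃ v : ℝ, 0 < v ∧ ∀ k, ENNReal.ofReal v ≤
          MeasureTheory.Measure.euclideanHausdorffMeasure n (Metric.ball (q k) 1)) →
        ∀ (X : Type u) [MetricSpace X] [CompleteSpace X] (p : X),
          SeqPointedTendsto q p → RescalingsTendstoEuclidean p n →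
          ∃ U : Set X, IsOpen U ∧ p ∈ U ∧ ∃ F : X → EuclideanSpace ℝ (Fin n), IsOpen (F '' U) ∧
            ∀ x ∈ U, ∀ z ∈ U, L⁻¹ * dist x z ≤ dist (F x) (F z) ∧
              dist (F x) (F z) ≤ L * dist x z :=
  Skel656.s0381_of n (vc_all n) (fun κ hκ => Bgr546.rad_all n κ hκ) hG

end Crest.Agent.R247.Top546
end
end

-- ▼ part R247/Ch6_111
section

/-!
# Block (1) closed: `DecayP`, `PathP`, `FarConcl` without hypotheses
-/

set_option autoImplicit false
set_option linter.unusedSectionVars false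
open MeasureTheory Set Filter Topology Metric
open scoped ENNReal NNReal

noncomputable section
namespace Crest.Agent.R247.Ch111

universe u

open Crest.Agent.R247.Mcp688 Crest.Agent.R247.Far553 Crest.Agent.R247.Exc853

theorem stpP {n : ℕ} (c : FarK) (hn : 1 ≤ n) : StpP.{u} n c := by
  obtain ⟨K, C1, hK, hC1, h⟩ := Stp553.stp_all hn (BL562.blp.{u} n c)
  obtain ⟨N1, hN1⟩ : ∃ N : ℕ, 2 * c.N0 ≤ N := exists_nat_ge _
  refine ⟨K, C1, by linarith, by linarith, max 4 N1, fun Ng hNg _ Gg hGg => ?_⟩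
  have hNg4 : 4 ≤ Ng := (le_max_left _ _).trans hNg
  have hNgN : (N1 : ℝ) ≤ Ng := by exact_mod_cast (le_max_right _ _).trans hNg
  obtain ⟨Kb, εb, Nb, hKb, hεb, hNb, h⟩ := h Ng Gg hNg4 (hN1.trans hNgN) hGg
  refine ⟨Kb, εb, Nb, hKb, hεb, by omega, ?_⟩
  intro κ X _ _ _ _ μ _ C x δ ph F hκ hκ' hδ0 hδ
  filter_upwards [h C x δ ph F hκ hκ' hδ0 hδ] with v hv hU hv11 lam hlam w z hw hzU hzw t ht hxz
    ht8 hX0 hX1 hw2 hw9
  have hv1 : 1 ≤ dist x v := by linarith
  obtain ⟨h1, h2, h3⟩ := hv hv1 hv11 lam z w t (dist z w) (fun τ => ray C z w τ) hlam hw ht hxz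
    ht8 hX0 hX1 hw2 (by linarith) dist_nonneg (isMin_of_rad C hzU hzw)
  have hwr : ray C z w (dist z w) = w := (isMin_of_rad C hzU hzw).last
  refine ⟨h1, ?_, ?_⟩
  · intro τ₁ τ₂ τ₃ a1
    exact h2 τ₁ τ₂ τ₃ (by linarith)
  · intro τ₁ a1
    exact h3 τ₁ (by linarith)

/-- **(1-CH)** -/
theorem decayP {n : ℕ} (c : FarK) (hn : 1 ≤ n) : FarAsm196.DecayP.{u} n c :=
  decay_of_stp hn (stpP c hn)

theorem pathP {n : ℕ} (c : FarK) (hn : 1 ≤ n) : FarAsm196.PathP.{u} n c :=
  FarAsm196.path_of (decayP c hn) (LX149.nnp n c)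

/-- **block (1)** -/
theorem farConcl {n : ℕ} (c : FarK) (hn : 1 ≤ n) : FarConcl.{u} n c :=
  Fin508.farConcl_of_path (pathP c hn)

end Crest.Agent.R247.Ch111
end
end

-- ▼ part R247/Near4_710
section

/-!
R247, block (2a), near isometry: `NearP n` (literal Prop of `Q9_550`) from `psi_upper_far` (551) and
`psi_lower_far` (710).
-/

set_option autoImplicit false
set_option maxSynthPendingDepth 3
set_option linter.unusedSectionVars false
set_option linter.unusedVariables false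

open Bundle Set Filter Topology MeasureTheory Metric
open scoped Manifold ContDiff ENNReal NNReal
open Crest.GeometryTopology.CoordMetric Crest.GeometryTopology.ChartCurvature
  Crest.GeometryTopology.PointedLimit
open Crest.Agent.R247.Mcp688 Crest.Agent.R247.Ms322 Crest.Agent.R247.Sm879
open Crest.Agent.R247.Rdg879 Crest.Agent.R247.Iso311 Crest.Agent.R247.Nis710
open Crest.Agent.R247.Cal550 Crest.Agent.R247.Q9550
open Crest.Agent.R247.Far553 (ann dy dy_pos dy_succ dy_anti dy_le_one)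

noncomputable section
namespace Crest.Agent.R247.Near710

universe u

lemma volume_ball_eq (n : ℕ) {r : ℝ} (hr : 0 < r) :
    volume (ball (0 : EuclideanSpace ℝ (Fin n)) r) =
      ENNReal.ofReal (r ^ n) * volume (ball (0 : EuclideanSpace ℝ (Fin n)) 1) := by
  rw [Measure.addHaar_ball_of_pos volume (0 : EuclideanSpace ℝ (Fin n)) hr,
    finrank_euclideanSpace_fin]

lemma exists_scale {d : ℝ} {J : ℕ} (h0 : 0 < d) (h1 : d ≤ dy (J + 1)) :
    ∃ k, J ≤ k ∧ d ≤ dy (k + 1) ∧ dy (k + 2) ≤ d := by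
  classical
  have hex : ∃ k, dy (k + 2) ≤ d := by
    obtain ⟨k, hk⟩ := exists_pow_lt_of_lt_one h0 (show (1 / 2 : ℝ) < 1 by norm_num)
    refine ⟨k, ?_⟩
    have : dy (k + 2) ≤ dy k := dy_anti (by omega)
    have h2 : dy k = (1 / 2 : ℝ) ^ k := rfl
    linarith
  by_cases hJ : dy (J + 2) ≤ d
  · exact ⟨J, le_rfl, h1, hJ⟩
  set k := Nat.find hex with hk
  have hk1 : dy (k + 2) ≤ d := Nat.find_spec hex
  have hJk : J < k := by
    by_contra h
    push Not at h
    exact hJ ((dy_anti (by omega)).trans hk1)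
  refine ⟨k, hJk.le, ?_, hk1⟩
  have h3 := Nat.find_min hex (m := k - 1) (by omega)
  have h4 : k - 1 + 2 = k + 1 := by omega
  rw [h4] at h3
  exact (not_le.1 h3).le

/-- **Near isometry.** -/
theorem nearP (n : ℕ) (hn : 1 ≤ n) : NearP.{u} n := by
  intro ε hε
  have hn' : (0 : ℝ) < n := by exact_mod_cast (show 0 < n by omega)
  have hn1 : (1 : ℝ) ≤ n := by exact_mod_cast hn
  have hs : 0 < Real.sqrt n := Real.sqrt_pos.2 hn'
  set e : ℝ := min (ε / (2 * n)) (1 / n) with he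
  have he0 : 0 < e := lt_min (by positivity) (by positivity)
  have he1 : (n - 1) * e ≤ 1 := by
    have h1 : e ≤ 1 / n := min_le_right _ _
    calc (n - 1) * e ≤ n * (1 / n) := by
          have : (n : ℝ) - 1 ≤ n := by linarith
          have h2 : (0 : ℝ) ≤ n - 1 := by linarith
          gcongr
      _ = 1 := by field_simp
  set τ : ℝ := ε / (2 * Real.sqrt n) with hτ
  have hτ0 : 0 < τ := by positivity
  obtain ⟨cu, hcu, hcu1, Hu⟩ := Near551.psi_upper_far.{u} n hn he0
  obtain ⟨cl, hcl, hcl1, Hl'⟩ := psi_lower_far.{u} n hn he0 he1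
  obtain ⟨ε₁, hε₁, Hl⟩ := Hl' τ hτ0
  set c : ℝ := min cu cl with hc
  have hc0 : 0 < c := lt_min hcu hcl
  obtain ⟨J₁, hJ₁⟩ := exists_pow_lt_of_lt_one (show 0 < c / 2 by positivity)
    (show (1 / 2 : ℝ) < 1 by norm_num)
  refine ⟨ε₁, hε₁, min c (1 / 2), lt_min hc0 (by norm_num), J₁, ?_⟩
  intro δ hδ0 hδ M _ _ _ _ _ _ _ _ _ _ q hric hpinch C G hG J hJ hFF x hx y hy
  have := HR216.properSpace_of_riemannian n M
  have := isLocallyFinite_muHE n M
  have := HR216.secondCountable_of_riemannian n M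
  have : Nonempty M := ⟨q⟩
  have hm := exM_block n M
  have hδc : δ ≤ c := hδ.trans (min_le_left _ _)
  have hδh : δ ≤ 1 / 2 := hδ.trans (min_le_right _ _)
  have hJc : dy J < c / 2 := (dy_anti hJ).trans_lt hJ₁
  have hJ2 : dy (J + 2) = dy J / 4 := by rw [dy_succ (J + 1), dy_succ J]; ring
  have hJ1 : dy (J + 1) = dy J / 2 := dy_succ J
  have hJ0 := dy_pos J
  rw [mem_ball, hJ2] at hx hy
  have hc1 : c ≤ 1 := (min_le_left _ _).trans hcu1.le
  -- volumes
  have hvol : ∀ a : M, dist a q < 50 → ∀ b : ℝ, δ ≤ b → ∀ r, 0 < r → r ≤ 40 →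
      ENNReal.ofReal ((1 - b) * r ^ n) * volume (ball (0 : EuclideanSpace ℝ (Fin n)) 1) ≤
        Measure.euclideanHausdorffMeasure n (ball a r) := by
    intro a ha b hb r hr hr'
    refine le_trans ?_ (hpinch a ha r hr hr')
    rw [volume_ball_eq n hr, ← mul_assoc, mul_comm (ENNReal.ofReal (1 - δ)),
      ← ENNReal.ofReal_mul (by positivity)]
    gcongr ENNReal.ofReal ?_ * _
    have : 0 < r ^ n := by positivity
    nlinarith
  have hq0 : dist q q < 50 := by rw [dist_self]; norm_num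
  rcases eq_or_ne x y with rfl | hxy
  · simp
  have hd0 : 0 < dist x y := dist_pos.2 hxy
  have hd1 : dist x y ≤ dy (J + 1) := by
    have := dist_triangle x q y
    rw [dist_comm q y] at this
    rw [hJ1]
    linarith
  obtain ⟨k, hk, hk1, hk2⟩ := exists_scale hd0 hd1
  have hkJ : dy k ≤ dy J := dy_anti hk
  have hup := Hu M δ C hδ0.le (hδc.trans (min_le_left _ _)) hm q
    (hvol q hq0 cu (hδc.trans (min_le_left _ _)) 8 (by norm_num) (by norm_num)) x y
    (by rw [dist_comm]; have : c ≤ cu := min_le_left _ _; linarith)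
    (by rw [dist_comm]; have : c ≤ cu := min_le_left _ _; linarith)
  have hlo := Hl M δ C hδ0.le (hδc.trans (min_le_right _ _)) hm G hG q
    (hvol q hq0 cl (hδc.trans (min_le_right _ _)) 8 (by norm_num) (by norm_num)) x y k
    (by rw [dist_comm]; have : c ≤ cl := min_le_right _ _; linarith) hd0 hk1 hk2
    (by
      intro s hs0 hs1
      have h1 := hvol y (by linarith) (1 / 2) hδh s hs0 (by linarith)
      norm_num at h1 ⊢
      exact h1)
    (hFF k hk x (by linarith))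
  have h := near_of_bounds (n := n) (by omega) (ε := e) (τ := τ) (ρ' := 0) (d := dist x y)
    (N := ‖psi (nuf (Measure.euclideanHausdorffMeasure n : Measure M) q) x -
      psi (nuf (Measure.euclideanHausdorffMeasure n : Measure M) q) y‖) he0.le he1 hd0.le hup
    (by rw [norm_sub_rev]; linarith) hτ0.le le_rfl
  refine h.trans ?_
  have h2 : n * e ≤ ε / 2 := by
    calc n * e ≤ n * (ε / (2 * n)) := by gcongr; exact min_le_left _ _
      _ = ε / 2 := by field_simp
  have h3 : Real.sqrt n * (τ + 2 * 0) = ε / 2 := by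
    rw [hτ]; field_simp; ring
  have h4 : n * e + Real.sqrt n * (τ + 2 * 0) ≤ ε := by linarith
  gcongr

end Crest.Agent.R247.Near710
end
end

-- ▼ part R247/Loc1_596
section

/-!
# The local Pythagoras inequality (L) is a consequence of `FarD` (helper596)

`L_of_far`: for the far-propagation data at the centre `x`, thickness `dy j`,
`∫_B ∫_B |Γ(f_x,f_v)(z) - f_x(z) - f_v(z) + f_x(v)|² dv dz ≤ A · ph j · (dy j)^(2n+4)`,
`B = ball x (8 dy j)`.
-/

set_option autoImplicit false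
set_option linter.unusedSectionVars false
open MeasureTheory Set Filter Topology Metric
open scoped ENNReal NNReal

noncomputable section
namespace Crest.Agent.R247.Loc596

open Crest.Agent.R247.Mcp688 Crest.Agent.R247.Far553 Crest.Agent.R247.Cal550

/-! ### one minimiser -/

section one

variable {l ρ : ℝ} {G qs ks Hs gs nks : ℝ → ℝ} {Dw gz : ℝ}

lemma U_eq (hl : 0 < l) (A : AlongD l ρ G qs ks Hs gs nks Dw gz) :
    |A.U l - A.U 0 - l * A.U1 0 - l ^ 2 / 2| ≤ l * ∫ τ in (0 : ℝ)..l, Hs τ := by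
  have h0 : (0 : ℝ) ∈ Icc 0 l := ⟨le_rfl, hl.le⟩
  have h1 : l ∈ Icc 0 l := ⟨hl.le, le_rfl⟩
  have e1 := A.ftc_U 0 h0 l h1
  have hUI : IntervalIntegrable A.U1 volume 0 l := by
    apply ContinuousOn.intervalIntegrable
    rw [uIcc_of_le hl.le]
    exact A.U1_cont
  have e2 : A.U l - A.U 0 - l * A.U1 0 - l ^ 2 / 2 = ∫ τ in (0 : ℝ)..l, (A.U1 τ - A.U1 0 - τ) := by
    have hid : IntervalIntegrable (fun τ : ℝ => τ) volume 0 l := continuous_id.intervalIntegrable _ _
    rw [intervalIntegral.integral_sub (hUI.sub intervalIntegrable_const)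
      hid, intervalIntegral.integral_sub hUI
      intervalIntegrable_const, ← e1]
    simp only [intervalIntegral.integral_const, integral_id, smul_eq_mul, sub_zero]
    ring
  have hH0 : ∀ τ ∈ Icc (0 : ℝ) l, |A.U1 τ - A.U1 0 - τ| ≤ ∫ s in (0 : ℝ)..l, Hs s := by
    intro τ hτ
    have e3 := A.ftc_U1 0 h0 τ hτ
    have heI : IntervalIntegrable A.e volume 0 τ := A.e_int.mono_set (by
      rw [uIcc_of_le hτ.1, uIcc_of_le hl.le]
      exact Icc_subset_Icc le_rfl hτ.2)
    have e4 : A.U1 τ - A.U1 0 - τ = ∫ s in (0 : ℝ)..τ, A.e s := by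
      rw [e3, intervalIntegral.integral_add intervalIntegrable_const heI]
      simp
    rw [e4]
    have hIoo : ∀ᵐ s ∂(volume.restrict (Ioc (0 : ℝ) l)), |A.e s| ≤ Hs s := by
      rw [← restrict_Ioo_eq_restrict_Ioc]
      exact A.e_le
    calc |∫ s in (0 : ℝ)..τ, A.e s| ≤ ∫ s in (0 : ℝ)..τ, |A.e s| :=
          intervalIntegral.abs_integral_le_integral_abs hτ.1
      _ ≤ ∫ s in (0 : ℝ)..l, |A.e s| := by
          apply intervalIntegral.integral_mono_interval le_rfl hτ.1 hτ.2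
          · exact Eventually.of_forall fun s => abs_nonneg _
          · exact A.e_int.abs
      _ ≤ ∫ s in (0 : ℝ)..l, Hs s := by
          apply intervalIntegral.integral_mono_ae_restrict hl.le A.e_int.abs A.Hs_int
          rw [← restrict_Ioo_eq_restrict_Icc]
          exact A.e_le
  rw [e2]
  have h5 : ‖∫ τ in (0 : ℝ)..l, (A.U1 τ - A.U1 0 - τ)‖ ≤
      (∫ s in (0 : ℝ)..l, Hs s) * |l - 0| := by
    apply intervalIntegral.norm_integral_le_of_norm_le_const
    intro τ hτ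
    rw [uIoc_of_le hl.le] at hτ
    rw [Real.norm_eq_abs]
    exact hH0 τ ⟨hτ.1.le, hτ.2⟩
  rw [Real.norm_eq_abs, sub_zero, abs_of_pos hl, mul_comm] at h5
  exact h5

/-- pointwise form of the local Pythagoras along one minimiser -/
lemma pyth_one (hl : 0 < l) (A : AlongD l ρ G qs ks Hs gs nks Dw gz) :
    |l * Dw - G 0 - l ^ 2 / 2 + G l| ≤
      l * (ρ * gz) + l * (∫ τ in (0 : ℝ)..l, Hs τ) + |G 0 - A.U 0| + |G l - A.U l| := by
  have h1 := U_eq hl A
  have h2 := mul_le_mul_of_nonneg_left A.first hl.le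
  have e : l * Dw - G 0 - l ^ 2 / 2 + G l = l * (A.U1 0 + Dw) +
      (A.U l - A.U 0 - l * A.U1 0 - l ^ 2 / 2) + (-(G 0 - A.U 0)) + (G l - A.U l) := by ring
  rw [e]
  refine (abs_add_le _ _).trans ?_
  refine add_le_add ((abs_add_le _ _).trans (add_le_add ((abs_add_le _ _).trans
    (add_le_add ?_ h1)) (abs_neg _).le)) le_rfl
  rw [abs_mul, abs_of_pos hl]
  exact h2

/-- square form -/
lemma pyth_one_sq (hl : 0 < l) (A : AlongD l ρ G qs ks Hs gs nks Dw gz) :
    (l * Dw - G 0 - l ^ 2 / 2 + G l) ^ 2 ≤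
      4 * ((l * (ρ * gz)) ^ 2 + (l * (∫ τ in (0 : ℝ)..l, Hs τ)) ^ 2 + (G 0 - A.U 0) ^ 2 +
        (G l - A.U l) ^ 2) := by
  have h := pyth_one hl A
  have h1 : (l * Dw - G 0 - l ^ 2 / 2 + G l) ^ 2 ≤ (l * (ρ * gz) + l * (∫ τ in (0 : ℝ)..l, Hs τ) +
      |G 0 - A.U 0| + |G l - A.U l|) ^ 2 := by
    rw [← sq_abs (l * Dw - G 0 - l ^ 2 / 2 + G l)]
    exact pow_le_pow_left₀ (abs_nonneg _) h 2
  refine h1.trans ?_
  rw [← sq_abs (G 0 - A.U 0), ← sq_abs (G l - A.U l)]
  generalize l * (ρ * gz) = a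
  generalize l * (∫ τ in (0 : ℝ)..l, Hs τ) = b
  generalize |G 0 - A.U 0| = c
  generalize |G l - A.U l| = d
  nlinarith [sq_nonneg (a - b), sq_nonneg (a - c), sq_nonneg (a - d), sq_nonneg (b - c),
    sq_nonneg (b - d), sq_nonneg (c - d)]

/-- `U` is continuous -/
lemma U_cont (hl : 0 < l) (A : AlongD l ρ G qs ks Hs gs nks Dw gz) :
    ContinuousOn A.U (Icc 0 l) := by
  have hUI : IntegrableOn A.U1 (uIcc 0 l) volume := by
    rw [uIcc_of_le hl.le]
    exact A.U1_cont.integrableOn_Icc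
  have h := intervalIntegral.continuousOn_primitive_interval hUI
  rw [uIcc_of_le hl.le] at h
  refine (h.add (continuousOn_const (c := A.U 0))).congr fun τ hτ => ?_
  have := A.ftc_U 0 ⟨le_rfl, hl.le⟩ τ hτ
  show A.U τ = (∫ t in (0 : ℝ)..τ, A.U1 t) + A.U 0
  linarith

end one

/-! ### lower semicontinuity of the end values -/

lemma le_liminf_left {w : ℝ → ℝ≥0∞} (hw : ContinuousOn w (Icc 0 1)) :
    w 0 ≤ liminf (fun k : ℕ => ENNReal.ofReal ((k : ℝ) + 2) *
      ∫⁻ t in Icc (0 : ℝ) (1 / ((k : ℝ) + 2)), w t) atTop := by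
  refine le_of_forall_lt fun c hc => ?_
  obtain ⟨c', hc1, hc2⟩ := exists_between hc
  refine lt_of_lt_of_le hc1 ?_
  refine le_liminf_of_le (by isBoundedDefault) ?_
  have h0 : ContinuousWithinAt w (Icc 0 1) 0 := hw 0 ⟨le_rfl, zero_le_one⟩
  have h1 : ∀ᶠ t in 𝓝[Icc 0 1] (0 : ℝ), c' < w t := h0.eventually (lt_mem_nhds hc2)
  obtain ⟨ε, hε, hb⟩ := Metric.mem_nhdsWithin_iff.1 h1
  have h2 : ∀ᶠ k : ℕ in atTop, 1 / ((k : ℝ) + 1) < ε :=
    (tendsto_one_div_add_atTop_nhds_zero_nat (𝕜 := ℝ)).eventually (gt_mem_nhds hε)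
  filter_upwards [h2] with k hk
  have hk2 : (0 : ℝ) < (k : ℝ) + 2 := by positivity
  have hk3 : 1 / ((k : ℝ) + 2) ≤ 1 / ((k : ℝ) + 1) := by
    apply one_div_le_one_div_of_le (by positivity); linarith
  have hk4 : 1 / ((k : ℝ) + 2) ≤ 1 := by
    rw [div_le_one hk2]; have : (0 : ℝ) ≤ k := Nat.cast_nonneg k; linarith
  calc c' = ENNReal.ofReal ((k : ℝ) + 2) * (c' * volume (Icc (0 : ℝ) (1 / ((k : ℝ) + 2)))) := by
        rw [Real.volume_Icc, sub_zero, mul_comm c', ← mul_assoc, ← ENNReal.ofReal_mul hk2.le,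
          mul_one_div_cancel hk2.ne', ENNReal.ofReal_one, one_mul]
    _ = ENNReal.ofReal ((k : ℝ) + 2) * ∫⁻ _ in Icc (0 : ℝ) (1 / ((k : ℝ) + 2)), c' := by
        rw [setLIntegral_const]
    _ ≤ _ := by
        refine mul_le_mul_right (setLIntegral_mono' measurableSet_Icc fun t ht => ?_) _
        refine (hb ⟨?_, ht.1, ht.2.trans hk4⟩).le
        rw [mem_ball, Real.dist_eq, sub_zero, abs_of_nonneg ht.1]
        exact lt_of_le_of_lt (ht.2.trans hk3) hk

lemma le_liminf_right {w : ℝ → ℝ≥0∞} (hw : ContinuousOn w (Icc 0 1)) :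
    w 1 ≤ liminf (fun k : ℕ => ENNReal.ofReal ((k : ℝ) + 2) *
      ∫⁻ t in Icc (1 - 1 / ((k : ℝ) + 2)) (1 : ℝ), w t) atTop := by
  have h : ContinuousOn (fun t => w (1 - t)) (Icc 0 1) := by
    refine hw.comp (continuous_const.sub continuous_id).continuousOn fun t ht => ?_
    exact ⟨by linarith [ht.2], by linarith [ht.1]⟩
  have h1 := le_liminf_left h
  simp only [sub_zero] at h1
  refine h1.trans (le_of_eq ?_)
  congr 1
  ext k
  congr 1
  have hmp : MeasurePreserving (fun t : ℝ => 1 - t) volume volume :=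
    Measure.measurePreserving_sub_left volume 1
  have hme : MeasurableEmbedding (fun t : ℝ => 1 - t) :=
    (Homeomorph.subLeft (1 : ℝ)).measurableEmbedding
  have e := hmp.setLIntegral_comp_preimage_emb hme w (Icc (1 - 1 / ((k : ℝ) + 2)) (1 : ℝ))
  rw [← e]
  congr 2
  ext t
  simp only [mem_Icc, mem_preimage]
  constructor
  · rintro ⟨a, b⟩; exact ⟨by linarith, by linarith⟩
  · rintro ⟨a, b⟩; exact ⟨by linarith, by linarith⟩

lemma reflect (w : ℝ → ℝ≥0∞) (a : ℝ) :
    ∫⁻ t in Icc (0 : ℝ) a, w (1 - t) = ∫⁻ t in Icc (1 - a) (1 : ℝ), w t := by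
  have hmp : MeasurePreserving (fun t : ℝ => 1 - t) volume volume :=
    Measure.measurePreserving_sub_left volume 1
  have hme : MeasurableEmbedding (fun t : ℝ => 1 - t) :=
    (Homeomorph.subLeft (1 : ℝ)).measurableEmbedding
  have e := hmp.setLIntegral_comp_preimage_emb hme w (Icc (1 - a) (1 : ℝ))
  rw [← e]
  congr 2
  ext t
  simp only [mem_Icc, mem_preimage]
  constructor
  · rintro ⟨a, b⟩; exact ⟨by linarith, by linarith⟩
  · rintro ⟨a, b⟩; exact ⟨by linarith, by linarith⟩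

/-! ### one pair of points -/

section pair

variable {n : ℕ} {κ : ℝ} {X : Type*} [MetricSpace X] [MeasurableSpace X] [BorelSpace X]
  {μ : Measure X} (C : Rad n κ X μ)

/-- the average of `F` over the beginning of the segment -/
def AL (F : X → ℝ≥0∞) (k : ℕ) (p : X × X) : ℝ≥0∞ :=
  ENNReal.ofReal ((k : ℝ) + 2) * ∫⁻ t in Icc (0 : ℝ) (1 / ((k : ℝ) + 2)), F (C.T p.1 t p.2)

/-- the average of `F` over the end of the segment -/
def AR (F : X → ℝ≥0∞) (k : ℕ) (p : X × X) : ℝ≥0∞ :=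
  ENNReal.ofReal ((k : ℝ) + 2) * ∫⁻ t in Icc (1 - 1 / ((k : ℝ) + 2)) (1 : ℝ), F (C.T p.1 t p.2)

lemma measurable_seg {F : X → ℝ≥0∞} (hF : Measurable F) :
    Measurable (fun r : (X × X) × ℝ => F (C.T r.1.1 r.2 r.1.2)) :=
  hF.comp (C.measT.comp ((measurable_fst.comp measurable_fst).prodMk
    (measurable_snd.prodMk (measurable_snd.comp measurable_fst))))

lemma measurable_AL {F : X → ℝ≥0∞} (hF : Measurable F) (k : ℕ) : Measurable (AL C F k) :=
  (measurable_seg C hF).lintegral_prod_right'.const_mul _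

lemma measurable_AR {F : X → ℝ≥0∞} (hF : Measurable F) (k : ℕ) : Measurable (AR C F k) :=
  (measurable_seg C hF).lintegral_prod_right'.const_mul _

lemma AL_eq_AR {F : X → ℝ≥0∞} {z v : X} (h : (z, v) ∈ C.U) (k : ℕ) :
    AL C F k (z, v) = AR C F k (v, z) := by
  unfold AL AR
  rw [← reflect]
  congr 1
  refine setLIntegral_congr_fun measurableSet_Icc fun t ht => ?_
  have h1 : t ∈ Icc (0 : ℝ) 1 := by
    refine ⟨ht.1, ht.2.trans ?_⟩
    rw [div_le_one (by positivity)]
    have : (0 : ℝ) ≤ k := Nat.cast_nonneg k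
    linarith
  show F (C.T z t v) = F (C.T v (1 - t) z)
  rw [C.T_symm v z (C.symm z v h) t h1]

lemma ae_scale {l : ℝ} (hl : 0 < l) {p : ℝ → Prop}
    (h : ∀ᵐ τ ∂(volume.restrict (Ioo 0 l)), p τ) :
    ∀ᵐ t ∂(volume.restrict (Ioo (0 : ℝ) 1)), p (l * t) := by
  rw [ae_restrict_iff' measurableSet_Ioo] at h ⊢
  have h1 : ∀ᵐ t ∂(volume : Measure ℝ), l * t ∈ Ioo 0 l → p (l * t) := by
    rw [ae_iff] at h ⊢
    have e : {t : ℝ | ¬(l * t ∈ Ioo 0 l → p (l * t))} =
        (fun t => l * t) ⁻¹' {τ | ¬(τ ∈ Ioo 0 l → p τ)} := rfl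
    rw [e, Real.volume_preimage_mul_left hl.ne', h, mul_zero]
  filter_upwards [h1] with t ht h2
  exact ht ⟨by nlinarith [h2.1], by nlinarith [h2.2]⟩

/-- the bound for one pair -/
lemma pair_le {x z v : X} (hU : (z, v) ∈ C.U) (hne : z ≠ v) {ρ Dw gz Λ : ℝ} {H q : X → ℝ}
    (hH : Measurable H) (hH0 : ∀ y, 0 ≤ H y)
    {ks gs nks : ℝ → ℝ} (hΛ : dist z v ≤ Λ)
    (A : AlongD (dist z v) ρ (fun τ => dist x (ray C z v τ) ^ 2 / 2)
        (fun τ => q (ray C z v τ)) ks (fun τ => H (ray C z v τ)) gs nks Dw gz) :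
    ENNReal.ofReal ((dist z v * Dw - dist x z ^ 2 / 2 - dist z v ^ 2 / 2 + dist x v ^ 2 / 2) ^ 2) ≤
      4 * (ENNReal.ofReal ((Λ * ρ) ^ 2) * ENNReal.ofReal (gz ^ 2) +
        ENNReal.ofReal (Λ ^ 4) * (∫⁻ t in Icc (0 : ℝ) 1, ENNReal.ofReal (H (C.T z t v) ^ 2)) +
        liminf (fun k => AL C (fun y => ENNReal.ofReal ((ρ ^ 2 * q y) ^ 2)) k (z, v)) atTop +
        liminf (fun k => AR C (fun y => ENNReal.ofReal ((ρ ^ 2 * q y) ^ 2)) k (z, v)) atTop) := by
  set l := dist z v with hldef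
  have hl : 0 < l := dist_pos.2 hne
  set G : ℝ → ℝ := fun τ => dist x (ray C z v τ) ^ 2 / 2 with hG
  have hr0 : ray C z v 0 = z := by
    unfold ray; rw [zero_div, C.T_zero z v hU]
  have hrl : ray C z v l = v := by
    unfold ray; rw [← hldef, div_self hl.ne', C.T_one z v hU]
  have hrt : ∀ t : ℝ, ray C z v (l * t) = C.T z t v := by
    intro t; unfold ray; rw [← hldef, mul_div_cancel_left₀ t hl.ne']
  have hG0 : G 0 = dist x z ^ 2 / 2 := by show dist x (ray C z v 0) ^ 2 / 2 = _; rw [hr0]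
  have hGl : G l = dist x v ^ 2 / 2 := by show dist x (ray C z v l) ^ 2 / 2 = _; rw [hrl]
  have h1 := pyth_one_sq hl A
  rw [← hG0, ← hGl]
  have e0 : l * Dw - G 0 - l ^ 2 / 2 + G l = l * Dw - G 0 - l ^ 2 / 2 + G l := rfl
  -- continuity of the auxiliary function
  have hGc : ContinuousOn (fun t : ℝ => G (l * t)) (Icc 0 1) := by
    have hTc : ContinuousOn (fun t : ℝ => C.T z t v) (Icc 0 1) := by
      rw [Metric.continuousOn_iff]
      intro t ht ε hε
      refine ⟨ε / l, by positivity, fun s hs hst => ?_⟩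
      rw [C.dist_T z v hU s hs t ht, ← hldef]
      rw [Real.dist_eq] at hst
      calc |s - t| * l < ε / l * l := by gcongr
        _ = ε := by field_simp
    have : (fun t : ℝ => G (l * t)) = fun t => dist x (C.T z t v) ^ 2 / 2 := by
      ext t; show dist x (ray C z v (l * t)) ^ 2 / 2 = _; rw [hrt]
    rw [this]
    exact (((continuous_const.dist continuous_id).comp_continuousOn hTc).pow 2).div_const 2
  have hUc : ContinuousOn (fun t : ℝ => A.U (l * t)) (Icc 0 1) := by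
    refine (U_cont hl A).comp (continuous_const.mul continuous_id).continuousOn fun t ht => ?_
    exact ⟨mul_nonneg hl.le ht.1, by simpa using mul_le_mul_of_nonneg_left ht.2 hl.le⟩
  have hwc : ContinuousOn (fun t : ℝ => ENNReal.ofReal ((G (l * t) - A.U (l * t)) ^ 2)) (Icc 0 1) :=
    ENNReal.continuous_ofReal.comp_continuousOn ((hGc.sub hUc).pow 2)
  have hae : ∀ᵐ t ∂(volume.restrict (Ioo (0 : ℝ) 1)),
      ENNReal.ofReal ((G (l * t) - A.U (l * t)) ^ 2) =
        ENNReal.ofReal ((ρ ^ 2 * q (C.T z t v)) ^ 2) := by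
    filter_upwards [ae_scale hl A.hU] with t ht
    rw [ht, ← hrt t]
    congr 2
    ring
  have hae' : ∀ {a b : ℝ}, 0 ≤ a → b ≤ 1 →
      ∫⁻ t in Icc a b, ENNReal.ofReal ((G (l * t) - A.U (l * t)) ^ 2) =
        ∫⁻ t in Icc a b, ENNReal.ofReal ((ρ ^ 2 * q (C.T z t v)) ^ 2) := by
    intro a b ha hb
    refine lintegral_congr_ae ?_
    refine ae_restrict_of_ae_restrict_of_subset (Icc_subset_Icc ha hb) ?_
    rw [← restrict_Ioo_eq_restrict_Icc]
    exact hae
  have hk1 : ∀ k : ℕ, 1 / ((k : ℝ) + 2) ≤ 1 := by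
    intro k
    rw [div_le_one (by positivity)]
    have : (0 : ℝ) ≤ k := Nat.cast_nonneg k
    linarith
  have hL := le_liminf_left hwc
  have hR := le_liminf_right hwc
  simp only [mul_zero, mul_one] at hL hR
  have eL : (fun k : ℕ => ENNReal.ofReal ((k : ℝ) + 2) *
      ∫⁻ t in Icc (0 : ℝ) (1 / ((k : ℝ) + 2)), ENNReal.ofReal ((G (l * t) - A.U (l * t)) ^ 2)) =
      fun k => AL C (fun y => ENNReal.ofReal ((ρ ^ 2 * q y) ^ 2)) k (z, v) := by
    ext k
    unfold AL
    rw [hae' le_rfl (hk1 k)]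
  have eR : (fun k : ℕ => ENNReal.ofReal ((k : ℝ) + 2) *
      ∫⁻ t in Icc (1 - 1 / ((k : ℝ) + 2)) (1 : ℝ),
        ENNReal.ofReal ((G (l * t) - A.U (l * t)) ^ 2)) =
      fun k => AR C (fun y => ENNReal.ofReal ((ρ ^ 2 * q y) ^ 2)) k (z, v) := by
    ext k
    unfold AR
    rw [hae' (by linarith [hk1 k]) le_rfl]
  rw [eL] at hL
  rw [eR] at hR
  -- the term with `H`
  have hHterm : ENNReal.ofReal ((l * ∫ τ in (0 : ℝ)..l, H (ray C z v τ)) ^ 2) ≤
      ENNReal.ofReal (Λ ^ 4) * ∫⁻ t in Icc (0 : ℝ) 1, ENNReal.ofReal (H (C.T z t v) ^ 2) := by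
    have e1 : ∫ τ in (0 : ℝ)..l, H (ray C z v τ) = l * ∫ t in (0 : ℝ)..1, H (C.T z t v) := by
      have := intervalIntegral.integral_comp_div (a := 0) (b := l) (fun t => H (C.T z t v)) hl.ne'
      rw [zero_div, div_self hl.ne', smul_eq_mul] at this
      exact this
    have hI0 : 0 ≤ ∫ t in (0 : ℝ)..1, H (C.T z t v) :=
      intervalIntegral.integral_nonneg zero_le_one fun t _ => hH0 _
    have hm : Measurable fun t : ℝ => H (C.T z t v) :=
      hH.comp (C.measT.comp (measurable_const.prodMk (measurable_id.prodMk measurable_const)))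
    have e2 : ENNReal.ofReal (∫ t in (0 : ℝ)..1, H (C.T z t v)) ≤
        ∫⁻ t in Icc (0 : ℝ) 1, ENNReal.ofReal (H (C.T z t v)) := by
      rw [intervalIntegral.integral_of_le zero_le_one, ← restrict_Ioo_eq_restrict_Ioc,
        restrict_Ioo_eq_restrict_Icc]
      by_cases hi : Integrable (fun t => H (C.T z t v)) (volume.restrict (Icc (0 : ℝ) 1))
      · rw [ofReal_integral_eq_lintegral_ofReal hi (Eventually.of_forall fun t => hH0 _)]
      · rw [integral_undef hi, ENNReal.ofReal_zero]; exact bot_le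
    have e3 := Pyt710.sq_lintegral_le (volume.restrict (Icc (0 : ℝ) 1))
      (f := fun t => ENNReal.ofReal (H (C.T z t v))) hm.ennreal_ofReal.aemeasurable
    rw [Measure.restrict_apply_univ, Real.volume_Icc, sub_zero, ENNReal.ofReal_one, one_mul] at e3
    rw [e1]
    have e4 : (l * (l * ∫ t in (0 : ℝ)..1, H (C.T z t v))) ^ 2 =
        l ^ 4 * (∫ t in (0 : ℝ)..1, H (C.T z t v)) ^ 2 := by ring
    rw [e4, ENNReal.ofReal_mul (by positivity), ENNReal.ofReal_pow hI0]
    refine mul_le_mul' (ENNReal.ofReal_le_ofReal (pow_le_pow_left₀ hl.le hΛ 4)) ?_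
    refine (pow_le_pow_left' e2 2).trans (e3.trans (le_of_eq ?_))
    refine lintegral_congr fun t => ?_
    rw [ENNReal.ofReal_pow (hH0 _)]
  have hgterm : ENNReal.ofReal ((l * (ρ * gz)) ^ 2) ≤
      ENNReal.ofReal ((Λ * ρ) ^ 2) * ENNReal.ofReal (gz ^ 2) := by
    rw [← ENNReal.ofReal_mul (by positivity)]
    apply ENNReal.ofReal_le_ofReal
    have : (l * (ρ * gz)) ^ 2 = l ^ 2 * (ρ ^ 2 * gz ^ 2) := by ring
    rw [this]
    have : (Λ * ρ) ^ 2 * gz ^ 2 = Λ ^ 2 * (ρ ^ 2 * gz ^ 2) := by ring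
    rw [this]
    gcongr
  calc ENNReal.ofReal ((l * Dw - G 0 - l ^ 2 / 2 + G l) ^ 2)
      ≤ ENNReal.ofReal (4 * ((l * (ρ * gz)) ^ 2 + (l * (∫ τ in (0 : ℝ)..l, H (ray C z v τ))) ^ 2 +
          (G 0 - A.U 0) ^ 2 + (G l - A.U l) ^ 2)) := ENNReal.ofReal_le_ofReal h1
    _ = 4 * (ENNReal.ofReal ((l * (ρ * gz)) ^ 2) +
          ENNReal.ofReal ((l * (∫ τ in (0 : ℝ)..l, H (ray C z v τ))) ^ 2) +
          ENNReal.ofReal ((G 0 - A.U 0) ^ 2) + ENNReal.ofReal ((G l - A.U l) ^ 2)) := by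
        rw [ENNReal.ofReal_mul (by norm_num), ENNReal.ofReal_add (by positivity) (by positivity),
          ENNReal.ofReal_add (by positivity) (by positivity),
          ENNReal.ofReal_add (by positivity) (by positivity)]
        norm_num
    _ ≤ _ := by gcongr

/-! ### integration over the pairs -/

lemma lintegral_AR_le [SFinite μ] (hκ : 0 ≤ κ) {B W : Set X} (hB : MeasurableSet B)
    (hW : MeasurableSet W) {R : ℝ} (hD : ∀ z ∈ B, ∀ v ∈ B, dist z v ≤ R)
    (hBW : ∀ z ∈ B, ∀ v ∈ B, (z, v) ∈ C.U → ∀ t ∈ Icc (0 : ℝ) 1, C.T z t v ∈ W)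
    {F : X → ℝ≥0∞} (hF : Measurable F) (k : ℕ) :
    ∫⁻ z in B, ∫⁻ v in B, AR C F k (z, v) ∂μ ∂μ ≤
      Pyt710.segC n κ R * μ B * ∫⁻ y in W, F y ∂μ := by
  have hk0 : (0 : ℝ) ≤ k := Nat.cast_nonneg k
  have hk2 : (0 : ℝ) < (k : ℝ) + 2 := by positivity
  have hk : 1 / ((k : ℝ) + 2) ≤ 1 / 2 := one_div_le_one_div_of_le (by norm_num) (by linarith)
  set a : ℝ := 1 - 1 / ((k : ℝ) + 2) with ha
  have ha2 : 1 / 2 ≤ a := by rw [ha]; linarith
  have ha0 : 0 < a := by linarith
  have key : ∀ z ∈ B, ∫⁻ v in B, AR C F k (z, v) ∂μ ≤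
      Pyt710.segC n κ R * ∫⁻ y in W, F y ∂μ := by
    intro z hz
    unfold AR
    rw [lintegral_const_mul' _ _ ENNReal.ofReal_ne_top]
    have h1 := C.ray_lintegral_le hκ z ha0 le_rfl hB hW (hD z hz)
      (fun v hv hU t ht => hBW z hz v hv hU t ⟨ha0.le.trans ht.1, ht.2⟩) hF
    refine (mul_le_mul_right h1 _).trans ?_
    rw [← mul_assoc, ← ENNReal.ofReal_mul hk2.le]
    refine mul_le_mul_left (ENNReal.ofReal_le_ofReal ?_) _
    have e1 : 1 - a = 1 / ((k : ℝ) + 2) := by rw [ha]; ring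
    rw [e1]
    have e2 : ((k : ℝ) + 2) * (Real.exp (κ * R ^ 2 / 2) * a⁻¹ ^ n * (1 / ((k : ℝ) + 2))) =
        Real.exp (κ * R ^ 2 / 2) * a⁻¹ ^ n := by field_simp
    rw [e2]
    have h3 : a⁻¹ ≤ 2 := by
      rw [inv_le_comm₀ ha0 (by norm_num)]; linarith
    have h4 : 0 ≤ a⁻¹ := by positivity
    gcongr
  calc ∫⁻ z in B, ∫⁻ v in B, AR C F k (z, v) ∂μ ∂μ
      ≤ ∫⁻ _ in B, Pyt710.segC n κ R * ∫⁻ y in W, F y ∂μ ∂μ := setLIntegral_mono' hB key
    _ = _ := by rw [setLIntegral_const]; ring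

lemma ae_U_prod [SFinite μ] : ∀ᵐ p ∂(μ.prod μ), p ∈ C.U :=
  (Measure.ae_prod_mem_iff_ae_ae_mem C.measU).2 (Eventually.of_forall C.ae_U)

lemma lintegral_AL_le [SFinite μ] (hκ : 0 ≤ κ) {B W : Set X} (hB : MeasurableSet B)
    (hW : MeasurableSet W) {R : ℝ} (hD : ∀ z ∈ B, ∀ v ∈ B, dist z v ≤ R)
    (hBW : ∀ z ∈ B, ∀ v ∈ B, (z, v) ∈ C.U → ∀ t ∈ Icc (0 : ℝ) 1, C.T z t v ∈ W)
    {F : X → ℝ≥0∞} (hF : Measurable F) (k : ℕ) :
    ∫⁻ z in B, ∫⁻ v in B, AL C F k (z, v) ∂μ ∂μ ≤
      Pyt710.segC n κ R * μ B * ∫⁻ y in W, F y ∂μ := by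
  have e1 : ∫⁻ z in B, ∫⁻ v in B, AL C F k (z, v) ∂μ ∂μ =
      ∫⁻ z in B, ∫⁻ v in B, AR C F k (v, z) ∂μ ∂μ := by
    refine lintegral_congr fun z => ?_
    refine lintegral_congr_ae ?_
    filter_upwards [ae_restrict_of_ae (C.ae_U z)] with v hv
    exact AL_eq_AR C hv k
  rw [e1, lintegral_lintegral_swap]
  · exact lintegral_AR_le C hκ hB hW hD hBW hF k
  · exact ((measurable_AR C hF k).comp measurable_swap).aemeasurable

lemma lintegral_liminf_pairs [SFinite μ] {B : Set X} {A : ℕ → X × X → ℝ≥0∞}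
    (hA : ∀ k, Measurable (A k)) {K : ℝ≥0∞}
    (h : ∀ k, ∫⁻ z in B, ∫⁻ v in B, A k (z, v) ∂μ ∂μ ≤ K) :
    ∫⁻ z in B, ∫⁻ v in B, liminf (fun k => A k (z, v)) atTop ∂μ ∂μ ≤ K := by
  calc ∫⁻ z in B, ∫⁻ v in B, liminf (fun k => A k (z, v)) atTop ∂μ ∂μ
      ≤ ∫⁻ z in B, liminf (fun k => ∫⁻ v in B, A k (z, v) ∂μ) atTop ∂μ := by
        refine lintegral_mono fun z => ?_
        exact lintegral_liminf_le fun k => (hA k).comp measurable_prodMk_left
    _ ≤ liminf (fun k => ∫⁻ z in B, ∫⁻ v in B, A k (z, v) ∂μ ∂μ) atTop :=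
        lintegral_liminf_le fun k => (hA k).lintegral_prod_right'
    _ ≤ liminf (fun _ : ℕ => K) atTop := liminf_le_liminf (Eventually.of_forall h)
    _ = K := liminf_const K

/-- **(L)**, integrated form, for arbitrary data along almost every minimiser. -/
theorem pyth_int [SFinite μ] (hκ : 0 ≤ κ) {x : X} {R ρ : ℝ} {H g q : X → ℝ}
    (hH : Measurable H) (hg : Measurable g) (hq : Measurable q) (hH0 : ∀ y, 0 ≤ H y)
    {P : X → X → ℝ}
    (hp : ∀ᵐ p ∂(μ.prod μ), dist x p.1 < R → dist x p.2 < R → p.1 ≠ p.2 ∧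
      ∃ (Dw : ℝ) (ks gs nks : ℝ → ℝ),
        P p.1 p.2 = dist p.1 p.2 * Dw - dist x p.1 ^ 2 / 2 - dist p.1 p.2 ^ 2 / 2 +
          dist x p.2 ^ 2 / 2 ∧
        Nonempty (AlongD (dist p.1 p.2) ρ (fun τ => dist x (ray C p.1 p.2 τ) ^ 2 / 2)
          (fun τ => q (ray C p.1 p.2 τ)) ks (fun τ => H (ray C p.1 p.2 τ)) gs nks Dw (g p.1))) :
    ∫⁻ z in ball x R, ∫⁻ v in ball x R, ENNReal.ofReal (P z v ^ 2) ∂μ ∂μ ≤
      4 * (ENNReal.ofReal ((2 * R * ρ) ^ 2) * (μ (ball x R) *
          ∫⁻ z in ball x R, ENNReal.ofReal (g z ^ 2) ∂μ) +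
        ENNReal.ofReal ((2 * R) ^ 4) * (Pyt710.segC n κ (2 * R) * (μ (ball x R) + μ (ball x R)) *
          ∫⁻ y in ball x (2 * R), ENNReal.ofReal (H y ^ 2) ∂μ) +
        Pyt710.segC n κ (2 * R) * μ (ball x R) *
          ∫⁻ y in ball x (2 * R), ENNReal.ofReal ((ρ ^ 2 * q y) ^ 2) ∂μ +
        Pyt710.segC n κ (2 * R) * μ (ball x R) *
          ∫⁻ y in ball x (2 * R), ENNReal.ofReal ((ρ ^ 2 * q y) ^ 2) ∂μ) := by
  set B := ball x R with hBdef
  set W := ball x (2 * R) with hWdef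
  have hB : MeasurableSet B := isOpen_ball.measurableSet
  have hW : MeasurableSet W := isOpen_ball.measurableSet
  have hmem : ∀ {y : X}, y ∈ B ↔ dist x y < R := by
    intro y; rw [hBdef, mem_ball, dist_comm]
  have hD : ∀ z ∈ B, ∀ v ∈ B, dist z v ≤ 2 * R := by
    intro z hz v hv
    rw [hmem] at hz hv
    have := dist_triangle_left z v x
    linarith
  have hBW : ∀ z ∈ B, ∀ v ∈ B, (z, v) ∈ C.U → ∀ t ∈ Icc (0 : ℝ) 1, C.T z t v ∈ W := by
    intro z hz v hv hU t ht
    rw [hmem] at hz hv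
    rw [hWdef, mem_ball, dist_comm]
    have h1 : dist x (C.T z t v) ≤ dist x z + t * dist z v := by
      refine (dist_triangle x z _).trans ?_
      rw [C.dist_left hU ht]
    have h2 : dist x (C.T z t v) ≤ dist x v + (1 - t) * dist z v := by
      refine (dist_triangle x v _).trans ?_
      rw [dist_comm v, C.dist_right hU ht]
    have h3 := dist_triangle_left z v x
    have h4 : 0 ≤ dist z v := dist_nonneg
    nlinarith [ht.1, ht.2]
  set Fq : X → ℝ≥0∞ := fun y => ENNReal.ofReal ((ρ ^ 2 * q y) ^ 2) with hFq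
  have hFqm : Measurable Fq := ((hq.const_mul _).pow_const 2).ennreal_ofReal
  have hHm : Measurable fun y => ENNReal.ofReal (H y ^ 2) := (hH.pow_const 2).ennreal_ofReal
  have hgm : Measurable fun y => ENNReal.ofReal (g y ^ 2) := (hg.pow_const 2).ennreal_ofReal
  set FH : X × X → ℝ≥0∞ := fun p => ∫⁻ t in Icc (0 : ℝ) 1, ENNReal.ofReal (H (C.T p.1 t p.2) ^ 2)
    with hFH
  have hFHm : Measurable FH := (measurable_seg C hHm).lintegral_prod_right'
  have hLm : Measurable fun p : X × X => liminf (fun k => AL C Fq k p) atTop :=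
    Measurable.liminf fun k => measurable_AL C hFqm k
  have hRm : Measurable fun p : X × X => liminf (fun k => AR C Fq k p) atTop :=
    Measurable.liminf fun k => measurable_AR C hFqm k
  -- pointwise bound
  have hpt : ∀ᵐ z ∂μ, ∀ᵐ v ∂μ, z ∈ B → v ∈ B → ENNReal.ofReal (P z v ^ 2) ≤
      4 * (ENNReal.ofReal ((2 * R * ρ) ^ 2) * ENNReal.ofReal (g z ^ 2) +
        ENNReal.ofReal ((2 * R) ^ 4) * FH (z, v) +
        liminf (fun k => AL C Fq k (z, v)) atTop + liminf (fun k => AR C Fq k (z, v)) atTop) := by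
    refine Measure.ae_ae_of_ae_prod (p := fun r : X × X => r.1 ∈ B → r.2 ∈ B →
      ENNReal.ofReal (P r.1 r.2 ^ 2) ≤
      4 * (ENNReal.ofReal ((2 * R * ρ) ^ 2) * ENNReal.ofReal (g r.1 ^ 2) +
        ENNReal.ofReal ((2 * R) ^ 4) * FH (r.1, r.2) +
        liminf (fun k => AL C Fq k (r.1, r.2)) atTop +
        liminf (fun k => AR C Fq k (r.1, r.2)) atTop)) ?_
    filter_upwards [hp, ae_U_prod C] with r h1 h2 h3 h4
    obtain ⟨hne, Dw, ks, gs, nks, hP, ⟨A⟩⟩ := h1 (hmem.1 h3) (hmem.1 h4)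
    rw [hP]
    exact pair_le C h2 hne hH hH0 (hD _ h3 _ h4) A
  have hint : ∫⁻ z in B, ∫⁻ v in B, ENNReal.ofReal (P z v ^ 2) ∂μ ∂μ ≤
      ∫⁻ z in B, ∫⁻ v in B, 4 * (ENNReal.ofReal ((2 * R * ρ) ^ 2) * ENNReal.ofReal (g z ^ 2) +
        ENNReal.ofReal ((2 * R) ^ 4) * FH (z, v) +
        liminf (fun k => AL C Fq k (z, v)) atTop +
        liminf (fun k => AR C Fq k (z, v)) atTop) ∂μ ∂μ := by
    refine lintegral_mono_ae ?_
    rw [ae_restrict_iff' hB]
    filter_upwards [hpt] with z hz hzB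
    refine lintegral_mono_ae ?_
    rw [ae_restrict_iff' hB]
    filter_upwards [hz] with v hv hvB
    exact hv hzB hvB
  refine hint.trans ?_
  have m1 : ∀ z, Measurable fun v => FH (z, v) := fun z => hFHm.comp measurable_prodMk_left
  have m2 : ∀ z, Measurable fun v => liminf (fun k => AL C Fq k (z, v)) atTop := fun z =>
    hLm.comp measurable_prodMk_left
  have m3 : ∀ z, Measurable fun v => liminf (fun k => AR C Fq k (z, v)) atTop := fun z =>
    hRm.comp measurable_prodMk_left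
  have n1 : Measurable fun z => ∫⁻ v in B, FH (z, v) ∂μ := hFHm.lintegral_prod_right'
  have n2 : Measurable fun z => ∫⁻ v in B, liminf (fun k => AL C Fq k (z, v)) atTop ∂μ :=
    hLm.lintegral_prod_right'
  have n3 : Measurable fun z => ∫⁻ v in B, liminf (fun k => AR C Fq k (z, v)) atTop ∂μ :=
    hRm.lintegral_prod_right'
  have e1 : ∀ z, ∫⁻ v in B, 4 * (ENNReal.ofReal ((2 * R * ρ) ^ 2) * ENNReal.ofReal (g z ^ 2) +
        ENNReal.ofReal ((2 * R) ^ 4) * FH (z, v) +
        liminf (fun k => AL C Fq k (z, v)) atTop +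
        liminf (fun k => AR C Fq k (z, v)) atTop) ∂μ =
      4 * (ENNReal.ofReal ((2 * R * ρ) ^ 2) * ENNReal.ofReal (g z ^ 2) * μ B +
        ENNReal.ofReal ((2 * R) ^ 4) * ∫⁻ v in B, FH (z, v) ∂μ +
        ∫⁻ v in B, liminf (fun k => AL C Fq k (z, v)) atTop ∂μ +
        ∫⁻ v in B, liminf (fun k => AR C Fq k (z, v)) atTop ∂μ) := by
    intro z
    rw [lintegral_const_mul' _ _ (by norm_num), lintegral_add_right _ (m3 z),
      lintegral_add_right _ (m2 z), lintegral_add_right _ ((m1 z).const_mul _),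
      setLIntegral_const, lintegral_const_mul _ (m1 z)]
  simp only [e1]
  rw [lintegral_const_mul' _ _ (by norm_num), lintegral_add_right _ n3,
      lintegral_add_right _ n2, lintegral_add_right _ (n1.const_mul _),
      lintegral_mul_const _ (hgm.const_mul _), lintegral_const_mul _ hgm,
      lintegral_const_mul _ n1]
  have k1 : ∫⁻ z in B, ∫⁻ v in B, FH (z, v) ∂μ ∂μ ≤
      Pyt710.segC n κ (2 * R) * (μ B + μ B) * ∫⁻ y in W, ENNReal.ofReal (H y ^ 2) ∂μ :=
    C.segment_le hκ hB hB hW hD hBW hHm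
  have k2 : ∫⁻ z in B, ∫⁻ v in B, liminf (fun k => AL C Fq k (z, v)) atTop ∂μ ∂μ ≤
      Pyt710.segC n κ (2 * R) * μ B * ∫⁻ y in W, Fq y ∂μ :=
    lintegral_liminf_pairs (fun k => measurable_AL C hFqm k)
      (fun k => lintegral_AL_le C hκ hB hW hD hBW hFqm k)
  have k3 : ∫⁻ z in B, ∫⁻ v in B, liminf (fun k => AR C Fq k (z, v)) atTop ∂μ ∂μ ≤
      Pyt710.segC n κ (2 * R) * μ B * ∫⁻ y in W, Fq y ∂μ :=
    lintegral_liminf_pairs (fun k => measurable_AR C hFqm k)
      (fun k => lintegral_AR_le C hκ hB hW hD hBW hFqm k)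
  have e2 : ENNReal.ofReal ((2 * R * ρ) ^ 2) * (∫⁻ z in B, ENNReal.ofReal (g z ^ 2) ∂μ) * μ B =
      ENNReal.ofReal ((2 * R * ρ) ^ 2) * (μ B * ∫⁻ z in B, ENNReal.ofReal (g z ^ 2) ∂μ) := by
    ring
  rw [e2]
  gcongr

end pair

/-! ### the theorem over `FarD` -/

section far

variable {n : ℕ} {κ : ℝ} {X : Type*} [MetricSpace X] [MeasurableSpace X] [BorelSpace X]
  {μ : Measure X} {C : Rad n κ X μ}

lemma tendsto_quot {f : ℝ → ℝ} {d : ℝ} (h : HasDerivWithinAt f d (Iio 1) 1) :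
    Tendsto (fun k : ℕ => (f (1 - 1 / ((k : ℝ) + 2)) - f 1) / ((1 - 1 / ((k : ℝ) + 2)) - 1))
      atTop (𝓝 d) := by
  have h1 := hasDerivWithinAt_iff_tendsto_slope.1 h
  have h2 : (Iio (1 : ℝ)) \ {1} = Iio 1 := by
    ext t; simp only [Set.mem_sdiff, mem_Iio, mem_singleton_iff]
    exact ⟨fun h => h.1, fun h => ⟨h, h.ne⟩⟩
  rw [h2] at h1
  have h3 : Tendsto (fun k : ℕ => (1 : ℝ) - 1 / ((k : ℝ) + 2)) atTop (𝓝[<] 1) := by
    apply tendsto_nhdsWithin_iff.2
    constructor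
    · have h4 : Tendsto (fun k : ℕ => (1 : ℝ) / ((k : ℝ) + 2)) atTop (𝓝 0) := by
        have := tendsto_one_div_add_atTop_nhds_zero_nat (𝕜 := ℝ)
        have h5 := this.comp (tendsto_add_atTop_nat 1)
        refine h5.congr fun k => ?_
        simp only [Function.comp]
        push_cast
        ring
      simpa using h4.const_sub 1
    · refine Eventually.of_forall fun k => ?_
      simp only [mem_Iio]
      have : (0 : ℝ) < 1 / ((k : ℝ) + 2) := by positivity
      linarith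
  refine (h1.comp h3).congr fun k => ?_
  simp only [Function.comp, slope_def_field]

variable [SecondCountableTopology X] [SFinite μ] {G : X → X → X → ℝ}

/-- for almost every pair `(z,v)` the representative `G x v z` is the derivative of the half
squared distance to `v` along the `x`-ray through `z` -/
lemma ae_pair_G (hG : GRep C G) (x : X) : ∀ᵐ p ∂(μ.prod μ),
    Tendsto (fun k : ℕ => (dist p.2 (C.T x (1 - 1 / ((k : ℝ) + 2)) p.1) ^ 2 / 2 -
      dist p.2 (C.T x 1 p.1) ^ 2 / 2) / ((1 - 1 / ((k : ℝ) + 2)) - 1)) atTop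
      (𝓝 (G x p.2 p.1)) := by
  set S : Set (X × X) := {p | Tendsto (fun k : ℕ =>
      (dist p.1 (C.T x (1 - 1 / ((k : ℝ) + 2)) p.2) ^ 2 / 2 -
      dist p.1 (C.T x 1 p.2) ^ 2 / 2) / ((1 - 1 / ((k : ℝ) + 2)) - 1)) atTop
      (𝓝 (G x p.1 p.2))} with hS
  have hd : ∀ t : ℝ, Measurable fun p : X × X => dist p.1 (C.T x t p.2) := fun t =>
    measurable_fst.dist ((C.measT_xt x t).comp measurable_snd)
  have hmG : Measurable fun p : X × X => G x p.1 p.2 :=
    hG.meas.comp (measurable_const.prodMk (measurable_fst.prodMk measurable_snd))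
  have hSm : MeasurableSet S := by
    refine measurableSet_tendsto_fun (fun k => ?_) hmG
    exact ((((hd _).pow_const 2).div_const 2).sub (((hd _).pow_const 2).div_const 2)).div_const _
  have h1 : ∀ᵐ p ∂(μ.prod μ), p ∈ S := by
    refine (Measure.ae_prod_mem_iff_ae_ae_mem hSm).2 (Eventually.of_forall fun v => ?_)
    filter_upwards [hG.rd x v] with z hz
    exact tendsto_quot hz
  exact (Measure.measurePreserving_swap (μ := μ) (ν := μ)).quasiMeasurePreserving.ae h1

lemma G_eq {x z v : X} {Dw g : ℝ} (hU : (x, z) ∈ C.U)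
    (h : HasDerivWithinAt (fun t : ℝ => dist (C.T x t z) v) Dw (Iio 1) 1)
    (hg : Tendsto (fun k : ℕ => (dist v (C.T x (1 - 1 / ((k : ℝ) + 2)) z) ^ 2 / 2 -
      dist v (C.T x 1 z) ^ 2 / 2) / ((1 - 1 / ((k : ℝ) + 2)) - 1)) atTop (𝓝 g)) :
    g = dist z v * Dw := by
  have h1 := (h.pow 2).div_const 2
  have h2 := tendsto_quot h1
  refine tendsto_nhds_unique hg ?_
  have e : dist z v * Dw = (↑(2 : ℕ) * dist (C.T x 1 z) v ^ (2 - 1) * Dw) / 2 := by
    rw [C.T_one x z hU]; push_cast; ring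
  rw [e]
  refine h2.congr fun k => ?_
  simp only [Pi.pow_apply, dist_comm v]


/-- the constant of (L) -/
def AL0 (n : ℕ) (c : FarK) : ℝ :=
  4 * (2 * c.ω * 8 ^ n) * c.B3 1 1 *
    (256 + 131072 * (Real.exp 1 * 2 ^ n) + 2 * (Real.exp 1 * 2 ^ n) * (257 * c.B1 1))


/-- **(L) from the far data** (no atoms as a hypothesis). -/
theorem L_of_far' {c : FarK} {x : X} {δ : ℝ} {ph : ℕ → ℝ} (D : FarD c C x δ ph)
    (hG : GRep C G) (hat : ∀ z : X, dist x z < 20 → μ {z} = 0)
    (hκ : 0 ≤ κ) (hκ1 : κ ≤ 1) (hδ : δ ≤ 1) {j : ℕ} (hj : 4 ≤ j) :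
    ∫⁻ u in ball x (8 * dy j), ∫⁻ v in ball x (8 * dy j), ENNReal.ofReal (PP G x v u ^ 2) ∂μ ∂μ ≤
      ENNReal.ofReal (AL0 n c * ph j * dy j ^ (2 * n + 4)) := by
  have hs := dy_pos j
  have hs1 : dy j ≤ 1 / 16 := by
    have := dy_anti hj
    refine this.trans (le_of_eq ?_)
    unfold dy; norm_num
  set s := dy j with hsdef
  have hω := c.ω_pos
  have hB3 := c.B3_pos 1 1
  have hB1 := c.B1_pos 1
  have hph := D.ph_nonneg j
  -- almost every pair
  have hne : ∀ᵐ p ∂(μ.prod μ), dist x p.1 < 8 * s → p.1 ≠ p.2 := by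
    have hm : MeasurableSet {p : X × X | dist x p.1 < 8 * s → p.1 ≠ p.2} := by
      have h1 : MeasurableSet {p : X × X | dist x p.1 < 8 * s} :=
        measurableSet_lt (measurable_const.dist measurable_fst) measurable_const
      have h2 : MeasurableSet {p : X × X | p.1 = p.2} :=
        (isClosed_eq continuous_fst continuous_snd).measurableSet
      have : {p : X × X | dist x p.1 < 8 * s → p.1 ≠ p.2} =
          {p : X × X | dist x p.1 < 8 * s}ᶜ ∪ {p : X × X | p.1 = p.2}ᶜ := by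
        ext p
        simp only [mem_ofPred_eq, mem_union, mem_compl_iff]
        tauto
      rw [this]
      exact h1.compl.union h2.compl
    refine (Measure.ae_prod_iff_ae_ae hm).2 (Eventually.of_forall fun z => ?_)
    by_cases hz : dist x z < 8 * s
    · have h1 : μ {z} = 0 := hat z (by linarith)
      have h2 : ∀ᵐ v ∂μ, v ≠ z := by
        rw [ae_iff]; simpa using h1
      filter_upwards [h2] with v hv _ h3
      exact hv h3.symm
    · exact Eventually.of_forall fun v h => absurd h hz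
  have hp : ∀ᵐ p ∂(μ.prod μ), dist x p.1 < 8 * s → dist x p.2 < 8 * s → p.1 ≠ p.2 ∧
      ∃ (Dw : ℝ) (ks gs nks : ℝ → ℝ),
        PP G x p.2 p.1 = dist p.1 p.2 * Dw - dist x p.1 ^ 2 / 2 - dist p.1 p.2 ^ 2 / 2 +
          dist x p.2 ^ 2 / 2 ∧
        Nonempty (AlongD (dist p.1 p.2) s (fun τ => dist x (ray C p.1 p.2 τ) ^ 2 / 2)
          (fun τ => D.q j (ray C p.1 p.2 τ)) ks (fun τ => D.H j (ray C p.1 p.2 τ)) gs nks Dw
          (D.g j p.1)) := by
    have hUx : ∀ᵐ p ∂(μ.prod μ), (x, p.1) ∈ C.U :=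
      Measure.quasiMeasurePreserving_fst.ae (C.ae_U x)
    filter_upwards [D.d3 j, ae_pair_G hG x, hne, hUx] with p h1 h2 h3 h4 h5 h6
    obtain ⟨Dw, hD1, -, ⟨A⟩⟩ := h1 (by linarith) (by linarith) (h3 h5)
    refine ⟨h3 h5, Dw, _, _, _, ?_, ⟨A⟩⟩
    have e := G_eq h4 hD1 h2
    unfold PP ff
    rw [e, dist_comm p.2 p.1]
  have key := pyth_int C hκ (x := x) (R := 8 * s) (ρ := s) (P := fun u v => PP G x v u)
    (D.H_meas j) (D.g_meas j) (D.q_meas j) (D.H_nonneg j) hp
  have e16 : 2 * (8 * s) = 16 * s := by ring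
  rw [e16] at key
  refine key.trans ?_
  -- the three constants
  have hV : μ (ball x (8 * s)) ≤ ENNReal.ofReal (2 * c.ω * 8 ^ n * s ^ n) := by
    refine (D.vol_le x (8 * s) (by rw [dist_self]; norm_num) (by positivity) (by linarith)).trans ?_
    apply ENNReal.ofReal_le_ofReal
    rw [mul_pow]
    have : (1 + δ) * c.ω * (8 ^ n * s ^ n) = (1 + δ) * (c.ω * 8 ^ n * s ^ n) := by ring
    rw [this]
    have h2 : 2 * c.ω * 8 ^ n * s ^ n = 2 * (c.ω * 8 ^ n * s ^ n) := by ring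
    rw [h2]
    apply mul_le_mul_of_nonneg_right (by linarith) (by positivity)
  have hK : Pyt710.segC n κ (16 * s) ≤ ENNReal.ofReal (Real.exp 1 * 2 ^ n) := by
    unfold Pyt710.segC
    apply ENNReal.ofReal_le_ofReal
    have : κ * (16 * s) ^ 2 / 2 ≤ 1 := by
      have h1 : (16 * s) ^ 2 ≤ 1 := by nlinarith
      nlinarith [sq_nonneg (16 * s)]
    have := Real.exp_le_exp.2 this
    gcongr
  have hE := D.d2_ball j hj
  rw [← hsdef] at hE
  set E : ℝ≥0∞ := ENNReal.ofReal (c.B3 1 1 * ph j * s ^ n) with hEdef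
  have hq0 := D.q_nonneg j
  have hEH : ∫⁻ z in ball x (16 * s), ENNReal.ofReal (D.H j z ^ 2) ∂μ ≤ E := by
    refine le_trans (lintegral_mono fun z => ENNReal.ofReal_le_ofReal ?_) hE
    have := hq0 z
    show D.H j z ^ 2 ≤ D.H j z ^ 2 + D.g j z ^ 2 + D.q j z
    nlinarith [sq_nonneg (D.g j z)]
  have hEg : ∫⁻ z in ball x (8 * s), ENNReal.ofReal (D.g j z ^ 2) ∂μ ≤ E := by
    refine le_trans (lintegral_mono' (Measure.restrict_mono (ball_subset_ball (by linarith))
      le_rfl) fun z => ENNReal.ofReal_le_ofReal ?_) hE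
    have := hq0 z
    show D.g j z ^ 2 ≤ D.H j z ^ 2 + D.g j z ^ 2 + D.q j z
    nlinarith [sq_nonneg (D.H j z)]
  have hEq : ∫⁻ z in ball x (16 * s), ENNReal.ofReal ((s ^ 2 * D.q j z) ^ 2) ∂μ ≤
      ENNReal.ofReal (s ^ 4 * (257 * c.B1 1)) * E := by
    calc ∫⁻ z in ball x (16 * s), ENNReal.ofReal ((s ^ 2 * D.q j z) ^ 2) ∂μ
        ≤ ∫⁻ z in ball x (16 * s), ENNReal.ofReal (s ^ 4 * (257 * c.B1 1)) *
            ENNReal.ofReal (D.H j z ^ 2 + D.g j z ^ 2 + D.q j z) ∂μ := by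
          refine lintegral_mono_ae ?_
          rw [ae_restrict_iff' isOpen_ball.measurableSet]
          filter_upwards [D.q_le j] with z hz hzb
          rw [mem_ball, dist_comm] at hzb
          have h1 := hz (by linarith)
          have h2 := hq0 z
          rw [← ENNReal.ofReal_mul (by positivity)]
          apply ENNReal.ofReal_le_ofReal
          have h3 : dist x z ^ 2 ≤ (16 * s) ^ 2 := pow_le_pow_left₀ dist_nonneg hzb.le 2
          have h4 : s ^ 2 * D.q j z ≤ s ^ 2 * (257 * c.B1 1) := by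
            rw [← hsdef] at h1
            calc s ^ 2 * D.q j z ≤ c.B1 1 * (dist x z ^ 2 + s ^ 2) := h1
              _ ≤ c.B1 1 * ((16 * s) ^ 2 + s ^ 2) := by gcongr
              _ = _ := by ring
          have h5 : (s ^ 2 * D.q j z) ^ 2 ≤ s ^ 4 * (257 * c.B1 1) * D.q j z := by
            calc (s ^ 2 * D.q j z) ^ 2 = (s ^ 2 * D.q j z) * (s ^ 2 * D.q j z) := by ring
              _ ≤ (s ^ 2 * (257 * c.B1 1)) * (s ^ 2 * D.q j z) := by gcongr
              _ = _ := by ring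
          refine h5.trans ?_
          have h6 : (0 : ℝ) ≤ s ^ 4 * (257 * c.B1 1) := by positivity
          nlinarith [mul_nonneg h6 (sq_nonneg (D.H j z)), mul_nonneg h6 (sq_nonneg (D.g j z))]
      _ = ENNReal.ofReal (s ^ 4 * (257 * c.B1 1)) *
            ∫⁻ z in ball x (16 * s), ENNReal.ofReal (D.H j z ^ 2 + D.g j z ^ 2 + D.q j z) ∂μ :=
          lintegral_const_mul' _ _ ENNReal.ofReal_ne_top
      _ ≤ _ := by gcongr
  set V : ℝ≥0∞ := ENNReal.ofReal (2 * c.ω * 8 ^ n * s ^ n) with hVdef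
  set K : ℝ≥0∞ := ENNReal.ofReal (Real.exp 1 * 2 ^ n) with hKdef
  calc 4 * (ENNReal.ofReal ((16 * s * s) ^ 2) * (μ (ball x (8 * s)) *
          ∫⁻ z in ball x (8 * s), ENNReal.ofReal (D.g j z ^ 2) ∂μ) +
        ENNReal.ofReal ((16 * s) ^ 4) * (Pyt710.segC n κ (16 * s) *
          (μ (ball x (8 * s)) + μ (ball x (8 * s))) *
          ∫⁻ y in ball x (16 * s), ENNReal.ofReal (D.H j y ^ 2) ∂μ) +
        Pyt710.segC n κ (16 * s) * μ (ball x (8 * s)) *
          ∫⁻ y in ball x (16 * s), ENNReal.ofReal ((s ^ 2 * D.q j y) ^ 2) ∂μ +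
        Pyt710.segC n κ (16 * s) * μ (ball x (8 * s)) *
          ∫⁻ y in ball x (16 * s), ENNReal.ofReal ((s ^ 2 * D.q j y) ^ 2) ∂μ)
      ≤ 4 * (ENNReal.ofReal ((16 * s * s) ^ 2) * (V * E) +
        ENNReal.ofReal ((16 * s) ^ 4) * (K * (V + V) * E) +
        K * V * (ENNReal.ofReal (s ^ 4 * (257 * c.B1 1)) * E) +
        K * V * (ENNReal.ofReal (s ^ 4 * (257 * c.B1 1)) * E)) := by gcongr
    _ = ENNReal.ofReal (AL0 n c * ph j * s ^ (2 * n + 4)) := by
      have e4 : (4 : ℝ≥0∞) = ENNReal.ofReal 4 := by norm_num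
      rw [hVdef, hKdef, hEdef, e4]
      rw [← ENNReal.ofReal_mul (by positivity), ← ENNReal.ofReal_mul (by positivity),
        ← ENNReal.ofReal_add (by positivity) (by positivity), ← ENNReal.ofReal_mul (by positivity),
        ← ENNReal.ofReal_mul (by positivity), ← ENNReal.ofReal_mul (by positivity),
        ← ENNReal.ofReal_mul (by positivity), ← ENNReal.ofReal_mul (by positivity),
        ← ENNReal.ofReal_mul (by positivity), ← ENNReal.ofReal_add (by positivity) (by positivity),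
        ← ENNReal.ofReal_add (by positivity) (by positivity),
        ← ENNReal.ofReal_add (by positivity) (by positivity), ← ENNReal.ofReal_mul (by positivity)]
      congr 1
      unfold AL0
      ring


end far

end Crest.Agent.R247.Loc596
end
end

-- ▼ part R247/Loc2_596

/-!
# `LocP` : (m) and (L) at small scales (helper596)
-/

set_option autoImplicit false
set_option linter.unusedSectionVars false
open MeasureTheory Set Filter Topology Metric
open scoped ENNReal NNReal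

noncomputable section
namespace Crest.Agent.R247.Loc596

universe u

open Crest.Agent.R247.Mcp688 Crest.Agent.R247.Far553 Crest.Agent.R247.Cal550
  Crest.Agent.R247.Q9550

section m

variable {n : ℕ} {κ : ℝ} {X : Type*} [MetricSpace X] [MeasurableSpace X] [BorelSpace X]
  {μ : Measure X} (C : Rad n κ X μ)

include C in
/-- the volume drop dominates the curvature error -/
lemma two_mul_le_drop (hκ : 0 ≤ κ) (x : X) {r : ℝ} (hr : 0 < r)
    (hfin : μ (closedBall x r) ≠ ∞) : 2 * (κ * r ^ 2) * Vc μ x r ≤ Rad.drop n κ μ x r := by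
  have hV2 := C.Vc_le hκ x hr (R := 2 * r) (by linarith) hfin
  have e0 : Real.exp (κ * (2 * r) ^ 2 / 2) * (2 * r / r) ^ n =
      Real.exp (2 * κ * r ^ 2) * 2 ^ n := by
    congr 2
    · ring
    · field_simp
  rw [e0] at hV2
  have hV : 0 ≤ Vc μ x r := ENNReal.toReal_nonneg
  unfold Rad.drop
  set V := Vc μ x r with hVd
  set y := κ * r ^ 2 with hy
  have hy0 : 0 ≤ y := by positivity
  have e1 : 2 * κ * r ^ 2 = 2 * y := by rw [hy]; ring
  have e2 : 4 * κ * r ^ 2 = 4 * y := by rw [hy]; ring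
  rw [e1, e2]
  rw [e1] at hV2
  set e := Real.exp (2 * y) with he
  have he1 : 1 ≤ e := Real.one_le_exp (by linarith)
  -- `e - 1 ≤ 2 y e`
  have he2 : e - 1 ≤ 2 * y * e := by
    have h1 := Real.add_one_le_exp (-(2 * y))
    have h2 : Real.exp (-(2 * y)) * e = 1 := by rw [he, ← Real.exp_add]; simp
    have h3 : (1 - 2 * y) * e ≤ 1 := by
      calc (1 - 2 * y) * e ≤ Real.exp (-(2 * y)) * e := by
            apply mul_le_mul_of_nonneg_right (by linarith) (by linarith)
        _ = 1 := h2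
    linarith
  have hp : (1 : ℝ) ≤ 2 ^ n := one_le_pow₀ (by norm_num)
  have h5 : 2 * y * V ≤ (-(e - 1) + 4 * y * (e * 2 ^ n)) * V := by
    apply mul_le_mul_of_nonneg_right _ hV
    have h6 : 4 * y * e ≤ 4 * y * (e * 2 ^ n) := by
      have : e ≤ e * 2 ^ n := by nlinarith
      have h7 : 0 ≤ 4 * y := by linarith
      nlinarith
    have h8 : 2 * y ≤ 2 * y * e := by nlinarith
    linarith
  have h9 : 2 ^ (n + 1) * V - 2 * Vc μ x (2 * r) ≥ 2 ^ (n + 1) * V - 2 * (e * 2 ^ n * V) := by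
    linarith
  have h10 : (2 : ℝ) ^ (n + 1) = 2 * 2 ^ n := by rw [pow_succ]; ring
  rw [h10] at h9 ⊢
  nlinarith

include C in
/-- **(m)** in terms of the volume drop at a larger radius -/
lemma MM_of_drop [SFinite μ] (hκ : 0 ≤ κ) (x : X) {r R : ℝ} (hr : 0 < r) (hrR : r ≤ R)
    (hfin : μ (closedBall x R) ≠ ∞) : MM C x r (2 * Rad.drop n κ μ x R) := by
  intro ζ Dζ S hL hS h0 hD
  obtain ⟨L, hL⟩ := hL
  have hR : 0 < R := hr.trans_le hrR
  have hS0 : 0 ≤ S := (abs_nonneg _).trans (hS x)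
  have hc : Continuous ζ := by
    have : LipschitzWith (Real.toNNReal (max L 0)) ζ := by
      refine LipschitzWith.of_dist_le_mul fun y z => ?_
      rw [Real.dist_eq, Real.coe_toNNReal _ (le_max_right _ _)]
      exact (hL y z).trans (mul_le_mul_of_nonneg_right (le_max_left _ _) dist_nonneg)
    exact this.continuous
  have hm : Measurable ζ := hc.measurable
  have hs : ∀ z, R < dist x z → ζ z = 0 := fun z hz => h0 z (hrR.trans hz.le)
  have h1 := C.nu_bound hκ x hR hfin hm hL hs hS hD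
  have hDint : Integrable Dζ μ := hD.integrable hm hL hs hfin
  have hmb : MeasurableSet (closedBall x R) := isClosed_closedBall.measurableSet
  have hζint : Integrable ζ μ := by
    have hb : Integrable ((closedBall x R).indicator fun _ => S) μ :=
      (integrable_indicator_iff hmb).2 (integrableOn_const hfin)
    refine hb.mono' hm.aestronglyMeasurable (Eventually.of_forall fun z => ?_)
    by_cases hz : z ∈ closedBall x R
    · rw [indicator_of_mem hz, Real.norm_eq_abs]; exact hS z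
    · rw [indicator_of_notMem hz, Real.norm_eq_abs]
      rw [mem_closedBall, dist_comm, not_le] at hz
      rw [hs z hz, abs_zero]
  have hk : ∀ z, |κ * dist x z ^ 2 * ζ z| ≤ (closedBall x R).indicator
      (fun _ => κ * R ^ 2 * S) z := by
    intro z
    by_cases hz : z ∈ closedBall x R
    · rw [indicator_of_mem hz, abs_mul, abs_of_nonneg (by positivity)]
      rw [mem_closedBall, dist_comm] at hz
      have := hS z
      gcongr
    · rw [indicator_of_notMem hz]
      rw [mem_closedBall, dist_comm, not_le] at hz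
      rw [hs z hz, mul_zero, abs_zero]
  have hdm : Measurable fun z : X => dist x z := (continuous_const.dist continuous_id).measurable
  have hbI : Integrable ((closedBall x R).indicator fun _ => κ * R ^ 2 * S) μ :=
    (integrable_indicator_iff hmb).2 (integrableOn_const hfin)
  have hkint : Integrable (fun z => κ * dist x z ^ 2 * ζ z) μ :=
    hbI.mono' ((((hdm.pow_const 2).const_mul κ).mul hm).aestronglyMeasurable)
      (Eventually.of_forall fun z => by rw [Real.norm_eq_abs]; exact hk z)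
  have h2 : |∫ z, κ * dist x z ^ 2 * ζ z ∂μ| ≤ κ * R ^ 2 * S * Vc μ x R := by
    calc |∫ z, κ * dist x z ^ 2 * ζ z ∂μ| ≤ ∫ z, |κ * dist x z ^ 2 * ζ z| ∂μ :=
          abs_integral_le_integral_abs
      _ ≤ ∫ z, (closedBall x R).indicator (fun _ => κ * R ^ 2 * S) z ∂μ :=
          integral_mono hkint.abs hbI hk
      _ = κ * R ^ 2 * S * Vc μ x R := by
          rw [integral_indicator hmb, setIntegral_const, smul_eq_mul, mul_comm]
          rfl
  have e : ∫ z, ((n + κ * dist x z ^ 2) * ζ z + Dζ z) ∂μ =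
      (∫ z, Dζ z ∂μ + n * ∫ z, ζ z ∂μ) + ∫ z, κ * dist x z ^ 2 * ζ z ∂μ := by
    have hI1 : Integrable (fun z => Dζ z + n * ζ z) μ := hDint.add (hζint.const_mul _)
    rw [← integral_const_mul, ← integral_add hDint (hζint.const_mul _),
      ← integral_add hI1 hkint]
    congr 1
    ext z
    ring
  rw [e] at h1
  have h3 := two_mul_le_drop C hκ x hR hfin
  have h4 : κ * R ^ 2 * S * Vc μ x R ≤ S * Rad.drop n κ μ x R := by
    have hV : 0 ≤ Vc μ x R := ENNReal.toReal_nonneg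
    have h5 : κ * R ^ 2 * Vc μ x R ≤ Rad.drop n κ μ x R := by
      have : 0 ≤ κ * R ^ 2 * Vc μ x R := by positivity
      linarith
    calc κ * R ^ 2 * S * Vc μ x R = S * (κ * R ^ 2 * Vc μ x R) := by ring
      _ ≤ _ := mul_le_mul_of_nonneg_left h5 hS0
  have h6 := abs_sub_abs_le_abs_sub (∫ z, Dζ z ∂μ + n * ∫ z, ζ z ∂μ)
    (-(∫ z, κ * dist x z ^ 2 * ζ z ∂μ))
  rw [abs_neg, sub_neg_eq_add] at h6
  linarith

end m

/-- **(m) and (L)** : the literal leaf of `Q9_550`. -/
theorem locP (n : ℕ) (c : FarK) : LocP.{u} n c := by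
  intro A hA
  refine ⟨max (2 * A) (AL0 n c), le_max_of_le_left (by linarith), 4, le_rfl, ?_⟩
  intro κ δ hκ hκ1 hδ X _ _ _ _ μ _ C G x ph hG hat D hdrop k hk
  have hs := dy_pos k
  have hph := D.ph_nonneg k
  have hfin : ∀ r, μ (closedBall x r) ≠ ∞ := fun r => (isCompact_closedBall x r).measure_ne_top
  constructor
  · refine (MM_of_drop C hκ x hs (R := 16 * dy k) (by linarith) (hfin _)).mono ?_
    have h1 := hdrop k hk
    calc 2 * Rad.drop n κ μ x (16 * dy k) ≤ 2 * (A * ph k * dy k ^ n) := by linarith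
      _ = 2 * A * (ph k * dy k ^ n) := by ring
      _ ≤ max (2 * A) (AL0 n c) * (ph k * dy k ^ n) := by
          apply mul_le_mul_of_nonneg_right (le_max_left _ _) (by positivity)
      _ = _ := by ring
  · have h1 := L_of_far' D hG (fun z _ => hat z) hκ hκ1 (by linarith) hk
    have hm : Measurable fun p : X × X => ENNReal.ofReal (PP G x p.1 p.2 ^ 2) := by
      unfold PP ff
      have h2 : Measurable fun p : X × X => G x p.1 p.2 :=
        hG.meas.comp (measurable_const.prodMk (measurable_fst.prodMk measurable_snd))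
      have h3 : Measurable fun p : X × X => dist x p.2 := measurable_const.dist measurable_snd
      have h4 : Measurable fun p : X × X => dist p.1 p.2 := measurable_fst.dist measurable_snd
      have h5 : Measurable fun p : X × X => dist x p.1 := measurable_const.dist measurable_fst
      exact ((((h2.sub ((h3.pow_const 2).div_const 2)).sub ((h4.pow_const 2).div_const 2)).add
        ((h5.pow_const 2).div_const 2)).pow_const 2).ennreal_ofReal
    have hsub : ball x (dy k) ⊆ ball x (8 * dy k) := ball_subset_ball (by linarith)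
    have h2 : ∫⁻ v in ball x (dy k), ∫⁻ u in ball x (dy k), ENNReal.ofReal (PP G x v u ^ 2) ∂μ ∂μ ≤
        ∫⁻ v in ball x (8 * dy k), ∫⁻ u in ball x (8 * dy k),
          ENNReal.ofReal (PP G x v u ^ 2) ∂μ ∂μ :=
      lintegral_mono' (Measure.restrict_mono hsub le_rfl) fun v =>
        lintegral_mono' (Measure.restrict_mono hsub le_rfl) fun u => le_rfl
    have h3 : ∫⁻ v in ball x (8 * dy k), ∫⁻ u in ball x (8 * dy k),
          ENNReal.ofReal (PP G x v u ^ 2) ∂μ ∂μ =
        ∫⁻ u in ball x (8 * dy k), ∫⁻ v in ball x (8 * dy k),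
          ENNReal.ofReal (PP G x v u ^ 2) ∂μ ∂μ :=
      lintegral_lintegral_swap hm.aemeasurable
    refine h2.trans (h3.le.trans (h1.trans (ENNReal.ofReal_le_ofReal ?_)))
    rw [mul_assoc, mul_assoc]
    apply mul_le_mul_of_nonneg_right (le_max_right _ _) (by positivity)

end Crest.Agent.R247.Loc596
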