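import Crest.Agent.R247.Mcs9_816
import Crest.Agent.R247.Sm5_879
import Crest.Agent.R247.Ms3_322
import Crest.Agent.R247.Mcs6_816

-- ▼ part R247/Mcs10_816
section

/-!
Row 247, block (6c)/(6d) (helper816), file 10: the barrier family `(d(x,z) + d(z,·))²/2` in a chart:
geometric background, jointly `C²`, eikonal equation, Laplacian.
-/

set_option autoImplicit false
set_option maxSynthPendingDepth 3
set_option linter.unusedSectionVars false

open Bundle Set Filter Topology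
open scoped Manifold ContDiff
open Crest.GeometryTopology.CoordMetric Crest.GeometryTopology.ChartCurvature
open Crest.GeometryTopology.PointedLimit
open Crest.GeometryTopology.MTW Crest.Agent.R244 Crest.Agent.R226
open Crest.Agent.R226.ChartMet842
open Crest.Agent.R226.CutSmooth77 (SC)
open Crest.Agent.R202.Tens Crest.Agent.R247.Ms322 Crest.Agent.R247.Sm879

noncomputable section

namespace Crest.Agent.R247.Mcs816

variable {n : ℕ} {M : Type*} [MetricSpace M] [ChartedSpace (EuclideanSpace ℝ (Fin n)) M]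
  [IsManifold (𝓡 n) ∞ M]
  [RiemannianBundle (fun p : M => TangentSpace (𝓡 n) p)]
  [IsContMDiffRiemannianBundle (𝓡 n) ∞ (EuclideanSpace ℝ (Fin n)) (fun p : M => TangentSpace (𝓡 n) p)]

local notation "𝔼" => EuclideanSpace ℝ (Fin n)

/-- the chart data of the Riemannian metric and volume. -/
theorem bg_chart (y0 : M) : BG (chartAt 𝔼 y0).target (gm (n := n) y0) (dens (n := n) y0) where
  isOpen := (chartAt 𝔼 y0).open_target
  gg_smooth := (isLC_gm y0).g_smooth.of_le (WithTop.coe_le_coe.2 le_top)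
  gg_pos := (isLC_gm y0).g_pos
  w_smooth := (contDiffOn_dens y0).of_le (WithTop.coe_le_coe.2 le_top)
  w_pos := fun _ ha => dens_pos y0 ha

theorem gv_eq_grad (y0 : M) {a : 𝔼} (ha : a ∈ (chartAt 𝔼 y0).target) (f : 𝔼 → ℝ) :
    gv (gm (n := n) y0) f a = Bo84.grad (chartMetric n M y0) f a :=
  ((bg_chart y0).gv_unique ha fun u => by
    rw [← bil_chartMetric, Bo84.bil_grad (isRiemannianOn_chartMetric y0) ha]).symm

theorem lapw_eq (y0 : M) {a : 𝔼} (ha : a ∈ (chartAt 𝔼 y0).target) {f : 𝔼 → ℝ}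
    (hf : ContDiffAt ℝ 2 f a) : lapw (gm (n := n) y0) (dens (n := n) y0) f a =
      dens (n := n) y0 a * laplaceBeltrami (chartMetric n M y0) f a := by
  have hg := isRiemannianOn_chartMetric (n := n) y0
  have hev : gv (gm (n := n) y0) f =ᶠ[𝓝 a] Bo84.grad (chartMetric n M y0) f := by
    filter_upwards [(chartAt 𝔼 y0).open_target.mem_nhds ha] with b hb using gv_eq_grad y0 hb f
  set V := Bo84.grad (chartMetric n M y0) f with hV
  have hVd : DifferentiableAt ℝ V a :=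
    (Bo84.contDiffAt_grad hg ha (m := 1) hf (by norm_num) (by simp)).differentiableAt (by norm_num)
  have hs : DifferentiableAt ℝ (dens (n := n) y0) a :=
    ((contDiffOn_dens y0).contDiffAt ((chartAt 𝔼 y0).open_target.mem_nhds ha)).differentiableAt
      (by simp)
  have hVi : ∀ i, HasFDerivAt (fun y => V y i)
      ((EuclideanSpace.proj i : 𝔼 →L[ℝ] ℝ).comp (fderiv ℝ V a)) a := fun i =>
    (EuclideanSpace.proj i : 𝔼 →L[ℝ] ℝ).hasFDerivAt.comp a hVd.hasFDerivAt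
  have hpos := dens_pos (n := n) y0 ha
  unfold lapw
  rw [hev.fderiv_eq, hev.self_of_nhds, ← Bo84.divg_grad, ← hV]
  have h1 : ∀ i, pderiv i (fun y => Real.sqrt (chartMetric n M y0 y).det * V y i) a =
      dens (n := n) y0 a * (fderiv ℝ V a (EuclideanSpace.single i 1)) i +
        V a i * pderiv i (dens (n := n) y0) a := by
    intro i
    have h2 := (hs.hasFDerivAt.fun_mul (hVi i)).fderiv
    unfold pderiv
    change fderiv ℝ (fun y => dens (n := n) y0 y * V y i) a _ = _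
    rw [h2]
    simp only [_root_.add_apply, _root_.smul_apply, smul_eq_mul, ContinuousLinearMap.comp_apply]
    rfl
  have h3 : Bo84.divg (chartMetric n M y0) V a = (1 / dens (n := n) y0 a) *
      ∑ i, pderiv i (fun y => Real.sqrt (chartMetric n M y0 y).det * V y i) a := rfl
  rw [h3]
  simp only [h1]
  rw [Finset.sum_add_distrib, ← Finset.mul_sum, ← mul_assoc, mul_one_div_cancel hpos.ne', one_mul,
    add_comm]
  congr 1
  · rw [← Bo84.trL_apply, Bo84.trL_eq_trace]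
    rfl
  · rw [fderiv_eq_sum]

/-- the open set of parameters and points. -/
def OO (n : ℕ) {M : Type*} [MetricSpace M] [ChartedSpace (EuclideanSpace ℝ (Fin n)) M] (y0 : M) :
    Set (M × EuclideanSpace ℝ (Fin n)) :=
  {q | q.2 ∈ (chartAt (EuclideanSpace ℝ (Fin n)) y0).target ∧
    q.1 ≠ (chartAt (EuclideanSpace ℝ (Fin n)) y0).symm q.2 ∧
    ((chartAt (EuclideanSpace ℝ (Fin n)) y0).symm q.2, q.1) ∈ Om M}

/-- the barriers. -/
def FF (n : ℕ) {M : Type*} [MetricSpace M] [ChartedSpace (EuclideanSpace ℝ (Fin n)) M]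
    (x y0 z : M) (b : EuclideanSpace ℝ (Fin n)) : ℝ := Gc (dist x z) (fz (n := n) z y0 b)

theorem fz_eq (z y0 : M) (b : 𝔼) : fz (n := n) z y0 b = dist z ((chartAt 𝔼 y0).symm b) ^ 2 / 2 :=
  rfl

theorem sqrt_fz (z y0 : M) (b : 𝔼) :
    √(2 * fz (n := n) z y0 b) = dist z ((chartAt 𝔼 y0).symm b) := by
  rw [fz_eq, mul_div_cancel₀ _ (two_ne_zero), Real.sqrt_sq dist_nonneg]

theorem FF_eq (x y0 z : M) (b : 𝔼) :
    FF n x y0 z b = (dist x z + dist z ((chartAt 𝔼 y0).symm b)) ^ 2 / 2 := by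
  rw [FF, Gc, sqrt_fz]

theorem fz_pos {z y0 : M} {b : 𝔼} (h : z ≠ (chartAt 𝔼 y0).symm b) : 0 < fz (n := n) z y0 b := by
  have := dist_pos.2 h
  rw [fz_eq]
  positivity

variable [IsRiemannianManifold (𝓡 n) M] [ProperSpace M]

theorem isOpen_OO (hm : ExM M) (y0 : M) : IsOpen (OO n y0) := by
  have h1 : ContinuousOn (fun q : M × 𝔼 => ((chartAt 𝔼 y0).symm q.2, q.1))
      (univ ×ˢ (chartAt 𝔼 y0).target) := by
    refine ContinuousOn.prodMk ?_ continuousOn_fst
    exact (chartAt 𝔼 y0).continuousOn_symm.comp continuousOn_snd fun p hp => hp.2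
  have h2 : IsOpen {p : M × M | p.2 ≠ p.1 ∧ p ∈ Om M} :=
    (isOpen_ne_fun continuous_snd continuous_fst).inter (isOpen_Om n hm)
  have h3 := h1.isOpen_inter_preimage (isOpen_univ.prod (chartAt 𝔼 y0).open_target) h2
  convert h3 using 1
  ext q
  simp only [OO, mem_ofPred_eq, mem_inter_iff, mem_prod, mem_univ, true_and, mem_preimage]

theorem sc_of_OO (hm : ExM M) {y0 : M} {q : M × 𝔼} (hq : q ∈ OO n y0) :
    SC n q.1 ((chartAt 𝔼 y0).symm q.2) := sc_of_Om' hm hq.2.2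

/-- the barrier family is jointly `C²`. -/
theorem jf_barrier (hm : ExM M) (x y0 : M) :
    JF (chartAt 𝔼 y0).target (OO n y0) (FF n x y0) := by
  have key : ∀ q ∈ OO n y0, ContDiffAt ℝ 2 (FF n x y0 q.1) q.2 ∧
      ContinuousAt (fun q : M × 𝔼 => fderiv ℝ (FF n x y0 q.1) q.2) q ∧
      ContinuousAt (fun q : M × 𝔼 => fderiv ℝ (fderiv ℝ (FF n x y0 q.1)) q.2) q := by
    rintro ⟨z, b⟩ hq
    have hsc : SC n ((chartAt 𝔼 z).symm (chartAt 𝔼 z z)) ((chartAt 𝔼 y0).symm b) := by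
      rw [(chartAt 𝔼 z).left_inv (mem_chart_source 𝔼 z)]
      exact sc_of_OO hm hq
    have hp := contDiffAt_pair (mem_chart_target 𝔼 z) hq.1 hsc
    have hpos : 0 < halfDistSq ((chartAt 𝔼 z).symm (chartAt 𝔼 z z)) ((chartAt 𝔼 y0).symm b) := by
      rw [(chartAt 𝔼 z).left_inv (mem_chart_source 𝔼 z)]
      exact fz_pos hq.2.1
    have hψ : ContDiffAt ℝ ∞ (fun p : (𝔼 × ℝ) × 𝔼 => Gc p.1.2
        (halfDistSq ((chartAt 𝔼 z).symm p.1.1) ((chartAt 𝔼 y0).symm p.2)))
        ((chartAt 𝔼 z z, dist x z), b) := by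
      have e1 : ContDiffAt ℝ ∞ (fun p : (𝔼 × ℝ) × 𝔼 =>
          halfDistSq ((chartAt 𝔼 z).symm p.1.1) ((chartAt 𝔼 y0).symm p.2))
          ((chartAt 𝔼 z z, dist x z), b) :=
        ContDiffAt.comp ((chartAt 𝔼 z z, dist x z), b)
          (f := fun p : (𝔼 × ℝ) × 𝔼 => (p.1.1, p.2)) hp (by fun_prop)
      have e2 : ContDiffAt ℝ ∞ (fun p : (𝔼 × ℝ) × 𝔼 =>
          √(2 * halfDistSq ((chartAt 𝔼 z).symm p.1.1) ((chartAt 𝔼 y0).symm p.2)))
          ((chartAt 𝔼 z z, dist x z), b) :=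
        (contDiffAt_const.mul e1).sqrt (mul_pos two_pos hpos).ne'
      have e3 : ContDiffAt ℝ ∞ (fun p : (𝔼 × ℝ) × 𝔼 => p.1.2)
          ((chartAt 𝔼 z z, dist x z), b) := by fun_prop
      exact ((e3.add e2).pow 2).div_const 2
    refine param_JF (P := M) (A := 𝔼 × ℝ) (φ := fun z' => (chartAt 𝔼 z z', dist x z'))
      (ψ := fun p : (𝔼 × ℝ) × 𝔼 => Gc p.1.2
        (halfDistSq ((chartAt 𝔼 z).symm p.1.1) ((chartAt 𝔼 y0).symm p.2))) ?_
      (hψ.of_le (WithTop.coe_le_coe.2 le_top)) ?_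
    · exact ((chartAt 𝔼 z).continuousAt (mem_chart_source 𝔼 z)).prodMk (by fun_prop)
    · have hs : ∀ᶠ q : M × 𝔼 in 𝓝 (z, b), q.1 ∈ (chartAt 𝔼 z).source :=
        continuousAt_fst.eventually (chart_source_mem_nhds 𝔼 z)
      filter_upwards [hs] with q hq
      simp only [FF, fz, (chartAt 𝔼 z).left_inv hq]
  exact ⟨isOpen_OO hm y0, fun q hq => hq.1, fun q hq => (key q hq).1,
    fun q hq => (key q hq).2.1.continuousWithinAt, fun q hq => (key q hq).2.2.continuousWithinAt⟩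

theorem eik_fz (hm : ExM M) {y0 z : M} {b : 𝔼} (hb : b ∈ (chartAt 𝔼 y0).target)
    (h : SC n z ((chartAt 𝔼 y0).symm b)) :
    gm y0 b (gv (gm y0) (fz (n := n) z y0) b) (gv (gm y0) (fz (n := n) z y0) b) =
      2 * fz (n := n) z y0 b := by
  rw [← gam_fz hm hb h, Bo84.gam_eq_bil (isRiemannianOn_chartMetric y0) hb, bil_chartMetric,
    gv_eq_grad y0 hb]

theorem eik_FF (hm : ExM M) (x : M) {y0 : M} {q : M × 𝔼} (hq : q ∈ OO n y0) :
    gm y0 q.2 (gv (gm y0) (FF n x y0 q.1) q.2) (gv (gm y0) (FF n x y0 q.1) q.2) =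
      2 * FF n x y0 q.1 q.2 := by
  have hsc := sc_of_OO hm hq
  exact eik_barrier ((contDiffAt_fz hq.1 hsc).differentiableAt (by simp)) (fz_pos hq.2.1)
    (eik_fz hm hq.1 hsc) _

/-- Laplacian of the barrier. -/
theorem lapw_FF (hm : ExM M) (x : M) {y0 : M} {q : M × 𝔼} (hq : q ∈ OO n y0) {Λ : ℝ}
    (hΛ : laplaceBeltrami (chartMetric n M y0) (fz (n := n) q.1 y0) q.2 ≤ Λ) :
    lapw (gm (n := n) y0) (dens (n := n) y0) (FF n x y0 q.1) q.2 ≤
      (1 + dist x q.1 / dist q.1 ((chartAt 𝔼 y0).symm q.2)) * Λ * dens (n := n) y0 q.2 := by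
  have hsc := sc_of_OO hm hq
  have hcd : ContDiffAt ℝ 2 (fz (n := n) q.1 y0) q.2 :=
    (contDiffAt_fz hq.1 hsc).of_le (WithTop.coe_le_coe.2 le_top)
  have h1 := (bg_chart (n := n) y0).lapw_barrier hq.1 hcd (fz_pos hq.2.1)
    (eik_fz hm hq.1 hsc) (c := dist x q.1) (Λ := Λ) dist_nonneg (by
      rw [lapw_eq y0 hq.1 hcd, mul_comm]
      exact mul_le_mul_of_nonneg_right hΛ (dens_nonneg y0 _))
  rw [sqrt_fz] at h1
  exact h1

end Crest.Agent.R247.Mcs816
end
end

-- ▼ part R247/Mcs11_816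
section

/-!
Row 247, block (6c)/(6d) (helper816), file 11: distance in a chart from above by the length of the
segment; local minimiser points; local contraction on the manifold.
-/

set_option autoImplicit false
set_option maxSynthPendingDepth 3
set_option linter.unusedSectionVars false

open Bundle Set Filter Topology MeasureTheory Metric
open scoped Manifold ContDiff ENNReal NNReal
open Crest.GeometryTopology.CoordMetric Crest.GeometryTopology.ChartCurvature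
open Crest.GeometryTopology.PointedLimit
open Crest.GeometryTopology.MTW Crest.Agent.R244 Crest.Agent.R226
open Crest.Agent.R226.ChartMet842
open Crest.Agent.R226.CutSmooth77 (SC)
open Crest.Agent.R202.Tens Crest.Agent.R247.Ms322 Crest.Agent.R247.Sm879

noncomputable section

namespace Crest.Agent.R247.Mcs816

section metric

variable {M : Type*} [MetricSpace M]

/-- the points at distance `δ` from `x` on the minimisers from `x` to `q`. -/
def SS (x : M) (δ : ℝ) (q : M) : Set M := {z | dist x z = δ ∧ dist z q = dist x q - δ}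

theorem isCompact_SS [ProperSpace M] (x : M) (δ : ℝ) (q : M) : IsCompact (SS x δ q) := by
  refine (isCompact_sphere x δ).of_isClosed_subset ?_ ?_
  · exact (isClosed_eq (by fun_prop) (by fun_prop)).inter (isClosed_eq (by fun_prop) (by fun_prop))
  · intro z hz
    rw [mem_sphere, dist_comm]
    exact hz.1

/-- upper semicontinuity of the set of intermediate points. -/
theorem SS_eventually [ProperSpace M] {x : M} {δ : ℝ} {q0 : M} {K : Set M}
    (hK : SS x δ q0 ⊆ interior K) : ∀ᶠ q in 𝓝 q0, SS x δ q ⊆ interior K := by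
  have hc : IsCompact (sphere x δ \ interior K) := (isCompact_sphere x δ).diff isOpen_interior
  have h1 : ∀ᶠ q in 𝓝 q0, ∀ z ∈ sphere x δ \ interior K, dist z q ≠ dist x q - δ := by
    refine hc.eventually_forall_of_forall_eventually fun z hz => ?_
    have h2 : dist z q0 ≠ dist x q0 - δ := by
      intro h
      refine hz.2 (hK ⟨?_, h⟩)
      have := hz.1
      rwa [mem_sphere, dist_comm] at this
    have h3 : ContinuousAt (fun p : M × M => dist p.2 p.1) (q0, z) := by fun_prop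
    have h4 : ContinuousAt (fun p : M × M => dist x p.1 - δ) (q0, z) := by fun_prop
    filter_upwards [(h3.sub h4).eventually_ne (sub_ne_zero.2 h2)] with p hp
    exact sub_ne_zero.1 hp
  filter_upwards [h1] with q hq z hz
  by_contra hne
  refine hq z ⟨?_, hne⟩ hz.2
  rw [mem_sphere, dist_comm]
  exact hz.1

/-- finite nets in a dense sequence of a compact set. -/
theorem exists_net {K : Set M} (hK : IsCompact K) {zk : ℕ → M}
    (hd : ∀ z ∈ K, ∀ e > 0, ∃ k, dist z (zk k) < e) {e : ℝ} (he : 0 < e) :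
    ∃ N > 0, ∀ z ∈ K, ∃ k < N, dist z (zk k) < e := by
  obtain ⟨t, ht⟩ := hK.elim_finite_subcover (fun k : ℕ => ball (zk k) e) (fun k => isOpen_ball)
    (fun z hz => by
      obtain ⟨k, hk⟩ := hd z hz e he
      exact mem_iUnion.2 ⟨k, hk⟩)
  refine ⟨t.sup id + 1, Nat.succ_pos _, fun z hz => ?_⟩
  obtain ⟨k, hk⟩ := mem_iUnion.1 (ht hz)
  obtain ⟨hkt, hk2⟩ := mem_iUnion.1 hk
  exact ⟨k, Nat.lt_succ_of_le (Finset.le_sup (f := id) hkt), hk2⟩

theorem exists_dense_seq' [ProperSpace M] {K : Set M} (hne : K.Nonempty) :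
    ∃ zk : ℕ → M, (∀ k, zk k ∈ K) ∧ ∀ z ∈ K, ∀ e > 0, ∃ k, dist z (zk k) < e := by
  have : Nonempty K := hne.to_subtype
  obtain ⟨u, hu⟩ := TopologicalSpace.exists_dense_seq K
  refine ⟨fun k => u k, fun k => (u k).2, fun z hz e he => ?_⟩
  obtain ⟨k, hk⟩ := hu.exists_dist_lt (⟨z, hz⟩ : K) he
  exact ⟨k, hk⟩

end metric

section mfd

variable {n : ℕ} {M : Type*} [MetricSpace M] [ChartedSpace (EuclideanSpace ℝ (Fin n)) M]
  [IsManifold (𝓡 n) ∞ M]
  [RiemannianBundle (fun p : M => TangentSpace (𝓡 n) p)]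
  [IsContMDiffRiemannianBundle (𝓡 n) ∞ (EuclideanSpace ℝ (Fin n)) (fun p : M => TangentSpace (𝓡 n) p)]
  [IsRiemannianManifold (𝓡 n) M]

local notation "𝔼" => EuclideanSpace ℝ (Fin n)

/-- the distance is at most the length of the segment in the chart. -/
theorem dist_le_chart (y0 : M) {b : 𝔼} {r : ℝ} (hb : closedBall b r ⊆ (chartAt 𝔼 y0).target) :
    ∃ C : ℝ, 0 ≤ C ∧ ∀ y ∈ ball b r, ∀ y' ∈ ball b r,
      dist ((chartAt 𝔼 y0).symm y) ((chartAt 𝔼 y0).symm y') ≤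
        √(gm (n := n) y0 y (y' - y) (y' - y)) + C * ‖y' - y‖ ^ 2 := by
  obtain ⟨C, hC, -, -, -, h4, h5⟩ := (bg_chart (n := n) y0).bounds hb
  have hC0 : 0 < C := by linarith
  refine ⟨C ^ 2, by positivity, fun y hy y' hy' => ?_⟩
  rcases eq_or_ne y' y with rfl | hne
  · simp
  set u := y' - y with hu
  have hu0 : 0 < ‖u‖ := norm_pos_iff.2 (sub_ne_zero.2 hne)
  set a := gm (n := n) y0 y u u with ha
  have hau : ‖u‖ ^ 2 ≤ C * a := h4 y hy u
  have ha0 : 0 < a := by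
    by_contra hneg
    push Not at hneg
    have : C * a ≤ 0 := mul_nonpos_of_nonneg_of_nonpos hC0.le hneg
    have : 0 < ‖u‖ ^ 2 := by positivity
    linarith
  have hsa : ‖u‖ / C ≤ √a := by
    apply Real.le_sqrt_of_sq_le
    rw [div_pow, div_le_iff₀ (by positivity)]
    calc ‖u‖ ^ 2 ≤ C * a := hau
      _ ≤ a * C ^ 2 := by nlinarith
  set L := √a + C ^ 2 * ‖u‖ ^ 2 with hL
  have hL0 : 0 ≤ L := by positivity
  have hsq : √a ^ 2 = a := Real.sq_sqrt ha0.le
  have hLsq : a + 2 * C * ‖u‖ ^ 3 ≤ L ^ 2 := by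
    have h1 : ‖u‖ ≤ C * √a := by rwa [div_le_iff₀' hC0] at hsa
    have h2 : 2 * C * ‖u‖ ^ 3 ≤ 2 * √a * (C ^ 2 * ‖u‖ ^ 2) := by
      have : 2 * C * ‖u‖ ^ 2 * ‖u‖ ≤ 2 * C * ‖u‖ ^ 2 * (C * √a) := by gcongr
      calc 2 * C * ‖u‖ ^ 3 = 2 * C * ‖u‖ ^ 2 * ‖u‖ := by ring
        _ ≤ 2 * C * ‖u‖ ^ 2 * (C * √a) := this
        _ = _ := by ring
    have h3 : 0 ≤ (C ^ 2 * ‖u‖ ^ 2) ^ 2 := by positivity
    have h4 : L ^ 2 = √a ^ 2 + 2 * √a * (C ^ 2 * ‖u‖ ^ 2) + (C ^ 2 * ‖u‖ ^ 2) ^ 2 := by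
      rw [hL]; ring
    rw [h4, hsq]
    linarith
  -- the segment
  set l : ℝ →ᵃ[ℝ] 𝔼 := AffineMap.lineMap y y' with hl
  have hlt : ∀ t : ℝ, l t = y + t • u := by
    intro t
    rw [hl, AffineMap.lineMap_apply, vsub_eq_sub, vadd_eq_add, add_comm]
  have hld : ∀ t : ℝ, HasDerivAt l u t := by
    intro t
    have : HasDerivAt (fun t : ℝ => y + t • u) u t := by
      simpa using ((hasDerivAt_id t).smul_const u).const_add y
    exact this.congr_of_eventuallyEq (Eventually.of_forall hlt)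
  set s : Set ℝ := l ⁻¹' ball b r ∩ Ioo (-2) 2 with hs
  have hsc : Convex ℝ s := ((convex_ball b r).affine_preimage l).inter (convex_Ioo _ _)
  have hlc : Continuous l := continuous_iff_continuousAt.2 fun t => (hld t).continuousAt
  have hso : IsOpen s := (isOpen_ball.preimage hlc).inter isOpen_Ioo
  have h0s : (0 : ℝ) ∈ s := by
    refine ⟨?_, by norm_num, by norm_num⟩
    rw [mem_preimage, hlt, zero_smul, add_zero]
    exact hy
  have h1s : (1 : ℝ) ∈ s := by
    refine ⟨?_, by norm_num, by norm_num⟩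
    rw [mem_preimage, hlt, one_smul, hu, add_sub_cancel]
    exact hy'
  have hst : ∀ t ∈ s, l t ∈ (chartAt 𝔼 y0).target := fun t ht => hb (ball_subset_closedBall ht.1)
  have hsm : ContMDiffOn 𝓘(ℝ, ℝ) (𝓡 n) 1 (fun t => (chartAt 𝔼 y0).symm (l t)) s := by
    have h1 : ContMDiffOn 𝓘(ℝ, 𝔼) (𝓡 n) 1 (chartAt 𝔼 y0).symm (chartAt 𝔼 y0).target :=
      (contMDiffOn_chart_symm (n := ∞)).of_le (by exact_mod_cast le_top)
    have h2 : ContMDiff 𝓘(ℝ, ℝ) 𝓘(ℝ, 𝔼) 1 l := by
      rw [contMDiff_iff_contDiff]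
      have : (l : ℝ → 𝔼) = fun t => y + t • u := funext hlt
      rw [this]
      fun_prop
    exact h1.comp h2.contMDiffOn hst
  have hbd : ∀ t ∈ s, √(gm (n := n) y0 (l t) u u) ≤ L := by
    intro t ht
    apply Real.sqrt_le_iff.2
    refine ⟨hL0, ?_⟩
    have h6 := (abs_le.1 (h5 y hy (l t) ht.1 u u)).2
    have h7 : ‖l t - y‖ ≤ 2 * ‖u‖ := by
      rw [hlt, add_sub_cancel_left, norm_smul, Real.norm_eq_abs]
      have : |t| ≤ 2 := abs_le.2 ⟨ht.2.1.le, ht.2.2.le⟩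
      gcongr
    have h8 : C * ‖l t - y‖ * ‖u‖ * ‖u‖ ≤ 2 * C * ‖u‖ ^ 3 := by
      calc C * ‖l t - y‖ * ‖u‖ * ‖u‖ ≤ C * (2 * ‖u‖) * ‖u‖ * ‖u‖ := by gcongr
        _ = _ := by ring
    linarith
  have key := edist_le_of_convex (I := 𝓡 n) (f := fun t => (chartAt 𝔼 y0).symm (l t)) hsc hso hsm
    (C := L.toNNReal) ?_ h0s h1s
  · have e0 : l 0 = y := by rw [hlt, zero_smul, add_zero]
    have e1 : l 1 = y' := by rw [hlt, one_smul, hu, add_sub_cancel]
    simp only [e0, e1] at key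
    have h01 : edist (0 : ℝ) 1 = 1 := by
      rw [edist_dist]; simp
    rw [h01, mul_one, edist_dist] at key
    exact (ENNReal.ofReal_le_ofReal_iff hL0).1 key
  · intro t ht v
    have hd : HasMFDerivAt 𝓘(ℝ, ℝ) (𝓡 n) (fun t => (chartAt 𝔼 y0).symm (l t)) t
        ((dS y0 (l t)).comp (ContinuousLinearMap.toSpanSingleton ℝ u)) := by
      have h2 : HasMFDerivAt 𝓘(ℝ, ℝ) 𝓘(ℝ, 𝔼) l t
          (ContinuousLinearMap.toSpanSingleton ℝ u) := (hld t).hasFDerivAt.hasMFDerivAt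
      have h1 : HasMFDerivAt 𝓘(ℝ, 𝔼) (𝓡 n) (chartAt 𝔼 y0).symm (l t) (dS y0 (l t)) :=
        ((mdifferentiable_chart' y0).symm.mdifferentiableAt (hst t ht)).hasMFDerivAt
      exact h1.comp t h2
    rw [hd.mfderiv]
    have h4 : ‖dS y0 (l t) (v • u)‖ ≤ L * ‖v‖ := by
      rw [map_smul, norm_smul, norm_dS, mul_comm]
      gcongr
      exact hbd t ht
    refine le_trans (le_of_eq (?_ : _ = ENNReal.ofReal ‖dS y0 (l t) (v • u)‖)) ?_
    · exact (ofReal_norm _).symm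
    calc ENNReal.ofReal ‖dS y0 (l t) (v • u)‖ ≤ ENNReal.ofReal (L * ‖v‖) :=
          ENNReal.ofReal_le_ofReal h4
      _ = (L.toNNReal : ℝ≥0∞) * ENNReal.ofReal ‖v‖ := by
          rw [ENNReal.ofReal_mul hL0]; rfl
      _ = _ := by rw [ofReal_norm]

end mfd

end Crest.Agent.R247.Mcs816
end
end

-- ▼ part R247/Mcs12_816
section

/-!
Row 247, block (6c)/(6d) (helper816), file 12: **the contraction property (MCP) of the Riemannian
volume** from the Laplacian comparison.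
-/

set_option autoImplicit false
set_option maxSynthPendingDepth 3
set_option linter.unusedSectionVars false

open Bundle Set Filter Topology MeasureTheory Metric
open scoped Manifold ContDiff ENNReal NNReal
open Crest.GeometryTopology.CoordMetric Crest.GeometryTopology.ChartCurvature
open Crest.GeometryTopology.PointedLimit
open Crest.GeometryTopology.MTW Crest.Agent.R244 Crest.Agent.R226
open Crest.Agent.R226.ChartMet842
open Crest.Agent.R226.CutSmooth77 (SC)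
open Crest.Agent.R202.Tens Crest.Agent.R247.Ms322 Crest.Agent.R247.Sm879

noncomputable section

namespace Crest.Agent.R247.Mcs816

variable {n : ℕ} {M : Type*} [MetricSpace M] [ChartedSpace (EuclideanSpace ℝ (Fin n)) M]
  [IsManifold (𝓡 n) ∞ M]
  [RiemannianBundle (fun p : M => TangentSpace (𝓡 n) p)]
  [IsContMDiffRiemannianBundle (𝓡 n) ∞ (EuclideanSpace ℝ (Fin n)) (fun p : M => TangentSpace (𝓡 n) p)]

local notation "𝔼" => EuclideanSpace ℝ (Fin n)

variable (n M) in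
/-- Laplacian comparison at smooth pairs. -/
def LapC (κ : ℝ) : Prop :=
  ∀ z y0 : M, ∀ a ∈ (chartAt (EuclideanSpace ℝ (Fin n)) y0).target,
    SC n z ((chartAt (EuclideanSpace ℝ (Fin n)) y0).symm a) →
    laplaceBeltrami (chartMetric n M y0) (fz (n := n) z y0) a ≤
      n + κ * dist z ((chartAt (EuclideanSpace ℝ (Fin n)) y0).symm a) ^ 2

variable [IsRiemannianManifold (𝓡 n) M] [ProperSpace M] [MeasurableSpace M] [BorelSpace M]

theorem exists_delta {A d ε : ℝ} (hA0 : 0 ≤ A) (hd0 : 0 < d) (hε : 0 < ε) :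
    ∃ δ : ℝ, 0 < δ ∧ δ ≤ d / 4 ∧ δ / (d - δ) * A < ε := by
  refine ⟨min (d / 4) (ε * d / (4 * A + 4)), by positivity, min_le_left _ _, ?_⟩
  set δ0 := min (d / 4) (ε * d / (4 * A + 4)) with hδ0
  have hδ0p : 0 < δ0 := by positivity
  have hδ1 : δ0 ≤ d / 4 := min_le_left _ _
  have hδ2 : δ0 * (4 * A + 4) ≤ ε * d := by
    have : δ0 ≤ ε * d / (4 * A + 4) := min_le_right _ _
    rwa [le_div_iff₀ (by positivity)] at this
  rw [div_mul_eq_mul_div, div_lt_iff₀ (by linarith)]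
  nlinarith

theorem near_aux {s q D e η : ℝ} (hs0 : 0 ≤ s) (hs1 : s ≤ q + 2 * e) (hq : q ≤ D)
    (he0 : 0 ≤ e) (he1 : e ≤ 1) (he2 : e * (2 * D + 2) ≤ η) : s ^ 2 / 2 ≤ q ^ 2 / 2 + η := by
  have hsq : s ^ 2 ≤ (q + 2 * e) ^ 2 := by gcongr
  have hexp : (q + 2 * e) ^ 2 / 2 = q ^ 2 / 2 + e * (2 * q + 2 * e) := by ring
  have hlast : e * (2 * q + 2 * e) ≤ e * (2 * D + 2) := by
    apply mul_le_mul_of_nonneg_left _ he0
    linarith
  linarith

/-- the family of barriers satisfies `MF`. -/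
theorem mf_of (hm : ExM M) {x y0 : M} {b0 : 𝔼} {r δ d C1 C : ℝ} {K : Set M}
    (hd : 0 < d) (hδ : 0 ≤ δ) (hδd : δ ≤ d / 2) (hK : IsCompact K)
    (hKO : ∀ z ∈ K, ∀ b ∈ ball b0 r, (z, b) ∈ OO n y0)
    (hgood : ∀ b ∈ ball b0 r, SS x δ ((chartAt 𝔼 y0).symm b) ⊆ K ∧
      d / 2 < dist x ((chartAt 𝔼 y0).symm b) ∧ dist x ((chartAt 𝔼 y0).symm b) < 2 * d)
    (hdist : ∀ y ∈ ball b0 r, ∀ y' ∈ ball b0 r,
      dist ((chartAt 𝔼 y0).symm y) ((chartAt 𝔼 y0).symm y') ≤
        √(gm (n := n) y0 y (y' - y) (y' - y)) + C1 * ‖y' - y‖ ^ 2)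
    (hC1 : C1 ≤ C) (hC2 : 2 * d ≤ C) {zk : ℕ → M} (hzk : ∀ k, zk k ∈ K)
    (hdense : ∀ z ∈ K, ∀ e > 0, ∃ k, dist z (zk k) < e) :
    MF x (chartAt 𝔼 y0).symm (ball b0 r) (gm (n := n) y0) (fun k => FF n x y0 (zk k))
      (fun k => gv (gm (n := n) y0) (FF n x y0 (zk k))) C (d / 2) := by
  refine ⟨by positivity, ?_, ?_, ?_, ?_, ?_, ?_⟩
  · intro y hy y' hy'
    exact (hdist y hy y' hy').trans
      (add_le_add le_rfl (mul_le_mul_of_nonneg_right hC1 (by positivity)))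
  · intro k y hy
    show dist x ((chartAt 𝔼 y0).symm y) ^ 2 / 2 ≤ FF n x y0 (zk k) y
    rw [FF_eq]
    have h1 := dist_triangle x (zk k) ((chartAt 𝔼 y0).symm y)
    have h2 := pow_le_pow_left₀ dist_nonneg h1 2
    linarith
  · intro k y hy
    have h := eik_FF (n := n) hm x (q := (zk k, y)) (hKO (zk k) (hzk k) y hy)
    exact h
  · intro η hη
    set D := 2 * d with hD
    have hD0 : 0 < D := by positivity
    set e := min 1 (η / (2 * D + 2)) with he
    have he0 : 0 < e := by positivity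
    obtain ⟨N, hN0, hN⟩ := exists_net hK hdense he0
    refine ⟨N, hN0, fun y hy => ?_⟩
    obtain ⟨g1, g2, g3⟩ := hgood y hy
    obtain ⟨z, hz1, hz2⟩ := hm.pt x ((chartAt 𝔼 y0).symm y) (t := δ) hδ (by linarith)
    have hzK : z ∈ K := g1 ⟨hz1, hz2⟩
    obtain ⟨k, hkN, hk⟩ := hN z hzK
    refine ⟨k, hkN, ?_⟩
    show FF n x y0 (zk k) y ≤ dist x ((chartAt 𝔼 y0).symm y) ^ 2 / 2 + η
    rw [FF_eq]
    have t1 := dist_triangle x z (zk k)
    have t2 := dist_triangle (zk k) z ((chartAt 𝔼 y0).symm y)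
    rw [dist_comm (zk k) z] at t2
    have t3 : dist x z + dist z ((chartAt 𝔼 y0).symm y) = dist x ((chartAt 𝔼 y0).symm y) := by
      rw [hz1, hz2]; ring
    have he1 : e ≤ 1 := min_le_left _ _
    have he2 : e * (2 * D + 2) ≤ η := by
      have : e ≤ η / (2 * D + 2) := min_le_right _ _
      rwa [le_div_iff₀ (by positivity)] at this
    exact near_aux (by positivity) (by linarith) g3.le he0.le he1 he2
  · intro y hy
    exact (hgood y hy).2.1.le
  · intro y hy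
    exact (hgood y hy).2.2.le.trans hC2

/-- local contraction on the manifold. -/
theorem exists_locC [IsFiniteMeasureOnCompacts (μHE[n] : Measure M)] (hm : ExM M) {κ : ℝ}
    (hκ : 0 ≤ κ) (hL : LapC n M κ) {x y0 : M} (hy0 : y0 ≠ x) {ε : ℝ} (hε : 0 < ε) :
    ∃ W, IsOpen W ∧ y0 ∈ W ∧ ∃ τ0 > 0,
      LocC (μHE[n] : Measure M) x W (n + κ * dist x y0 ^ 2 + ε) τ0 := by
  have hd0 : 0 < dist x y0 := dist_pos.2 hy0.symm
  obtain ⟨d, hd⟩ : ∃ d, dist x y0 = d := ⟨_, rfl⟩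
  rw [hd] at hd0 ⊢
  obtain ⟨b0, hb0⟩ : ∃ b0 : 𝔼, b0 = chartAt 𝔼 y0 y0 := ⟨_, rfl⟩
  have hb0t : b0 ∈ (chartAt 𝔼 y0).target := by
    rw [hb0]; exact mem_chart_target 𝔼 y0
  have hXb0 : (chartAt 𝔼 y0).symm b0 = y0 := by
    rw [hb0]; exact (chartAt 𝔼 y0).left_inv (mem_chart_source 𝔼 y0)
  have hA0 : 0 ≤ (n : ℝ) + κ * d ^ 2 := by positivity
  obtain ⟨δ0, hδ0p, hδ1, hδ2⟩ := exists_delta hA0 hd0 hε
  have hZc : IsCompact (SS x δ0 y0) := isCompact_SS x δ0 y0
  have hZO : ∀ z ∈ SS x δ0 y0, (z, b0) ∈ OO n y0 := by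
    intro z hz
    have h1 : dist x z = δ0 := hz.1
    have h2 : dist z y0 = d - δ0 := by rw [hz.2, hd]
    refine ⟨hb0t, ?_, ?_⟩
    · show z ≠ (chartAt 𝔼 y0).symm b0
      rw [hXb0]
      apply dist_pos.1
      rw [h2]; linarith
    · show ((chartAt 𝔼 y0).symm b0, z) ∈ Om M
      rw [hXb0]
      refine mem_Om_of_btw' (x := x) (dist_pos.1 (by rw [h1]; exact hδ0p)) ?_
      rw [h1, h2, hd]; ring
  have hZH : ∀ z ∈ SS x δ0 y0, lapw (gm (n := n) y0) (dens (n := n) y0) (FF n x y0 z) b0 <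
      (n + κ * d ^ 2 + ε) * dens (n := n) y0 b0 := by
    intro z hz
    have h1 : dist x z = δ0 := hz.1
    have h2 : dist z y0 = d - δ0 := by rw [hz.2, hd]
    have h3 := hL z y0 b0 hb0t (sc_of_OO (n := n) hm (q := (z, b0)) (hZO z hz))
    have h4 : (n : ℝ) + κ * dist z ((chartAt 𝔼 y0).symm b0) ^ 2 ≤ n + κ * d ^ 2 := by
      rw [hXb0, h2]
      have : (d - δ0) ^ 2 ≤ d ^ 2 := pow_le_pow_left₀ (by linarith) (by linarith) 2
      have := mul_le_mul_of_nonneg_left this hκ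
      linarith
    have h5 := lapw_FF (n := n) hm x (q := (z, b0)) (hZO z hz) (h3.trans h4)
    refine h5.trans_lt ?_
    have hw := dens_pos (n := n) y0 hb0t
    refine mul_lt_mul_of_pos_right ?_ hw
    show (1 + dist x z / dist z ((chartAt 𝔼 y0).symm b0)) * (n + κ * d ^ 2) < _
    rw [hXb0, h1, h2]
    calc (1 + δ0 / (d - δ0)) * (n + κ * d ^ 2) =
        (n + κ * d ^ 2) + δ0 / (d - δ0) * (n + κ * d ^ 2) := by ring
      _ < (n + κ * d ^ 2) + ε := by linarith
  obtain ⟨K, hK, hZK, r, hr, hrT, hKO, C0, hLF⟩ :=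
    exists_LF (bg_chart (n := n) y0) (jf_barrier hm x y0) hZc hb0t hZO hZH
  -- shrink the ball
  have hcX : ContinuousAt (chartAt 𝔼 y0).symm b0 := (chartAt 𝔼 y0).continuousAt_symm hb0t
  have hev1 : ∀ᶠ b in 𝓝 b0, SS x δ0 ((chartAt 𝔼 y0).symm b) ⊆ interior K := by
    have h1 : ∀ᶠ q in 𝓝 ((chartAt 𝔼 y0).symm b0), SS x δ0 q ⊆ interior K := by
      rw [hXb0]; exact SS_eventually hZK
    exact hcX.eventually h1
  have hev2 : ∀ᶠ b in 𝓝 b0, d / 2 < dist x ((chartAt 𝔼 y0).symm b) := by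
    have h1 : ∀ᶠ q in 𝓝 ((chartAt 𝔼 y0).symm b0), d / 2 < dist x q := by
      have hc : ContinuousAt (fun q => dist x q) y0 := by fun_prop
      rw [hXb0]
      exact hc.eventually (lt_mem_nhds (by show d / 2 < dist x y0; rw [hd]; linarith))
    exact hcX.eventually h1
  have hev3 : ∀ᶠ b in 𝓝 b0, dist x ((chartAt 𝔼 y0).symm b) < 2 * d := by
    have h1 : ∀ᶠ q in 𝓝 ((chartAt 𝔼 y0).symm b0), dist x q < 2 * d := by
      have hc : ContinuousAt (fun q => dist x q) y0 := by fun_prop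
      rw [hXb0]
      exact hc.eventually (gt_mem_nhds (by show dist x y0 < 2 * d; rw [hd]; linarith))
    exact hcX.eventually h1
  obtain ⟨r1, hr1, hr1'⟩ := Metric.eventually_nhds_iff.1 (hev1.and (hev2.and hev3))
  obtain ⟨r2, hr2p, hr2r, hr2r1⟩ : ∃ r2 : ℝ, 0 < r2 ∧ r2 ≤ r ∧ r2 ≤ r1 :=
    ⟨min r r1, lt_min hr hr1, min_le_left _ _, min_le_right _ _⟩
  have hsub : ball b0 r2 ⊆ ball b0 r := ball_subset_ball hr2r
  have hsubc : closedBall b0 r2 ⊆ (chartAt 𝔼 y0).target :=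
    (closedBall_subset_closedBall hr2r).trans hrT
  have hgood : ∀ b ∈ ball b0 r2, SS x δ0 ((chartAt 𝔼 y0).symm b) ⊆ K ∧
      d / 2 < dist x ((chartAt 𝔼 y0).symm b) ∧ dist x ((chartAt 𝔼 y0).symm b) < 2 * d := by
    intro b hb
    have := hr1' (lt_of_lt_of_le (mem_ball.1 hb) hr2r1)
    exact ⟨this.1.trans interior_subset, this.2⟩
  obtain ⟨C1, hC1, hdist⟩ := dist_le_chart (n := n) y0 hsubc
  -- the dense sequence
  have hKne : K.Nonempty := by
    obtain ⟨c, hc1, hc2⟩ := hm.pt x y0 (t := δ0) hδ0p.le (by rw [hd]; linarith)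
    exact ⟨c, interior_subset (hZK ⟨hc1, hc2⟩)⟩
  obtain ⟨zk, hzk, hdense⟩ := exists_dense_seq' hKne
  obtain ⟨C, hCp, hCC0, hCC1, hCd⟩ : ∃ C : ℝ, 0 < C ∧ C0 ≤ C ∧ C1 ≤ C ∧ 2 * d ≤ C :=
    ⟨|C0| + C1 + 2 * d, by positivity, by have := le_abs_self C0; linarith,
      by have := abs_nonneg C0; linarith, by have := abs_nonneg C0; linarith⟩
  have hLF' := (hLF zk hzk).mono isOpen_ball hsub hCC0
  have hMF := mf_of (n := n) hm (x := x) (y0 := y0) (b0 := b0) (r := r2) (δ := δ0) (d := d)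
    (C1 := C1) (C := C) (K := K) hd0 hδ0p.le (by linarith) hK
    (fun z hz b hb => hKO ⟨hz, ball_subset_closedBall (hsub hb)⟩) hgood hdist hCC1 hCd hzk hdense
  -- the neighbourhood
  refine ⟨(chartAt 𝔼 y0).source ∩ (chartAt 𝔼 y0) ⁻¹' ball b0 (r2 / 2),
    (chartAt 𝔼 y0).isOpen_inter_preimage isOpen_ball,
    ⟨mem_chart_source 𝔼 y0, by rw [mem_preimage, ← hb0]; exact mem_ball_self (by positivity)⟩,
    min 1 (r2 / (2 * C)), by positivity, ?_⟩
  refine locC_of (E := 𝔼) (μHE[n] : Measure M) hLF' hMF (φ := chartAt 𝔼 y0)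
    ((chartAt 𝔼 y0).continuousOn.mono inter_subset_left)
    (fun m hm' => (chartAt 𝔼 y0).left_inv hm'.1) (min_le_left _ _) ?_ ?_
  · intro m hmW y hy
    have h1 : dist (chartAt 𝔼 y0 m) b0 < r2 / 2 := hmW.2
    have h2 : dist y (chartAt 𝔼 y0 m) ≤ C * min 1 (r2 / (2 * C)) := hy
    have h3 : C * min 1 (r2 / (2 * C)) ≤ r2 / 2 := by
      calc C * min 1 (r2 / (2 * C)) ≤ C * (r2 / (2 * C)) := by
            gcongr; exact min_le_right _ _
        _ = r2 / 2 := by field_simp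
    rw [mem_ball]
    have := dist_triangle y (chartAt 𝔼 y0 m) b0
    linarith
  · intro B hB hBm
    exact muHE_symm_image y0 (hB.trans (ball_subset_closedBall.trans hsubc)) hBm

end Crest.Agent.R247.Mcs816
end
end

-- ▼ part R247/Mcs13_816

/-!
Row 247, block (6c)/(6d) (helper816), file 13: **the contraction property (MCP) of the Riemannian
volume** in set form, from the Laplacian comparison `LapC`.
-/

set_option autoImplicit false
set_option maxSynthPendingDepth 3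
set_option linter.unusedSectionVars false

open Bundle Set Filter Topology MeasureTheory Metric
open scoped Manifold ContDiff ENNReal NNReal
open Crest.GeometryTopology.CoordMetric Crest.GeometryTopology.ChartCurvature
open Crest.GeometryTopology.PointedLimit
open Crest.GeometryTopology.MTW Crest.Agent.R244 Crest.Agent.R226
open Crest.Agent.R226.ChartMet842
open Crest.Agent.R226.CutSmooth77 (SC)
open Crest.Agent.R202.Tens Crest.Agent.R247.Ms322 Crest.Agent.R247.Sm879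

noncomputable section

namespace Crest.Agent.R247.Mcs816

theorem muHE_singleton {X : Type*} [MetricSpace X] [MeasurableSpace X] [BorelSpace X] {n : ℕ}
    (hn : 1 ≤ n) (x : X) : (μHE[n] : Measure X) {x} = 0 := by
  have : NullSingletonClass (μH[(n : ℝ)] : Measure X) :=
    Measure.nullSingletonClass_hausdorff X (by exact_mod_cast hn)
  rw [Measure.euclideanHausdorffMeasure_def, Measure.smul_apply, measure_singleton, smul_zero]

variable {n : ℕ} {M : Type*} [MetricSpace M] [ChartedSpace (EuclideanSpace ℝ (Fin n)) M]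
  [IsManifold (𝓡 n) ∞ M]
  [RiemannianBundle (fun p : M => TangentSpace (𝓡 n) p)]
  [IsContMDiffRiemannianBundle (𝓡 n) ∞ (EuclideanSpace ℝ (Fin n)) (fun p : M => TangentSpace (𝓡 n) p)]
  [IsRiemannianManifold (𝓡 n) M] [MeasurableSpace M] [BorelSpace M]

local notation "𝔼" => EuclideanSpace ℝ (Fin n)

variable (n M) in
theorem locFin : IsLocallyFiniteMeasure (μHE[n] : Measure M) := by
  refine ⟨fun x => ?_⟩
  obtain ⟨r, hr, hrt⟩ := nhds_basis_closedBall.mem_iff.1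
    ((chartAt 𝔼 x).open_target.mem_nhds (mem_chart_target 𝔼 x))
  have hbt : ball (chartAt 𝔼 x x) r ⊆ (chartAt 𝔼 x).target := ball_subset_closedBall.trans hrt
  refine ⟨(chartAt 𝔼 x).symm '' ball (chartAt 𝔼 x x) r, ?_, ?_⟩
  · have ho : IsOpen ((chartAt 𝔼 x).symm '' ball (chartAt 𝔼 x x) r) :=
      (chartAt 𝔼 x).symm.isOpen_image_of_subset_source isOpen_ball hbt
    refine ho.mem_nhds ⟨chartAt 𝔼 x x, mem_ball_self hr, ?_⟩
    exact (chartAt 𝔼 x).left_inv (mem_chart_source _ x)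
  · rw [muHE_symm_image x hbt measurableSet_ball]
    obtain ⟨m, hm⟩ := (isCompact_closedBall (chartAt 𝔼 x x) r).exists_bound_of_continuousOn
      ((continuousOn_dens x).mono hrt)
    calc ∫⁻ b in ball (chartAt 𝔼 x x) r, ENNReal.ofReal (dens x b)
        ≤ ∫⁻ b in ball (chartAt 𝔼 x x) r, ENNReal.ofReal m := by
          refine setLIntegral_mono' measurableSet_ball fun b hb => ?_
          exact ENNReal.ofReal_le_ofReal ((le_abs_self _).trans (hm b (ball_subset_closedBall hb)))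
      _ = ENNReal.ofReal m * volume (ball (chartAt 𝔼 x x) r) := by
          rw [setLIntegral_const]
      _ < ⊤ := ENNReal.mul_lt_top ENNReal.ofReal_lt_top measure_ball_lt_top

variable [ProperSpace M]

/-- **MCP in set form** (exponential parametrisation). -/
theorem mcp_exp (hn : 1 ≤ n) (hm : ExM M) {κ : ℝ} (hκ : 0 ≤ κ) (hL : LapC n M κ) (x : M)
    {τ R : ℝ} (hτ : 0 ≤ τ) (hR : 0 ≤ R) {A : Set M} (hA : IsCompact A) (hAR : A ⊆ closedBall x R) :
    ENNReal.ofReal (Real.exp (-(n * τ + κ * R ^ 2 * (1 - Real.exp (-(2 * τ))) / 2))) *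
      (μHE[n] : Measure M) A ≤ (μHE[n] : Measure M) (Ipt x (Real.exp (-τ)) A) := by
  have := locFin n M
  exact contraction (nonBr n hm x) (muHE_singleton hn x) hκ
    (fun y hy ε hε => exists_locC hm hκ hL hy hε) hR hA hAR hτ

/-- **MCP in set form**. -/
theorem mcp_set (hn : 1 ≤ n) (hm : ExM M) {κ : ℝ} (hκ : 0 ≤ κ) (hL : LapC n M κ) (x : M)
    {t : ℝ} (ht : t ∈ Ioc (0 : ℝ) 1) (R : ℝ) (A : Set M) (hA : IsCompact A)
    (hAR : A ⊆ closedBall x R) :
    ENNReal.ofReal (t ^ n * Real.exp (-(κ * R ^ 2 * (1 - t ^ 2) / 2))) *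
      (μHE[n] : Measure M) A ≤ (μHE[n] : Measure M) (Ipt x t A) := by
  rcases lt_or_ge R 0 with hR | hR
  · have hAe : A = ∅ := by
      rw [closedBall_eq_empty.2 hR] at hAR
      exact subset_empty_iff.1 hAR
    rw [hAe, measure_empty, mul_zero]
    exact zero_le
  have hlog : 0 ≤ -Real.log t := by
    have := Real.log_nonpos ht.1.le ht.2
    linarith
  have h1 := mcp_exp hn hm hκ hL x hlog hR hA hAR
  have e1 : Real.exp (-(-Real.log t)) = t := by rw [neg_neg, Real.exp_log ht.1]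
  have e2 : Real.exp (-(2 * (-Real.log t))) = t ^ 2 := by
    have : -(2 * (-Real.log t)) = Real.log t + Real.log t := by ring
    rw [this, Real.exp_add, Real.exp_log ht.1]; ring
  have e3 : Real.exp (-(n * (-Real.log t) + κ * R ^ 2 * (1 - t ^ 2) / 2)) =
      t ^ n * Real.exp (-(κ * R ^ 2 * (1 - t ^ 2) / 2)) := by
    have : -(n * (-Real.log t) + κ * R ^ 2 * (1 - t ^ 2) / 2) =
        n * Real.log t + -(κ * R ^ 2 * (1 - t ^ 2) / 2) := by ring
    rw [this, Real.exp_add, Real.exp_nat_mul, Real.exp_log ht.1]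
  rw [e2, e1, e3] at h1
  exact h1

end Crest.Agent.R247.Mcs816
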