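import Crest.Agent.R247.Mcs2_816

-- ▼ part R247/Mcs3_816
section

/-!
Row 247, block (6c)/(6d) (helper816), file 3: the measure estimate for one discrete gradient step.
-/

set_option autoImplicit false
set_option maxSynthPendingDepth 3

open scoped Topology ContDiff ENNReal
open Set MeasureTheory

noncomputable section

namespace Crest.Agent.R247.Mcs816

variable {E : Type*} [NormedAddCommGroup E] [InnerProductSpace ℝ E] [FiniteDimensional ℝ E]

/-- the piece of `A` where `k` is the first index of the minimum of `f j`, `j < N`. -/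
def piece (f : ℕ → E → ℝ) (N : ℕ) (A : Set E) (k : ℕ) : Set E :=
  {y | y ∈ A ∧ (∀ j < N, f k y ≤ f j y) ∧ ∀ j < k, f k y < f j y}

omit [InnerProductSpace ℝ E] [FiniteDimensional ℝ E] in
theorem biUnion_piece [InnerProductSpace ℝ E] (f : ℕ → E → ℝ) {N : ℕ} (hN : 0 < N) (A : Set E) :
    ⋃ k ∈ Finset.range N, piece f N A k = A := by
  ext y
  simp only [mem_iUnion, Finset.mem_range, exists_prop]
  constructor
  · rintro ⟨k, -, hk⟩; exact hk.1
  · intro hy
    -- a minimiser exists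
    have h1 : ∃ k, k < N ∧ ∀ j < N, f k y ≤ f j y := by
      obtain ⟨k, hk, hmin⟩ := Finset.exists_min_image (Finset.range N) (fun k => f k y)
        ⟨0, Finset.mem_range.2 hN⟩
      exact ⟨k, Finset.mem_range.1 hk, fun j hj => hmin j (Finset.mem_range.2 hj)⟩
    classical
    refine ⟨Nat.find h1, (Nat.find_spec h1).1, hy, (Nat.find_spec h1).2, fun j hj => ?_⟩
    have h2 := Nat.find_min h1 hj
    have hjN : j < N := hj.trans (Nat.find_spec h1).1
    by_contra hcon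
    push Not at hcon
    exact h2 ⟨hjN, fun i hi => hcon.trans ((Nat.find_spec h1).2 i hi)⟩

omit [InnerProductSpace ℝ E] [FiniteDimensional ℝ E] in
theorem piece_disjoint [InnerProductSpace ℝ E] (f : ℕ → E → ℝ) (N : ℕ) (A : Set E) :
    Pairwise (Function.onFun Disjoint fun k : Fin N => piece f N A k) := by
  intro i j hij
  rw [Function.onFun, Set.disjoint_left]
  intro y hi hj
  rcases lt_or_gt_of_ne (fun h => hij (Fin.ext h) : (i : ℕ) ≠ (j : ℕ)) with h | h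
  · exact absurd (hj.2.2 i h) (not_lt.2 (hi.2.1 j j.2))
  · exact absurd (hi.2.2 j h) (not_lt.2 (hj.2.1 i i.2))

variable [MeasurableSpace E] [BorelSpace E]

omit [InnerProductSpace ℝ E] [FiniteDimensional ℝ E] in
theorem measurableSet_le_of_contOn {U A : Set E} (hU : IsOpen U) (hA : MeasurableSet A)
    (hAU : A ⊆ U) {g h : E → ℝ} (hg : ContinuousOn g U) (hh : ContinuousOn h U) :
    MeasurableSet {y | y ∈ A ∧ g y ≤ h y} := by
  have h1 : IsOpen (U ∩ (fun y => g y - h y) ⁻¹' Ioi 0) :=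
    (hg.sub hh).isOpen_inter_preimage hU isOpen_Ioi
  have h2 : {y | y ∈ A ∧ g y ≤ h y} = A \ (U ∩ (fun y => g y - h y) ⁻¹' Ioi 0) := by
    ext y
    simp only [mem_setOf_eq, mem_diff, mem_inter_iff, mem_preimage, mem_Ioi, not_and, not_lt]
    constructor
    · rintro ⟨ha, hle⟩; exact ⟨ha, fun _ => by linarith⟩
    · rintro ⟨ha, hle⟩; exact ⟨ha, by linarith [hle (hAU ha)]⟩
  rw [h2]
  exact hA.diff h1.measurableSet

omit [InnerProductSpace ℝ E] [FiniteDimensional ℝ E] in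
theorem measurableSet_piece {U A : Set E} (hU : IsOpen U) (hA : MeasurableSet A)
    (hAU : A ⊆ U) {f : ℕ → E → ℝ} (hf : ∀ k, ContinuousOn (f k) U) (N k : ℕ) :
    MeasurableSet (piece f N A k) := by
  have h1 : piece f N A k = A ∩ (⋂ j ∈ {j | j < N}, {y | y ∈ A ∧ f k y ≤ f j y}) ∩
      ⋂ j ∈ {j | j < k}, (A \ {y | y ∈ A ∧ f j y ≤ f k y}) := by
    ext y
    simp only [piece, mem_setOf_eq, mem_inter_iff, mem_iInter, mem_diff, not_and, not_le]
    constructor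
    · rintro ⟨ha, h1, h2⟩
      exact ⟨⟨ha, fun j hj => ⟨ha, h1 j hj⟩⟩, fun j hj => ⟨ha, fun _ => h2 j hj⟩⟩
    · rintro ⟨⟨ha, h1⟩, h2⟩
      exact ⟨ha, fun j hj => (h1 j hj).2, fun j hj => (h2 j hj).2 ha⟩
  rw [h1]
  refine (hA.inter ?_).inter ?_
  · exact MeasurableSet.biInter (to_countable _) fun j _ =>
      measurableSet_le_of_contOn hU hA hAU (hf k) (hf j)
  · exact MeasurableSet.biInter (to_countable _) fun j _ =>
      hA.diff (measurableSet_le_of_contOn hU hA hAU (hf j) (hf k))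

/-- **one discrete step**: the image of `A` under `y ↦ y - δ v_k y`, `k` the first minimising
index, has measure at least `(1 - δ H - C' δ²) μ(A)`. -/
theorem exists_step (E : Type*) [NormedAddCommGroup E] [InnerProductSpace ℝ E]
    [FiniteDimensional ℝ E] [MeasurableSpace E] [BorelSpace E] {C : ℝ} (hC : 1 ≤ C) :
    ∃ C' δ0 : ℝ, 0 ≤ C' ∧ 0 < δ0 ∧ ∀ {U : Set E} {w : E → ℝ} {gg : E → E →L[ℝ] E →L[ℝ] ℝ}
      {f : ℕ → E → ℝ} {v : ℕ → E → E} {H : ℝ}, LF U w gg f v C H →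
      ∀ δ, 0 ≤ δ → δ ≤ δ0 → ∀ N, 0 < N → ∀ A : Set E, MeasurableSet A → A ⊆ U →
      (∀ k, ∀ y ∈ A, y - δ • v k y ∈ U) → ∃ B : Set E, MeasurableSet B ∧
      (∀ z ∈ B, ∃ y ∈ A, ∃ k < N, z = y - δ • v k y ∧ ∀ j < N, f k y ≤ f j y) ∧
      ENNReal.ofReal (1 - δ * H - C' * δ ^ 2) * (∫⁻ y in A, ENNReal.ofReal (w y)) ≤
        ∫⁻ y in B, ENNReal.ofReal (w y) := by
  obtain ⟨C', δ1, hC', hδ1, hjac⟩ := exists_jac E C hC
  have hC0 : 0 < C := by linarith
  refine ⟨C', min δ1 (1 / (2 * (C * (2 * C + C ^ 2)))), hC', by positivity, ?_⟩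
  intro U w gg f v H h δ hδ hδ0 N hN A hA hAU hmaps
  have hδa : δ ≤ δ1 := hδ0.trans (min_le_left _ _)
  have hδb : δ ≤ 1 / (2 * (C * (2 * C + C ^ 2))) := hδ0.trans (min_le_right _ _)
  have hδc : C * δ * (2 * C + C ^ 2) < 1 := by
    rw [le_div_iff₀ (by positivity)] at hδb
    linarith
  set S : ℕ → E → E := fun k y => y - δ • v k y with hS
  set S' : ℕ → E → (E →L[ℝ] E) := fun k y => ContinuousLinearMap.id ℝ E - δ • fderiv ℝ (v k) y
    with hS'
  have hpU : ∀ k, piece f N A k ⊆ U := fun k y hy => hAU hy.1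
  have hmeas : ∀ k, MeasurableSet (piece f N A k) := fun k =>
    measurableSet_piece h.isOpen hA hAU h.f_cont N k
  have hder : ∀ k, ∀ y ∈ piece f N A k, HasFDerivWithinAt (S k) (S' k y) (piece f N A k) y := by
    intro k y hy
    exact ((hasFDerivAt_id y).sub
      ((h.v_diff k y (hpU k hy)).hasFDerivAt.const_smul δ)).hasFDerivWithinAt
  have hinj : ∀ k, InjOn (S k) (piece f N A k) := by
    intro k y hy y' hy' he
    exact h.inj hδ hδc (hpU k hy) (hpU k hy') le_rfl le_rfl he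
  set B : Set E := ⋃ k : Fin N, S k '' piece f N A k with hB
  have hmi : ∀ k : Fin N, MeasurableSet (S k '' piece f N A k) := fun k =>
    measurable_image_of_fderivWithin (hmeas k) (hder k) (hinj k)
  have hdisj : Pairwise (Function.onFun Disjoint fun k : Fin N => S k '' piece f N A k) := by
    intro i j hij
    rw [Function.onFun, Set.disjoint_left]
    rintro z ⟨y, hy, rfl⟩ ⟨y', hy', he⟩
    have := h.inj hδ hδc (hpU i hy) (hpU j hy') (hy.2.1 j j.2) (hy'.2.1 i i.2) he.symm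
    subst this
    exact Set.disjoint_left.1 (piece_disjoint f N A hij) hy hy'
  refine ⟨B, MeasurableSet.iUnion hmi, ?_, ?_⟩
  · intro z hz
    rw [hB, mem_iUnion] at hz
    obtain ⟨k, y, hy, rfl⟩ := hz
    exact ⟨y, hy.1, k, k.2, rfl, hy.2.1⟩
  · have e1 : ∫⁻ y in B, ENNReal.ofReal (w y) =
        ∑ k : Fin N, ∫⁻ y in S k '' piece f N A k, ENNReal.ofReal (w y) := by
      rw [hB, lintegral_iUnion hmi hdisj, tsum_fintype]
    have e2 : ∫⁻ y in A, ENNReal.ofReal (w y) =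
        ∑ k : Fin N, ∫⁻ y in piece f N A k, ENNReal.ofReal (w y) := by
      have : A = ⋃ k : Fin N, piece f N A k := by
        have h1 := biUnion_piece f hN A
        refine Subset.antisymm (fun y hy => ?_) (iUnion_subset fun k y hy => hy.1)
        rw [← h1] at hy
        simp only [mem_iUnion, Finset.mem_range, exists_prop] at hy
        obtain ⟨k, hk, hy⟩ := hy
        exact mem_iUnion.2 ⟨⟨k, hk⟩, hy⟩
      conv_lhs => rw [this]
      rw [lintegral_iUnion (fun k : Fin N => hmeas k) (piece_disjoint f N A), tsum_fintype]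
    rw [e1, e2, Finset.mul_sum]
    refine Finset.sum_le_sum fun k _ => ?_
    rw [lintegral_image_eq_lintegral_abs_det_fderiv_mul volume (hmeas k) (hder k) (hinj k),
      ← lintegral_const_mul' _ _ ENNReal.ofReal_ne_top]
    refine setLIntegral_mono' (hmeas k) fun y hy => ?_
    have hyU := hpU k hy
    have hzU : S k y ∈ U := hmaps k y hy.1
    have hw0 : 0 ≤ w (S k y) := by
      have := h.w_lower _ hzU
      by_contra hneg
      push Not at hneg
      nlinarith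
    have hsub : S k y - y = -(δ • v k y) := by simp [hS]
    have hW : |fderiv ℝ w y (v k y)| ≤ C ^ 2 := by
      calc |fderiv ℝ w y (v k y)| = ‖fderiv ℝ w y (v k y)‖ := rfl
        _ ≤ ‖fderiv ℝ w y‖ * ‖v k y‖ := (fderiv ℝ w y).le_opNorm _
        _ ≤ C * C := by
          gcongr
          · exact h.w_fd y hyU
          · exact h.v_bd k y hyU
        _ = C ^ 2 := by ring
    have hW' : |w (S k y) - w y + δ * fderiv ℝ w y (v k y)| ≤ C ^ 3 * δ ^ 2 := by
      have h1 := h.w_taylor y hyU _ hzU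
      rw [hsub, map_neg, map_smul, smul_eq_mul, sub_neg_eq_add, norm_neg, norm_smul,
        Real.norm_eq_abs, abs_of_nonneg hδ] at h1
      refine h1.trans ?_
      have h2 := h.v_bd k y hyU
      calc C * (δ * ‖v k y‖) ^ 2 ≤ C * (δ * C) ^ 2 := by gcongr
        _ = C ^ 3 * δ ^ 2 := by ring
    obtain ⟨hd0, hd⟩ := hjac (fderiv ℝ w y (v k y)) (w y) (w (S k y)) (fderiv ℝ (v k) y) δ H
      hδ hδa (h.v_fd k y hyU) hW (h.w_lower y hyU) hW' hw0 (h.div k y hyU)
    rw [abs_of_pos hd0, ← ENNReal.ofReal_mul hd0.le]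
    rcases le_or_gt 0 (1 - δ * H - C' * δ ^ 2) with hs | hs
    · rw [← ENNReal.ofReal_mul hs]
      exact ENNReal.ofReal_le_ofReal hd
    · rw [ENNReal.ofReal_of_nonpos hs.le, zero_mul]
      exact zero_le

end Crest.Agent.R247.Mcs816
end
end

-- ▼ part R247/Mcs4_816

/-!
Row 247, block (6c)/(6d) (helper816), file 4: the discrete steps are almost geodesic; chains of
discrete steps.
-/

set_option autoImplicit false
set_option maxSynthPendingDepth 3

open scoped Topology ContDiff ENNReal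
open Set MeasureTheory

noncomputable section

namespace Crest.Agent.R247.Mcs816

variable {E : Type*} [NormedAddCommGroup E] [InnerProductSpace ℝ E] [FiniteDimensional ℝ E]
variable {M : Type*} [MetricSpace M]

/-- metric information on the family `f k`: upper barriers of `d_x²/2`. -/
structure MF (x : M) (X : E → M) (U : Set E) (gg : E → E →L[ℝ] E →L[ℝ] ℝ)
    (f : ℕ → E → ℝ) (v : ℕ → E → E) (C ρ : ℝ) : Prop where
  ρ_pos : 0 < ρ
  dist_le : ∀ y ∈ U, ∀ y' ∈ U,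
    dist (X y) (X y') ≤ √(gg y (y' - y) (y' - y)) + C * ‖y' - y‖ ^ 2
  ge : ∀ k, ∀ y ∈ U, dist x (X y) ^ 2 / 2 ≤ f k y
  eik : ∀ k, ∀ y ∈ U, gg y (v k y) (v k y) = 2 * f k y
  near : ∀ η > 0, ∃ N > 0, ∀ y ∈ U, ∃ k < N, f k y ≤ dist x (X y) ^ 2 / 2 + η
  low : ∀ y ∈ U, ρ ≤ dist x (X y)
  up : ∀ y ∈ U, dist x (X y) ≤ C

variable {x : M} {X : E → M} {U : Set E} {w : E → ℝ} {gg : E → E →L[ℝ] E →L[ℝ] ℝ}
  {f : ℕ → E → ℝ} {v : ℕ → E → E} {C H ρ : ℝ}

theorem sqrt_le_of_sq {d e ρ a : ℝ} (hρ : 0 < ρ) (hd : ρ ≤ d) (he : 0 ≤ e)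
    (h : a ≤ d ^ 2 + 2 * e) : √a ≤ d + e / ρ := by
  apply Real.sqrt_le_iff.2
  have hd0 : 0 < d := lt_of_lt_of_le hρ hd
  refine ⟨by positivity, h.trans ?_⟩
  have h1 : e = e / ρ * ρ := by field_simp
  have h2 : e / ρ * ρ ≤ e / ρ * d := by gcongr
  have h3 : 0 ≤ (e / ρ) ^ 2 := by positivity
  nlinarith

/-- the constant of the almost geodesic estimates. -/
def KK (C ρ : ℝ) : ℝ := 2 * C ^ 3 / ρ + C ^ 3 + 2 / ρ

theorem KK_nonneg {C ρ : ℝ} (hC : 1 ≤ C) (hρ : 0 < ρ) : 0 ≤ KK C ρ := by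
  unfold KK; positivity

/-- the discrete step is almost geodesic. -/
theorem step_dist (h : LF U w gg f v C H) (hm : MF x X U gg f v C ρ) {δ η : ℝ} (hδ : 0 ≤ δ)
    (hδ1 : δ ≤ 1 / 2) (hη : 0 ≤ η) {k : ℕ} {y : E} (hy : y ∈ U) (hz : y - δ • v k y ∈ U)
    (hf : f k y ≤ dist x (X y) ^ 2 / 2 + η) :
    dist x (X (y - δ • v k y)) ≤ (1 - δ) * dist x (X y) + KK C ρ * (δ ^ 2 + η) ∧
    dist (X y) (X (y - δ • v k y)) ≤ δ * dist x (X y) + KK C ρ * (δ ^ 2 + η) := by
  have hC : 1 ≤ C := h.one_le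
  have hC0 : 0 < C := by linarith
  have hρ := hm.ρ_pos
  set d := dist x (X y) with hd
  have hdρ : ρ ≤ d := hm.low y hy
  have hd0 : 0 < d := lt_of_lt_of_le hρ hdρ
  set z := y - δ • v k y with hzdef
  have hzy : z - y = -(δ • v k y) := by simp [hzdef]
  have hnz : ‖z - y‖ ≤ δ * C := by
    rw [hzy, norm_neg, norm_smul, Real.norm_eq_abs, abs_of_nonneg hδ]
    have := h.v_bd k y hy
    gcongr
  have hnz2 : C * ‖z - y‖ ^ 2 ≤ C ^ 3 * δ ^ 2 := by
    calc C * ‖z - y‖ ^ 2 ≤ C * (δ * C) ^ 2 := by gcongr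
      _ = _ := by ring
  have hfk : f k y ≤ d ^ 2 / 2 + η := hf
  have hfk1 : d ^ 2 / 2 ≤ f k y := hm.ge k y hy
  have hs : √(2 * f k y) ≤ d + η / ρ := sqrt_le_of_sq hρ hdρ hη (by linarith)
  have hK1 : η / ρ + C ^ 3 * δ ^ 2 ≤ KK C ρ * (δ ^ 2 + η) := by
    unfold KK
    have e1 : (2 * C ^ 3 / ρ + C ^ 3 + 2 / ρ) * (δ ^ 2 + η) = η / ρ + C ^ 3 * δ ^ 2 +
      (2 * C ^ 3 / ρ * (δ ^ 2 + η) + C ^ 3 * η + 2 / ρ * δ ^ 2 + η / ρ) := by ring
    rw [e1]
    have : 0 ≤ (2 * C ^ 3 / ρ * (δ ^ 2 + η) + C ^ 3 * η + 2 / ρ * δ ^ 2 + η / ρ) := by positivity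
    linarith
  have hK2 : (η + C ^ 3 * δ ^ 2) / (ρ / 2) ≤ KK C ρ * (δ ^ 2 + η) := by
    unfold KK
    have e1 : (2 * C ^ 3 / ρ + C ^ 3 + 2 / ρ) * (δ ^ 2 + η) = (η + C ^ 3 * δ ^ 2) / (ρ / 2) +
      (2 * C ^ 3 / ρ * η + C ^ 3 * (δ ^ 2 + η) + 2 / ρ * δ ^ 2) := by
      field_simp
      ring
    rw [e1]
    have : 0 ≤ (2 * C ^ 3 / ρ * η + C ^ 3 * (δ ^ 2 + η) + 2 / ρ * δ ^ 2) := by positivity
    linarith
  constructor
  · have h1 : dist x (X z) ≤ √(2 * f k z) := by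
      apply Real.le_sqrt_of_sq_le
      have := hm.ge k z hz
      linarith
    have h2 : f k z ≤ (1 - 2 * δ) * f k y + C ^ 3 * δ ^ 2 := by
      have h3 := (abs_le.1 (h.f_taylor k y hy z hz)).2
      rw [hzy, map_neg, map_smul, smul_eq_mul, ← h.v_grad k y hy, hm.eik k y hy] at h3
      rw [hzy] at hnz2
      linarith
    have h4 : 2 * f k z ≤ ((1 - δ) * d) ^ 2 + 2 * (η + C ^ 3 * δ ^ 2) := by
      have h5 : (1 - 2 * δ) * f k y ≤ (1 - 2 * δ) * (d ^ 2 / 2 + η) := by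
        have : 0 ≤ 1 - 2 * δ := by linarith
        gcongr
      have h6 : (1 - 2 * δ) * (d ^ 2) ≤ (1 - δ) ^ 2 * d ^ 2 := by
        have : 1 - 2 * δ ≤ (1 - δ) ^ 2 := by nlinarith
        gcongr
      have h7 : (1 - 2 * δ) * η ≤ η := by nlinarith
      nlinarith
    have h8 : ρ / 2 ≤ (1 - δ) * d := by nlinarith
    have h9 := sqrt_le_of_sq (by linarith : 0 < ρ / 2) h8 (by positivity) h4
    linarith
  · have h1 := hm.dist_le y hy z hz
    have h2 : √(gg y (z - y) (z - y)) = δ * √(2 * f k y) := by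
      have e0 : gg y (z - y) (z - y) = (δ * δ) * (2 * f k y) := by
        rw [hzy]
        simp only [map_neg, _root_.neg_apply, neg_neg, map_smul, _root_.smul_apply, smul_eq_mul]
        rw [hm.eik k y hy]; ring
      rw [e0, Real.sqrt_mul (by positivity), Real.sqrt_mul_self hδ]
    rw [h2] at h1
    have h3 : δ * √(2 * f k y) ≤ δ * d + η / ρ := by
      have h4 : δ * √(2 * f k y) ≤ δ * (d + η / ρ) := by gcongr
      have h5 : δ * (η / ρ) ≤ 1 * (η / ρ) := by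
        have : 0 ≤ η / ρ := by positivity
        gcongr
        linarith
      linarith
    linarith

/-- the result of `j` discrete steps. -/
theorem chain [MeasurableSpace E] [BorelSpace E] {C : ℝ} (hC : 1 ≤ C) :
    ∃ C' δ0 : ℝ, 0 ≤ C' ∧ 0 < δ0 ∧ ∀ {U : Set E} {w : E → ℝ} {gg : E → E →L[ℝ] E →L[ℝ] ℝ}
      {f : ℕ → E → ℝ} {v : ℕ → E → E} {H ρ : ℝ} {x : M} {X : E → M}, LF U w gg f v C H →
      MF x X U gg f v C ρ → ∀ δ, 0 ≤ δ → δ ≤ δ0 → ∀ j : ℕ, (j : ℝ) * δ ≤ 1 → ∀ A : Set E,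
      MeasurableSet A → (∀ y ∈ A, Metric.closedBall y (C * (j * δ)) ⊆ U) →
      ∃ B : Set E, MeasurableSet B ∧ B ⊆ U ∧
      (∀ z ∈ B, ∃ y ∈ A, ‖z - y‖ ≤ C * (j * δ) ∧
        dist x (X z) ≤ (1 - δ) ^ j * dist x (X y) + j * (2 * KK C ρ * δ ^ 2) ∧
        dist (X y) (X z) ≤ (1 - (1 - δ) ^ j) * dist x (X y) + 2 * j * (2 * KK C ρ * δ ^ 2)) ∧
      ENNReal.ofReal (1 - δ * H - C' * δ ^ 2) ^ j * (∫⁻ y in A, ENNReal.ofReal (w y)) ≤
        ∫⁻ y in B, ENNReal.ofReal (w y) := by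
  obtain ⟨C', δ0, hC', hδ0, hstep⟩ := exists_step E hC
  refine ⟨C', min δ0 (1 / 2), hC', by positivity, ?_⟩
  intro U w gg f v H ρ x X h hm δ hδ hδ1
  have hδa : δ ≤ δ0 := hδ1.trans (min_le_left _ _)
  have hδb : δ ≤ 1 / 2 := hδ1.trans (min_le_right _ _)
  have hC0 : 0 < C := by linarith
  have hKK := KK_nonneg hC hm.ρ_pos
  rcases eq_or_lt_of_le hδ with hδe | hδpos
  · -- `δ = 0`
    subst hδe
    intro j _ A hA hAU
    refine ⟨A, hA, fun y hy => hAU y hy (Metric.mem_closedBall_self (by simp)), ?_, ?_⟩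
    · intro z hz
      exact ⟨z, hz, by simp, by simp, by simp⟩
    · simp
  obtain ⟨N, hN, hnear⟩ := hm.near (δ ^ 2) (by positivity)
  intro j
  induction j with
  | zero =>
    intro _ A hA hAU
    refine ⟨A, hA, fun y hy => hAU y hy (Metric.mem_closedBall_self (by simp)), ?_, ?_⟩
    · intro z hz
      exact ⟨z, hz, by simp, by simp, by simp⟩
    · simp
  | succ j ih =>
    intro hj A hA hAU
    push_cast at hj hAU ⊢
    have hjδ : (j : ℝ) * δ ≤ 1 := by nlinarith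
    have hj0 : (0 : ℝ) ≤ j := Nat.cast_nonneg j
    obtain ⟨B, hB, hBU, hBd, hBm⟩ := ih hjδ A hA (fun y hy =>
      (Metric.closedBall_subset_closedBall (by gcongr; linarith)).trans (hAU y hy))
    have hmaps : ∀ k, ∀ y ∈ B, y - δ • v k y ∈ U := by
      intro k z hz
      obtain ⟨y, hy, hzy, -, -⟩ := hBd z hz
      refine hAU y hy ?_
      rw [Metric.mem_closedBall, dist_eq_norm]
      have h1 : z - δ • v k z - y = (z - y) - δ • v k z := by abel
      rw [h1]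
      have h2 : ‖δ • v k z‖ ≤ δ * C := by
        rw [norm_smul, Real.norm_eq_abs, abs_of_nonneg hδ]
        have := h.v_bd k z (hBU hz)
        gcongr
      calc ‖(z - y) - δ • v k z‖ ≤ ‖z - y‖ + ‖δ • v k z‖ := norm_sub_le _ _
        _ ≤ C * (j * δ) + δ * C := add_le_add hzy h2
        _ = C * ((j + 1) * δ) := by ring
    obtain ⟨B', hB', hBd', hBm'⟩ := hstep h δ hδ hδa N hN B hB hBU hmaps
    refine ⟨B', hB', ?_, ?_, ?_⟩
    · intro z' hz'
      obtain ⟨z, hz, k, -, rfl, -⟩ := hBd' z' hz'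
      exact hmaps k z hz
    · intro z' hz'
      obtain ⟨z, hz, k, hk, rfl, hmin⟩ := hBd' z' hz'
      obtain ⟨y, hy, hzy, hd1, hd2⟩ := hBd z hz
      have hzU := hBU hz
      have hfz : f k z ≤ dist x (X z) ^ 2 / 2 + δ ^ 2 := by
        obtain ⟨i, hi, hfi⟩ := hnear z hzU
        exact (hmin i hi).trans hfi
      obtain ⟨h1, h2⟩ := step_dist h hm hδ hδb (by positivity) hzU (hmaps k z hz) hfz
      refine ⟨y, hy, ?_, ?_, ?_⟩
      · have h3 : z - δ • v k z - y = (z - y) - δ • v k z := by abel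
        rw [h3]
        have h4 : ‖δ • v k z‖ ≤ δ * C := by
          rw [norm_smul, Real.norm_eq_abs, abs_of_nonneg hδ]
          have := h.v_bd k z hzU
          gcongr
        calc ‖(z - y) - δ • v k z‖ ≤ ‖z - y‖ + ‖δ • v k z‖ := norm_sub_le _ _
          _ ≤ C * (j * δ) + δ * C := add_le_add hzy h4
          _ = C * ((j + 1) * δ) := by ring
      · have h5 : (1 - δ) * dist x (X z) ≤
            (1 - δ) * ((1 - δ) ^ j * dist x (X y) + j * (2 * KK C ρ * δ ^ 2)) := by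
          have : 0 ≤ 1 - δ := by linarith
          gcongr
        have h6 : (1 - δ) * (j * (2 * KK C ρ * δ ^ 2)) ≤ j * (2 * KK C ρ * δ ^ 2) := by
          have : 0 ≤ j * (2 * KK C ρ * δ ^ 2) := by positivity
          nlinarith
        calc dist x (X (z - δ • v k z)) ≤ (1 - δ) * dist x (X z) + KK C ρ * (δ ^ 2 + δ ^ 2) := h1
          _ ≤ (1 - δ) * ((1 - δ) ^ j * dist x (X y) + j * (2 * KK C ρ * δ ^ 2))
              + KK C ρ * (δ ^ 2 + δ ^ 2) := by linarith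
          _ = (1 - δ) ^ (j + 1) * dist x (X y) + (1 - δ) * (j * (2 * KK C ρ * δ ^ 2))
              + 2 * KK C ρ * δ ^ 2 := by ring
          _ ≤ (1 - δ) ^ (j + 1) * dist x (X y) + (j + 1) * (2 * KK C ρ * δ ^ 2) := by linarith
      · have h5 : δ * dist x (X z) ≤ δ * ((1 - δ) ^ j * dist x (X y)
            + j * (2 * KK C ρ * δ ^ 2)) := by gcongr
        have h6 : δ * (j * (2 * KK C ρ * δ ^ 2)) ≤ 2 * KK C ρ * δ ^ 2 := by
          have h7 : 0 ≤ 2 * KK C ρ * δ ^ 2 := by positivity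
          calc δ * (j * (2 * KK C ρ * δ ^ 2)) = (j * δ) * (2 * KK C ρ * δ ^ 2) := by ring
            _ ≤ 1 * (2 * KK C ρ * δ ^ 2) := by gcongr
            _ = _ := one_mul _
        have h8 := dist_triangle (X y) (X z) (X (z - δ • v k z))
        calc dist (X y) (X (z - δ • v k z)) ≤ dist (X y) (X z) + dist (X z) (X (z - δ • v k z)) := h8
          _ ≤ ((1 - (1 - δ) ^ j) * dist x (X y) + 2 * j * (2 * KK C ρ * δ ^ 2)) +
              (δ * ((1 - δ) ^ j * dist x (X y) + j * (2 * KK C ρ * δ ^ 2))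
                + KK C ρ * (δ ^ 2 + δ ^ 2)) := by linarith
          _ = (1 - (1 - δ) ^ (j + 1)) * dist x (X y) + 2 * j * (2 * KK C ρ * δ ^ 2)
              + δ * (j * (2 * KK C ρ * δ ^ 2)) + 2 * KK C ρ * δ ^ 2 := by ring
          _ ≤ (1 - (1 - δ) ^ (j + 1)) * dist x (X y) + 2 * (j + 1) * (2 * KK C ρ * δ ^ 2) := by
            linarith
    · calc ENNReal.ofReal (1 - δ * H - C' * δ ^ 2) ^ (j + 1) * (∫⁻ y in A, ENNReal.ofReal (w y))
          = ENNReal.ofReal (1 - δ * H - C' * δ ^ 2) * (ENNReal.ofReal (1 - δ * H - C' * δ ^ 2) ^ j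
            * (∫⁻ y in A, ENNReal.ofReal (w y))) := by rw [pow_succ]; ring
        _ ≤ ENNReal.ofReal (1 - δ * H - C' * δ ^ 2) * ∫⁻ y in B, ENNReal.ofReal (w y) := by gcongr
        _ ≤ _ := hBm'

end Crest.Agent.R247.Mcs816
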