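import Crest.Agent.R247.Mcp5_688
import Crest.Agent.R247.Exc1_853
import Crest.Agent.R247.Far0_553

-- ▼ part R247/Mv1_447
section

/-! # Mean value inequality over a radial contraction structure (block (1), leaf (1-MV))

`SubLap C b r A V` : weak `Δ V ≤ A` in `B_r(b)` tested with radial functions of `b` only.
`mean_value`: if `V ≥ 0` on `closedBall b r` is Lipschitz, `SubLap C b r A V` and
`Vc μ b s ≤ Ω sⁿ` for `0 < s ≤ r` then
`∫_{closedBall b r} V ∂μ ≤ exp(κ r²/2) Ω rⁿ (V b + A r²/(2n))`. -/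

set_option autoImplicit false
set_option linter.unusedSectionVars false
open MeasureTheory Set Filter Topology
open scoped ENNReal NNReal

noncomputable section
namespace Crest.Agent.R247.Mv447
open Crest.Agent.R247.Mcp688

/-- the radial weight `(max s ε)⁻ⁿ - r⁻ⁿ` cut off at `r` -/
def et (n : ℕ) (ε r s : ℝ) : ℝ := hw n ε (min s r) - (r⁻¹) ^ n

/-- its left derivative -/
def et' (n : ℕ) (ε r s : ℝ) : ℝ := if s ≤ r then hw' n ε s else 0

lemma hw_anti (m : ℕ) {ε : ℝ} (hε : 0 < ε) {s t : ℝ} (h : s ≤ t) : hw m ε t ≤ hw m ε s := by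
  unfold hw
  have h1 : 0 < max s ε := lt_max_of_lt_right hε
  have h2 : max s ε ≤ max t ε := max_le_max_right _ h
  have h3 : (max t ε)⁻¹ ≤ (max s ε)⁻¹ := inv_anti₀ h1 h2
  have h4 : 0 < (max t ε)⁻¹ := inv_pos.2 (h1.trans_le h2)
  gcongr

lemma et_nonneg (n : ℕ) {ε r : ℝ} (hε : 0 < ε) (hr : ε ≤ r) (s : ℝ) : 0 ≤ et n ε r s := by
  have h := hw_anti n hε (min_le_right s r)
  have h2 : hw n ε r = (r⁻¹) ^ n := by rw [hw, max_eq_left hr]
  unfold et
  linarith

lemma et_eq_zero (n : ℕ) {ε r : ℝ} (hr : ε ≤ r) {s : ℝ} (hs : r ≤ s) : et n ε r s = 0 := by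
  rw [et, min_eq_right hs, hw, max_eq_left hr, sub_self]

lemma et_le (n : ℕ) {ε r : ℝ} (hε : 0 < ε) (hr : ε ≤ r) (s : ℝ) :
    et n ε r s ≤ (ε⁻¹) ^ n := by
  have h := hw_le n hε (min s r)
  have h2 : 0 < (r⁻¹) ^ n := by
    have : 0 < r := hε.trans_le hr
    positivity
  unfold et
  linarith

lemma et_le' (n : ℕ) {ε r : ℝ} (hε : 0 < ε) (hr : ε ≤ r) {s : ℝ} (hs : 0 < s) :
    et n ε r s ≤ (s⁻¹) ^ n := by
  have hr0 : 0 < r := hε.trans_le hr
  rcases le_total s r with h | h
  · rw [et, min_eq_left h, hw]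
    have h1 : (max s ε)⁻¹ ≤ s⁻¹ := inv_anti₀ hs (le_max_left _ _)
    have h2 : 0 < (max s ε)⁻¹ := inv_pos.2 (lt_max_of_lt_right hε)
    have h3 : ((max s ε)⁻¹) ^ n ≤ (s⁻¹) ^ n := by gcongr
    have h4 : 0 < (r⁻¹) ^ n := by positivity
    linarith
  · rw [et_eq_zero n hr h]
    positivity

lemma continuous_et (n : ℕ) {ε r : ℝ} (hε : 0 < ε) : Continuous (et n ε r) := by
  unfold et
  exact ((continuous_hw n hε).comp (continuous_id.min continuous_const)).sub continuous_const

lemma abs_et_sub (n : ℕ) {ε r : ℝ} (hε : 0 < ε) (s t : ℝ) :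
    |et n ε r s - et n ε r t| ≤ n * (ε⁻¹) ^ (n - 1) * (ε⁻¹ * ε⁻¹) * |s - t| := by
  have h1 : |hw n ε (min s r) - hw n ε (min t r)| ≤ n * (ε⁻¹) ^ (n - 1) * (ε⁻¹ * ε⁻¹) *
      |min s r - min t r| := hw_lip n hε _ _
  have h2 : |min s r - min t r| ≤ |s - t| := by
    have := abs_min_sub_min_le_max s r t r
    rw [sub_self, abs_zero, max_eq_left (abs_nonneg _)] at this
    exact this
  unfold et
  rw [sub_sub_sub_cancel_right]
  refine h1.trans ?_
  have : 0 ≤ (n : ℝ) * (ε⁻¹) ^ (n - 1) * (ε⁻¹ * ε⁻¹) := by positivity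
  exact mul_le_mul_of_nonneg_left h2 this

lemma hasDerivWithinAt_et (n : ℕ) {ε r s : ℝ} (hε : 0 < ε) :
    HasDerivWithinAt (et n ε r) (et' n ε r s) (Iio s) s := by
  rcases le_or_gt s r with h | h
  · rw [et', if_pos h]
    have h1 := (hasDerivWithinAt_hw n (s := s) hε).sub_const ((r⁻¹) ^ n)
    refine h1.congr (fun t ht => ?_) ?_
    · have : t < s := ht
      rw [et, min_eq_left (by linarith)]
    · rw [et, min_eq_left h]
  · rw [et', if_neg (not_le.2 h)]
    refine (hasDerivWithinAt_const s (Iio s) (et n ε r r)).congr_of_eventuallyEq ?_ ?_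
    · filter_upwards [mem_nhdsWithin_of_mem_nhds (lt_mem_nhds h)] with t ht
      rw [et, et, min_eq_right ht.le, min_self]
    · rw [et, et, min_eq_right h.le, min_self]

/-- the algebraic identity of the weight -/
lemma et_identity {n : ℕ} (hn : 1 ≤ n) {ε r s : ℝ} (hε : 0 < ε) (hr : ε < r) (_hs : 0 ≤ s) :
    n * et n ε r s + et' n ε r s * s =
      (if s ≤ ε then n * (ε⁻¹) ^ n else 0) - (if s ≤ r then n * (r⁻¹) ^ n else 0) := by
  rcases le_or_gt s ε with h | h
  · have h' : s ≤ r := h.trans hr.le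
    rw [if_pos h, if_pos h', et', if_pos h', hw', if_neg (not_lt.2 h), et, min_eq_left h', hw,
      max_eq_right h]
    ring
  rcases le_or_gt s r with h' | h'
  · rw [if_neg (not_le.2 h), if_pos h', et', if_pos h', hw'_mul hn hε h, et, min_eq_left h']
    ring
  · rw [if_neg (not_le.2 h), if_neg (not_le.2 h'), et', if_neg (not_le.2 h'),
      et_eq_zero n hr.le h'.le]
    ring

variable {n : ℕ} {κ : ℝ} {X : Type*} [MetricSpace X] [MeasurableSpace X] [BorelSpace X]
  {μ : Measure X}

lemma measurable_dist_left (b : X) : Measurable fun z : X => dist b z :=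
  (continuous_const.dist continuous_id).measurable

/-- weak `Δ V ≤ A` in `B_r(b)`, tested only with radial functions of `b`; `D` is the radial
derivative of `V` w.r.t. `b` -/
def SubLap (C : Rad n κ X μ) (b : X) (r A : ℝ) (V : X → ℝ) : Prop :=
  ∃ D : X → ℝ, RD C b V D ∧ ∀ g : ℝ → ℝ, Continuous g → (∀ y, 0 ≤ g y) →
    (∀ y, r ^ 2 / 2 ≤ y → g y = 0) →
    ∫ z, g (dist b z ^ 2 / 2) * D z ∂μ ≤
      A * ∫ z, (∫ s in (dist b z ^ 2 / 2)..(r ^ 2 / 2), g s) ∂μ

/-- integrability of a function bounded on and supported in a ball of finite measure -/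
lemma integrable_of_ball {b : X} {r M : ℝ} (hfin : μ (Metric.closedBall b r) ≠ ∞) {F : X → ℝ}
    (hF : AEStronglyMeasurable F μ) (hM : ∀ᵐ z ∂μ, dist b z ≤ r → |F z| ≤ M)
    (hs : ∀ᵐ z ∂μ, r < dist b z → F z = 0) : Integrable F μ := by
  have hb : Integrable ((Metric.closedBall b r).indicator fun _ => M) μ :=
    (integrable_indicator_iff Metric.isClosed_closedBall.measurableSet).2
      (integrableOn_const hfin)
  refine hb.mono' hF ?_
  filter_upwards [hM, hs] with z h1 h2
  by_cases hz : z ∈ Metric.closedBall b r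
  · rw [indicator_of_mem hz, Real.norm_eq_abs]
    rw [Metric.mem_closedBall, dist_comm] at hz
    exact h1 hz
  · rw [indicator_of_notMem hz, Real.norm_eq_abs]
    rw [Metric.mem_closedBall, dist_comm, not_le] at hz
    rw [h2 hz, abs_zero]

/-- product of a Lipschitz function and a bounded Lipschitz function supported in a ball -/
lemma lip_mul {b : X} {r L M K E : ℝ} {V q : X → ℝ} (hK : 0 ≤ K) (hM : 0 ≤ M)
    (hV : ∀ y z, |V y - V z| ≤ L * dist y z) (hVM : ∀ z, dist b z ≤ r → |V z| ≤ M)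
    (hq : ∀ y z, |q y - q z| ≤ K * dist y z) (hqE : ∀ z, |q z| ≤ E)
    (hqs : ∀ z, r < dist b z → q z = 0) (y z : X) :
    |V y * q y - V z * q z| ≤ (|L| * E + M * K) * dist y z := by
  have hE : 0 ≤ E := (abs_nonneg _).trans (hqE z)
  have hd := dist_nonneg (x := y) (y := z)
  rcases le_or_gt (dist b z) r with hz | hz
  · have e : V y * q y - V z * q z = (V y - V z) * q y + V z * (q y - q z) := by ring
    rw [e]
    refine (abs_add_le _ _).trans ?_
    rw [abs_mul, abs_mul]
    have h1 : |V y - V z| * |q y| ≤ (|L| * dist y z) * E := by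
      refine mul_le_mul ((hV y z).trans ?_) (hqE y) (abs_nonneg _) (by positivity)
      exact mul_le_mul_of_nonneg_right (le_abs_self L) hd
    have h2 : |V z| * |q y - q z| ≤ M * (K * dist y z) :=
      mul_le_mul (hVM z hz) (hq y z) (abs_nonneg _) hM
    calc |V y - V z| * |q y| + |V z| * |q y - q z| ≤ (|L| * dist y z) * E + M * (K * dist y z) :=
          add_le_add h1 h2
      _ = _ := by ring
  · rw [hqs z hz, mul_zero, sub_zero]
    rcases le_or_gt (dist b y) r with hy | hy
    · have h2 : |V y| * |q y - q z| ≤ M * (K * dist y z) :=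
        mul_le_mul (hVM y hy) (hq y z) (abs_nonneg _) hM
      rw [hqs z hz, sub_zero] at h2
      rw [abs_mul]
      refine h2.trans ?_
      have : 0 ≤ |L| * E * dist y z := by positivity
      linarith [this, mul_assoc M K (dist y z), add_mul (|L| * E) (M * K) (dist y z)]
    · rw [hqs y hy, mul_zero, abs_zero]
      positivity

/-- **layer cake** for the test function -/
lemma integral_Z_le {b : X} {r Ω : ℝ} (_hn : 1 ≤ n) (hr : 0 < r) [SFinite μ]
    (hfin : μ (Metric.closedBall b r) ≠ ∞)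
    (hup : ∀ s, 0 < s → s ≤ r → Vc μ b s ≤ Ω * s ^ n) {g : ℝ → ℝ} (hg : Continuous g)
    (hg0 : ∀ y, 0 ≤ g y) (hgs : ∀ y, r ^ 2 / 2 ≤ y → g y = 0)
    (hgn : ∀ s, 0 < s → s ≤ r → g (s ^ 2 / 2) ≤ (s⁻¹) ^ n) :
    ∫ z, (∫ s in (dist b z ^ 2 / 2)..(r ^ 2 / 2), g s) ∂μ ≤ Ω * (r ^ 2 / 2) := by
  have hΩ : 0 ≤ Ω := by
    have h1 := hup r hr le_rfl
    have h2 : 0 ≤ Vc μ b r := ENNReal.toReal_nonneg
    have h3 : 0 < r ^ n := by positivity
    by_contra hcon
    rw [not_le] at hcon
    nlinarith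
  set ρ : ℝ := r ^ 2 / 2 with hρ
  have hρ0 : 0 < ρ := by positivity
  have hf : Measurable fun z : X => dist b z ^ 2 / 2 :=
    ((measurable_dist_left b).pow_const 2).div_const 2
  have hf0 : ∀ z : X, 0 ≤ dist b z ^ 2 / 2 := fun z => by positivity
  -- rewrite the inner integral
  have e1 : ∀ z : X, ENNReal.ofReal (∫ s in (dist b z ^ 2 / 2)..ρ, g s) =
      ∫⁻ s in Ioc 0 ρ, (if dist b z ^ 2 / 2 < s then ENNReal.ofReal (g s) else 0) := by
    intro z
    rcases le_total (dist b z ^ 2 / 2) ρ with h | h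
    · rw [intervalIntegral.integral_of_le h, ofReal_integral_eq_lintegral_ofReal
        (hg.integrableOn_Ioc) (Eventually.of_forall fun s => hg0 s)]
      have e2 : (fun s : ℝ => if dist b z ^ 2 / 2 < s then ENNReal.ofReal (g s) else 0) =
          (Ioi (dist b z ^ 2 / 2)).indicator (fun s => ENNReal.ofReal (g s)) := by
        ext s; simp [indicator, mem_Ioi]
      rw [e2, lintegral_indicator measurableSet_Ioi, Measure.restrict_restrict measurableSet_Ioi]
      congr 2
      ext s
      simp only [mem_Ioc, mem_inter_iff, mem_Ioi]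
      have := hf0 z
      constructor
      · rintro ⟨h1, h2⟩
        exact ⟨h1, by linarith, h2⟩
      · rintro ⟨h1, h2, h3⟩
        exact ⟨h1, h3⟩
    · have e3 : ∫ s in (dist b z ^ 2 / 2)..ρ, g s = 0 := by
        rw [intervalIntegral.integral_symm, intervalIntegral.integral_of_le h,
          setIntegral_eq_zero_of_forall_eq_zero, neg_zero]
        intro s hs
        exact hgs s hs.1.le
      rw [e3, ENNReal.ofReal_zero]
      symm
      rw [lintegral_eq_zero_iff']
      · filter_upwards [ae_restrict_mem measurableSet_Ioc] with s hs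
        simp only [Pi.zero_apply]
        rw [if_neg]
        rw [not_lt]
        exact hs.2.trans h
      · exact (Measurable.ite (measurableSet_lt measurable_const measurable_id)
          (ENNReal.measurable_ofReal.comp hg.measurable) measurable_const).aemeasurable
  have hZ0 : ∀ z : X, 0 ≤ ∫ s in (dist b z ^ 2 / 2)..ρ, g s := by
    intro z
    rcases le_total (dist b z ^ 2 / 2) ρ with h | h
    · exact intervalIntegral.integral_nonneg h fun s _ => hg0 s
    · rw [intervalIntegral.integral_symm, intervalIntegral.integral_of_le h,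
          setIntegral_eq_zero_of_forall_eq_zero, neg_zero]
      intro s hs
      exact hgs s hs.1.le
  have hZm : Measurable fun z : X => ∫ s in (dist b z ^ 2 / 2)..ρ, g s := by
    have h1 : Continuous fun y : ℝ => ∫ s in y..ρ, g s := by
      have h2 : Continuous fun y : ℝ => ∫ s in ρ..y, g s :=
        intervalIntegral.continuous_primitive (fun a c => hg.intervalIntegrable a c) ρ
      have h3 : (fun y : ℝ => ∫ s in y..ρ, g s) = fun y => -∫ s in ρ..y, g s := by
        ext y; rw [intervalIntegral.integral_symm]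
      rw [h3]
      exact h2.neg
    exact h1.measurable.comp hf
  rw [integral_eq_lintegral_of_nonneg_ae (Eventually.of_forall hZ0) hZm.aestronglyMeasurable]
  refine ENNReal.toReal_le_of_le_ofReal (by positivity) ?_
  simp_rw [e1]
  rw [lintegral_lintegral_swap]
  · calc ∫⁻ s in Ioc 0 ρ, ∫⁻ z, (if dist b z ^ 2 / 2 < s then ENNReal.ofReal (g s) else 0) ∂μ
        ≤ ∫⁻ _ in Ioc 0 ρ, ENNReal.ofReal Ω := by
          apply setLIntegral_mono measurable_const
          intro s hs
          set t : ℝ := Real.sqrt (2 * s) with ht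
          have ht2 : t ^ 2 = 2 * s := Real.sq_sqrt (by linarith [hs.1])
          have ht0 : 0 < t := Real.sqrt_pos.2 (by linarith [hs.1])
          have htr : t ≤ r := by
            have : t ^ 2 ≤ r ^ 2 := by rw [ht2]; linarith [hs.2]
            exact le_of_sq_le_sq this hr.le
          have e2 : (fun z : X => if dist b z ^ 2 / 2 < s then ENNReal.ofReal (g s) else 0) =
              {z : X | dist b z ^ 2 / 2 < s}.indicator (fun _ => ENNReal.ofReal (g s)) := by
            ext z; simp [indicator]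
          rw [e2, lintegral_indicator_const (measurableSet_lt hf measurable_const)]
          have hsub : {z : X | dist b z ^ 2 / 2 < s} ⊆ Metric.closedBall b t := by
            intro z hz
            rw [Metric.mem_closedBall, dist_comm]
            have h1 : dist b z ^ 2 / 2 < s := hz
            have h2 : dist b z ^ 2 ≤ t ^ 2 := by rw [ht2]; linarith
            exact le_of_sq_le_sq h2 ht0.le
          have hfint : μ (Metric.closedBall b t) ≠ ∞ :=
            ne_top_of_le_ne_top hfin (measure_mono (Metric.closedBall_subset_closedBall htr))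
          have h3 : μ {z : X | dist b z ^ 2 / 2 < s} ≤ ENNReal.ofReal (Ω * t ^ n) := by
            refine (measure_mono hsub).trans ?_
            rw [← ENNReal.ofReal_toReal hfint]
            exact ENNReal.ofReal_le_ofReal (hup t ht0 htr)
          have h4 : g s ≤ (t⁻¹) ^ n := by
            have := hgn t ht0 htr
            rwa [ht2, mul_div_cancel_left₀ s (two_ne_zero)] at this
          calc ENNReal.ofReal (g s) * μ {z : X | dist b z ^ 2 / 2 < s}
              ≤ ENNReal.ofReal ((t⁻¹) ^ n) * ENNReal.ofReal (Ω * t ^ n) := by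
                gcongr
            _ = ENNReal.ofReal Ω := by
                rw [← ENNReal.ofReal_mul (by positivity)]
                congr 1
                rw [inv_pow]
                field_simp
      _ = ENNReal.ofReal (Ω * (r ^ 2 / 2)) := by
          rw [setLIntegral_const, Real.volume_Ioc, ← ENNReal.ofReal_mul hΩ, sub_zero]
  · apply Measurable.aemeasurable
    exact Measurable.ite (measurableSet_lt (hf.comp measurable_fst) measurable_snd)
      (ENNReal.measurable_ofReal.comp (hg.measurable.comp measurable_snd)) measurable_const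

end Crest.Agent.R247.Mv447
end
end

-- ▼ part R247/Mv2_447
section

/-! # Mean value inequality over a radial contraction structure: the theorem -/

set_option autoImplicit false
set_option linter.unusedSectionVars false
open MeasureTheory Set Filter Topology
open scoped ENNReal NNReal

noncomputable section
namespace Crest.Agent.R247.Mv447
open Crest.Agent.R247.Mcp688

variable {n : ℕ} {κ : ℝ} {X : Type*} [MetricSpace X] [MeasurableSpace X] [BorelSpace X]
  {μ : Measure X}

lemma measurable_of_lip {V : X → ℝ} {L : ℝ} (hV : ∀ y z, |V y - V z| ≤ L * dist y z) :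
    Measurable V := by
  have : LipschitzWith (Real.toNNReal |L|) V := by
    apply LipschitzWith.of_dist_le_mul
    intro y z
    rw [Real.coe_toNNReal _ (abs_nonneg L), Real.dist_eq]
    refine (hV y z).trans ?_
    gcongr
    exact le_abs_self L
  exact this.continuous.measurable

lemma bound_of_lip {V : X → ℝ} {L r : ℝ} {b : X} (hV : ∀ y z, |V y - V z| ≤ L * dist y z)
    (z : X) (hz : dist b z ≤ r) : |V z| ≤ |V b| + |L| * r := by
  have h1 := hV z b
  have h2 : |V z| ≤ |V b| + |V z - V b| := by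
    have := abs_add_le (V b) (V z - V b)
    simpa using this
  have h3 : L * dist z b ≤ |L| * r := by
    rw [dist_comm]
    calc L * dist b z ≤ |L| * dist b z := by gcongr; exact le_abs_self L
      _ ≤ _ := by gcongr
  linarith

/-- mean value inequality with a cut-off at `ε` -/
lemma mean_value_aux (C : Rad n κ X μ) (hκ : 0 ≤ κ) (hn : 1 ≤ n) {b : X} {r A Ω L : ℝ}
    [SFinite μ] (hr : 0 < r) (hA : 0 ≤ A) (hfin : μ (Metric.closedBall b r) ≠ ∞)
    (hup : ∀ s, 0 < s → s ≤ r → Vc μ b s ≤ Ω * s ^ n) {V : X → ℝ}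
    (hV : ∀ y z, |V y - V z| ≤ L * dist y z) (hV0 : ∀ z, dist b z ≤ r → 0 ≤ V z)
    (hlap : SubLap C b r A V) {ε : ℝ} (hε : 0 < ε) (hεr : ε < r) :
    n * (r⁻¹) ^ n * ∫ z in Metric.closedBall b r, V z ∂(wm μ κ b) ≤
      n * ((V b + |L| * ε) * Ω) + A * (Ω * (r ^ 2 / 2)) := by
  obtain ⟨D, hD, htest⟩ := hlap
  set ν := wm μ κ b with hν
  have hmb : MeasurableSet (Metric.closedBall b r) := Metric.isClosed_closedBall.measurableSet
  have hmbε : MeasurableSet (Metric.closedBall b ε) := Metric.isClosed_closedBall.measurableSet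
  have hd := measurable_dist_left b
  have hVm : Measurable V := measurable_of_lip hV
  have hfinν : ∀ s, ν (Metric.closedBall b s) ≠ ∞ := fun s =>
    ne_top_of_le_ne_top (C.closedBall_ne_top hκ b hr hfin) (wm_le μ b hκ _)
  set q : X → ℝ := fun z => et n ε r (dist b z) with hq
  have hqm : Measurable q := (continuous_et n hε).measurable.comp hd
  have hq0 : ∀ z, 0 ≤ q z := fun z => et_nonneg n hε hεr.le _
  have hqE : ∀ z, |q z| ≤ (ε⁻¹) ^ n := fun z => by
    rw [abs_of_nonneg (hq0 z)]; exact et_le n hε hεr.le _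
  have hqs : ∀ z, r < dist b z → q z = 0 := fun z hz => et_eq_zero n hεr.le hz.le
  set K : ℝ := n * (ε⁻¹) ^ (n - 1) * (ε⁻¹ * ε⁻¹) with hK
  have hK0 : 0 ≤ K := by positivity
  have hqL : ∀ y z, |q y - q z| ≤ K * dist y z := by
    intro y z
    refine (abs_et_sub n hε _ _).trans ?_
    apply mul_le_mul_of_nonneg_left _ hK0
    rw [abs_le]
    have h1 := dist_triangle b z y
    have h2 := dist_triangle b y z
    rw [dist_comm z y] at h1
    constructor <;> linarith
  set M : ℝ := |V b| + |L| * r with hM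
  have hM0 : 0 ≤ M := by positivity
  have hVM : ∀ z, dist b z ≤ r → |V z| ≤ M := fun z hz => bound_of_lip hV z hz
  set φ : X → ℝ := fun z => V z * q z with hφ
  have hφm : Measurable φ := hVm.mul hqm
  have hφ0 : ∀ z, 0 ≤ φ z := by
    intro z
    rcases le_or_gt (dist b z) r with h | h
    · exact mul_nonneg (hV0 z h) (hq0 z)
    · show 0 ≤ V z * q z
      rw [hqs z h, mul_zero]
  have hφs : ∀ z, r < dist b z → φ z = 0 := fun z hz => by
    show V z * q z = 0
    rw [hqs z hz, mul_zero]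
  set KK : ℝ := |L| * (ε⁻¹) ^ n + M * K with hKK
  have hKK0 : 0 ≤ KK := by positivity
  have hφL : ∀ y z, |φ y - φ z| ≤ KK * dist y z :=
    fun y z => lip_mul hK0 hM0 hV hVM hqL hqE hqs y z
  have hφb : ∀ z, dist b z ≤ r → |φ z| ≤ M * (ε⁻¹) ^ n := fun z hz => by
    show |V z * q z| ≤ _
    rw [abs_mul]
    exact mul_le_mul (hVM z hz) (hqE z) (abs_nonneg _) hM0
  have hφI : Integrable φ ν := integrable_of_ball (hfinν r) hφm.aestronglyMeasurable
    (Eventually.of_forall hφb) (Eventually.of_forall hφs)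
  have hRDq : RD C b q (fun z => et' n ε r (dist b z) * dist b z) :=
    RD.radial (Eventually.of_forall fun _ _ => hasDerivWithinAt_et n hε)
  have hRD := hD.mul hRDq
  have key := C.weak_lap b (φ := φ) (b := (Metric.closedBall b (2 * r)).indicator fun _ =>
      KK * (2 * r)) hφm hφ0 hφI hRD
    (by
      filter_upwards [C.ae_U b] with z hU t ht
      have ht' : t ∈ Icc (0 : ℝ) 1 := ⟨by linarith [ht.1], ht.2.le⟩
      have h1t : 0 < 1 - t := by linarith [ht.2]
      have hdl := C.dist_left hU ht'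
      have hdr := C.dist_right hU ht'
      by_cases hz : z ∈ Metric.closedBall b (2 * r)
      · rw [indicator_of_mem hz]
        rw [Metric.mem_closedBall, dist_comm] at hz
        calc |φ (C.T b t z) - φ z| ≤ KK * dist (C.T b t z) z := hφL _ _
          _ = (1 - t) * (KK * dist b z) := by rw [hdr]; ring
          _ ≤ _ := by gcongr
      · rw [indicator_of_notMem hz, mul_zero]
        rw [Metric.mem_closedBall, dist_comm, not_le] at hz
        rw [hφs z (by linarith), hφs (C.T b t z) (by rw [hdl]; nlinarith [ht.1])]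
        simp)
    ((integrable_indicator_iff Metric.isClosed_closedBall.measurableSet).2
      (integrableOn_const (hfinν (2 * r))))
  -- integrability of the pieces
  have hDm : AEMeasurable D ν := (hD.aemeasurable hVm).mono_ac (wm_ac μ b κ)
  have hDb : ∀ᵐ z ∂μ, |D z| ≤ L * dist b z := hD.abs_le hV
  have hDbν : ∀ᵐ z ∂ν, |D z| ≤ L * dist b z := (ae_wm_iff μ b κ).2 hDb
  have hL0 : ∀ᵐ z ∂ν, dist b z ≤ r → |D z| ≤ |L| * r := by
    filter_upwards [hDbν] with z hz hzr
    calc |D z| ≤ L * dist b z := hz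
      _ ≤ |L| * dist b z := by gcongr; exact le_abs_self L
      _ ≤ |L| * r := by gcongr
  have hDqI : Integrable (fun z => D z * q z) ν := by
    refine integrable_of_ball (b := b) (M := |L| * r * (ε⁻¹) ^ n) (hfinν r)
      (hDm.mul hqm.aemeasurable).aestronglyMeasurable ?_ ?_
    · filter_upwards [hL0] with z hz hzr
      rw [abs_mul]
      exact mul_le_mul (hz hzr) (hqE z) (abs_nonneg _) (by positivity)
    · exact Eventually.of_forall fun z hz => by rw [hqs z hz, mul_zero]
  have hVI : ∀ s, s ≤ r → IntegrableOn V (Metric.closedBall b s) ν := by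
    intro s hs
    refine IntegrableOn.of_bound (lt_of_le_of_ne le_top (hfinν s))
      hVm.aestronglyMeasurable.restrict M ?_
    filter_upwards [ae_restrict_mem Metric.isClosed_closedBall.measurableSet] with z hz
    rw [Real.norm_eq_abs]
    apply hVM
    rw [Metric.mem_closedBall, dist_comm] at hz
    linarith
  -- the algebraic identity
  have hid : ∀ z, n * φ z + (D z * q z + V z * (et' n ε r (dist b z) * dist b z)) =
      n * (ε⁻¹) ^ n * (Metric.closedBall b ε).indicator V z -
        n * (r⁻¹) ^ n * (Metric.closedBall b r).indicator V z + D z * q z := by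
    intro z
    have h1 := et_identity hn hε hεr (s := dist b z) dist_nonneg
    have e1 : (Metric.closedBall b ε).indicator V z = if dist b z ≤ ε then V z else 0 := by
      simp [indicator, dist_comm]
    have e2 : (Metric.closedBall b r).indicator V z = if dist b z ≤ r then V z else 0 := by
      simp [indicator, dist_comm]
    rw [e1, e2]
    have h2 : n * φ z + V z * (et' n ε r (dist b z) * dist b z) =
        V z * (n * et n ε r (dist b z) + et' n ε r (dist b z) * dist b z) := by
      show n * (V z * et n ε r (dist b z)) + _ = _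
      ring
    rw [h1] at h2
    have h3 : n * φ z + (D z * q z + V z * (et' n ε r (dist b z) * dist b z)) =
        (n * φ z + V z * (et' n ε r (dist b z) * dist b z)) + D z * q z := by ring
    rw [h3, h2]
    split_ifs <;> ring
  have hIε : Integrable ((Metric.closedBall b ε).indicator V) ν :=
    (integrable_indicator_iff hmbε).2 (hVI ε hεr.le)
  have hIr : Integrable ((Metric.closedBall b r).indicator V) ν :=
    (integrable_indicator_iff hmb).2 (hVI r le_rfl)
  have hA1 : Integrable (fun z => n * (ε⁻¹) ^ n * (Metric.closedBall b ε).indicator V z) ν :=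
    hIε.const_mul _
  have hA2 : Integrable (fun z => n * (r⁻¹) ^ n * (Metric.closedBall b r).indicator V z) ν :=
    hIr.const_mul _
  have hA12 : Integrable (fun z => n * (ε⁻¹) ^ n * (Metric.closedBall b ε).indicator V z -
        n * (r⁻¹) ^ n * (Metric.closedBall b r).indicator V z) ν := hA1.sub hA2
  have hA3 : Integrable (fun z => n * φ z) ν := hφI.const_mul _
  have hA4 : Integrable (fun z => D z * q z + V z * (et' n ε r (dist b z) * dist b z)) ν := by
    have : (fun z => D z * q z + V z * (et' n ε r (dist b z) * dist b z)) = fun z =>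
        (n * (ε⁻¹) ^ n * (Metric.closedBall b ε).indicator V z -
        n * (r⁻¹) ^ n * (Metric.closedBall b r).indicator V z + D z * q z) - n * φ z := by
      ext z
      rw [← hid z]; ring
    rw [this]
    exact (hA12.add hDqI).sub hA3
  have hsum : n * ∫ z, φ z ∂ν + ∫ z, (D z * q z + V z * (et' n ε r (dist b z) * dist b z)) ∂ν =
      n * (ε⁻¹) ^ n * ∫ z in Metric.closedBall b ε, V z ∂ν -
        n * (r⁻¹) ^ n * ∫ z in Metric.closedBall b r, V z ∂ν + ∫ z, D z * q z ∂ν := by
    rw [← integral_const_mul, ← integral_add hA3 hA4, ← integral_indicator hmbε,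
      ← integral_indicator hmb, ← integral_const_mul, ← integral_const_mul,
      ← integral_sub hA1 hA2, ← integral_add hA12 hDqI]
    congr 1
    ext z
    exact hid z
  rw [hsum] at key
  -- the D-term
  have hD1 : ∫ z, D z * q z ∂ν ≤ A * (Ω * (r ^ 2 / 2)) := by
    set g : ℝ → ℝ := fun y => wt κ (Real.sqrt (2 * y)) * et n ε r (Real.sqrt (2 * y)) with hg
    have hgc : Continuous g := by
      have h1 : Continuous fun y : ℝ => Real.sqrt (2 * y) := by fun_prop
      exact ((continuous_wt κ).comp h1).mul ((continuous_et n hε).comp h1)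
    have hg0 : ∀ y, 0 ≤ g y := fun y => mul_nonneg (wt_pos _ _).le (et_nonneg n hε hεr.le _)
    have hgs : ∀ y, r ^ 2 / 2 ≤ y → g y = 0 := by
      intro y hy
      have h1 : r ≤ Real.sqrt (2 * y) := by
        apply Real.le_sqrt_of_sq_le
        linarith
      show wt κ _ * et n ε r _ = 0
      rw [et_eq_zero n hεr.le h1, mul_zero]
    have hgd : ∀ s : ℝ, 0 ≤ s → g (s ^ 2 / 2) = wt κ s * et n ε r s := by
      intro s hs
      have h1 : Real.sqrt (2 * (s ^ 2 / 2)) = s := by
        rw [mul_div_cancel₀ _ (two_ne_zero), Real.sqrt_sq hs]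
      show wt κ (Real.sqrt (2 * (s ^ 2 / 2))) * et n ε r (Real.sqrt (2 * (s ^ 2 / 2))) = _
      rw [h1]
    have hgn : ∀ s, 0 < s → s ≤ r → g (s ^ 2 / 2) ≤ (s⁻¹) ^ n := by
      intro s hs hsr
      rw [hgd s hs.le]
      calc wt κ s * et n ε r s ≤ 1 * et n ε r s := by
            gcongr
            · exact et_nonneg n hε hεr.le _
            · exact wt_le_one hκ s
        _ ≤ _ := by rw [one_mul]; exact et_le' n hε hεr.le hs
    have e1 : ∫ z, D z * q z ∂ν = ∫ z, g (dist b z ^ 2 / 2) * D z ∂μ := by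
      rw [hν, integral_wm]
      congr 1
      ext z
      rw [hgd _ dist_nonneg]
      ring
    rw [e1]
    refine (htest g hgc hg0 hgs).trans ?_
    exact mul_le_mul_of_nonneg_left (integral_Z_le hn hr hfin hup hgc hg0 hgs hgn) hA
  -- the inner ball
  have hin : n * (ε⁻¹) ^ n * ∫ z in Metric.closedBall b ε, V z ∂ν ≤
      n * ((V b + |L| * ε) * Ω) := by
    have hVb : 0 ≤ V b := hV0 b (by rw [dist_self]; exact hr.le)
    have h0 : 0 ≤ V b + |L| * ε := by positivity
    have h1 : ∫ z in Metric.closedBall b ε, V z ∂ν ≤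
        ∫ _ in Metric.closedBall b ε, (V b + |L| * ε) ∂ν := by
      apply setIntegral_mono_on (hVI ε hεr.le) (integrableOn_const (hfinν ε)) hmbε
      intro z hz
      rw [Metric.mem_closedBall, dist_comm] at hz
      have h2 := (abs_le.1 (hV z b)).2
      have h3 : L * dist z b ≤ |L| * ε := by
        rw [dist_comm]
        calc L * dist b z ≤ |L| * dist b z := by gcongr; exact le_abs_self L
          _ ≤ _ := by gcongr
      linarith
    have h2 : ∫ _ in Metric.closedBall b ε, (V b + |L| * ε) ∂ν ≤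
        (V b + |L| * ε) * (Ω * ε ^ n) := by
      rw [setIntegral_const, smul_eq_mul, mul_comm]
      apply mul_le_mul_of_nonneg_left _ h0
      refine le_trans ?_ (hup ε hε hεr.le)
      exact ENNReal.toReal_mono (ne_top_of_le_ne_top hfin
        (measure_mono (Metric.closedBall_subset_closedBall hεr.le))) (wm_le μ b hκ _)
    have h3 : 0 ≤ n * (ε⁻¹) ^ n := by positivity
    calc n * (ε⁻¹) ^ n * ∫ z in Metric.closedBall b ε, V z ∂ν
        ≤ n * (ε⁻¹) ^ n * ((V b + |L| * ε) * (Ω * ε ^ n)) :=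
          mul_le_mul_of_nonneg_left (h1.trans h2) h3
      _ = n * ((V b + |L| * ε) * Ω) * ((ε⁻¹) ^ n * ε ^ n) := by ring
      _ = _ := by rw [inv_pow, inv_mul_cancel₀ (by positivity), mul_one]
  linarith

/-- **Mean value inequality.** -/
theorem mean_value (C : Rad n κ X μ) (hκ : 0 ≤ κ) (hn : 1 ≤ n) {b : X} {r A Ω L : ℝ}
    [SFinite μ] (hr : 0 < r) (hA : 0 ≤ A) (hfin : μ (Metric.closedBall b r) ≠ ∞)
    (hup : ∀ s, 0 < s → s ≤ r → Vc μ b s ≤ Ω * s ^ n) {V : X → ℝ}
    (hV : ∀ y z, |V y - V z| ≤ L * dist y z) (hV0 : ∀ z, dist b z ≤ r → 0 ≤ V z)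
    (hlap : SubLap C b r A V) :
    ∫ z in Metric.closedBall b r, V z ∂μ ≤
      Real.exp (κ * r ^ 2 / 2) * Ω * r ^ n * (V b + A * r ^ 2 / (2 * n)) := by
  have hmb : MeasurableSet (Metric.closedBall b r) := Metric.isClosed_closedBall.measurableSet
  have hVb : 0 ≤ V b := hV0 b (by rw [dist_self]; exact hr.le)
  have hVm : Measurable V := measurable_of_lip hV
  have hn0 : (0 : ℝ) < n := by exact_mod_cast hn
  set I : ℝ := ∫ z in Metric.closedBall b r, V z ∂(wm μ κ b) with hI
  -- let `ε → 0`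
  have h1 : n * (r⁻¹) ^ n * I ≤ n * (V b * Ω) + A * (Ω * (r ^ 2 / 2)) := by
    have hlim : Tendsto (fun ε : ℝ => n * ((V b + |L| * ε) * Ω) + A * (Ω * (r ^ 2 / 2)))
        (𝓝[>] 0) (𝓝 (n * ((V b + |L| * 0) * Ω) + A * (Ω * (r ^ 2 / 2)))) := by
      apply Tendsto.mono_left _ nhdsWithin_le_nhds
      apply Continuous.tendsto
      fun_prop
    rw [mul_zero, add_zero] at hlim
    refine ge_of_tendsto hlim ?_
    filter_upwards [Ioo_mem_nhdsGT hr] with ε hε
    exact mean_value_aux C hκ hn hr hA hfin hup hV hV0 hlap hε.1 hε.2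
  have h2 : I ≤ Ω * r ^ n * (V b + A * r ^ 2 / (2 * n)) := by
    have e1 : n * (r⁻¹) ^ n * (Ω * r ^ n * (V b + A * r ^ 2 / (2 * n))) =
        n * (V b * Ω) + A * (Ω * (r ^ 2 / 2)) := by
      rw [inv_pow]
      field_simp
    rw [← e1] at h1
    exact le_of_mul_le_mul_left h1 (by positivity)
  have h3 : Real.exp (-(κ * r ^ 2 / 2)) * ∫ z in Metric.closedBall b r, V z ∂μ ≤ I := by
    have hVIμ : IntegrableOn V (Metric.closedBall b r) μ := by
      refine IntegrableOn.of_bound (lt_of_le_of_ne le_top hfin)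
        hVm.aestronglyMeasurable.restrict (|V b| + |L| * r) ?_
      filter_upwards [ae_restrict_mem hmb] with z hz
      rw [Real.norm_eq_abs]
      apply bound_of_lip hV
      rwa [Metric.mem_closedBall, dist_comm] at hz
    have e1 : I = ∫ z in Metric.closedBall b r, wt κ (dist b z) * V z ∂μ := by
      rw [hI, ← integral_indicator hmb, integral_wm, ← integral_indicator hmb]
      congr 1
      ext z
      by_cases hz : z ∈ Metric.closedBall b r
      · rw [indicator_of_mem hz, indicator_of_mem hz]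
      · rw [indicator_of_notMem hz, indicator_of_notMem hz, mul_zero]
    rw [e1, ← integral_const_mul]
    have hwI : IntegrableOn (fun z => wt κ (dist b z) * V z) (Metric.closedBall b r) μ := by
      refine Integrable.mono' hVIμ.abs
        ((((continuous_wt κ).measurable.comp (measurable_dist_left b)).mul
          hVm).aestronglyMeasurable) ?_
      refine Eventually.of_forall fun z => ?_
      rw [Real.norm_eq_abs, abs_mul, abs_of_pos (wt_pos _ _)]
      calc wt κ (dist b z) * |V z| ≤ 1 * |V z| := by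
            gcongr; exact wt_le_one hκ _
        _ = _ := one_mul _
    apply setIntegral_mono_on (hVIμ.const_mul _) hwI hmb
    intro z hz
    rw [Metric.mem_closedBall, dist_comm] at hz
    exact mul_le_mul_of_nonneg_right (wt_anti hκ dist_nonneg hz) (hV0 z hz)
  have h4 : Real.exp (κ * r ^ 2 / 2) * Real.exp (-(κ * r ^ 2 / 2)) = 1 := by
    rw [← Real.exp_add, add_neg_cancel, Real.exp_zero]
  have h5 := (Real.exp_pos (κ * r ^ 2 / 2)).le
  calc ∫ z in Metric.closedBall b r, V z ∂μ
      = Real.exp (κ * r ^ 2 / 2) * (Real.exp (-(κ * r ^ 2 / 2)) *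
          ∫ z in Metric.closedBall b r, V z ∂μ) := by rw [← mul_assoc, h4, one_mul]
    _ ≤ Real.exp (κ * r ^ 2 / 2) * (Ω * r ^ n * (V b + A * r ^ 2 / (2 * n))) :=
        mul_le_mul_of_nonneg_left (h3.trans h2) h5
    _ = _ := by ring

end Crest.Agent.R247.Mv447
end
end

-- ▼ part R247/Mv3_447
section

/-! # `SubLap` for distance functions and the mean value inequality for excess functions -/

set_option autoImplicit false
set_option linter.unusedSectionVars false
open MeasureTheory Set Filter Topology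
open scoped ENNReal NNReal

noncomputable section
namespace Crest.Agent.R247.Mv447
open Crest.Agent.R247.Mcp688

variable {n : ℕ} {κ : ℝ} {X : Type*} [MetricSpace X] [MeasurableSpace X] [BorelSpace X]
  {μ : Measure X}

/-- symmetry of the radial derivatives of the two half squared distances:
`D_v f_b = D_b f_v` (`= ⟪∇f_v, ∇f_b⟫`) -/
def RDsymm (C : Rad n κ X μ) (v b : X) : Prop :=
  ∃ D : X → ℝ, RD C v (fun z => dist b z ^ 2 / 2) D ∧ RD C b (fun z => dist v z ^ 2 / 2) D

/-! ### the primitive -/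

section Zg
variable {g : ℝ → ℝ} {r : ℝ}

lemma exists_bound_g (hg : Continuous g) (hgs : ∀ y, r ^ 2 / 2 ≤ y → g y = 0) :
    ∃ G : ℝ, 0 ≤ G ∧ ∀ y, 0 ≤ y → |g y| ≤ G := by
  obtain ⟨G, hG⟩ := (isCompact_Icc (a := (0 : ℝ)) (b := r ^ 2 / 2)).exists_bound_of_continuousOn
    hg.continuousOn
  refine ⟨|G|, abs_nonneg _, fun y hy => ?_⟩
  rcases le_total y (r ^ 2 / 2) with h | h
  · have := hG y ⟨hy, h⟩
    rw [Real.norm_eq_abs] at this
    exact this.trans (le_abs_self G)
  · rw [hgs y h, abs_zero]; exact abs_nonneg _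

lemma Z_eq_zero (hgs : ∀ y, r ^ 2 / 2 ≤ y → g y = 0) {y : ℝ} (hy : r ^ 2 / 2 ≤ y) :
    ∫ s in y..(r ^ 2 / 2), g s = 0 := by
  rw [intervalIntegral.integral_symm, intervalIntegral.integral_of_le hy,
    setIntegral_eq_zero_of_forall_eq_zero, neg_zero]
  intro s hs
  exact hgs s hs.1.le

lemma Z_nonneg (hg0 : ∀ y, 0 ≤ g y) (hgs : ∀ y, r ^ 2 / 2 ≤ y → g y = 0) (y : ℝ) :
    0 ≤ ∫ s in y..(r ^ 2 / 2), g s := by
  rcases le_total y (r ^ 2 / 2) with h | h
  · exact intervalIntegral.integral_nonneg h fun s _ => hg0 s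
  · rw [Z_eq_zero hgs h]

lemma Z_sub (hg : Continuous g) (a c : ℝ) :
    (∫ s in a..(r ^ 2 / 2), g s) - ∫ s in c..(r ^ 2 / 2), g s = ∫ s in a..c, g s := by
  have h := intervalIntegral.integral_add_adjacent_intervals (μ := volume)
    (hg.intervalIntegrable a c) (hg.intervalIntegrable c (r ^ 2 / 2))
  linarith

lemma abs_Z_sub_le (hg : Continuous g) {G : ℝ} (hG : ∀ y, 0 ≤ y → |g y| ≤ G) {a c : ℝ}
    (ha : 0 ≤ a) (hc : 0 ≤ c) :
    |(∫ s in a..(r ^ 2 / 2), g s) - ∫ s in c..(r ^ 2 / 2), g s| ≤ G * |a - c| := by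
  rw [Z_sub hg]
  have := intervalIntegral.norm_integral_le_of_norm_le_const (f := g) (a := a) (b := c) (C := G)
    (fun s hs => by
      rw [Real.norm_eq_abs]
      apply hG
      have : min a c < s := by
        rw [uIoc, mem_Ioc] at hs
        exact hs.1
      exact (le_min ha hc).trans this.le)
  rw [Real.norm_eq_abs] at this
  rwa [abs_sub_comm a c]

lemma Z_min (hr : 0 ≤ r) (hgs : ∀ y, r ^ 2 / 2 ≤ y → g y = 0) (d : ℝ) :
    ∫ s in (d ^ 2 / 2)..(r ^ 2 / 2), g s =
      ∫ s in ((min d r) ^ 2 / 2)..(r ^ 2 / 2), g s := by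
  rcases le_total d r with h | h
  · rw [min_eq_left h]
  · rw [min_eq_right h, intervalIntegral.integral_same]
    apply Z_eq_zero hgs
    have : r ^ 2 ≤ d ^ 2 := by gcongr
    linarith

lemma Z_lip (hr : 0 ≤ r) (hg : Continuous g) (hgs : ∀ y, r ^ 2 / 2 ≤ y → g y = 0) {G : ℝ}
    (hG0 : 0 ≤ G) (hG : ∀ y, 0 ≤ y → |g y| ≤ G) {d e : ℝ} (hd : 0 ≤ d) (he : 0 ≤ e) :
    |(∫ s in (d ^ 2 / 2)..(r ^ 2 / 2), g s) - ∫ s in (e ^ 2 / 2)..(r ^ 2 / 2), g s| ≤
      G * r * |d - e| := by
  rw [Z_min hr hgs d, Z_min hr hgs e]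
  refine (abs_Z_sub_le hg hG (by positivity) (by positivity)).trans ?_
  rw [mul_assoc]
  apply mul_le_mul_of_nonneg_left _ hG0
  have h1 : |min d r - min e r| ≤ |d - e| := by
    have := abs_min_sub_min_le_max d r e r
    rw [sub_self, abs_zero, max_eq_left (abs_nonneg _)] at this
    exact this
  have h2 : 0 ≤ min d r := le_min hd hr
  have h3 : 0 ≤ min e r := le_min he hr
  have e1 : min d r ^ 2 / 2 - min e r ^ 2 / 2 = (min d r + min e r) / 2 * (min d r - min e r) := by
    ring
  rw [e1, abs_mul, abs_of_nonneg (by positivity)]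
  have h4 : (min d r + min e r) / 2 ≤ r := by
    have := min_le_right d r
    have := min_le_right e r
    linarith
  exact mul_le_mul h4 h1 (abs_nonneg _) hr

lemma Z_le (hr : 0 ≤ r) (hg : Continuous g) (hgs : ∀ y, r ^ 2 / 2 ≤ y → g y = 0) {G : ℝ}
    (hG0 : 0 ≤ G) (hG : ∀ y, 0 ≤ y → |g y| ≤ G) {d : ℝ} (hd : 0 ≤ d) :
    |∫ s in (d ^ 2 / 2)..(r ^ 2 / 2), g s| ≤ G * r * r := by
  have h1 : (∫ s in (r ^ 2 / 2)..(r ^ 2 / 2), g s) = 0 := intervalIntegral.integral_same
  rw [Z_min hr hgs d]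
  have h2 := Z_lip hr hg hgs hG0 hG (d := min d r) (e := r) (le_min hd hr) hr
  rw [h1, sub_zero] at h2
  refine h2.trans ?_
  have h3 : |min d r - r| ≤ r := by
    rw [abs_sub_comm, abs_of_nonneg (by linarith [min_le_right d r])]
    have : 0 ≤ min d r := le_min hd hr
    linarith
  have : 0 ≤ G * r := by positivity
  exact mul_le_mul_of_nonneg_left h3 this

lemma hasDerivAt_Z (hg : Continuous g) (y : ℝ) :
    HasDerivAt (fun u : ℝ => ∫ s in u..(r ^ 2 / 2), g s) (-g y) y :=
  intervalIntegral.integral_hasDerivAt_left (hg.intervalIntegrable _ _)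
    (hg.stronglyMeasurableAtFilter _ _) hg.continuousAt

lemma continuous_Z (hg : Continuous g) : Continuous fun u : ℝ => ∫ s in u..(r ^ 2 / 2), g s :=
  continuous_iff_continuousAt.2 fun y => (hasDerivAt_Z hg y).continuousAt

end Zg

/-! ### integrability -/

lemma integrable_gD (C : Rad n κ X μ) {b : X} {r L : ℝ}
    (hfin : μ (Metric.closedBall b r) ≠ ∞) {V D : X → ℝ}
    (hV : ∀ y z, |V y - V z| ≤ L * dist y z) (hD : RD C b V D) {g : ℝ → ℝ} (hg : Continuous g)
    (hgs : ∀ y, r ^ 2 / 2 ≤ y → g y = 0) (hr : 0 < r) :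
    Integrable (fun z => g (dist b z ^ 2 / 2) * D z) μ := by
  obtain ⟨G, hG0, hG⟩ := exists_bound_g hg hgs
  have hfm : Measurable fun z : X => dist b z ^ 2 / 2 :=
    ((measurable_dist_left b).pow_const 2).div_const 2
  refine integrable_of_ball (b := b) (r := r) (M := G * (|L| * r)) hfin
    ((hg.measurable.comp hfm).aemeasurable.mul
      (hD.aemeasurable (measurable_of_lip hV))).aestronglyMeasurable ?_ ?_
  · filter_upwards [hD.abs_le hV] with z hz hzr
    rw [abs_mul]
    refine mul_le_mul (hG _ (by positivity)) ?_ (abs_nonneg _) hG0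
    calc |D z| ≤ L * dist b z := hz
      _ ≤ |L| * dist b z := by gcongr; exact le_abs_self L
      _ ≤ |L| * r := by gcongr
  · refine Eventually.of_forall fun z hz => ?_
    rw [hgs, zero_mul]
    have : r ^ 2 ≤ dist b z ^ 2 := by gcongr
    linarith

lemma integrable_Z {b : X} {r : ℝ} (hfin : μ (Metric.closedBall b r) ≠ ∞) {g : ℝ → ℝ}
    (hg : Continuous g) (hgs : ∀ y, r ^ 2 / 2 ≤ y → g y = 0) (hr : 0 < r) :
    Integrable (fun z => ∫ s in (dist b z ^ 2 / 2)..(r ^ 2 / 2), g s) μ := by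
  obtain ⟨G, hG0, hG⟩ := exists_bound_g hg hgs
  have hfm : Measurable fun z : X => dist b z ^ 2 / 2 :=
    ((measurable_dist_left b).pow_const 2).div_const 2
  refine integrable_of_ball (b := b) (r := r) (M := G * r * r) hfin
    ((continuous_Z hg).measurable.comp hfm).aestronglyMeasurable ?_ ?_
  · exact Eventually.of_forall fun z _ => Z_le hr.le hg hgs hG0 hG dist_nonneg
  · refine Eventually.of_forall fun z hz => ?_
    apply Z_eq_zero hgs
    have : r ^ 2 ≤ dist b z ^ 2 := by gcongr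
    linarith

/-! ### closure properties of `SubLap` -/

namespace SubLap
variable {C : Rad n κ X μ} {b : X} {r A B : ℝ} {V W : X → ℝ}

lemma add {L L' : ℝ} (hV : SubLap C b r A V) (hW : SubLap C b r B W)
    (hVL : ∀ y z, |V y - V z| ≤ L * dist y z) (hWL : ∀ y z, |W y - W z| ≤ L' * dist y z)
    (hr : 0 < r) (hfin : μ (Metric.closedBall b r) ≠ ∞) :
    SubLap C b r (A + B) (fun z => V z + W z) := by
  obtain ⟨D, hD, h1⟩ := hV
  obtain ⟨D', hD', h2⟩ := hW
  refine ⟨fun z => D z + D' z, hD.add hD', fun g hg hg0 hgs => ?_⟩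
  have i1 := integrable_gD C hfin hVL hD hg hgs hr
  have i2 := integrable_gD C hfin hWL hD' hg hgs hr
  have e1 : ∫ z, g (dist b z ^ 2 / 2) * (D z + D' z) ∂μ =
      ∫ z, g (dist b z ^ 2 / 2) * D z ∂μ + ∫ z, g (dist b z ^ 2 / 2) * D' z ∂μ := by
    rw [← integral_add i1 i2]
    congr 1
    ext z
    ring
  rw [e1, add_mul]
  exact add_le_add (h1 g hg hg0 hgs) (h2 g hg hg0 hgs)

lemma sub_const (hV : SubLap C b r A V) (c : ℝ) : SubLap C b r A (fun z => V z - c) := by
  obtain ⟨D, hD, h1⟩ := hV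
  refine ⟨D, ?_, h1⟩
  filter_upwards [hD] with z hz
  exact hz.sub_const c

lemma const_mul (hV : SubLap C b r A V) {c : ℝ} (hc : 0 ≤ c) :
    SubLap C b r (c * A) (fun z => c * V z) := by
  obtain ⟨D, hD, h1⟩ := hV
  refine ⟨fun z => c * D z, hD.const_mul c, fun g hg hg0 hgs => ?_⟩
  have e1 : ∫ z, g (dist b z ^ 2 / 2) * (c * D z) ∂μ =
      c * ∫ z, g (dist b z ^ 2 / 2) * D z ∂μ := by
    rw [← integral_const_mul]
    congr 1
    ext z
    ring
  rw [e1, mul_assoc]
  exact mul_le_mul_of_nonneg_left (h1 g hg hg0 hgs) hc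

lemma mono (hV : SubLap C b r A V) (h : A ≤ B) : SubLap C b r B V := by
  obtain ⟨D, hD, h1⟩ := hV
  refine ⟨D, hD, fun g hg hg0 hgs => (h1 g hg hg0 hgs).trans ?_⟩
  exact mul_le_mul_of_nonneg_right h (integral_nonneg fun z => Z_nonneg hg0 hgs _)

end SubLap

/-- the radial derivative of a distance function -/
lemma RD_dist (C : Rad n κ X μ) {v b : X} {D : X → ℝ}
    (hD : RD C b (fun z => dist v z ^ 2 / 2) D) :
    RD C b (fun z => dist v z) (fun z => if dist v z = 0 then -dist b v else D z / dist v z) := by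
  filter_upwards [hD, C.ae_U b] with z hz hU
  by_cases h0 : dist v z = 0
  · rw [if_pos h0]
    have hvz : v = z := dist_eq_zero.1 h0
    subst hvz
    have h1 : HasDerivWithinAt (fun t : ℝ => (1 - t) * dist b v) (-dist b v) (Iio 1) 1 := by
      have h2 := ((hasDerivAt_id (1 : ℝ)).const_sub 1).mul_const (dist b v)
      simpa using h2.hasDerivWithinAt (s := Iio 1)
    refine h1.congr_of_eventuallyEq ?_ ?_
    · filter_upwards [Ioo_mem_nhdsLT (zero_lt_one' ℝ)] with t ht
      rw [dist_comm, C.dist_right hU ⟨ht.1.le, ht.2.le⟩]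
    · rw [C.T_one b v hU, dist_self]; ring
  · rw [if_neg h0]
    have hpos : 0 < dist v z := lt_of_le_of_ne dist_nonneg (Ne.symm h0)
    have h1 : HasDerivWithinAt (fun t : ℝ => 2 * (dist v (C.T b t z) ^ 2 / 2)) (2 * D z)
        (Iio 1) 1 := hz.const_mul 2
    have h2 := h1.sqrt (by rw [C.T_one b z hU]; positivity)
    have e1 : (fun t : ℝ => Real.sqrt (2 * (dist v (C.T b t z) ^ 2 / 2))) =
        fun t => dist v (C.T b t z) := by
      ext t
      rw [mul_div_cancel₀ _ (two_ne_zero), Real.sqrt_sq dist_nonneg]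
    rw [e1] at h2
    convert h2 using 1
    rw [C.T_one b z hU, mul_div_cancel₀ _ (two_ne_zero), Real.sqrt_sq dist_nonneg]
    field_simp

lemma dist_lip (v : X) : ∀ y z : X, |dist v y - dist v z| ≤ 1 * dist y z := by
  intro y z
  rw [one_mul, dist_comm v y, dist_comm v z]
  exact abs_dist_sub_le y z v

/-- **weak Laplacian upper bound for a distance function** -/
theorem subLap_dist (C : Rad n κ X μ) (hκ : 0 ≤ κ) (hn : 1 ≤ n) {v b : X} {r L0 R0 : ℝ}
    (hr : 0 < r) (hL0 : 0 < L0) (h1 : ∀ z, dist b z ≤ r → L0 ≤ dist v z)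
    (h2 : ∀ z, dist b z ≤ r → dist v z ≤ R0) (hfin : μ (Metric.closedBall b r) ≠ ∞)
    (hsym : RDsymm C v b) :
    SubLap C b r ((n - 1) / L0 + κ * R0) (fun z => dist v z) := by
  obtain ⟨D, hDv, hDb⟩ := hsym
  have hRDd := RD_dist C hDb
  refine ⟨_, hRDd, fun g hg hg0 hgs => ?_⟩
  set D' : X → ℝ := fun z => if dist v z = 0 then -dist b v else D z / dist v z with hD'
  obtain ⟨G, hG0, hG⟩ := exists_bound_g hg hgs
  have hR0 : 0 ≤ R0 := dist_nonneg.trans (h2 b (by rw [dist_self]; exact hr.le))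
  have hn1 : (1 : ℝ) ≤ n := by exact_mod_cast hn
  set Zb : X → ℝ := fun z => ∫ s in (dist b z ^ 2 / 2)..(r ^ 2 / 2), g s with hZb
  have hfm : Measurable fun z : X => dist b z ^ 2 / 2 :=
    ((measurable_dist_left b).pow_const 2).div_const 2
  have hZm : Measurable Zb := (continuous_Z hg).measurable.comp hfm
  have hZ0 : ∀ z, 0 ≤ Zb z := fun z => Z_nonneg hg0 hgs _
  have hZE : ∀ z, |Zb z| ≤ G * r * r := fun z => Z_le hr.le hg hgs hG0 hG dist_nonneg
  have hZL : ∀ y z, |Zb y - Zb z| ≤ G * r * dist y z := by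
    intro y z
    refine (Z_lip hr.le hg hgs hG0 hG dist_nonneg dist_nonneg).trans ?_
    have := dist_lip b y z
    rw [one_mul] at this
    exact mul_le_mul_of_nonneg_left this (by positivity)
  have hsq : ∀ z : X, r < dist b z → r ^ 2 / 2 ≤ dist b z ^ 2 / 2 := fun z hz => by
    have : r ^ 2 ≤ dist b z ^ 2 := by gcongr
    linarith
  have hZs : ∀ z, r < dist b z → Zb z = 0 := fun z hz => Z_eq_zero hgs (hsq z hz)
  have hgz : ∀ z, r < dist b z → g (dist b z ^ 2 / 2) = 0 := fun z hz => hgs _ (hsq z hz)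
  have hL2 : 0 < L0 / 2 := by positivity
  set q : X → ℝ := fun z => hw 1 (L0 / 2) (dist v z) with hq
  have hqm : Measurable q := (continuous_hw 1 hL2).measurable.comp (measurable_dist_left v)
  have hq0 : ∀ z, 0 < q z := fun z => hw_pos 1 hL2 _
  have hqE : ∀ z, |q z| ≤ ((L0 / 2)⁻¹) ^ 1 := fun z => by
    rw [abs_of_pos (hq0 z)]; exact hw_le 1 hL2 _
  set K : ℝ := ((1 : ℕ) : ℝ) * ((L0 / 2)⁻¹) ^ (1 - 1) * ((L0 / 2)⁻¹ * (L0 / 2)⁻¹) with hK
  have hK0 : 0 ≤ K := by positivity
  have hqL : ∀ y z, |q y - q z| ≤ K * dist y z := by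
    intro y z
    refine (hw_lip 1 hL2 _ _).trans ?_
    have := dist_lip v y z
    rw [one_mul] at this
    exact mul_le_mul_of_nonneg_left this hK0
  -- radial derivatives w.r.t. `v`
  have hRZ : RD C v Zb (fun z => -g (dist b z ^ 2 / 2) * D z) := by
    filter_upwards [hDv, C.ae_U v] with z hz hU
    have h3 := hasDerivAt_Z (r := r) hg (dist b (C.T v 1 z) ^ 2 / 2)
    have h4 := h3.comp_hasDerivWithinAt (1 : ℝ) hz
    rw [C.T_one v z hU] at h4
    exact h4
  have hRq : RD C v q (fun z => hw' 1 (L0 / 2) (dist v z) * dist v z) :=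
    RD.radial (Eventually.of_forall fun _ _ => hasDerivWithinAt_hw 1 hL2)
  have hRD := hRZ.mul hRq
  set R : ℝ := dist v b + r with hR
  have hRpos : 0 ≤ R := by positivity
  have hsupp : ∀ z, R < dist v z → Zb z * q z = 0 := by
    intro z hz
    rw [hZs z, zero_mul]
    have := dist_triangle v b z
    linarith
  have hfinv : μ (Metric.closedBall v (2 * R)) ≠ ∞ := by
    refine ne_top_of_le_ne_top (C.closedBall_ne_top hκ b hr (R := 2 * R + dist v b) hfin)
      (measure_mono (Metric.closedBall_subset_closedBall' le_rfl))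
  have hLip : ∀ y z, |Zb y * q y - Zb z * q z| ≤
      (G * r * ((L0 / 2)⁻¹) ^ 1 + G * r * r * K) * dist y z := by
    intro y z
    have e : Zb y * q y - Zb z * q z = (Zb y - Zb z) * q y + Zb z * (q y - q z) := by ring
    rw [e]
    refine (abs_add_le _ _).trans ?_
    rw [abs_mul, abs_mul]
    have hd := dist_nonneg (x := y) (y := z)
    have a1 : |Zb y - Zb z| * |q y| ≤ (G * r * dist y z) * ((L0 / 2)⁻¹) ^ 1 :=
      mul_le_mul (hZL y z) (hqE y) (abs_nonneg _) (by positivity)
    have a2 : |Zb z| * |q y - q z| ≤ (G * r * r) * (K * dist y z) :=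
      mul_le_mul (hZE z) (hqL y z) (abs_nonneg _) (by positivity)
    calc _ ≤ (G * r * dist y z) * ((L0 / 2)⁻¹) ^ 1 + (G * r * r) * (K * dist y z) :=
          add_le_add a1 a2
      _ = _ := by ring
  obtain ⟨hI1, hI2, key⟩ := C.weak_lap' hκ v (φ := fun z => Zb z * q z) (hZm.mul hqm)
    (fun z => mul_nonneg (hZ0 z) (hq0 z).le) hLip hRpos hsupp hfinv hRD
  -- pointwise
  set A : ℝ := (n - 1) / L0 + κ * R0 with hA
  have hpt : ∀ z, (n + κ * dist v z ^ 2) * (Zb z * q z) +
      (-g (dist b z ^ 2 / 2) * D z * q z + Zb z * (hw' 1 (L0 / 2) (dist v z) * dist v z)) ≤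
      A * Zb z - g (dist b z ^ 2 / 2) * D' z := by
    intro z
    rcases le_or_gt (dist b z) r with h | h
    · have hd1 := h1 z h
      have hd2 := h2 z h
      set d := dist v z with hd
      have hd0 : 0 < d := hL0.trans_le hd1
      have hLd : L0 / 2 < d := by linarith
      have eq : q z = d⁻¹ := by
        show hw 1 (L0 / 2) (dist v z) = _
        rw [hw, ← hd, max_eq_left hLd.le, pow_one]
      have ew : hw' 1 (L0 / 2) d * d = -d⁻¹ := by
        rw [hw'_mul le_rfl hL2 hLd, hw, max_eq_left hLd.le, pow_one]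
        simp
      have eD : D' z = D z * d⁻¹ := by
        show (if dist v z = 0 then -dist b v else D z / dist v z) = _
        rw [← hd, if_neg hd0.ne', div_eq_mul_inv]
      rw [eq, ew, eD]
      have h3 : (n - 1) * d⁻¹ + κ * d ≤ A := by
        have h4 : d⁻¹ ≤ L0⁻¹ := inv_anti₀ hL0 hd1
        have h5 : (n - 1) * d⁻¹ ≤ ((n : ℝ) - 1) * L0⁻¹ := by
          apply mul_le_mul_of_nonneg_left h4; linarith
        have h6 : κ * d ≤ κ * R0 := by gcongr
        rw [hA, div_eq_mul_inv]
        linarith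
      have h7 := mul_le_mul_of_nonneg_right h3 (hZ0 z)
      have e3 : (n + κ * d ^ 2) * (Zb z * d⁻¹) + (-g (dist b z ^ 2 / 2) * D z * d⁻¹ +
          Zb z * -d⁻¹) = ((n - 1) * d⁻¹ + κ * d) * Zb z - g (dist b z ^ 2 / 2) * (D z * d⁻¹) := by
        field_simp
        ring
      rw [e3]
      linarith
    · rw [hZs z h, hgz z h]
      simp
  have hIZ : Integrable Zb μ := integrable_Z hfin hg hgs hr
  have hIgD : Integrable (fun z => g (dist b z ^ 2 / 2) * D' z) μ :=
    integrable_gD C hfin (dist_lip v) hRDd hg hgs hr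
  have hIw : Integrable (fun z => (n + κ * dist v z ^ 2) * (Zb z * q z)) μ := by
    have hb : Integrable (fun z => (n + κ * R ^ 2) * |Zb z * q z|) μ := hI1.abs.const_mul _
    refine hb.mono' ?_ (Eventually.of_forall fun z => ?_)
    · have : Measurable fun z => (n + κ * dist v z ^ 2 : ℝ) :=
        (((measurable_dist_left v).pow_const 2).const_mul κ).const_add _
      exact this.aestronglyMeasurable.mul hI1.1
    · rw [Real.norm_eq_abs, abs_mul, abs_of_nonneg (by positivity :
        (0 : ℝ) ≤ n + κ * dist v z ^ 2)]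
      by_cases hz : dist v z ≤ R
      · gcongr
      · rw [hsupp z (not_le.1 hz)]; simp
  have h3 : ∫ z, ((n + κ * dist v z ^ 2) * (Zb z * q z) +
      (-g (dist b z ^ 2 / 2) * D z * q z + Zb z * (hw' 1 (L0 / 2) (dist v z) * dist v z))) ∂μ ≤
      ∫ z, (A * Zb z - g (dist b z ^ 2 / 2) * D' z) ∂μ :=
    integral_mono (hIw.add hI2) ((hIZ.const_mul A).sub hIgD) hpt
  rw [integral_sub (hIZ.const_mul A) hIgD, integral_const_mul] at h3
  linarith

end Crest.Agent.R247.Mv447
end
end

-- ▼ part R247/Mv4_447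

/-! # `MVH` (853's form of the mean value inequality) from `Rad`, and from `FarD` -/

set_option autoImplicit false
set_option linter.unusedSectionVars false
open MeasureTheory Set Filter Topology Metric
open scoped ENNReal NNReal

noncomputable section
namespace Crest.Agent.R247.Mv447
open Crest.Agent.R247.Mcp688 Crest.Agent.R247.Exc853 Crest.Agent.R247.Far553

variable {n : ℕ} {κ : ℝ} {X : Type*} [MetricSpace X] [MeasurableSpace X] [BorelSpace X]
  {μ : Measure X}

lemma SubLap.zero (C : Rad n κ X μ) (b : X) (r : ℝ) : SubLap C b r 0 (fun _ => (0 : ℝ)) := by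
  refine ⟨fun _ => 0, Eventually.of_forall fun z => hasDerivWithinAt_const _ _ _,
    fun g _ _ _ => ?_⟩
  simp

lemma lip_finset_sum {ι : Type*} (s : Finset ι) {V : ι → X → ℝ}
    (hL : ∀ i y z, |V i y - V i z| ≤ 1 * dist y z) (y z : X) :
    |∑ i ∈ s, V i y - ∑ i ∈ s, V i z| ≤ (s.card : ℝ) * dist y z := by
  rw [← Finset.sum_sub_distrib]
  refine (Finset.abs_sum_le_sum_abs _ _).trans ?_
  calc ∑ i ∈ s, |V i y - V i z| ≤ ∑ _ ∈ s, dist y z :=
        Finset.sum_le_sum fun i _ => by simpa using hL i y z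
    _ = _ := by rw [Finset.sum_const, nsmul_eq_mul]

lemma SubLap.finset_sum {ι : Type*} (C : Rad n κ X μ) {b : X} {r : ℝ} (hr : 0 < r)
    (hfin : μ (closedBall b r) ≠ ∞) (s : Finset ι) {A : ι → ℝ} {V : ι → X → ℝ}
    (hL : ∀ i y z, |V i y - V i z| ≤ 1 * dist y z)
    (hV : ∀ i, SubLap C b r (A i) (V i)) :
    SubLap C b r (∑ i ∈ s, A i) (fun z => ∑ i ∈ s, V i z) := by
  classical
  induction s using Finset.induction_on with
  | empty => simpa using SubLap.zero C b r
  | insert i s hi ih =>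
    rw [Finset.sum_insert hi]
    have h1 := (hV i).add ih (hL i) (lip_finset_sum s hL) hr hfin
    simpa only [Finset.sum_insert hi] using h1

/-- **853's `MVH` from `Rad`**, with constants `K` (volume comparability) and `A = 1`. -/
theorem mvh_of_rad (C : Rad n κ X μ) (hκ : 0 ≤ κ) (hn : 1 ≤ n) [SFinite μ] {S : Set X}
    {R K Ω : ℝ} (hK : 0 ≤ K) (hfin : ∀ b ∈ S, μ (closedBall b R) ≠ ∞)
    (hsym : ∀ v b : X, RDsymm C v b)
    (hup : ∀ b ∈ S, ∀ s, 0 < s → s ≤ R → Vc μ b s ≤ Ω * s ^ n)
    (hlo : ∀ b ∈ S, ∀ s, 0 < s → s ≤ R →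
      Real.exp (κ * s ^ 2 / 2) * Ω * s ^ n ≤ K * μ.real (ball b s))
    (hpos : ∀ b ∈ S, ∀ s, 0 < s → s ≤ R → 0 < μ.real (ball b s))
    (hD : ∀ p ∈ S, ∀ b ∈ S, κ * dist p b ^ 2 ≤ 1) :
    MVH μ S R K 1 := by
  intro k p b c r hp hb hr hrR hpb hc
  have hn0 : (1 : ℝ) ≤ n := by exact_mod_cast hn
  have hfinr : μ (closedBall b r) ≠ ∞ :=
    ne_top_of_le_ne_top (hfin b hb) (measure_mono (closedBall_subset_closedBall hrR))
  have hupr : ∀ s, 0 < s → s ≤ r → Vc μ b s ≤ Ω * s ^ n :=
    fun s hs hsr => hup b hb s hs (hsr.trans hrR)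
  -- the Laplacian bounds
  have hdpos : ∀ i, 0 < dist (p i) b := fun i => by
    have := hpb i
    linarith
  set A : Fin k → ℝ := fun i => 4 / 3 * n * (dist (p i) b)⁻¹ with hA
  have hlap : ∀ i, SubLap C b r (A i) (fun z => dist (p i) z) := by
    intro i
    have hd := hdpos i
    have h4 := hpb i
    set d := dist (p i) b with hdd
    have h1 : ∀ z, dist b z ≤ r → 3 / 4 * d ≤ dist (p i) z := by
      intro z hz
      have := dist_triangle (p i) z b
      rw [dist_comm z b] at this
      linarith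
    have h2 : ∀ z, dist b z ≤ r → dist (p i) z ≤ 5 / 4 * d := by
      intro z hz
      have := dist_triangle (p i) b z
      linarith
    refine (subLap_dist C hκ hn hr (by positivity) h1 h2 hfinr (hsym (p i) b)).mono ?_
    have h5 : κ * d ^ 2 ≤ 1 := hD (p i) (hp i) b hb
    have h6 : κ * (5 / 4 * d) ≤ 5 / 4 * d⁻¹ := by
      have : κ * (5 / 4 * d) = 5 / 4 * (κ * d ^ 2) * d⁻¹ := by field_simp
      rw [this]
      have h7 : 0 ≤ d⁻¹ := (inv_pos.2 hd).le
      nlinarith [mul_le_mul_of_nonneg_right h5 h7]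
    have h7 : ((n : ℝ) - 1) / (3 / 4 * d) = 4 / 3 * (n - 1) * d⁻¹ := by
      field_simp
    rw [h7]
    show 4 / 3 * (n - 1) * d⁻¹ + κ * (5 / 4 * d) ≤ 4 / 3 * n * d⁻¹
    have h8 : 0 < d⁻¹ := inv_pos.2 hd
    nlinarith
  have hL : ∀ (i : Fin k) (y z : X), |dist (p i) y - dist (p i) z| ≤ 1 * dist y z :=
    fun i => dist_lip (p i)
  have hsum := (SubLap.finset_sum C hr hfinr Finset.univ hL hlap).sub_const c
  have hVL : ∀ y z : X, |(∑ i, dist (p i) y - c) - (∑ i, dist (p i) z - c)| ≤
      ((Finset.univ : Finset (Fin k)).card : ℝ) * dist y z := by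
    intro y z
    rw [sub_sub_sub_cancel_right]
    exact lip_finset_sum Finset.univ hL y z
  have hA0 : 0 ≤ ∑ i, A i := Finset.sum_nonneg fun i _ => by
    have := (inv_pos.2 (hdpos i)).le
    positivity
  have hmv := mean_value C hκ hn (b := b) (r := r) hr hA0 hfinr hupr hVL
    (fun z _ => by linarith [hc z]) hsum
  -- open ball versus closed ball
  have hVm : Measurable fun y : X => ∑ i, dist (p i) y - c := measurable_of_lip hVL
  have hint : IntegrableOn (fun y : X => ∑ i, dist (p i) y - c) (closedBall b r) μ := by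
    refine IntegrableOn.of_bound (lt_of_le_of_ne le_top hfinr)
      hVm.aestronglyMeasurable.restrict
      (|∑ i, dist (p i) b - c| + |((Finset.univ : Finset (Fin k)).card : ℝ)| * r) ?_
    filter_upwards [ae_restrict_mem isClosed_closedBall.measurableSet] with z hz
    rw [Real.norm_eq_abs]
    apply bound_of_lip hVL
    rwa [mem_closedBall, dist_comm] at hz
  have hle : ∫ y in ball b r, (∑ i, dist (p i) y - c) ∂μ ≤
      ∫ y in closedBall b r, (∑ i, dist (p i) y - c) ∂μ :=
    setIntegral_mono_set hint (Eventually.of_forall fun y => by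
      show 0 ≤ ∑ i, dist (p i) y - c
      linarith [hc y]) (Eventually.of_forall ball_subset_closedBall)
  have hVb : 0 ≤ ∑ i, dist (p i) b - c := by linarith [hc b]
  have hpos' := hpos b hb r hr hrR
  rw [setAverage_eq, smul_eq_mul]
  have e1 : (∑ i, A i) * r ^ 2 / (2 * n) = 2 / 3 * (r ^ 2 * ∑ i, (dist (p i) b)⁻¹) := by
    have : ∑ i, A i = 4 / 3 * n * ∑ i, (dist (p i) b)⁻¹ := by rw [Finset.mul_sum]
    rw [this]
    field_simp
    ring
  rw [e1] at hmv
  have hS0 : 0 ≤ r ^ 2 * ∑ i, (dist (p i) b)⁻¹ := by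
    have : 0 ≤ ∑ i, (dist (p i) b)⁻¹ := Finset.sum_nonneg fun i _ => (inv_pos.2 (hdpos i)).le
    positivity
  set B : ℝ := ∑ i, dist (p i) b - c + 2 / 3 * (r ^ 2 * ∑ i, (dist (p i) b)⁻¹) with hB
  have hB0 : 0 ≤ B := by positivity
  have h3 : ∫ y in ball b r, (∑ i, dist (p i) y - c) ∂μ ≤ K * μ.real (ball b r) * B := by
    refine (hle.trans hmv).trans ?_
    exact mul_le_mul_of_nonneg_right (hlo b hb r hr hrR) hB0
  calc (μ.real (ball b r))⁻¹ * ∫ y in ball b r, (∑ i, dist (p i) y - c) ∂μ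
      ≤ (μ.real (ball b r))⁻¹ * (K * μ.real (ball b r) * B) :=
        mul_le_mul_of_nonneg_left h3 (inv_pos.2 hpos').le
    _ = K * B := by field_simp
    _ ≤ K * ((∑ i, dist (p i) b - c) + 1 * r ^ 2 * ∑ i, (dist (p i) b)⁻¹) := by
        apply mul_le_mul_of_nonneg_left _ hK
        rw [one_mul, hB]
        linarith

/-! ### over `FarD` -/

section farD
variable {c : FarK} {C : Rad n κ X μ} {x : X} {δ : ℝ} {ph : ℕ → ℝ}

lemma farD_rdsymm (F : FarD c C x δ ph) (v b : X) : RDsymm C v b := by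
  obtain ⟨Γ, _, h1, h2⟩ := F.sym v b
  exact ⟨Γ, h1, h2⟩

lemma farD_ball_ne_top (F : FarD c C x δ ph) {y : X} {r : ℝ} (hy : dist x y < 20) (hr : 0 < r)
    (hr20 : r ≤ 20) : μ (ball y r) ≠ ∞ :=
  ne_top_of_le_ne_top ENNReal.ofReal_ne_top (F.vol_le y r hy hr hr20)

lemma farD_closedBall_ne_top (F : FarD c C x δ ph) {y : X} {r : ℝ} (hy : dist x y < 20)
    (hr : 0 < r) (hr20 : r < 20) : μ (closedBall y r) ≠ ∞ :=
  ne_top_of_le_ne_top (farD_ball_ne_top F hy (hr.trans hr20) le_rfl)
    (measure_mono (closedBall_subset_ball hr20))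

lemma farD_real_ball_ge (F : FarD c C x δ ph) {y : X} {r : ℝ} (hy : dist x y < 20)
    (hr : 0 < r) (hr20 : r ≤ 20) : (1 - δ) * c.ω * r ^ n ≤ μ.real (ball y r) := by
  have h1 := ENNReal.toReal_mono (farD_ball_ne_top F hy hr hr20) (F.vol_ge y r hy hr hr20)
  rw [ENNReal.toReal_ofReal'] at h1
  exact (le_max_left _ _).trans h1

lemma farD_closedBall_le (F : FarD c C x δ ph) (hδ : -1 ≤ δ) {y : X} {r : ℝ}
    (hy : dist x y < 20) (hr : 0 < r) (hr20 : r < 20) :
    μ.real (closedBall y r) ≤ (1 + δ) * c.ω * r ^ n := by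
  have h0 : 0 ≤ 1 + δ := by linarith
  have h1 : ∀ᶠ s in 𝓝[>] r, μ.real (closedBall y r) ≤ (1 + δ) * c.ω * s ^ n := by
    filter_upwards [Ioo_mem_nhdsGT hr20] with s hs
    have hs0 : 0 < s := hr.trans hs.1
    have h2 := ENNReal.toReal_mono ENNReal.ofReal_ne_top
      ((measure_mono (closedBall_subset_ball hs.1)).trans (F.vol_le y s hy hs0 hs.2.le))
    have hω := c.ω_pos
    rwa [ENNReal.toReal_ofReal (by positivity)] at h2
  have h2 : Tendsto (fun s : ℝ => (1 + δ) * c.ω * s ^ n) (𝓝[>] r)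
      (𝓝 ((1 + δ) * c.ω * r ^ n)) := by
    apply Tendsto.mono_left _ nhdsWithin_le_nhds
    apply Continuous.tendsto
    fun_prop
  exact ge_of_tendsto h2 h1

/-- **(1-MV) over `FarD`**, `S = B(x,20)`, `R = 10`, `K = 4`, `A = 1`. -/
theorem mvh_of_farD (F : FarD c C x δ ph) (hκ : 0 ≤ κ) (hn : 1 ≤ n) [SFinite μ]
    (hδ0 : -1 ≤ δ) (hδ : δ ≤ 1 / 2) (hκ' : κ * 1600 ≤ 1) : MVH μ (ball x 20) 10 4 1 := by
  have hω := c.ω_pos
  refine mvh_of_rad C hκ hn (Ω := (1 + δ) * c.ω) (by norm_num) (fun b hb => ?_)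
    (farD_rdsymm F) (fun b hb s hs hs10 => ?_) (fun b hb s hs hs10 => ?_)
    (fun b hb s hs hs10 => ?_) (fun p hp b hb => ?_)
  · rw [mem_ball, dist_comm] at hb
    exact farD_closedBall_ne_top F hb (by norm_num) (by norm_num)
  · rw [mem_ball, dist_comm] at hb
    exact farD_closedBall_le F hδ0 hb hs (by linarith)
  · rw [mem_ball, dist_comm] at hb
    have h1 := farD_real_ball_ge F hb hs (by linarith)
    have h2 : Real.exp (κ * s ^ 2 / 2) ≤ 4 / 3 := by
      have h3 : κ * s ^ 2 / 2 ≤ 1 / 32 := by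
        have : s ^ 2 ≤ 10 ^ 2 := by gcongr
        nlinarith
      have h4 := Real.add_one_le_exp (-(κ * s ^ 2 / 2))
      have h5 : Real.exp (-(κ * s ^ 2 / 2)) * Real.exp (κ * s ^ 2 / 2) = 1 := by
        rw [← Real.exp_add]; simp
      have h6 := Real.exp_pos (κ * s ^ 2 / 2)
      nlinarith
    have h3 : 0 ≤ 1 + δ := by linarith
    calc Real.exp (κ * s ^ 2 / 2) * ((1 + δ) * c.ω) * s ^ n
        ≤ 4 / 3 * ((1 + δ) * c.ω) * s ^ n := by gcongr
      _ ≤ 4 / 3 * ((3 * (1 - δ)) * c.ω) * s ^ n := by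
          gcongr
          linarith
      _ = 4 * ((1 - δ) * c.ω * s ^ n) := by ring
      _ ≤ _ := by gcongr
  · rw [mem_ball, dist_comm] at hb
    have h1 := farD_real_ball_ge F hb hs (by linarith)
    have : 0 < (1 - δ) * c.ω * s ^ n := by
      have : 0 < 1 - δ := by linarith
      positivity
    linarith
  · rw [mem_ball, dist_comm] at hp hb
    have h1 := dist_triangle p x b
    rw [dist_comm p x] at h1
    have h2 : dist p b ≤ 40 := by linarith
    have h3 : dist p b ^ 2 ≤ 40 ^ 2 := by gcongr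
    nlinarith


end farD

end Crest.Agent.R247.Mv447
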