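import Crest.Agent.R247.Pyt1_710

-- ▼ part R247/Nis1_710
section

/-!
# Near isometry of `Ψ(x) = d(x,·) ∈ L²(W)`: abstract part (N2)–(N4)

* `path_bound` (N2): if along a 1-Lipschitz path the derivative of `d_w` has mean square `≤ B²`,
  then `∫ |d_w(γ l) - d_w(γ 0)|² dν(w) ≤ (l B)²`.
* `trace_lower` (N3): isotropy from above + unit length gives isotropy from below.
* `lower_of_typical` (N4): lower bound at every point from a lower bound at typical points.
-/

set_option autoImplicit false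
set_option linter.unusedSectionVars false
open MeasureTheory Set Filter Topology Crest.Agent.R247.Pyt710
open scoped ENNReal NNReal RealInnerProductSpace

noncomputable section
namespace Crest.Agent.R247.Nis710

section path
variable {X : Type*} [MetricSpace X] [MeasurableSpace X] [BorelSpace X]
  [SecondCountableTopology X]

lemma lipschitz_dist_path {γ : ℝ → X} (hγ : LipschitzWith 1 γ) (w : X) :
    LipschitzWith 1 (fun s => dist w (γ s)) := by
  have := (LipschitzWith.dist_right w).comp hγ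
  simpa [Function.comp_def] using this

/-- (N2) -/
theorem path_bound (ν : Measure X) [SFinite ν] {γ : ℝ → X} (hγ : LipschitzWith 1 γ) {l B : ℝ}
    (hl : 0 ≤ l)
    (hB : ∀ᵐ s ∂(volume.restrict (Icc 0 l)),
      ∫⁻ w, ENNReal.ofReal ((deriv (fun s => dist w (γ s)) s) ^ 2) ∂ν ≤ ENNReal.ofReal (B ^ 2)) :
    ∫⁻ w, ENNReal.ofReal ((dist w (γ l) - dist w (γ 0)) ^ 2) ∂ν
      ≤ ENNReal.ofReal ((l * B) ^ 2) := by
  have hcont : Continuous (Function.uncurry (fun (w : X) (s : ℝ) => dist w (γ s))) := by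
    have : Continuous (fun p : X × ℝ => dist p.1 (γ p.2)) :=
      continuous_fst.dist (hγ.continuous.comp continuous_snd)
    exact this
  have hmeas : Measurable (fun p : X × ℝ => deriv (fun s => dist p.1 (γ s)) p.2) :=
    measurable_deriv_with_param hcont
  have hmeas2 : Measurable (fun p : X × ℝ =>
      ENNReal.ofReal ((deriv (fun s => dist p.1 (γ s)) p.2) ^ 2)) :=
    (hmeas.pow_const 2).ennreal_ofReal
  have key : ∀ w, ENNReal.ofReal ((dist w (γ l) - dist w (γ 0)) ^ 2) ≤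
      ENNReal.ofReal l * ∫⁻ s in Icc 0 l,
        ENNReal.ofReal ((deriv (fun s => dist w (γ s)) s) ^ 2) := by
    intro w
    have hac : AbsolutelyContinuousOnInterval (fun s => dist w (γ s)) 0 l :=
      ((lipschitz_dist_path hγ w).lipschitzOnWith (s := uIcc 0 l)).absolutelyContinuousOnInterval
    have hftc : dist w (γ l) - dist w (γ 0) = ∫ s in (0 : ℝ)..l, deriv (fun s => dist w (γ s)) s :=
      hac.integral_deriv_eq_sub.symm
    have hmw : Measurable (fun s => deriv (fun s => dist w (γ s)) s) := measurable_deriv _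
    have h1 : ENNReal.ofReal |dist w (γ l) - dist w (γ 0)| ≤
        ∫⁻ s in Icc 0 l, ENNReal.ofReal |deriv (fun s => dist w (γ s)) s| := by
      rw [hftc, intervalIntegral.integral_of_le hl, ← integral_Icc_eq_integral_Ioc]
      have h2 := norm_integral_le_lintegral_norm (μ := volume.restrict (Icc 0 l))
        (fun s => deriv (fun s => dist w (γ s)) s)
      have h3 := ENNReal.ofReal_le_ofReal h2
      simp only [Real.norm_eq_abs] at h3
      exact h3.trans ENNReal.ofReal_toReal_le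
    calc ENNReal.ofReal ((dist w (γ l) - dist w (γ 0)) ^ 2)
        = (ENNReal.ofReal |dist w (γ l) - dist w (γ 0)|) ^ 2 := by
          rw [← ENNReal.ofReal_pow (abs_nonneg _), sq_abs]
      _ ≤ (∫⁻ s in Icc 0 l, ENNReal.ofReal |deriv (fun s => dist w (γ s)) s|) ^ 2 := by
          gcongr
      _ ≤ (volume.restrict (Icc 0 l)) univ *
          ∫⁻ s in Icc 0 l, (ENNReal.ofReal |deriv (fun s => dist w (γ s)) s|) ^ 2 :=
          sq_lintegral_le _ (hmw.abs.ennreal_ofReal).aemeasurable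
      _ = ENNReal.ofReal l * ∫⁻ s in Icc 0 l,
            ENNReal.ofReal ((deriv (fun s => dist w (γ s)) s) ^ 2) := by
          rw [Measure.restrict_apply_univ, Real.volume_Icc, sub_zero]
          congr 1
          apply lintegral_congr
          intro s
          rw [← ENNReal.ofReal_pow (abs_nonneg _), sq_abs]
  calc ∫⁻ w, ENNReal.ofReal ((dist w (γ l) - dist w (γ 0)) ^ 2) ∂ν
      ≤ ∫⁻ w, ENNReal.ofReal l * ∫⁻ s in Icc 0 l,
          ENNReal.ofReal ((deriv (fun s => dist w (γ s)) s) ^ 2) ∂volume ∂ν :=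
        lintegral_mono key
    _ = ENNReal.ofReal l * ∫⁻ w, ∫⁻ s in Icc 0 l,
          ENNReal.ofReal ((deriv (fun s => dist w (γ s)) s) ^ 2) ∂volume ∂ν :=
        lintegral_const_mul' _ _ ENNReal.ofReal_ne_top
    _ = ENNReal.ofReal l * ∫⁻ s in Icc 0 l, ∫⁻ w,
          ENNReal.ofReal ((deriv (fun s => dist w (γ s)) s) ^ 2) ∂ν ∂volume := by
        rw [lintegral_lintegral_swap hmeas2.aemeasurable]
    _ ≤ ENNReal.ofReal l * ∫⁻ s in Icc 0 l, ENNReal.ofReal (B ^ 2) ∂volume := by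
        gcongr ENNReal.ofReal l * ?_
        exact lintegral_mono_ae hB
    _ = ENNReal.ofReal ((l * B) ^ 2) := by
        rw [setLIntegral_const, Real.volume_Icc, sub_zero, ← ENNReal.ofReal_mul (sq_nonneg _),
          ← ENNReal.ofReal_mul hl]
        congr 1
        ring

end path

section trace

/-- (N3): isotropy from above and total mass one give isotropy from below. -/
theorem trace_lower {W : Type*} [MeasurableSpace W] (ν : Measure W) [IsProbabilityMeasure ν]
    {n : ℕ} {ι : Type*} [Fintype ι] {V : Type*} [NormedAddCommGroup V]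
    [InnerProductSpace ℝ V] (b : OrthonormalBasis ι ℝ V) (hn : Fintype.card ι = n) (hn0 : 0 < n)
    {e : W → V} (he : ∀ᵐ w ∂ν, ‖e w‖ = 1) (hm : ∀ ξ : V, AEStronglyMeasurable (fun w => ⟪e w, ξ⟫) ν)
    {ε : ℝ} (hup : ∀ ξ : V, ∫ w, ⟪e w, ξ⟫ ^ 2 ∂ν ≤ (1 + ε) * ‖ξ‖ ^ 2 / n) (ξ : V) :
    (1 - (n - 1) * ε) * ‖ξ‖ ^ 2 / n ≤ ∫ w, ⟪e w, ξ⟫ ^ 2 ∂ν := by
  classical
  have hint : ∀ η : V, Integrable (fun w => ⟪e w, η⟫ ^ 2) ν := by
    intro η
    refine Integrable.mono' (integrable_const (‖η‖ ^ 2)) ((hm η).pow 2) ?_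
    filter_upwards [he] with w hw
    rw [Real.norm_eq_abs, abs_of_nonneg (sq_nonneg _)]
    have := abs_real_inner_le_norm (e w) η
    rw [hw, one_mul] at this
    rw [← sq_abs]
    gcongr
  -- reduce to unit vectors
  by_cases h0 : ξ = 0
  · subst h0
    simp
  have hξ : 0 < ‖ξ‖ := norm_pos_iff.2 h0
  have : FiniteDimensional ℝ V := b.toBasis.finiteDimensional_of_finite
  -- extend `ξ/‖ξ‖` to an orthonormal basis
  set u : V := (‖ξ‖)⁻¹ • ξ with hu
  have hu1 : ‖u‖ = 1 := by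
    rw [hu, norm_smul, norm_inv, norm_norm, inv_mul_cancel₀ hξ.ne']
  have hcard : Module.finrank ℝ V = Fintype.card (Fin n) := by
    rw [Module.finrank_eq_card_basis b.toBasis, hn, Fintype.card_fin]
  obtain ⟨c, hc⟩ := Orthonormal.exists_orthonormalBasis_extension_of_card_eq (𝕜 := ℝ)
    (ι := Fin n) hcard (v := fun _ => u) (s := {⟨0, hn0⟩}) (by
      rw [orthonormal_iff_ite]
      rintro ⟨i, hi⟩ ⟨j, hj⟩
      simp only [mem_singleton_iff] at hi hj
      subst hi hj
      simp [hu1])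
  have hc0 : c ⟨0, hn0⟩ = u := hc _ rfl
  have hsum : ∑ i, ∫ w, ⟪e w, c i⟫ ^ 2 ∂ν = 1 := by
    rw [← integral_finsetSum _ (fun i _ => hint (c i))]
    have : ∀ᵐ w ∂ν, ∑ i, ⟪e w, c i⟫ ^ 2 = 1 := by
      filter_upwards [he] with w hw
      have h := c.sum_sq_norm_inner_right (e w)
      simp only [Real.norm_eq_abs, sq_abs] at h
      have h2 : ∀ i, ⟪e w, c i⟫ ^ 2 = ⟪c i, e w⟫ ^ 2 := fun i => by rw [real_inner_comm]
      rw [Finset.sum_congr rfl (fun i _ => h2 i), h, hw, one_pow]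
    rw [integral_congr_ae this]
    simp
  have hle : ∑ i ∈ Finset.univ.erase (⟨0, hn0⟩ : Fin n), ∫ w, ⟪e w, c i⟫ ^ 2 ∂ν
      ≤ (n - 1) * ((1 + ε) / n) := by
    calc ∑ i ∈ Finset.univ.erase (⟨0, hn0⟩ : Fin n), ∫ w, ⟪e w, c i⟫ ^ 2 ∂ν
        ≤ ∑ i ∈ Finset.univ.erase (⟨0, hn0⟩ : Fin n), (1 + ε) / n := by
          apply Finset.sum_le_sum
          intro i _
          have := hup (c i)
          rwa [c.norm_eq_one, one_pow, mul_one] at this
      _ = (n - 1) * ((1 + ε) / n) := by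
          rw [Finset.sum_const, Finset.card_erase_of_mem (Finset.mem_univ _), Finset.card_univ,
            Fintype.card_fin, nsmul_eq_mul, Nat.cast_sub (by omega), Nat.cast_one]
  have h1 : 1 - (n - 1) * ((1 + ε) / n) ≤ ∫ w, ⟪e w, u⟫ ^ 2 ∂ν := by
    rw [← hc0]
    have := Finset.add_sum_erase Finset.univ (fun i => ∫ w, ⟪e w, c i⟫ ^ 2 ∂ν)
      (Finset.mem_univ (⟨0, hn0⟩ : Fin n))
    linarith
  have h2 : ∫ w, ⟪e w, ξ⟫ ^ 2 ∂ν = ‖ξ‖ ^ 2 * ∫ w, ⟪e w, u⟫ ^ 2 ∂ν := by
    rw [← integral_const_mul]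
    congr 1
    ext w
    have : ξ = ‖ξ‖ • u := by
      rw [hu, smul_smul, mul_inv_cancel₀ hξ.ne', one_smul]
    conv_lhs => rw [this, real_inner_smul_right]
    ring
  rw [h2]
  have hn' : (0 : ℝ) < n := by exact_mod_cast hn0
  calc (1 - (n - 1) * ε) * ‖ξ‖ ^ 2 / n = ‖ξ‖ ^ 2 * (1 - (n - 1) * ((1 + ε) / n)) := by
        field_simp
        ring
    _ ≤ ‖ξ‖ ^ 2 * ∫ w, ⟪e w, u⟫ ^ 2 ∂ν := by gcongr

end trace

end Crest.Agent.R247.Nis710
end
end

-- ▼ part R247/Nis2_710

/-!
# Near isometry of `Ψ(x) = d(·,x) ∈ L²(ν)`: from typical points to all points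

`psi ν u : Lp ℝ 2 ν` is the class of `w ↦ dist w u`.
-/

set_option autoImplicit false
set_option linter.unusedSectionVars false
open MeasureTheory Set Filter Topology Crest.Agent.R247.Pyt710
open scoped ENNReal NNReal RealInnerProductSpace

noncomputable section
namespace Crest.Agent.R247.Nis710

section psi
variable {X : Type*} [MetricSpace X] [MeasurableSpace X] [BorelSpace X]

lemma memLp_dist {ν : Measure X} [IsFiniteMeasure ν] {p : X} {R : ℝ}
    (hν : ∀ᵐ w ∂ν, dist w p ≤ R) (u : X) : MemLp (fun w => dist w u) 2 ν := by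
  refine MemLp.of_bound (C := R + dist p u) ?_ ?_
  · exact (continuous_id.dist continuous_const).aestronglyMeasurable
  · filter_upwards [hν] with w hw
    rw [Real.norm_eq_abs, abs_of_nonneg dist_nonneg]
    exact (dist_triangle w p u).trans (by linarith)

/-- The embedding `u ↦ d(·,u) ∈ L²(ν)` (junk `0` if `ν` has unbounded support). -/
def psi (ν : Measure X) (u : X) : Lp ℝ 2 ν :=
  open Classical in
  if h : MemLp (fun w => dist w u) 2 ν then h.toLp _ else 0

lemma coe_psi {ν : Measure X} {u : X} (h : MemLp (fun w => dist w u) 2 ν) :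
    psi ν u =ᵐ[ν] fun w => dist w u := by
  rw [psi, dif_pos h]
  exact h.coeFn_toLp

lemma psi_eq {ν : Measure X} {u : X} (h : MemLp (fun w => dist w u) 2 ν) :
    psi ν u = h.toLp _ := by
  rw [psi, dif_pos h]

lemma norm_toLp_sq {ν : Measure X} {f : X → ℝ} (h : MemLp f 2 ν) :
    ‖h.toLp f‖ ^ 2 = ∫ w, f w ^ 2 ∂ν := by
  rw [← real_inner_self_eq_norm_sq, L2.inner_def]
  apply integral_congr_ae
  filter_upwards [h.coeFn_toLp] with w hw
  rw [hw]
  simp [sq]

lemma norm_psi_sub_sq {ν : Measure X} [IsFiniteMeasure ν] {p : X} {R : ℝ}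
    (hν : ∀ᵐ w ∂ν, dist w p ≤ R) (u v : X) :
    ‖psi ν u - psi ν v‖ ^ 2 = ∫ w, (dist w u - dist w v) ^ 2 ∂ν := by
  have hu := memLp_dist hν u
  have hv := memLp_dist hν v
  rw [psi_eq hu, psi_eq hv, ← MemLp.toLp_sub hu hv, norm_toLp_sq]
  rfl

lemma norm_psi_sub_le {ν : Measure X} [IsProbabilityMeasure ν] {p : X} {R : ℝ}
    (hν : ∀ᵐ w ∂ν, dist w p ≤ R) (u v : X) : ‖psi ν u - psi ν v‖ ≤ dist u v := by
  have h := norm_psi_sub_sq hν u v
  have h2 : ∫ w, (dist w u - dist w v) ^ 2 ∂ν ≤ dist u v ^ 2 := by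
    have hb : ∀ w, (dist w u - dist w v) ^ 2 ≤ dist u v ^ 2 := by
      intro w
      rw [← sq_abs]
      have := abs_dist_sub_le u v w
      rw [dist_comm w u, dist_comm w v]
      gcongr
    have hint : Integrable (fun w => (dist w u - dist w v) ^ 2) ν := by
      have h1 := ((memLp_dist hν u).sub (memLp_dist hν v)).integrable_sq
      simpa using h1
    calc ∫ w, (dist w u - dist w v) ^ 2 ∂ν ≤ ∫ _, dist u v ^ 2 ∂ν :=
          integral_mono hint (integrable_const _) hb
      _ = dist u v ^ 2 := by simp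
  rw [← h] at h2
  exact (abs_le_of_sq_le_sq' h2 dist_nonneg).2

end psi

section typical
variable {X : Type*} [MetricSpace X] [MeasurableSpace X]

/-- (N4) lower bound at every point from a lower bound at typical points. -/
theorem lower_of_typical {μ : Measure X} {H : Type*} [NormedAddCommGroup H] {Ψ : X → H}
    {x y : X} {r ρ α τ : ℝ}
    (hΨ : ∀ u, ‖Ψ u - Ψ y‖ ≤ dist u y) {G E : X → H} (hα1 : α ≤ 1) (hα0 : 0 ≤ α)
    (hsub : Metric.ball y ρ ⊆ Metric.ball x (2 * r))
    (hdec : ∀ᵐ u ∂(μ.restrict (Metric.ball x (2 * r))), Ψ u - Ψ x = G u - E u)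
    (hG : ∀ᵐ u ∂(μ.restrict (Metric.ball x (2 * r))), α * dist x u ≤ ‖G u‖)
    (hE : (μ.restrict (Metric.ball x (2 * r))) {u | τ * r < ‖E u‖} < μ (Metric.ball y ρ)) :
    α * dist x y - (τ * r + 2 * ρ) ≤ ‖Ψ y - Ψ x‖ := by
  -- there is a good point in the ball
  have hex : ∃ u ∈ Metric.ball y ρ, Ψ u - Ψ x = G u - E u ∧ α * dist x u ≤ ‖G u‖ ∧
      ‖E u‖ ≤ τ * r := by
    by_contra hcon
    push Not at hcon
    have hle : μ (Metric.ball y ρ) ≤
        (μ.restrict (Metric.ball x (2 * r))) {u | τ * r < ‖E u‖} := by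
      calc μ (Metric.ball y ρ) ≤ (μ.restrict (Metric.ball x (2 * r))) (Metric.ball y ρ) := by
            rw [Measure.restrict_eq_self μ hsub]
        _ ≤ (μ.restrict (Metric.ball x (2 * r))) {u | τ * r < ‖E u‖} := by
            apply measure_mono_ae
            filter_upwards [hdec, hG] with u h1 h2 hu
            exact hcon u hu h1 h2
    exact absurd hE (not_lt.2 hle)
  obtain ⟨u, hu, h1, h2, h3⟩ := hex
  have hd : dist u y < ρ := hu
  have h4 : α * dist x u - τ * r ≤ ‖Ψ u - Ψ x‖ := by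
    rw [h1]
    have := norm_sub_norm_le (G u) (E u)
    linarith
  have h5 : ‖Ψ u - Ψ x‖ ≤ ‖Ψ y - Ψ x‖ + ρ := by
    have : Ψ u - Ψ x = (Ψ y - Ψ x) + (Ψ u - Ψ y) := by abel
    rw [this]
    exact (norm_add_le _ _).trans (by linarith [hΨ u])
  have h6 : dist x y ≤ dist x u + ρ := by
    linarith [dist_triangle x u y]
  have h7 : α * dist x y ≤ α * dist x u + ρ := by
    calc α * dist x y ≤ α * (dist x u + ρ) := by gcongr
      _ = α * dist x u + α * ρ := by ring
      _ ≤ α * dist x u + 1 * ρ := by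
          have : 0 ≤ ρ := dist_nonneg.trans hd.le
          gcongr
      _ = _ := by ring
  linarith

/-- Chebyshev in the form used with `lower_of_typical`. -/
lemma cheb {μ : Measure X} {H : Type*} [NormedAddCommGroup H] {E : X → H} {B : Set X}
    (hEm : AEMeasurable (fun u => ENNReal.ofReal (‖E u‖ ^ 2)) (μ.restrict B)) {τ r : ℝ}
    (hτ : 0 < τ * r) {K : ℝ≥0∞}
    (hK : ∫⁻ u in B, ENNReal.ofReal (‖E u‖ ^ 2) ∂μ ≤ ENNReal.ofReal ((τ * r) ^ 2) * K) :
    (μ.restrict B) {u | τ * r < ‖E u‖} ≤ K := by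
  have h1 : (μ.restrict B) {u | τ * r < ‖E u‖} ≤
      (μ.restrict B) {u | ENNReal.ofReal ((τ * r) ^ 2) ≤ ENNReal.ofReal (‖E u‖ ^ 2)} := by
    apply measure_mono
    intro u hu
    simp only [mem_ofPred_eq] at hu ⊢
    exact ENNReal.ofReal_le_ofReal (by gcongr)
  have h2 := mul_meas_ge_le_lintegral₀ hEm (ENNReal.ofReal ((τ * r) ^ 2))
  have h0 : ENNReal.ofReal ((τ * r) ^ 2) ≠ 0 := by
    rw [Ne, ENNReal.ofReal_eq_zero, not_le]
    positivity
  have h3 := (mul_le_mul_right h1 (ENNReal.ofReal ((τ * r) ^ 2))).trans (h2.trans hK)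
  exact (ENNReal.mul_le_mul_iff_right h0 ENNReal.ofReal_ne_top).1 h3

end typical

end Crest.Agent.R247.Nis710
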