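import Crest.Agent.R247.Frd2_657
import Crest.Agent.R247.Ms4_322
import Crest.Agent.R247.Ms7_322
import Crest.Agent.R247.Ms8_322
import Crest.Agent.R247.Dir5_593
import Crest.Agent.R247.Bo8_84

-- ▼ part R247/Frd3_657
section

/-!
R247, block (5), leaf (5-F): Friedrichs mollification, file 3: the localised weak equation,
local `H²` regularity of weak solutions, `H²` approximation of a localised weak solution by test
functions. (helper657)
-/

set_option autoImplicit false
open scoped ContDiff ENNReal Topology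
open MeasureTheory Set Filter
open Crest.GeometryTopology.CoordMetric
open Crest.Agent.R202.Ell

namespace Crest.Agent.R247.Frd657

noncomputable section

variable {n : ℕ}

/-- gradient components of `χ u` -/
def locG (χ u : EE n → ℝ) (G : Fin n → EE n → ℝ) (i : Fin n) (x : EE n) : ℝ :=
  pderiv i χ x * u x + χ x * G i x

/-- the flux of `χ` -/
def flx (A : Fin n → Fin n → EE n → ℝ) (χ : EE n → ℝ) (i : Fin n) (x : EE n) : ℝ :=
  ∑ j, A i j x * pderiv j χ x

/-- right hand side of the equation of `χ u` -/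
def locF (A : Fin n → Fin n → EE n → ℝ) (χ u : EE n → ℝ) (G : Fin n → EE n → ℝ) (f : EE n → ℝ)
    (x : EE n) : ℝ :=
  χ x * f x + (∑ i, ∑ j, (A i j x * pderiv i χ x) * G j x)
    + ∑ i, (pderiv i (flx A χ i) x * u x + flx A χ i x * G i x)

section
variable {Ω : Set (EE n)} {A : Fin n → Fin n → EE n → ℝ} {u f χ : EE n → ℝ}
  {G : Fin n → EE n → ℝ}

theorem test_Apd (hΩ : IsOpen Ω) (hA : CoefOn Ω A) (hχ : IsTest χ) (hs : tsupport χ ⊆ Ω)
    (i j l : Fin n) : IsTest (fun x => A i j x * pderiv l χ x) :=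
  test_mul_on (hχ.pderiv l) hΩ ((tsupport_pderiv χ l).trans hs) (hA.smooth i j)

theorem supp_Apd (i j l : Fin n) :
    tsupport (fun x => A i j x * pderiv l χ x) ⊆ tsupport χ :=
  (tsupport_mul_on _ _).trans (tsupport_pderiv χ l)

theorem test_sum {ι : Type*} (s : Finset ι) {F : ι → EE n → ℝ} (h : ∀ i ∈ s, IsTest (F i)) :
    IsTest (fun x => ∑ i ∈ s, F i x) := by
  classical
  induction s using Finset.induction_on with
  | empty =>
    simp only [Finset.sum_empty]
    exact ⟨contDiff_const, HasCompactSupport.zero⟩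
  | insert a s ha ih =>
    simp only [Finset.sum_insert ha]
    exact (h a (by simp)).add (ih (fun i hi => h i (by simp [hi])))

theorem test_flx (hΩ : IsOpen Ω) (hA : CoefOn Ω A) (hχ : IsTest χ) (hs : tsupport χ ⊆ Ω)
    (i : Fin n) : IsTest (flx A χ i) :=
  test_sum _ fun j _ => test_Apd hΩ hA hχ hs i j j

theorem supp_flx (i : Fin n) : tsupport (flx A χ i) ⊆ tsupport χ := by
  apply closure_minimal _ (isClosed_tsupport χ)
  intro x hx
  by_contra h
  apply hx
  unfold flx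
  apply Finset.sum_eq_zero
  intro j _
  have : x ∉ tsupport (pderiv j χ) := fun h' => h (tsupport_pderiv χ j h')
  rw [image_eq_zero_of_notMem_tsupport this, mul_zero]

theorem pderiv_zero_off {x : EE n} (hx : x ∉ tsupport χ) (i : Fin n) : pderiv i χ x = 0 :=
  image_eq_zero_of_notMem_tsupport fun h => hx (tsupport_pderiv χ i h)

theorem locG_zero_off {x : EE n} (hx : x ∉ tsupport χ) (i : Fin n) : locG χ u G i x = 0 := by
  rw [locG, pderiv_zero_off hx, image_eq_zero_of_notMem_tsupport hx]; ring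

theorem locF_zero_off {x : EE n} (hx : x ∉ tsupport χ) : locF A χ u G f x = 0 := by
  have h1 : ∀ i, flx A χ i x = 0 := fun i =>
    image_eq_zero_of_notMem_tsupport fun h => hx (supp_flx i h)
  have h2 : ∀ i, pderiv i (flx A χ i) x = 0 := fun i =>
    image_eq_zero_of_notMem_tsupport fun h => hx (supp_flx i (tsupport_pderiv _ i h))
  simp only [locF, image_eq_zero_of_notMem_tsupport hx, pderiv_zero_off hx, h1, h2]
  simp

theorem memLp_locU (hu : L2On Ω u) (hχ : IsTest χ) (hs : tsupport χ ⊆ Ω) :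
    MemLp (fun x => χ x * u x) 2 := hu.mul_test hχ.continuous hχ.cpt hs

theorem memLp_locG (hu : L2On Ω u) (hG : ∀ i, L2On Ω (G i)) (hχ : IsTest χ)
    (hs : tsupport χ ⊆ Ω) (i : Fin n) : MemLp (locG χ u G i) 2 :=
  (hu.mul_test (hχ.pderiv i).continuous (hχ.pderiv i).cpt ((tsupport_pderiv χ i).trans hs)).add
    ((hG i).mul_test hχ.continuous hχ.cpt hs)

theorem memLp_locF (hΩ : IsOpen Ω) (hA : CoefOn Ω A) (hu : L2On Ω u) (hG : ∀ i, L2On Ω (G i))
    (hf : L2On Ω f) (hχ : IsTest χ) (hs : tsupport χ ⊆ Ω) : MemLp (locF A χ u G f) 2 := by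
  have h1 := hf.mul_test hχ.continuous hχ.cpt hs
  have h2 : MemLp (fun x => ∑ i, ∑ j, (A i j x * pderiv i χ x) * G j x) 2 (volume : Measure (EE n)) := by
    refine memLp_finsetSum _ fun i _ => memLp_finsetSum _ fun j _ => ?_
    exact (hG j).mul_test (test_Apd hΩ hA hχ hs i j i).continuous (test_Apd hΩ hA hχ hs i j i).cpt
      ((supp_Apd i j i).trans hs)
  have h3 : MemLp (fun x => ∑ i, (pderiv i (flx A χ i) x * u x + flx A χ i x * G i x)) 2
      (volume : Measure (EE n)) := by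
    refine memLp_finsetSum _ fun i _ => ?_
    have hT := test_flx hΩ hA hχ hs i
    exact (hu.mul_test (hT.pderiv i).continuous (hT.pderiv i).cpt
      ((tsupport_pderiv _ i).trans ((supp_flx i).trans hs))).add
      ((hG i).mul_test hT.continuous hT.cpt ((supp_flx i).trans hs))
  exact (h1.add h2).add h3

theorem wd_locG (hu : L2On Ω u) (hG : ∀ i, L2On Ω (G i)) (hW : ∀ i, WDOn Ω i u (G i))
    (hχ : IsTest χ) (hs : tsupport χ ⊆ Ω) (i : Fin n) :
    WD i (fun x => χ x * u x) (locG χ u G i) := (hW i).mul_test hu (hG i) hχ hs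

/-- **the localised weak equation** -/
theorem loc_eq (hΩ : IsOpen Ω) (hA : CoefOn Ω A) (hu : L2On Ω u) (hG : ∀ i, L2On Ω (G i))
    (hf : L2On Ω f) (hW : ∀ i, WDOn Ω i u (G i))
    (heq : ∀ φ, IsTest φ → tsupport φ ⊆ Ω →
      ∫ x, ∑ i, ∑ j, A i j x * G j x * pderiv i φ x = - ∫ x, f x * φ x)
    (hχ : IsTest χ) (hs : tsupport χ ⊆ Ω) {φ : EE n → ℝ} (hφ : IsTest φ) :
    ∫ x, ∑ i, ∑ j, A i j x * locG χ u G j x * pderiv i φ x
      = - ∫ x, locF A χ u G f x * φ x := by
  have hT : IsTest (fun x => χ x * φ x) := hφ.mul_left hχ.smooth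
  have hTs : tsupport (fun x => χ x * φ x) ⊆ Ω := (tsupport_mul_left' χ φ).trans hs
  have hd : ∀ i x, pderiv i (fun x => χ x * φ x) x = pderiv i χ x * φ x + χ x * pderiv i φ x :=
    fun i x => pderiv_mul i x (hχ.smooth.differentiable (by simp) x)
      (hφ.smooth.differentiable (by simp) x)
  have key := heq _ hT hTs
  -- integrability of the pieces
  have a1 : ∀ i j, Integrable (fun x => A i j x * pderiv i χ x * G j x * φ x) := by
    intro i j
    have t := (test_Apd hΩ hA hχ hs i j i)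
    have t2 : IsTest (fun x => (A i j x * pderiv i χ x) * φ x) := hφ.mul_left t.smooth
    have := (hG j).int_test t2.continuous t2.cpt
      ((tsupport_mul_left' _ φ).trans ((supp_Apd i j i).trans hs))
    refine this.congr (Eventually.of_forall fun x => ?_)
    simp only; ring
  have a2 : ∀ i j, Integrable (fun x => χ x * (A i j x * G j x * pderiv i φ x)) := by
    intro i j
    have t : IsTest (fun x => A i j x * χ x) := test_mul_on hχ hΩ hs (hA.smooth i j)
    have t2 : IsTest (fun x => (A i j x * χ x) * pderiv i φ x) := (hφ.pderiv i).mul_left t.smooth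
    have := (hG j).int_test t2.continuous t2.cpt
      ((tsupport_mul_left' _ _).trans ((tsupport_mul_on _ _).trans hs))
    refine this.congr (Eventually.of_forall fun x => ?_)
    simp only; ring
  have a3 : ∀ i, Integrable (fun x => flx A χ i x * u x * pderiv i φ x) := by
    intro i
    have t := test_flx hΩ hA hχ hs i
    have t2 : IsTest (fun x => flx A χ i x * pderiv i φ x) := (hφ.pderiv i).mul_left t.smooth
    have := hu.int_test t2.continuous t2.cpt
      ((tsupport_mul_left' _ _).trans ((supp_flx i).trans hs))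
    refine this.congr (Eventually.of_forall fun x => ?_)
    simp only; ring
  have a4 : ∀ i, Integrable (fun x => (pderiv i (flx A χ i) x * u x + flx A χ i x * G i x) * φ x) := by
    intro i
    have hT := test_flx hΩ hA hχ hs i
    have m1 : MemLp (fun x => pderiv i (flx A χ i) x * u x + flx A χ i x * G i x) 2 := (hu.mul_test (hT.pderiv i).continuous (hT.pderiv i).cpt
      ((tsupport_pderiv _ i).trans ((supp_flx i).trans hs))).add
      ((hG i).mul_test hT.continuous hT.cpt ((supp_flx i).trans hs))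
    exact integrable_mul m1 (hφ.memLp 2)
  have a5 : Integrable (fun x => χ x * f x * φ x) :=
    integrable_mul (hf.mul_test hχ.continuous hχ.cpt hs) (hφ.memLp 2)
  -- the key identity, split
  have k1 : ∫ x, ∑ i, ∑ j, A i j x * G j x * pderiv i (fun x => χ x * φ x) x
      = (∫ x, ∑ i, ∑ j, A i j x * pderiv i χ x * G j x * φ x)
        + ∫ x, ∑ i, ∑ j, χ x * (A i j x * G j x * pderiv i φ x) := by
    rw [← integral_add (integrable_finsetSum _ fun i _ => integrable_finsetSum _ fun j _ => a1 i j)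
      (integrable_finsetSum _ fun i _ => integrable_finsetSum _ fun j _ => a2 i j)]
    congr 1; ext x
    rw [← Finset.sum_add_distrib]
    refine Finset.sum_congr rfl fun i _ => ?_
    rw [← Finset.sum_add_distrib]
    refine Finset.sum_congr rfl fun j _ => ?_
    rw [hd]; ring
  have k2 : ∫ x, ∑ i, ∑ j, A i j x * locG χ u G j x * pderiv i φ x
      = (∫ x, ∑ i, flx A χ i x * u x * pderiv i φ x)
        + ∫ x, ∑ i, ∑ j, χ x * (A i j x * G j x * pderiv i φ x) := by
    rw [← integral_add (integrable_finsetSum _ fun i _ => a3 i)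
      (integrable_finsetSum _ fun i _ => integrable_finsetSum _ fun j _ => a2 i j)]
    congr 1; ext x
    rw [← Finset.sum_add_distrib]
    refine Finset.sum_congr rfl fun i _ => ?_
    rw [flx, Finset.sum_mul, Finset.sum_mul, ← Finset.sum_add_distrib]
    refine Finset.sum_congr rfl fun j _ => ?_
    rw [locG]; ring
  have k3 : ∫ x, ∑ i, flx A χ i x * u x * pderiv i φ x
      = - ∫ x, ∑ i, (pderiv i (flx A χ i) x * u x + flx A χ i x * G i x) * φ x := by
    rw [integral_finsetSum _ fun i _ => a3 i, integral_finsetSum _ fun i _ => a4 i,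
      ← Finset.sum_neg_distrib]
    refine Finset.sum_congr rfl fun i _ => ?_
    exact (hW i).parts hu (hG i) (test_flx hΩ hA hχ hs i) ((supp_flx i).trans hs) hφ
  have k4 : ∫ x, locF A χ u G f x * φ x = (∫ x, χ x * f x * φ x)
      + (∫ x, ∑ i, ∑ j, A i j x * pderiv i χ x * G j x * φ x)
      + ∫ x, ∑ i, (pderiv i (flx A χ i) x * u x + flx A χ i x * G i x) * φ x := by
    have s1 : Integrable (fun x => ∑ i, ∑ j, A i j x * pderiv i χ x * G j x * φ x) :=
      integrable_finsetSum _ fun i _ => integrable_finsetSum _ fun j _ => a1 i j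
    have s2 : Integrable (fun x => ∑ i, (pderiv i (flx A χ i) x * u x + flx A χ i x * G i x) * φ x) :=
      integrable_finsetSum _ fun i _ => a4 i
    have s3 : Integrable (fun x => χ x * f x * φ x
        + ∑ i, ∑ j, A i j x * pderiv i χ x * G j x * φ x) := a5.add s1
    rw [← integral_add a5 s1, ← integral_add s3 s2]
    congr 1; ext x
    simp only [locF, add_mul, Finset.sum_mul]
  have k5 : ∫ x, f x * (χ x * φ x) = ∫ x, χ x * f x * φ x := by
    congr 1; ext x; ring
  rw [k1, k5] at key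
  rw [k2, k3, k4]
  linarith

/-- a global weak derivative of a function vanishing off a closed set vanishes a.e. off it -/
theorem wd_zero_off {S : Set (EE n)} (hS : IsClosed S) {i : Fin n} {v g : EE n → ℝ}
    (hg : LocallyIntegrable g) (h : WD i v g) (hv : ∀ x, x ∉ S → v x = 0) :
    ∀ᵐ x, x ∉ S → g x = 0 := by
  refine IsOpen.ae_eq_zero_of_integral_contDiff_smul_eq_zero hS.isOpen_compl
    (hg.locallyIntegrableOn _) ?_
  intro φ hφ hφc hφs
  have hT : IsTest φ := ⟨hφ, hφc⟩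
  have h1 := h φ hT
  have h2 : ∀ x, v x * pderiv i φ x = 0 := by
    intro x
    by_cases hx : x ∈ S
    · have : x ∉ tsupport φ := fun h' => hφs h' hx
      rw [pderiv_zero_off this, mul_zero]
    · rw [hv x hx, zero_mul]
  simp only [h2, integral_zero] at h1
  have h3 : ∫ x, φ x • g x = ∫ x, g x * φ x := by
    congr 1; ext x; rw [smul_eq_mul, mul_comm]
  rw [h3]; linarith

/-- **Local `H²` regularity**: second weak derivatives of `χ u`, vanishing off the support of
`χ`, symmetric. -/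
theorem exists_h2 (hΩ : IsOpen Ω) (hA : CoefOn Ω A) (hu : L2On Ω u) (hG : ∀ i, L2On Ω (G i))
    (hf : L2On Ω f) (hW : ∀ i, WDOn Ω i u (G i))
    (heq : ∀ φ, IsTest φ → tsupport φ ⊆ Ω →
      ∫ x, ∑ i, ∑ j, A i j x * G j x * pderiv i φ x = - ∫ x, f x * φ x)
    (hχ : IsTest χ) (hs : tsupport χ ⊆ Ω) :
    ∃ H : Fin n → Fin n → EE n → ℝ, (∀ i j, MemLp (H i j) 2) ∧
      (∀ i j x, x ∉ tsupport χ → H i j x = 0) ∧
      (∀ i j, WD j (locG χ u G i) (H i j)) ∧ ∀ i j, H i j =ᵐ[volume] H j i := by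
  classical
  obtain ⟨B, lam, M, hB, hBA⟩ := exists_coef hΩ (K := tsupport χ) hχ.cpt hs hA
  have mG : ∀ i, MemLp (locG χ u G i) 2 := memLp_locG hu hG hχ hs
  have mF : MemLp (locF A χ u G f) 2 := memLp_locF hΩ hA hu hG hf hχ hs
  have mU := memLp_locU hu hχ hs
  set N : ℝ := (∑ i, nm (locG χ u G i)) + nm (locF A χ u G f) with hN
  have hN1 : ∀ i, nm (locG χ u G i) ≤ N := fun i => by
    have h1 := Finset.single_le_sum (f := fun i => nm (locG χ u G i)) (fun i _ => nm_nonneg _)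
      (Finset.mem_univ i)
    have h2 := nm_nonneg (locF A χ u G f)
    linarith
  have hN2 : nm (locF A χ u G f) ≤ N := by
    have h1 : 0 ≤ ∑ i, nm (locG χ u G i) := Finset.sum_nonneg fun i _ => nm_nonneg _
    linarith
  have hN0 : 0 ≤ N := (nm_nonneg _).trans hN2
  have key := fun i j => h2_est hB hN0 (v := fun x => χ x * u x) (f := locF A χ u G f)
    (G := locG χ u G) (MemLp.locInt mU) (fun i => N2.of_nm (mG i) (hN1 i)) (N2.of_nm mF hN2)
    (wd_locG hu hG hW hχ hs) (fun φ hφ => by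
      rw [← loc_eq hΩ hA hu hG hf hW heq hχ hs hφ]
      congr 1; ext x
      refine Finset.sum_congr rfl fun i _ => Finset.sum_congr rfl fun j _ => ?_
      by_cases hx : x ∈ tsupport χ
      · rw [hBA i j x hx]
      · rw [locG_zero_off hx]; ring) i j
  choose H0 hH1 hH2 using key
  have hz : ∀ i j, (tsupport χ).indicator (H0 i j) =ᵐ[volume] H0 i j := by
    intro i j
    have := wd_zero_off (isClosed_tsupport χ) (MemLp.locInt (hH1 i j).1) (hH2 i j)
      (fun x hx => locG_zero_off hx i)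
    filter_upwards [this] with x hx
    by_cases hxs : x ∈ tsupport χ
    · rw [indicator_of_mem hxs]
    · rw [indicator_of_notMem hxs, hx hxs]
  have hm : ∀ i j, MemLp ((tsupport χ).indicator (H0 i j)) 2 := fun i j =>
    (memLp_congr_ae (hz i j)).2 (hH1 i j).1
  have hw : ∀ i j, WD j (locG χ u G i) ((tsupport χ).indicator (H0 i j)) := fun i j =>
    (hH2 i j).congr (ae_eq_refl _) (hz i j)
  refine ⟨fun i j => (tsupport χ).indicator (H0 i j), hm, ?_, hw, ?_⟩
  · intro i j x hx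
    exact indicator_of_notMem hx _
  · intro i j
    have h1 := WD.symm (wd_locG hu hG hW hχ hs i) (wd_locG hu hG hW hχ hs j) (hw j i)
    exact (hw i j).unique (MemLp.locInt (hm i j)) (MemLp.locInt (hm j i)) h1

end

end

end Crest.Agent.R247.Frd657
end

-- ▼ part R247/Frd4_657
section

/-!
R247, block (5), leaf (5-F): Friedrichs mollification, file 4: `H²` approximation of a localised
weak solution by test functions, convergence in the graph norm of `w⁻¹ div (A ∇ ·)` and of every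
second order operator with continuous coefficients. (helper657)
-/

set_option autoImplicit false
open scoped ContDiff ENNReal Topology
open MeasureTheory Set Filter
open Crest.GeometryTopology.CoordMetric
open Crest.Agent.R202.Ell

namespace Crest.Agent.R247.Frd657

noncomputable section

variable {n : ℕ}

/-- `v k → U` in `H²`, all `v k` test functions with support in the compact set `K`; `UG` the
weak gradient of `U`, `H` the second weak derivatives. -/
structure H2App (K : Set (EE n)) (U : EE n → ℝ) (UG : Fin n → EE n → ℝ)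
    (H : Fin n → Fin n → EE n → ℝ) (v : ℕ → EE n → ℝ) : Prop where
  cpt : IsCompact K
  test : ∀ k, IsTest (v k)
  supp : ∀ k, tsupport (v k) ⊆ K
  off0 : ∀ x, x ∉ K → U x = 0
  off1 : ∀ i x, x ∉ K → UG i x = 0
  off2 : ∀ i j x, x ∉ K → H i j x = 0
  m0 : MemLp U 2
  m1 : ∀ i, MemLp (UG i) 2
  m2 : ∀ i j, MemLp (H i j) 2
  h0 : Tendsto (fun k => eLpNorm (fun x => v k x - U x) 2 volume) atTop (𝓝 0)
  h1 : ∀ i, Tendsto (fun k => eLpNorm (fun x => pderiv i (v k) x - UG i x) 2 volume) atTop (𝓝 0)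
  h2 : ∀ i j, Tendsto (fun k => eLpNorm (fun x => pderiv j (pderiv i (v k)) x - H i j x) 2 volume)
    atTop (𝓝 0)

theorem tendsto_eLpNorm_of_nm {f : ℕ → EE n → ℝ} (hm : ∀ k, MemLp (f k) 2)
    (h : Tendsto (fun k => nm (f k)) atTop (𝓝 0)) :
    Tendsto (fun k => eLpNorm (f k) 2 volume) atTop (𝓝 0) := by
  have h1 : ∀ k, eLpNorm (f k) 2 volume = ENNReal.ofReal (nm (f k)) := fun k =>
    (ENNReal.ofReal_toReal (hm k).2.ne).symm
  simp only [h1]
  have := ENNReal.tendsto_ofReal h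
  simpa using this

theorem tendsto_eLpNorm_cv {g : EE n → ℝ} (hg : MemLp g 2) (k0 : ℕ) :
    Tendsto (fun k => eLpNorm (fun x => cv (rho n (k + k0)) g x - g x) 2 volume) atTop (𝓝 0) := by
  refine tendsto_eLpNorm_of_nm (fun k => (memLp_cv (rho_test _) hg).sub hg) ?_
  exact (tendsto_nm_cv hg).comp (tendsto_add_atTop_nat k0)

theorem norm_eLpNorm_mul_le {a g : EE n → ℝ} {C : ℝ} {K : Set (EE n)}
    (ha : ∀ x ∈ K, |a x| ≤ C) (hg : ∀ x, x ∉ K → g x = 0) :
    eLpNorm (fun x => a x * g x) 2 volume ≤ ENNReal.ofReal C * eLpNorm g 2 volume := by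
  refine eLpNorm_le_mul_eLpNorm_of_ae_le_mul (Eventually.of_forall fun x => ?_) 2
  by_cases hx : x ∈ K
  · rw [norm_mul]
    exact mul_le_mul_of_nonneg_right (by simpa [Real.norm_eq_abs] using ha x hx) (norm_nonneg _)
  · simp [hg x hx]

/-- multiplication by a locally bounded function preserves convergence -/
theorem tendsto_mul_loc {K Ω : Set (EE n)} (hK : IsCompact K) (hKΩ : K ⊆ Ω) {a : EE n → ℝ}
    (ha : ContinuousOn a Ω) {f : ℕ → EE n → ℝ} (hf : ∀ k x, x ∉ K → f k x = 0)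
    (h : Tendsto (fun k => eLpNorm (f k) 2 volume) atTop (𝓝 0)) :
    Tendsto (fun k => eLpNorm (fun x => a x * f k x) 2 volume) atTop (𝓝 0) := by
  obtain ⟨C, hC⟩ := hK.exists_bound_of_continuousOn (ha.mono hKΩ)
  have h1 : Tendsto (fun k => ENNReal.ofReal C * eLpNorm (f k) 2 volume) atTop (𝓝 0) := by
    have := ENNReal.Tendsto.const_mul h (Or.inr (ENNReal.ofReal_ne_top (r := C)))
    simpa using this
  exact tendsto_of_tendsto_of_tendsto_of_le_of_le tendsto_const_nhds h1 (fun _ => bot_le)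
    (fun k => norm_eLpNorm_mul_le (fun x hx => by simpa [Real.norm_eq_abs] using hC x hx) (hf k))

theorem tendsto_eLpNorm_sum {ι : Type*} (s : Finset ι) {f : ι → ℕ → EE n → ℝ}
    (hm : ∀ i ∈ s, ∀ k, AEStronglyMeasurable (f i k))
    (h : ∀ i ∈ s, Tendsto (fun k => eLpNorm (f i k) 2 volume) atTop (𝓝 0)) :
    Tendsto (fun k => eLpNorm (fun x => ∑ i ∈ s, f i k x) 2 volume) atTop (𝓝 0) := by
  have h1 : Tendsto (fun k => ∑ i ∈ s, eLpNorm (f i k) 2 volume) atTop (𝓝 0) := by
    have := tendsto_finsetSum s h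
    simpa using this
  refine tendsto_of_tendsto_of_tendsto_of_le_of_le tendsto_const_nhds h1 (fun _ => bot_le)
    (fun k => ?_)
  have h2 := eLpNorm_sum_le (p := 2) (μ := (volume : Measure (EE n))) (s := s)
    (f := fun i => f i k) (fun i hi => hm i hi k) (by norm_num)
  refine le_trans (le_of_eq ?_) h2
  congr 1
  ext x
  rw [Finset.sum_apply]

section
variable {K Ω : Set (EE n)} {U : EE n → ℝ} {UG : Fin n → EE n → ℝ}
    {H : Fin n → Fin n → EE n → ℝ} {v : ℕ → EE n → ℝ}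

theorem H2App.v_off (h : H2App K U UG H v) {k : ℕ} {x : EE n} (hx : x ∉ K) : v k x = 0 :=
  image_eq_zero_of_notMem_tsupport fun h' => hx (h.supp k h')

theorem H2App.dv_off (h : H2App K U UG H v) {k : ℕ} {x : EE n} (hx : x ∉ K) (i : Fin n) :
    pderiv i (v k) x = 0 :=
  pderiv_zero_off (fun h' => hx (h.supp k h')) i

theorem H2App.ddv_off (h : H2App K U UG H v) {k : ℕ} {x : EE n} (hx : x ∉ K) (i j : Fin n) :
    pderiv j (pderiv i (v k)) x = 0 :=
  pderiv_zero_off (fun h' => hx (h.supp k (tsupport_pderiv _ i h'))) j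

/-- **every second order operator with continuous coefficients converges in `L²`** -/
theorem H2App.op2 (h : H2App K U UG H v) (hKΩ : K ⊆ Ω) {a : Fin n → Fin n → EE n → ℝ}
    {b : Fin n → EE n → ℝ} {c : EE n → ℝ} (ha : ∀ i j, ContinuousOn (a i j) Ω)
    (hb : ∀ i, ContinuousOn (b i) Ω) (hc : ContinuousOn c Ω) :
    Tendsto (fun k => eLpNorm (fun x =>
      ((∑ i, ∑ j, a i j x * pderiv j (pderiv i (v k)) x) + (∑ i, b i x * pderiv i (v k) x)
        + c x * v k x)
      - ((∑ i, ∑ j, a i j x * H i j x) + (∑ i, b i x * UG i x) + c x * U x)) 2 volume)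
      atTop (𝓝 0) := by
  have mzero : ∀ {c g : EE n → ℝ}, ContinuousOn c Ω → AEStronglyMeasurable g →
      (∀ x, x ∉ K → g x = 0) → AEStronglyMeasurable (fun x => c x * g x) := by
    intro c g hc hg h0
    have e : (fun x => c x * g x) = K.indicator (fun x => c x * g x) := by
      ext x
      by_cases hx : x ∈ K
      · rw [indicator_of_mem hx]
      · rw [indicator_of_notMem hx, h0 x hx, mul_zero]
    rw [e, aestronglyMeasurable_indicator_iff h.cpt.measurableSet]
    exact ((hc.mono hKΩ).aestronglyMeasurable h.cpt.measurableSet).mul hg.restrict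
  have md0 : ∀ k, AEStronglyMeasurable (fun x => v k x - U x) := fun k =>
    (h.test k).continuous.aestronglyMeasurable.sub h.m0.1
  have md1 : ∀ i k, AEStronglyMeasurable (fun x => pderiv i (v k) x - UG i x) := fun i k =>
    ((h.test k).pderiv i).continuous.aestronglyMeasurable.sub (h.m1 i).1
  have md2 : ∀ i j k, AEStronglyMeasurable (fun x => pderiv j (pderiv i (v k)) x - H i j x) :=
    fun i j k => (((h.test k).pderiv i).pderiv j).continuous.aestronglyMeasurable.sub (h.m2 i j).1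
  have o0 : ∀ k x, x ∉ K → v k x - U x = 0 := fun k x hx => by rw [h.v_off hx, h.off0 x hx, sub_zero]
  have o1 : ∀ i k x, x ∉ K → pderiv i (v k) x - UG i x = 0 := fun i k x hx => by
    rw [h.dv_off hx, h.off1 i x hx, sub_zero]
  have o2 : ∀ i j k x, x ∉ K → pderiv j (pderiv i (v k)) x - H i j x = 0 := fun i j k x hx => by
    rw [h.ddv_off hx, h.off2 i j x hx, sub_zero]
  have t0 := tendsto_mul_loc h.cpt hKΩ hc o0 h.h0
  have t1 := tendsto_eLpNorm_sum Finset.univ (f := fun i k x => b i x * (pderiv i (v k) x - UG i x))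
    (fun i _ k => mzero (hb i) (md1 i k) (o1 i k))
    (fun i _ => tendsto_mul_loc h.cpt hKΩ (hb i) (o1 i) (h.h1 i))
  have t2 := tendsto_eLpNorm_sum Finset.univ
    (f := fun i k x => ∑ j, a i j x * (pderiv j (pderiv i (v k)) x - H i j x))
    (fun i _ k => Finset.aestronglyMeasurable_fun_sum _ fun j _ => mzero (ha i j) (md2 i j k) (o2 i j k))
    (fun i _ => tendsto_eLpNorm_sum Finset.univ
      (f := fun j k x => a i j x * (pderiv j (pderiv i (v k)) x - H i j x))
      (fun j _ k => mzero (ha i j) (md2 i j k) (o2 i j k))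
      (fun j _ => tendsto_mul_loc h.cpt hKΩ (ha i j) (o2 i j) (h.h2 i j)))
  have t3 := (t2.add t1).add t0
  simp only [add_zero] at t3
  refine tendsto_of_tendsto_of_tendsto_of_le_of_le tendsto_const_nhds t3 (fun _ => bot_le)
    (fun k => ?_)
  have n2 : AEStronglyMeasurable
      (fun x => ∑ i, ∑ j, a i j x * (pderiv j (pderiv i (v k)) x - H i j x)) :=
    Finset.aestronglyMeasurable_fun_sum _ fun i _ =>
      Finset.aestronglyMeasurable_fun_sum _ fun j _ => mzero (ha i j) (md2 i j k) (o2 i j k)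
  have n1 : AEStronglyMeasurable (fun x => ∑ i, b i x * (pderiv i (v k) x - UG i x)) :=
    Finset.aestronglyMeasurable_fun_sum _ fun i _ => mzero (hb i) (md1 i k) (o1 i k)
  have n0 : AEStronglyMeasurable (fun x => c x * (v k x - U x)) := mzero hc (md0 k) (o0 k)
  have e : (fun x => ((∑ i, ∑ j, a i j x * pderiv j (pderiv i (v k)) x)
        + (∑ i, b i x * pderiv i (v k) x) + c x * v k x)
      - ((∑ i, ∑ j, a i j x * H i j x) + (∑ i, b i x * UG i x) + c x * U x))
      = ((fun x => ∑ i, ∑ j, a i j x * (pderiv j (pderiv i (v k)) x - H i j x))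
        + (fun x => ∑ i, b i x * (pderiv i (v k) x - UG i x)))
        + fun x => c x * (v k x - U x) := by
    ext x
    simp only [Pi.add_apply, mul_sub, Finset.sum_sub_distrib]
    ring
  rw [e]
  exact (eLpNorm_add_le (n2.add n1) n0 (by norm_num)).trans
    (add_le_add (eLpNorm_add_le n2 n1 (by norm_num)) le_rfl)

end

/-- `w⁻¹ div (A ∇ v)` -/
def lapW (A : Fin n → Fin n → EE n → ℝ) (w : EE n → ℝ) (v : EE n → ℝ) (x : EE n) : ℝ :=
  (w x)⁻¹ * ∑ i, pderiv i (fun y => ∑ j, A i j y * pderiv j v y) x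

theorem lapW_off (A : Fin n → Fin n → EE n → ℝ) (w : EE n → ℝ) {v : EE n → ℝ} {x : EE n}
    (hx : x ∉ tsupport v) : lapW A w v x = 0 := by
  have h1 : ∀ i, pderiv i (fun y => ∑ j, A i j y * pderiv j v y) x = 0 := by
    intro i
    have h2 : (fun y => ∑ j, A i j y * pderiv j v y) =ᶠ[𝓝 x] fun _ => 0 := by
      filter_upwards [(isClosed_tsupport v).isOpen_compl.mem_nhds hx] with y hy
      apply Finset.sum_eq_zero
      intro j _
      rw [pderiv_zero_off hy, mul_zero]
    unfold Crest.GeometryTopology.CoordMetric.pderiv at h2 ⊢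
    rw [h2.fderiv_eq]
    simp
  rw [lapW]
  simp [h1]

theorem lapW_expand {Ω : Set (EE n)} (hΩ : IsOpen Ω) {A : Fin n → Fin n → EE n → ℝ}
    (hA : CoefOn Ω A) (w : EE n → ℝ) {v : EE n → ℝ} (hv : IsTest v) {x : EE n} (hx : x ∈ Ω) :
    lapW A w v x = (∑ i, ∑ j, ((w x)⁻¹ * A j i x) * pderiv j (pderiv i v) x)
      + ∑ i, ((w x)⁻¹ * ∑ j, pderiv j (A j i) x) * pderiv i v x := by
  have hd : ∀ i j, DifferentiableAt ℝ (A i j) x := fun i j =>
    ((hA.smooth i j).contDiffAt (hΩ.mem_nhds hx)).differentiableAt (by simp)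
  have hv' : ∀ j, DifferentiableAt ℝ (pderiv j v) x := fun j =>
    (hv.pderiv j).smooth.differentiable (by simp) x
  have h1 : ∀ i, pderiv i (fun y => ∑ j, A i j y * pderiv j v y) x
      = ∑ j, (pderiv i (A i j) x * pderiv j v x + A i j x * pderiv i (pderiv j v) x) := by
    intro i
    rw [pderiv_sum (f := fun j y => A i j y * pderiv j v y) Finset.univ i x
      (fun j _ => (hd i j).fun_mul (hv' j))]
    refine Finset.sum_congr rfl fun j _ => ?_
    rw [pderiv_mul i x (hd i j) (hv' j)]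
  rw [lapW]
  simp only [h1, Finset.sum_add_distrib, mul_add]
  rw [add_comm]
  congr 1
  · rw [Finset.sum_comm, Finset.mul_sum]
    refine Finset.sum_congr rfl fun i _ => ?_
    rw [Finset.mul_sum]
    refine Finset.sum_congr rfl fun j _ => ?_
    ring
  · rw [Finset.sum_comm, Finset.mul_sum]
    refine Finset.sum_congr rfl fun i _ => ?_
    rw [Finset.mul_sum, Finset.mul_sum, Finset.sum_mul]
    refine Finset.sum_congr rfl fun j _ => ?_
    ring

section
variable {Ω : Set (EE n)} {A : Fin n → Fin n → EE n → ℝ} {u f χ : EE n → ℝ}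
  {G : Fin n → EE n → ℝ}

/-- **Friedrichs' theorem, `H²` form.** -/
theorem exists_approx (hΩ : IsOpen Ω) (hA : CoefOn Ω A) (hu : L2On Ω u) (hG : ∀ i, L2On Ω (G i))
    (hf : L2On Ω f) (hW : ∀ i, WDOn Ω i u (G i))
    (heq : ∀ φ, IsTest φ → tsupport φ ⊆ Ω →
      ∫ x, ∑ i, ∑ j, A i j x * G j x * pderiv i φ x = - ∫ x, f x * φ x)
    (hχ : IsTest χ) (hs : tsupport χ ⊆ Ω) :
    ∃ (K : Set (EE n)) (H : Fin n → Fin n → EE n → ℝ) (v : ℕ → EE n → ℝ), K ⊆ Ω ∧
      tsupport χ ⊆ K ∧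
      H2App K (fun x => χ x * u x) (locG χ u G) H v ∧
      (∀ i j, WD j (locG χ u G i) (H i j)) ∧ (∀ i j, H i j =ᵐ[volume] H j i) ∧
      ∃ k0 : ℕ, ∀ k, v k = cv (rho n (k + k0)) (fun x => χ x * u x) := by
  obtain ⟨H, hH1, hH2, hH3, hH4⟩ := exists_h2 hΩ hA hu hG hf hW heq hχ hs
  have hc : IsCompact (tsupport χ) := hχ.cpt
  obtain ⟨δ, hδ, hδΩ⟩ := hc.exists_cthickening_subset_open hΩ hs
  obtain ⟨k0, hk0⟩ := exists_nat_one_div_lt hδ
  have mU := memLp_locU hu hχ hs
  have mG : ∀ i, MemLp (locG χ u G i) 2 := memLp_locG hu hG hχ hs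
  have hW' := wd_locG hu hG hW hχ hs
  have hd1 : ∀ k i, pderiv i (cv (rho n (k + k0)) (fun x => χ x * u x))
      = cv (rho n (k + k0)) (locG χ u G i) := by
    intro k i; ext x
    exact pderiv_cv_wd (rho_test _) (MemLp.locInt mU) (hW' i) x
  have hd2 : ∀ k i j, pderiv j (cv (rho n (k + k0)) (locG χ u G i))
      = cv (rho n (k + k0)) (H i j) := by
    intro k i j; ext x
    exact pderiv_cv_wd (rho_test _) (MemLp.locInt (mG i)) (hH3 i j) x
  have hoff : ∀ x, x ∉ tsupport χ → χ x * u x = 0 := fun x hx => by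
    rw [image_eq_zero_of_notMem_tsupport hx, zero_mul]
  have hsub : tsupport χ ⊆ Metric.cthickening δ (tsupport χ) := Metric.self_subset_cthickening _
  have hcK : IsCompact (Metric.cthickening δ (tsupport χ)) := hc.cthickening
  have hsupp : ∀ k, tsupport (cv (rho n (k + k0)) (fun x => χ x * u x))
      ⊆ Metric.cthickening δ (tsupport χ) := by
    intro k
    refine (tsupport_cv_subset hoff (k + k0)).trans (Metric.cthickening_mono ?_ _)
    have h1 : (1 : ℝ) / (((k + k0 : ℕ) : ℝ) + 1) ≤ 1 / ((k0 : ℝ) + 1) := by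
      apply one_div_le_one_div_of_le (by positivity)
      push_cast
      have : (0 : ℝ) ≤ k := Nat.cast_nonneg k
      linarith
    exact h1.trans hk0.le
  refine ⟨Metric.cthickening δ (tsupport χ), H, fun k => cv (rho n (k + k0)) (fun x => χ x * u x),
    hδΩ, hsub, ?_, hH3, hH4, ?_⟩
  · refine ⟨hcK, fun k => ⟨cv_smooth (rho_test _) (MemLp.locInt mU),
        hcK.of_isClosed_subset (isClosed_tsupport _) (hsupp k)⟩, hsupp,
      fun x hx => hoff x fun h => hx (hsub h),
      fun i x hx => locG_zero_off (fun h => hx (hsub h)) i,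
      fun i j x hx => hH2 i j x fun h => hx (hsub h), mU, mG, hH1,
      tendsto_eLpNorm_cv mU k0, ?_, ?_⟩
    · intro i
      simp only [hd1]
      exact tendsto_eLpNorm_cv (mG i) k0
    · intro i j
      simp only [hd1, hd2]
      exact tendsto_eLpNorm_cv (hH1 i j) k0
  · exact ⟨k0, fun k => rfl⟩

/-- **Friedrichs' theorem, graph norm form**: `v k → χ u` in `L²`, gradients converge in `L²`,
`w⁻¹ div (A ∇ v k) → w⁻¹ locF` in `L²`. -/
theorem exists_approx_graph (hΩ : IsOpen Ω) (hA : CoefOn Ω A) {w : EE n → ℝ}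
    (hw : ContinuousOn w Ω) (hw0 : ∀ x ∈ Ω, w x ≠ 0) (hu : L2On Ω u) (hG : ∀ i, L2On Ω (G i))
    (hf : L2On Ω f) (hW : ∀ i, WDOn Ω i u (G i))
    (heq : ∀ φ, IsTest φ → tsupport φ ⊆ Ω →
      ∫ x, ∑ i, ∑ j, A i j x * G j x * pderiv i φ x = - ∫ x, f x * φ x)
    (hχ : IsTest χ) (hs : tsupport χ ⊆ Ω) :
    ∃ (K : Set (EE n)) (H : Fin n → Fin n → EE n → ℝ) (v : ℕ → EE n → ℝ), K ⊆ Ω ∧
      tsupport χ ⊆ K ∧
      H2App K (fun x => χ x * u x) (locG χ u G) H v ∧
      (∀ i j, WD j (locG χ u G i) (H i j)) ∧ (∀ i j, H i j =ᵐ[volume] H j i) ∧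
      (∃ k0 : ℕ, ∀ k, v k = cv (rho n (k + k0)) (fun x => χ x * u x)) ∧
      Tendsto (fun k => eLpNorm (fun x => lapW A w (v k) x
        - (w x)⁻¹ * locF A χ u G f x) 2 volume) atTop (𝓝 0) := by
  obtain ⟨K, H, v, hKΩ, hχK, hv, hH3, hH4, hS⟩ := exists_approx hΩ hA hu hG hf hW heq hχ hs
  refine ⟨K, H, v, hKΩ, hχK, hv, hH3, hH4, hS, ?_⟩
  have hwi : ContinuousOn (fun x => (w x)⁻¹) Ω := hw.inv₀ hw0
  have hdA : ∀ i j l, ContinuousOn (pderiv l (A i j)) Ω := fun i j l => by
    have h1 := (hA.smooth i j).continuousOn_fderiv_of_isOpen hΩ (by simp)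
    exact h1.clm_apply continuousOn_const
  have key := hv.op2 hKΩ (a := fun i j x => (w x)⁻¹ * A j i x)
    (b := fun i x => (w x)⁻¹ * ∑ j, pderiv j (A j i) x) (c := fun _ => 0)
    (fun i j => hwi.mul (hA.smooth j i).continuousOn)
    (fun i => hwi.mul (continuousOn_finsetSum _ fun j _ => hdA j i j)) continuousOn_const
  -- identification of the limit
  have hlim : ∀ᵐ x, x ∈ Ω → (∑ i, ∑ j, A j i x * H i j x)
      + (∑ i, (∑ j, pderiv j (A j i) x) * locG χ u G i x) = locF A χ u G f x := by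
    obtain ⟨θ, hθ, hθΩ, hθ1', hθ1, -⟩ := exists_cutoff (K := tsupport χ) hχ.cpt hΩ hs
    have mG : ∀ i, MemLp (locG χ u G i) 2 := memLp_locG hu hG hχ hs
    have mF : MemLp (locF A χ u G f) 2 := memLp_locF hΩ hA hu hG hf hχ hs
    -- products A_ij * θ are test functions
    have tA : ∀ i j, IsTest (fun x => A i j x * θ x) := fun i j => test_mul_on hθ hΩ hθΩ (hA.smooth i j)
    -- weak derivative of the flux
    have hwd : ∀ i j, WD i (fun x => (A i j x * θ x) * locG χ u G j x)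
        (fun x => pderiv i (fun x => A i j x * θ x) x * locG χ u G j x
          + (A i j x * θ x) * H j i x) := fun i j =>
      WD.mul (MemLp.locInt (mG j)) (MemLp.locInt (hv.m2 j i)) (tA i j).smooth (hH3 j i)
    -- on the support of χ the cut-off disappears
    have e1 : ∀ i j x, (A i j x * θ x) * locG χ u G j x = A i j x * locG χ u G j x := by
      intro i j x
      by_cases hx : x ∈ tsupport χ
      · rw [hθ1 x hx, mul_one]
      · rw [locG_zero_off hx]; ring
    have e2 : ∀ i j, ∀ᵐ x, pderiv i (fun x => A i j x * θ x) x * locG χ u G j x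
          + (A i j x * θ x) * H j i x = pderiv i (A i j) x * locG χ u G j x + A i j x * H j i x := by
      intro i j
      have hz := wd_zero_off (isClosed_tsupport χ) (MemLp.locInt (hv.m2 j i)) (hH3 j i)
        (fun x hx => locG_zero_off hx j)
      filter_upwards [hz] with x hx
      by_cases hxs : x ∈ tsupport χ
      · have h1 : (fun x => A i j x * θ x) =ᶠ[𝓝 x] A i j := by
          have := (hθ1'.filter_mono (nhds_le_nhdsSet hxs))
          filter_upwards [this] with y hy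
          rw [hy, mul_one]
        have h2 : pderiv i (fun x => A i j x * θ x) x = pderiv i (A i j) x := by
          unfold Crest.GeometryTopology.CoordMetric.pderiv
          rw [h1.fderiv_eq]
        rw [h2, hθ1 x hxs, mul_one]
      · rw [locG_zero_off hxs, hx hxs]; ring
    have mterm : ∀ i j, MemLp (fun x => pderiv i (fun x => A i j x * θ x) x * locG χ u G j x
          + (A i j x * θ x) * H j i x) 2 := by
      intro i j
      obtain ⟨C1, -, hC1, -⟩ := test_bdd_lip ((tA i j).pderiv i)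
      obtain ⟨C2, -, hC2, -⟩ := test_bdd_lip (tA i j)
      have h1 := (N2.mul_bdd (N2.of_nm (mG j) le_rfl) ((tA i j).pderiv i).continuous hC1).1
      have h2 := (N2.mul_bdd (N2.of_nm (hv.m2 j i) le_rfl) (tA i j).continuous hC2).1
      exact h1.add h2
    have mAG : ∀ i j, MemLp (fun x => (A i j x * θ x) * locG χ u G j x) 2 := by
      intro i j
      obtain ⟨C2, -, hC2, -⟩ := test_bdd_lip (tA i j)
      exact (N2.mul_bdd (N2.of_nm (mG j) le_rfl) (tA i j).continuous hC2).1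
    have hsumm : MemLp (fun x => ∑ i, ∑ j, (pderiv i (fun x => A i j x * θ x) x * locG χ u G j x
          + (A i j x * θ x) * H j i x)) 2 (volume : Measure (EE n)) :=
      memLp_finsetSum _ fun i _ => memLp_finsetSum _ fun j _ => mterm i j
    have hae : (fun x => ∑ i, ∑ j, (pderiv i (fun x => A i j x * θ x) x * locG χ u G j x
          + (A i j x * θ x) * H j i x)) =ᵐ[volume] locF A χ u G f := by
      apply ae_eq_of_integral_contDiff_smul_eq (MemLp.locInt hsumm) (MemLp.locInt mF)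
      intro φ hφ hφc
      have hT : IsTest φ := ⟨hφ, hφc⟩
      have k1 := loc_eq hΩ hA hu hG hf hW heq hχ hs hT
      have k2 : ∫ x, ∑ i, ∑ j, A i j x * locG χ u G j x * pderiv i φ x
          = ∑ i, ∑ j, ∫ x, (A i j x * θ x) * locG χ u G j x * pderiv i φ x := by
        have hi : ∀ i j, Integrable (fun x => (A i j x * θ x) * locG χ u G j x * pderiv i φ x) :=
          fun i j => integrable_mul (mAG i j) ((hT.pderiv i).memLp 2)
        simp_rw [← fun i => integral_finsetSum (Finset.univ : Finset (Fin n)) fun j _ => hi i j]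
        rw [← integral_finsetSum _ fun i _ => integrable_finsetSum _ fun j _ => hi i j]
        congr 1; ext x
        refine Finset.sum_congr rfl fun i _ => Finset.sum_congr rfl fun j _ => ?_
        rw [e1]
      have k3 : ∫ x, φ x • ∑ i, ∑ j, (pderiv i (fun x => A i j x * θ x) x * locG χ u G j x
          + (A i j x * θ x) * H j i x) = ∑ i, ∑ j, ∫ x, (pderiv i (fun x => A i j x * θ x) x
          * locG χ u G j x + (A i j x * θ x) * H j i x) * φ x := by
        have hi : ∀ i j, Integrable (fun x => (pderiv i (fun x => A i j x * θ x) x * locG χ u G j x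
          + (A i j x * θ x) * H j i x) * φ x) :=
          fun i j => integrable_mul (mterm i j) (hT.memLp 2)
        simp_rw [← fun i => integral_finsetSum (Finset.univ : Finset (Fin n)) fun j _ => hi i j]
        rw [← integral_finsetSum _ fun i _ => integrable_finsetSum _ fun j _ => hi i j]
        congr 1; ext x
        rw [smul_eq_mul, Finset.mul_sum]
        refine Finset.sum_congr rfl fun i _ => ?_
        rw [Finset.mul_sum]
        refine Finset.sum_congr rfl fun j _ => ?_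
        rw [mul_comm]
      have k4 : ∀ i j, ∫ x, (A i j x * θ x) * locG χ u G j x * pderiv i φ x
          = - ∫ x, (pderiv i (fun x => A i j x * θ x) x
          * locG χ u G j x + (A i j x * θ x) * H j i x) * φ x := fun i j => hwd i j φ hT
      have k5 : ∫ x, φ x • locF A χ u G f x = ∫ x, locF A χ u G f x * φ x := by
        congr 1; ext x; rw [smul_eq_mul, mul_comm]
      rw [k3, k5]
      rw [k2] at k1
      simp only [k4, Finset.sum_neg_distrib] at k1
      linarith
    have e2' : ∀ᵐ x, ∀ i j, pderiv i (fun x => A i j x * θ x) x * locG χ u G j x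
          + (A i j x * θ x) * H j i x = pderiv i (A i j) x * locG χ u G j x + A i j x * H j i x := by
      rw [ae_all_iff]; intro i
      rw [ae_all_iff]; intro j
      exact e2 i j
    filter_upwards [hae, e2'] with x hx hx2 _
    rw [← hx]
    simp only [hx2, Finset.sum_add_distrib]
    rw [add_comm]
    congr 1
    · rw [Finset.sum_comm]
      refine Finset.sum_congr rfl fun i _ => ?_
      rw [Finset.sum_mul]
    · rw [Finset.sum_comm]
  refine key.congr fun k => ?_
  apply eLpNorm_congr_ae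
  filter_upwards [hlim] with x hx
  by_cases hxK : x ∈ K
  · have hxΩ := hKΩ hxK
    rw [lapW_expand hΩ hA w (hv.test k) hxΩ, ← hx hxΩ]
    have s1 : ∑ i, ∑ j, (w x)⁻¹ * A j i x * H i j x = (w x)⁻¹ * ∑ i, ∑ j, A j i x * H i j x := by
      rw [Finset.mul_sum]
      refine Finset.sum_congr rfl fun i _ => ?_
      rw [Finset.mul_sum]
      refine Finset.sum_congr rfl fun j _ => ?_
      ring
    have s2 : ∑ i, (w x)⁻¹ * (∑ j, pderiv j (A j i) x) * locG χ u G i x
        = (w x)⁻¹ * ∑ i, (∑ j, pderiv j (A j i) x) * locG χ u G i x := by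
      rw [Finset.mul_sum]
      refine Finset.sum_congr rfl fun i _ => ?_
      ring
    rw [s1, s2]
    ring
  · have hxs : x ∉ tsupport χ := fun h => hxK (hχK h)
    rw [lapW_off A w (fun h => hxK (hv.supp k h)), locF_zero_off hxs]
    have z1 : ∀ i j, pderiv j (pderiv i (v k)) x = 0 := fun i j => hv.ddv_off hxK i j
    have z2 : ∀ i, pderiv i (v k) x = 0 := fun i => hv.dv_off hxK i
    have z3 : ∀ i, locG χ u G i x = 0 := fun i => locG_zero_off hxs i
    simp [z1, z2, z3, hv.off2 _ _ x hxK]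

end

end

end Crest.Agent.R247.Frd657
end

-- ▼ part R247/Prt1_657
section

/-!
R247, block (5), leaf (5-P), file 1: locally Lipschitz functions on an open subset of `ℝⁿ` are in
`L²_loc`, their (a.e. defined) derivatives are in `L²_loc` and are weak derivatives. Closure of weak
derivatives under `L²_loc` convergence. (helper657)
-/

set_option autoImplicit false
open scoped ContDiff ENNReal NNReal Topology
open MeasureTheory Set Filter Metric
open Crest.GeometryTopology.CoordMetric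
open Crest.Agent.R202.Ell

namespace Crest.Agent.R247.Frd657

noncomputable section

variable {n : ℕ}

/-- a locally Lipschitz function with compact support is Lipschitz -/
theorem exists_lipschitz {f : EE n → ℝ} (hf : LocallyLipschitz f) (hc : HasCompactSupport f) :
    ∃ C : ℝ≥0, LipschitzWith C f := by
  obtain ⟨R, hR⟩ := hc.isCompact.isBounded.subset_closedBall (0 : EE n)
  obtain ⟨K, hK⟩ := LocallyLipschitzOn.exists_lipschitzOnWith_of_compact
    (isCompact_closedBall (0 : EE n) (R + 1)) (hf.locallyLipschitzOn)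
  obtain ⟨S, hS⟩ := hc.exists_bound_of_continuous hf.continuous
  have hS0 : 0 ≤ S := (norm_nonneg _).trans (hS 0)
  -- reduce to an estimate with real constant
  have key : ∀ x y, dist (f x) (f y) ≤ (K + S) * dist x y := by
    have h1 : ∀ x y, x ∈ tsupport f → dist (f x) (f y) ≤ (K + S) * dist x y := by
      intro x y hx
      have hxR : ‖x‖ ≤ R := by simpa using hR hx
      by_cases hy : ‖y‖ ≤ R + 1
      · have h2 := hK.dist_le_mul x (by simpa using by linarith) y (by simpa using hy)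
        refine h2.trans (mul_le_mul_of_nonneg_right (by linarith) dist_nonneg)
      · push Not at hy
        have hy0 : f y = 0 := by
          apply image_eq_zero_of_notMem_tsupport
          intro h
          have : ‖y‖ ≤ R := by simpa using hR h
          linarith
        have hd : 1 ≤ dist x y := by
          rw [dist_eq_norm, norm_sub_rev]
          have := norm_sub_norm_le y x
          linarith
        rw [hy0, dist_zero_right]
        have h3 := hS x
        have h4 : S * 1 ≤ S * dist x y := mul_le_mul_of_nonneg_left hd hS0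
        have h5 : 0 ≤ (K : ℝ) * dist x y := by positivity
        nlinarith
    intro x y
    by_cases hx : x ∈ tsupport f
    · exact h1 x y hx
    · by_cases hy : y ∈ tsupport f
      · rw [dist_comm, dist_comm x y]; exact h1 y x hy
      · rw [image_eq_zero_of_notMem_tsupport hx, image_eq_zero_of_notMem_tsupport hy, dist_self]
        positivity
  refine ⟨K + Real.toNNReal S, LipschitzWith.of_dist_le_mul fun x y => ?_⟩
  rw [NNReal.coe_add, Real.coe_toNNReal S hS0]
  exact key x y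

section
variable {Ω : Set (EE n)}

/-- cutting off a function which is locally Lipschitz on `Ω` -/
theorem locLip_cut (hΩ : IsOpen Ω) {f θ : EE n → ℝ} (hf : LocallyLipschitzOn Ω f) (hθ : IsTest θ)
    (hs : tsupport θ ⊆ Ω) : LocallyLipschitz (fun x => θ x * f x) := by
  have hmul : LocallyLipschitz (fun p : ℝ × ℝ => p.1 * p.2) :=
    (contDiff_fst.mul contDiff_snd : ContDiff ℝ 1 fun p : ℝ × ℝ => p.1 * p.2).locallyLipschitz
  have hθl : LocallyLipschitz θ := (hθ.smooth.of_le (by simp)).locallyLipschitz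
  intro x
  by_cases hx : x ∈ tsupport θ
  · have hxΩ := hs hx
    obtain ⟨K1, t1, ht1, hK1⟩ := hf hxΩ
    have ht1' : t1 ∈ 𝓝 x := by rwa [hΩ.nhdsWithin_eq hxΩ] at ht1
    obtain ⟨K2, t2, ht2, hK2⟩ := hθl x
    obtain ⟨K3, t3, ht3, hK3⟩ := hmul (θ x, f x)
    have hcf : ContinuousAt f x := (hf.continuousOn).continuousAt (hΩ.mem_nhds hxΩ)
    have hcont : ContinuousAt (fun y => (θ y, f y)) x := (hθ.continuous.continuousAt).prodMk hcf
    have ht4 := hcont.preimage_mem_nhds ht3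
    refine ⟨K3 * max K2 K1, t1 ∩ t2 ∩ (fun y => (θ y, f y)) ⁻¹' t3,
      inter_mem (inter_mem ht1' ht2) ht4, ?_⟩
    have hp : LipschitzOnWith (max K2 K1) (fun y => (θ y, f y))
        (t1 ∩ t2 ∩ (fun y => (θ y, f y)) ⁻¹' t3) :=
      (hK2.mono (fun y hy => hy.1.2)).prodMk (hK1.mono (fun y hy => hy.1.1))
    exact hK3.comp hp (fun y hy => hy.2)
  · refine ⟨0, (tsupport θ)ᶜ, (isClosed_tsupport θ).isOpen_compl.mem_nhds hx, ?_⟩
    intro y hy z hz
    simp [image_eq_zero_of_notMem_tsupport hy, image_eq_zero_of_notMem_tsupport hz]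

/-- bound of the derivative of a locally Lipschitz function on compact sets -/
theorem pderiv_bdd (hΩ : IsOpen Ω) {f : EE n → ℝ} (hf : LocallyLipschitzOn Ω f) {K : Set (EE n)}
    (hK : IsCompact K) (hKΩ : K ⊆ Ω) (i : Fin n) : ∃ C : ℝ, ∀ x ∈ K, |pderiv i f x| ≤ C := by
  refine hK.induction_on (p := fun s => ∃ C : ℝ, ∀ x ∈ s ∩ K, |pderiv i f x| ≤ C)
    ⟨0, fun x hx => absurd hx.1 (notMem_empty x)⟩ ?_ ?_ ?_ |>.imp fun C hC x hx => hC x ⟨hx, hx⟩
  · rintro s t hst ⟨C, hC⟩
    exact ⟨C, fun x hx => hC x ⟨hst hx.1, hx.2⟩⟩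
  · rintro s t ⟨C, hC⟩ ⟨C', hC'⟩
    refine ⟨max C C', fun x hx => ?_⟩
    rcases hx.1 with h | h
    · exact (hC x ⟨h, hx.2⟩).trans (le_max_left _ _)
    · exact (hC' x ⟨h, hx.2⟩).trans (le_max_right _ _)
  · intro x hx
    have hxΩ := hKΩ hx
    obtain ⟨L, t, ht, hL⟩ := hf hxΩ
    have ht' : t ∈ 𝓝 x := by rwa [hΩ.nhdsWithin_eq hxΩ] at ht
    refine ⟨interior t, mem_nhdsWithin_of_mem_nhds (interior_mem_nhds.2 ht'), L, ?_⟩
    intro y hy
    have hyt : t ∈ 𝓝 y := mem_interior_iff_mem_nhds.1 hy.1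
    have h1 : ‖fderiv ℝ f y‖ ≤ L := norm_fderiv_le_of_lipschitzOn ℝ hyt hL
    have h2 := (fderiv ℝ f y).le_opNorm (EuclideanSpace.single i 1)
    have h3 : ‖(EuclideanSpace.single i (1 : ℝ) : EE n)‖ = 1 := by simp
    rw [h3, mul_one] at h2
    exact h2.trans h1

theorem measurable_pderiv (f : EE n → ℝ) (i : Fin n) : Measurable (pderiv i f) :=
  measurable_fderiv_apply_const ℝ f (EuclideanSpace.single i 1)

theorem L2On.of_locLip {f : EE n → ℝ} (hf : LocallyLipschitzOn Ω f) : L2On Ω f :=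
  L2On.of_continuousOn hf.continuousOn

theorem L2On.pderiv_of_locLip (hΩ : IsOpen Ω) {f : EE n → ℝ} (hf : LocallyLipschitzOn Ω f)
    (i : Fin n) : L2On Ω (pderiv i f) := by
  intro K hK hc
  obtain ⟨C, hC⟩ := pderiv_bdd hΩ hf hc hK i
  have : IsFiniteMeasure (volume.restrict K : Measure (EE n)) :=
    ⟨by rw [Measure.restrict_apply_univ]; exact hc.measure_lt_top⟩
  refine MemLp.of_bound (measurable_pderiv f i).aestronglyMeasurable C ?_
  rw [ae_restrict_iff' hc.measurableSet]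
  exact Eventually.of_forall fun x hx => by simpa [Real.norm_eq_abs] using hC x hx

/-- a locally Lipschitz function is a.e. differentiable -/
theorem ae_diff (hΩ : IsOpen Ω) {f : EE n → ℝ} (hf : LocallyLipschitzOn Ω f) :
    ∀ᵐ x, x ∈ Ω → DifferentiableAt ℝ f x := by
  have h1 : ∀ x ∈ Ω, ∃ t, t ∈ 𝓝[Ω] x ∧ ∀ᵐ y, y ∈ t → DifferentiableAt ℝ f y := by
    intro x hx
    obtain ⟨L, t, ht, hL⟩ := hf hx
    have ht' : t ∈ 𝓝 x := by rwa [hΩ.nhdsWithin_eq hx] at ht
    have h2 := (hL.mono interior_subset).ae_differentiableWithinAt_of_mem (μ := (volume : Measure (EE n)))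
    refine ⟨interior t, mem_nhdsWithin_of_mem_nhds (interior_mem_nhds.2 ht'), ?_⟩
    filter_upwards [h2] with y hy hyt
    exact (hy hyt).differentiableAt (isOpen_interior.mem_nhds hyt)
  choose! t ht1 ht2 using h1
  obtain ⟨T, hTΩ, hTc, hT⟩ := TopologicalSpace.countable_cover_nhdsWithin ht1
  have h3 : ∀ᵐ y, ∀ x ∈ T, y ∈ t x → DifferentiableAt ℝ f y :=
    (ae_ball_iff hTc).2 fun x hx => ht2 x (hTΩ hx)
  filter_upwards [h3] with y hy hyΩ
  obtain ⟨x, hx, hyx⟩ := mem_iUnion₂.1 (hT hyΩ)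
  exact hy x hx hyx

/-- **a locally Lipschitz function has its a.e. derivative as weak derivative** -/
theorem WDOn.of_locLip (hΩ : IsOpen Ω) {f : EE n → ℝ} (hf : LocallyLipschitzOn Ω f) (i : Fin n) :
    WDOn Ω i f (pderiv i f) := by
  intro φ hφ hs
  obtain ⟨θ, hθ, hθΩ, hθ1', hθ1, -⟩ := exists_cutoff (K := tsupport φ) hφ.cpt hΩ hs
  obtain ⟨C, hC⟩ := exists_lipschitz (locLip_cut hΩ hf hθ hθΩ) hθ.cpt.mul_right
  obtain ⟨D, hD⟩ := exists_lipschitz (f := φ) (hφ.smooth.of_le (by simp)).locallyLipschitz hφ.cpt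
  have key := LipschitzWith.integral_lineDeriv_mul_eq (μ := (volume : Measure (EE n))) hC hD hφ.cpt
    (EuclideanSpace.single i 1)
  have e1 : ∫ x, lineDeriv ℝ (fun x => θ x * f x) x (EuclideanSpace.single i 1) * φ x
      = ∫ x, pderiv i f x * φ x := by
    apply integral_congr_ae
    filter_upwards [ae_diff hΩ hf] with x hx
    by_cases hxs : x ∈ tsupport φ
    · have h1 : (fun y => θ y * f y) =ᶠ[𝓝 x] f := by
        filter_upwards [hθ1'.filter_mono (nhds_le_nhdsSet hxs)] with y hy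
        rw [hy, one_mul]
      have h2 : DifferentiableAt ℝ (fun y => θ y * f y) x :=
        (hx (hs hxs)).congr_of_eventuallyEq h1
      rw [h2.lineDeriv_eq_fderiv, h1.fderiv_eq]
      rfl
    · rw [image_eq_zero_of_notMem_tsupport hxs, mul_zero, mul_zero]
  have e2 : ∫ x, lineDeriv ℝ φ x (-(EuclideanSpace.single i 1)) * (θ x * f x)
      = - ∫ x, f x * pderiv i φ x := by
    rw [← integral_neg]
    congr 1; ext x
    rw [(hφ.smooth.differentiable (by simp) x).lineDeriv_eq_fderiv, map_neg]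
    by_cases hxs : x ∈ tsupport φ
    · rw [hθ1 x hxs]
      unfold Crest.GeometryTopology.CoordMetric.pderiv
      ring
    · have h3 : fderiv ℝ φ x (EuclideanSpace.single i 1) = 0 := pderiv_zero_off hxs i
      have h4 : pderiv i φ x = 0 := pderiv_zero_off hxs i
      rw [h3, h4]; ring
  rw [e1, e2] at key
  linarith

/-! ### closure under local `L²` convergence -/

/-- `f k → g` in `L²_loc(Ω)` -/
def TendL2 (Ω : Set (EE n)) (f : ℕ → EE n → ℝ) (g : EE n → ℝ) : Prop :=
  ∀ K, K ⊆ Ω → IsCompact K →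
    Tendsto (fun k => eLpNorm (fun x => f k x - g x) 2 (volume.restrict K)) atTop (𝓝 0)

/-- pairing with a test function passes to the limit -/
theorem TendL2.tendsto_integral {f : ℕ → EE n → ℝ} {g : EE n → ℝ} (h : TendL2 Ω f g)
    (hf : ∀ k, L2On Ω (f k)) (hg : L2On Ω g) {ψ : EE n → ℝ} (hψ : Continuous ψ)
    (hc : HasCompactSupport ψ) (hs : tsupport ψ ⊆ Ω) :
    Tendsto (fun k => ∫ x, f k x * ψ x) atTop (𝓝 (∫ x, g x * ψ x)) := by
  have hK : IsCompact (tsupport ψ) := hc
  set K := tsupport ψ with hKdef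
  have hψ2 : MemLp ψ 2 (volume.restrict K) := (hψ.memLp_of_hasCompactSupport hc).restrict _
  have h0 := h K hs hK
  have e1 : ∀ u : EE n → ℝ, ∫ x, u x * ψ x = ∫ x in K, u x * ψ x := by
    intro u
    refine (setIntegral_eq_integral_of_forall_compl_eq_zero fun x hx => ?_).symm
    rw [image_eq_zero_of_notMem_tsupport hx, mul_zero]
  have hm : ∀ k, MemLp (fun x => f k x - g x) 2 (volume.restrict K) := fun k =>
    (hf k K hs hK).sub (hg K hs hK)
  have hb : ∀ k, |(∫ x, f k x * ψ x) - ∫ x, g x * ψ x| ≤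
      (eLpNorm (fun x => f k x - g x) 2 (volume.restrict K)).toReal
        * (eLpNorm ψ 2 (volume.restrict K)).toReal := by
    intro k
    have i1 : Integrable (fun x => f k x * ψ x) (volume.restrict K) :=
      (hf k K hs hK).integrable_mul hψ2
    have i2 : Integrable (fun x => g x * ψ x) (volume.restrict K) :=
      (hg K hs hK).integrable_mul hψ2
    rw [e1, e1, ← integral_sub i1 i2]
    have e2 : ∫ x in K, (f k x * ψ x - g x * ψ x) = inner ℝ (hψ2.toLp ψ) ((hm k).toLp _) := by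
      rw [L2.inner_def]
      apply integral_congr_ae
      filter_upwards [hψ2.coeFn_toLp, (hm k).coeFn_toLp] with x h1 h2
      rw [h1, h2]
      simp only [RCLike.inner_apply, conj_trivial]
      ring
    rw [e2]
    refine (abs_real_inner_le_norm _ _).trans ?_
    rw [Lp.norm_toLp, Lp.norm_toLp, mul_comm]
  rw [tendsto_iff_dist_tendsto_zero]
  have h1 : Tendsto (fun k => (eLpNorm (fun x => f k x - g x) 2 (volume.restrict K)).toReal
      * (eLpNorm ψ 2 (volume.restrict K)).toReal) atTop (𝓝 0) := by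
    have h2 := (ENNReal.tendsto_toReal ENNReal.zero_ne_top).comp h0
    have h3 := h2.mul_const ((eLpNorm ψ 2 (volume.restrict K)).toReal)
    simpa using h3
  exact squeeze_zero (fun _ => dist_nonneg) hb h1

theorem WDOn.closed {f F : ℕ → EE n → ℝ} {g G : EE n → ℝ} {i : Fin n}
    (hf : ∀ k, L2On Ω (f k)) (hF : ∀ k, L2On Ω (F k)) (hg : L2On Ω g) (hG : L2On Ω G)
    (h1 : TendL2 Ω f g) (h2 : TendL2 Ω F G) (hW : ∀ k, WDOn Ω i (f k) (F k)) : WDOn Ω i g G := by
  intro φ hφ hs
  have t1 := h1.tendsto_integral hf hg (hφ.pderiv i).continuous (hφ.pderiv i).cpt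
    ((tsupport_pderiv φ i).trans hs)
  have t2 := (h2.tendsto_integral hF hG hφ.continuous hφ.cpt hs).neg
  refine tendsto_nhds_unique t1 (t2.congr fun k => ?_)
  exact (hW k φ hφ hs).symm

end

end

end Crest.Agent.R247.Frd657
end

-- ▼ part R247/Prt2_657
section

/-!
R247, block (5), leaf (5-P), file 2: pull back of test functions of a chart to the manifold,
comparison of `L²` norms on the manifold and in a chart. (helper657)
-/

set_option autoImplicit false
open scoped ContDiff ENNReal NNReal Topology Manifold Bundle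
open MeasureTheory Set Filter Metric Bundle
open Crest.GeometryTopology.CoordMetric Crest.GeometryTopology.ChartCurvature
open Crest.Agent.R202.Ell Crest.Agent.R247.Ms322

namespace Crest.Agent.R247.Frd657

noncomputable section

theorem eLpNorm_two_sq {α G : Type*} [MeasurableSpace α] [NormedAddCommGroup G] (f : α → G)
    (ν : Measure α) : eLpNorm f 2 ν ^ 2 = ∫⁻ x, ‖f x‖ₑ ^ 2 ∂ν := by
  rw [eLpNorm_eq_lintegral_rpow_enorm_toReal (by norm_num) (by norm_num)]
  rw [← ENNReal.rpow_natCast, ← ENNReal.rpow_mul]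
  norm_num

variable {n : ℕ} {M : Type*} [MetricSpace M] [ChartedSpace (EuclideanSpace ℝ (Fin n)) M]

local notation "𝔼" => EuclideanSpace ℝ (Fin n)

/-- pull back of a function on the chart, extended by zero -/
def pb (x₀ : M) (P : EuclideanSpace ℝ (Fin n) → ℝ) (z : M) : ℝ :=
  (chartAt (EuclideanSpace ℝ (Fin n)) x₀).source.indicator
    (fun z => P (chartAt (EuclideanSpace ℝ (Fin n)) x₀ z)) z

theorem pb_of_mem (x₀ : M) (P : 𝔼 → ℝ) {z : M} (hz : z ∈ (chartAt 𝔼 x₀).source) :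
    pb x₀ P z = P (chartAt 𝔼 x₀ z) := indicator_of_mem hz _

theorem pb_symm (x₀ : M) (P : 𝔼 → ℝ) {b : 𝔼} (hb : b ∈ (chartAt 𝔼 x₀).target) :
    pb x₀ P ((chartAt 𝔼 x₀).symm b) = P b := by
  rw [pb_of_mem x₀ P ((chartAt 𝔼 x₀).map_target hb), (chartAt 𝔼 x₀).right_inv hb]

theorem isCompact_symm_image (x₀ : M) {K : Set 𝔼} (hK : IsCompact K)
    (hKt : K ⊆ (chartAt 𝔼 x₀).target) : IsCompact ((chartAt 𝔼 x₀).symm '' K) :=
  hK.image_of_continuousOn ((chartAt 𝔼 x₀).symm.continuousOn.mono hKt)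

theorem symm_image_subset (x₀ : M) {K : Set 𝔼} (hKt : K ⊆ (chartAt 𝔼 x₀).target) :
    (chartAt 𝔼 x₀).symm '' K ⊆ (chartAt 𝔼 x₀).source := by
  rintro _ ⟨b, hb, rfl⟩
  exact (chartAt 𝔼 x₀).map_target (hKt hb)

theorem pb_off (x₀ : M) {P : 𝔼 → ℝ} {K : Set 𝔼} (hP : ∀ b, b ∉ K → P b = 0) {z : M}
    (hz : z ∉ (chartAt 𝔼 x₀).symm '' K) : pb x₀ P z = 0 := by
  by_cases h : z ∈ (chartAt 𝔼 x₀).source
  · rw [pb_of_mem x₀ P h]
    apply hP
    intro hK
    exact hz ⟨_, hK, (chartAt 𝔼 x₀).left_inv h⟩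
  · exact indicator_of_notMem h _

theorem tsupport_pb (x₀ : M) {P : 𝔼 → ℝ} {K : Set 𝔼} (hK : IsCompact K)
    (hKt : K ⊆ (chartAt 𝔼 x₀).target) (hP : tsupport P ⊆ K) :
    tsupport (pb x₀ P) ⊆ (chartAt 𝔼 x₀).symm '' K := by
  apply closure_minimal _ (isCompact_symm_image x₀ hK hKt).isClosed
  intro z hz
  by_contra h
  exact hz (pb_off x₀ (K := K) (fun b hb => image_eq_zero_of_notMem_tsupport fun h' => hb (hP h')) h)

theorem pb_cpt (x₀ : M) {P : 𝔼 → ℝ} (hP : IsTest P) (hs : tsupport P ⊆ (chartAt 𝔼 x₀).target) :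
    HasCompactSupport (pb x₀ P) := by
  have h0 : IsCompact (tsupport P) := hP.cpt
  exact (isCompact_symm_image x₀ h0 hs).of_isClosed_subset (isClosed_tsupport _)
    (tsupport_pb x₀ h0 hs le_rfl)

theorem pb_smooth [IsManifold (𝓡 n) ∞ M] (x₀ : M) {P : 𝔼 → ℝ} (hP : IsTest P)
    (hs : tsupport P ⊆ (chartAt 𝔼 x₀).target) :
    ContMDiff (𝓡 n) 𝓘(ℝ, ℝ) ∞ (pb x₀ P) := by
  intro z
  by_cases hz : z ∈ (chartAt 𝔼 x₀).source
  · have h1 : ContMDiffAt (𝓡 n) 𝓘(ℝ, ℝ) ∞ (fun z => P (chartAt 𝔼 x₀ z)) z :=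
      (hP.smooth.contMDiff).contMDiffAt.comp z
        ((contMDiffOn_chart (I := 𝓡 n) (n := ∞) (x := x₀)).contMDiffAt
          ((chartAt 𝔼 x₀).open_source.mem_nhds hz))
    refine h1.congr_of_eventuallyEq ?_
    filter_upwards [(chartAt 𝔼 x₀).open_source.mem_nhds hz] with y hy
    exact pb_of_mem x₀ P hy
  · have h0 : IsCompact (tsupport P) := hP.cpt
    have hcl : IsClosed ((chartAt 𝔼 x₀).symm '' tsupport P) :=
      (isCompact_symm_image x₀ h0 hs).isClosed
    have hzn : z ∉ (chartAt 𝔼 x₀).symm '' tsupport P := fun h => hz (symm_image_subset x₀ hs h)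
    have h1 : ContMDiffAt (𝓡 n) 𝓘(ℝ, ℝ) ∞ (fun _ : M => (0 : ℝ)) z := contMDiffAt_const
    refine h1.congr_of_eventuallyEq ?_
    filter_upwards [hcl.isOpen_compl.mem_nhds hzn] with y hy
    exact pb_off x₀ (fun b hb => image_eq_zero_of_notMem_tsupport hb) hy

theorem pb_sub (x₀ : M) (P Q : 𝔼 → ℝ) (z : M) :
    pb x₀ (fun b => P b - Q b) z = pb x₀ P z - pb x₀ Q z := by
  by_cases hz : z ∈ (chartAt 𝔼 x₀).source
  · rw [pb_of_mem x₀ _ hz, pb_of_mem x₀ _ hz, pb_of_mem x₀ _ hz]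
  · simp [pb, indicator_of_notMem hz]

/-! ### comparison of `L²` norms -/

variable [IsManifold (𝓡 n) ∞ M]
  [RiemannianBundle (fun p : M => TangentSpace (𝓡 n) p)]
  [IsContMDiffRiemannianBundle (𝓡 n) ∞ (EuclideanSpace ℝ (Fin n)) (fun p : M => TangentSpace (𝓡 n) p)]

theorem exists_dens_bounds (x₀ : M) {K : Set 𝔼} (hK : IsCompact K)
    (hKt : K ⊆ (chartAt 𝔼 x₀).target) :
    ∃ c C : ℝ, 0 < c ∧ 0 < C ∧ ∀ b ∈ K, c ≤ dens (n := n) x₀ b ∧ dens (n := n) x₀ b ≤ C := by
  rcases K.eq_empty_or_nonempty with h0 | hne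
  · exact ⟨1, 1, one_pos, one_pos, fun b hb => by rw [h0] at hb; exact absurd hb (notMem_empty b)⟩
  · have hc : ContinuousOn (dens (n := n) x₀) K := (continuousOn_dens x₀).mono hKt
    obtain ⟨p, hp, hmin⟩ := hK.exists_isMinOn hne hc
    obtain ⟨q, hq, hmax⟩ := hK.exists_isMaxOn hne hc
    exact ⟨dens x₀ p, dens x₀ q, dens_pos x₀ (hKt hp), dens_pos x₀ (hKt hq),
      fun b hb => ⟨hmin hb, hmax hb⟩⟩

variable [IsRiemannianManifold (𝓡 n) M] [MeasurableSpace M] [BorelSpace M]

/-- `∫_M ‖h‖²` for `h` vanishing off the image of a compact subset of the target -/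
theorem lintegral_chart (x₀ : M) {K : Set 𝔼} (hK : IsCompact K)
    (hKt : K ⊆ (chartAt 𝔼 x₀).target) {h : M → ℝ≥0∞}
    (h0 : ∀ z, z ∉ (chartAt 𝔼 x₀).symm '' K → h z = 0) :
    ∫⁻ z, h z ∂μHE[n] = ∫⁻ b in K, ENNReal.ofReal (dens x₀ b) * h ((chartAt 𝔼 x₀).symm b) := by
  rw [← lintegral_symm_image x₀ hKt hK.measurableSet]
  have hm := measurableSet_symm_image (n := n) x₀ hKt hK.measurableSet
  rw [← lintegral_indicator hm]
  congr 1
  ext z
  by_cases hz : z ∈ (chartAt 𝔼 x₀).symm '' K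
  · rw [indicator_of_mem hz]
  · rw [indicator_of_notMem hz, h0 z hz]

theorem sq_le_sq_enn {a b : ℝ≥0∞} (h : a ^ 2 ≤ b ^ 2) : a ≤ b :=
  (ENNReal.pow_le_pow_left_iff two_ne_zero).1 h

/-- upper comparison -/
theorem eLpNorm_le_chart (x₀ : M) {K : Set 𝔼} (hK : IsCompact K)
    (hKt : K ⊆ (chartAt 𝔼 x₀).target) :
    ∃ C : ℝ, 0 < C ∧ ∀ {G : Type} [NormedAddCommGroup G] (h : M → G),
      (∀ z, z ∉ (chartAt 𝔼 x₀).symm '' K → h z = 0) →
      eLpNorm h 2 μHE[n] ≤ ENNReal.ofReal C *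
        eLpNorm (fun b => h ((chartAt 𝔼 x₀).symm b)) 2 (volume.restrict K) := by
  obtain ⟨c, C, -, hC, hb⟩ := exists_dens_bounds x₀ hK hKt
  refine ⟨√C, Real.sqrt_pos.2 hC, fun {G} _ h h0 => sq_le_sq_enn ?_⟩
  rw [mul_pow, eLpNorm_two_sq, eLpNorm_two_sq, ← ENNReal.ofReal_pow (Real.sqrt_nonneg C),
    Real.sq_sqrt hC.le, lintegral_chart x₀ hK hKt (h := fun z => ‖h z‖ₑ ^ 2)
      (fun z hz => by simp [h0 z hz]), ← lintegral_const_mul' _ _ ENNReal.ofReal_ne_top]
  apply setLIntegral_mono_ae' hK.measurableSet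
  refine Eventually.of_forall fun b hbK => ?_
  gcongr
  exact (hb b hbK).2

/-- lower comparison -/
theorem eLpNorm_chart_le (x₀ : M) {K : Set 𝔼} (hK : IsCompact K)
    (hKt : K ⊆ (chartAt 𝔼 x₀).target) :
    ∃ C : ℝ, 0 < C ∧ ∀ {G : Type} [NormedAddCommGroup G] (h : M → G),
      eLpNorm (fun b => h ((chartAt 𝔼 x₀).symm b)) 2 (volume.restrict K)
        ≤ ENNReal.ofReal C * eLpNorm h 2 (μHE[n].restrict ((chartAt 𝔼 x₀).symm '' K)) := by
  obtain ⟨c, C, hc, -, hb⟩ := exists_dens_bounds x₀ hK hKt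
  have hc' : 0 < c⁻¹ := inv_pos.2 hc
  refine ⟨√(c⁻¹), Real.sqrt_pos.2 hc', fun {G} _ h => sq_le_sq_enn ?_⟩
  rw [mul_pow, eLpNorm_two_sq, eLpNorm_two_sq, ← ENNReal.ofReal_pow (Real.sqrt_nonneg _),
    Real.sq_sqrt hc'.le, lintegral_symm_image x₀ hKt hK.measurableSet,
    ← lintegral_const_mul' _ _ ENNReal.ofReal_ne_top]
  apply setLIntegral_mono_ae' hK.measurableSet
  refine Eventually.of_forall fun b hbK => ?_
  have h1 : 1 ≤ ENNReal.ofReal c⁻¹ * ENNReal.ofReal (dens x₀ b) := by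
    rw [← ENNReal.ofReal_mul hc'.le, ← ENNReal.ofReal_one]
    apply ENNReal.ofReal_le_ofReal
    have := (hb b hbK).1
    rw [inv_mul_eq_div, le_div_iff₀ hc]
    linarith
  calc ‖h ((chartAt 𝔼 x₀).symm b)‖ₑ ^ 2 = 1 * ‖h ((chartAt 𝔼 x₀).symm b)‖ₑ ^ 2 := (one_mul _).symm
    _ ≤ (ENNReal.ofReal c⁻¹ * ENNReal.ofReal (dens x₀ b)) * ‖h ((chartAt 𝔼 x₀).symm b)‖ₑ ^ 2 := by
        gcongr
    _ = _ := by ring

end

end Crest.Agent.R247.Frd657
end

-- ▼ part R247/Prt3_657
section

/-!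
R247, block (5), leaf (5-P), file 3: null sets, almost everywhere statements and measurability on
the manifold and in a chart. (helper657)
-/

set_option autoImplicit false
open scoped ContDiff ENNReal NNReal Topology Manifold Bundle
open MeasureTheory Set Filter Metric Bundle
open Crest.GeometryTopology.CoordMetric Crest.GeometryTopology.ChartCurvature
open Crest.Agent.R202.Ell Crest.Agent.R247.Ms322

namespace Crest.Agent.R247.Frd657

noncomputable section

variable {n : ℕ} {M : Type*} [MetricSpace M] [ChartedSpace (EuclideanSpace ℝ (Fin n)) M]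
  [IsManifold (𝓡 n) ∞ M]
  [RiemannianBundle (fun p : M => TangentSpace (𝓡 n) p)]
  [IsContMDiffRiemannianBundle (𝓡 n) ∞ (EuclideanSpace ℝ (Fin n)) (fun p : M => TangentSpace (𝓡 n) p)]

local notation "𝔼" => EuclideanSpace ℝ (Fin n)

theorem cvol_restrict (x₀ : M) : (cvol x₀).restrict (chartAt 𝔼 x₀).target = cvol x₀ := by
  rw [cvol, restrict_withDensity (measurableSet_target x₀),
    Measure.restrict_restrict (measurableSet_target x₀), inter_self]

theorem dens_ne_zero (x₀ : M) : ∀ᵐ b ∂(volume.restrict (chartAt 𝔼 x₀).target),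
    ENNReal.ofReal (dens (n := n) x₀ b) ≠ 0 := by
  rw [ae_restrict_iff' (measurableSet_target x₀)]
  refine Eventually.of_forall fun b hb => ?_
  rw [Ne, ENNReal.ofReal_eq_zero, not_le]
  exact dens_pos x₀ hb

theorem cvol_ac (x₀ : M) : cvol x₀ ≪ volume.restrict (chartAt 𝔼 x₀).target :=
  withDensity_absolutelyContinuous _ _

theorem ac_cvol (x₀ : M) : volume.restrict (chartAt 𝔼 x₀).target ≪ cvol (n := n) x₀ :=
  withDensity_absolutelyContinuous' (aemeasurable_dens x₀).ennreal_ofReal (dens_ne_zero x₀)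

variable [IsRiemannianManifold (𝓡 n) M] [MeasurableSpace M] [BorelSpace M]

/-- a.e. on the source = a.e. on the target -/
theorem ae_source_iff (x₀ : M) {p : M → Prop} :
    (∀ᵐ z ∂(μHE[n] : Measure M), z ∈ (chartAt 𝔼 x₀).source → p z) ↔
      ∀ᵐ b : 𝔼, b ∈ (chartAt 𝔼 x₀).target → p ((chartAt 𝔼 x₀).symm b) := by
  have hsm : MeasurableSet (chartAt 𝔼 x₀).source := (chartAt 𝔼 x₀).open_source.measurableSet
  rw [← ae_restrict_iff' hsm, ← ae_restrict_iff' (measurableSet_target x₀), restrict_source_eq,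
    (measurableEmbedding_symm x₀).ae_map_iff]
  rw [← ae_restrict_iff_subtype (measurableSet_target x₀)
    (p := fun b => p ((chartAt 𝔼 x₀).symm b)), cvol_restrict]
  constructor
  · intro h
    exact (ac_cvol x₀).ae_le h
  · intro h
    exact (cvol_ac x₀).ae_le h

theorem ae_chart (x₀ : M) {p : M → Prop} (h : ∀ᵐ z ∂(μHE[n] : Measure M), p z) :
    ∀ᵐ b : 𝔼, b ∈ (chartAt 𝔼 x₀).target → p ((chartAt 𝔼 x₀).symm b) :=
  (ae_source_iff x₀).1 (h.mono fun _ hz _ => hz)

theorem ae_manifold (x₀ : M) {p : 𝔼 → Prop}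
    (h : ∀ᵐ b : 𝔼, b ∈ (chartAt 𝔼 x₀).target → p b) :
    ∀ᵐ z ∂(μHE[n] : Measure M), z ∈ (chartAt 𝔼 x₀).source → p (chartAt 𝔼 x₀ z) := by
  rw [ae_source_iff]
  filter_upwards [h] with b hb hbt
  rw [(chartAt 𝔼 x₀).right_inv hbt]
  exact hb hbt

theorem aesm_source_iff {G : Type*} [TopologicalSpace G] [TopologicalSpace.PseudoMetrizableSpace G]
    (x₀ : M) {h : M → G} :
    AEStronglyMeasurable h ((μHE[n] : Measure M).restrict (chartAt 𝔼 x₀).source) ↔
      AEStronglyMeasurable (fun b => h ((chartAt 𝔼 x₀).symm b))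
        (volume.restrict (chartAt 𝔼 x₀).target) := by
  rw [restrict_source_eq, (measurableEmbedding_symm x₀).aestronglyMeasurable_map_iff]
  have h1 : (h ∘ fun a : (chartAt 𝔼 x₀).target => (chartAt 𝔼 x₀).symm a)
      = (fun b => h ((chartAt 𝔼 x₀).symm b)) ∘ (Subtype.val : (chartAt 𝔼 x₀).target → 𝔼) := rfl
  rw [h1, ← (MeasurableEmbedding.subtype_coe (measurableSet_target x₀)).aestronglyMeasurable_map_iff,
    (MeasurableEmbedding.subtype_coe (measurableSet_target x₀)).map_comap, Subtype.range_coe,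
    cvol_restrict]
  exact ⟨fun h => h.mono_ac (ac_cvol x₀), fun h => h.mono_ac (cvol_ac x₀)⟩

theorem aesm_chart {G : Type*} [TopologicalSpace G] [TopologicalSpace.PseudoMetrizableSpace G]
    (x₀ : M) {h : M → G} (hh : AEStronglyMeasurable h (μHE[n] : Measure M)) :
    AEStronglyMeasurable (fun b => h ((chartAt 𝔼 x₀).symm b))
        (volume.restrict (chartAt 𝔼 x₀).target) :=
  (aesm_source_iff x₀).1 hh.restrict

/-- membership in `L²` in the chart -/
theorem L2On_chart {x₀ : M} {h : M → ℝ} (hh : ∀ K : Set M, IsCompact K →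
    MemLp h 2 ((μHE[n] : Measure M).restrict K)) :
    L2On (chartAt 𝔼 x₀).target (fun b => h ((chartAt 𝔼 x₀).symm b)) := by
  intro K hKt hK
  obtain ⟨C, hC, hb⟩ := eLpNorm_chart_le (n := n) x₀ hK hKt
  have hKM := isCompact_symm_image x₀ hK hKt
  have hm := hh _ hKM
  refine ⟨?_, (hb h).trans_lt (ENNReal.mul_lt_top ENNReal.ofReal_lt_top hm.2)⟩
  -- measurability
  have h1 : AEStronglyMeasurable (((chartAt 𝔼 x₀).symm '' K).indicator h) (μHE[n] : Measure M) :=
    (aestronglyMeasurable_indicator_iff hKM.measurableSet).2 hm.1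
  have h2 := (aesm_chart x₀ h1).mono_measure (Measure.restrict_mono hKt le_rfl)
  refine h2.congr ?_
  filter_upwards [self_mem_ae_restrict hK.measurableSet] with b hb'
  exact indicator_of_mem (mem_image_of_mem _ hb') h

end

end Crest.Agent.R247.Frd657
end

-- ▼ part R247/Prt4_657
section

/-!
R247, block (5), leaf (5-P), file 4: the coordinate frame of a chart written in the measurable
orthonormal frame of helper322: `dxf x₀ i z` (= `dx^i` at `z`), `Ef x₀ i z` (= `∂_i` at `z`).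
(helper657)
-/

set_option autoImplicit false
set_option maxSynthPendingDepth 3
set_option linter.unusedSectionVars false
open scoped ContDiff ENNReal NNReal Topology Manifold Bundle
open MeasureTheory Set Filter Metric Bundle
open Crest.GeometryTopology.CoordMetric Crest.GeometryTopology.ChartCurvature
open Crest.Agent.R202.Ell Crest.Agent.R247.Ms322 Crest.Agent.R226.ChartMet842

namespace Crest.Agent.R247.Frd657

noncomputable section

variable {n : ℕ} {M : Type*} [MetricSpace M] [ChartedSpace (EuclideanSpace ℝ (Fin n)) M]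
  [IsManifold (𝓡 n) ∞ M]
  [RiemannianBundle (fun p : M => TangentSpace (𝓡 n) p)]
  [IsContMDiffRiemannianBundle (𝓡 n) ∞ (EuclideanSpace ℝ (Fin n)) (fun p : M => TangentSpace (𝓡 n) p)]
  [SecondCountableTopology M] [Nonempty M]

local notation "𝔼" => EuclideanSpace ℝ (Fin n)

/-- `dx^i` at `z`, in the orthonormal frame -/
def dxf (x₀ : M) (i : Fin n) (z : M) : EuclideanSpace ℝ (Fin n) :=
  Gr (fun y => chartAt (EuclideanSpace ℝ (Fin n)) x₀ y i) z

/-- `∂_i` at `z`, in the orthonormal frame -/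
def Ef (x₀ : M) (i : Fin n) (z : M) : EuclideanSpace ℝ (Fin n) :=
  ∑ j, chartMetric n M x₀ (chartAt (EuclideanSpace ℝ (Fin n)) x₀ z) i j • dxf x₀ j z

/-- derivatives of the coordinate functions read in the chart -/
theorem pderiv_coord (x₀ : M) {a : 𝔼} (ha : a ∈ (chartAt 𝔼 x₀).target) (i k : Fin n) :
    pderiv k (fun b => chartAt 𝔼 x₀ ((chartAt 𝔼 x₀).symm b) i) a = if k = i then 1 else 0 := by
  have h1 : (fun b => chartAt 𝔼 x₀ ((chartAt 𝔼 x₀).symm b) i) =ᶠ[𝓝 a]
      fun b => (EuclideanSpace.proj i : 𝔼 →L[ℝ] ℝ) b := by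
    filter_upwards [(chartAt 𝔼 x₀).open_target.mem_nhds ha] with b hb
    rw [(chartAt 𝔼 x₀).right_inv hb]
    rfl
  unfold Crest.GeometryTopology.CoordMetric.pderiv
  rw [h1.fderiv_eq, ContinuousLinearMap.fderiv]
  simp [eq_comm]

theorem dxf_apply (x₀ : M) {z : M} (hz : z ∈ (chartAt 𝔼 x₀).source) (i j : Fin n) :
    dxf x₀ i z j = (dC x₀ z (fr z j) : 𝔼) i := by
  rw [dxf, Gr_apply, df_eq_fderiv x₀ hz, fderiv_eq_sum]
  have ha := (chartAt 𝔼 x₀).map_source hz
  simp only [pderiv_coord x₀ ha]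
  simp

/-- expansion of the gradient -/
theorem Gr_eq_sum (x₀ : M) {z : M} (hz : z ∈ (chartAt 𝔼 x₀).source) (f : M → ℝ) :
    Gr (n := n) f z = ∑ i, pderiv i (fun b => f ((chartAt 𝔼 x₀).symm b)) (chartAt 𝔼 x₀ z) •
      dxf x₀ i z := by
  ext j
  rw [Gr_apply, df_eq_fderiv x₀ hz, fderiv_eq_sum]
  simp only [WithLp.ofLp_sum, WithLp.ofLp_smul, Finset.sum_apply, Pi.smul_apply, smul_eq_mul]
  refine Finset.sum_congr rfl fun i _ => ?_
  rw [dxf_apply x₀ hz, mul_comm]

/-- matrix of the `dx^i` -/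
def Wm (x₀ z : M) : Matrix (Fin n) (Fin n) ℝ := Matrix.of fun i j => dxf x₀ i z j

theorem Wm_eq (x₀ : M) {z : M} (hz : z ∈ (chartAt 𝔼 x₀).source) :
    (Wm x₀ z).transpose * chartMetric n M x₀ (chartAt 𝔼 x₀ z) * Wm x₀ z = 1 := by
  ext j k
  have e := inner_eq_gm (n := n) x₀ hz (fr z j) (fr z k)
  rw [inner_fr, gm_eq_sum] at e
  rw [Matrix.one_apply, e, Matrix.mul_apply]
  simp only [Matrix.mul_apply, Finset.sum_mul, Matrix.transpose_apply, Wm, Matrix.of_apply,
    dxf_apply x₀ hz]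
  rw [Finset.sum_comm]
  refine Finset.sum_congr rfl fun l _ => Finset.sum_congr rfl fun i _ => ?_
  ring

theorem inner_dxf (x₀ : M) {z : M} (hz : z ∈ (chartAt 𝔼 x₀).source) (i j : Fin n) :
    inner ℝ (dxf x₀ i z) (dxf x₀ j z) = (chartMetric n M x₀ (chartAt 𝔼 x₀ z))⁻¹ i j := by
  have hpos := (isRiemannianOn_chartMetric (n := n) x₀).posDef _ ((chartAt 𝔼 x₀).map_source hz)
  rw [← mul_transpose_eq_inv hpos (Wm_eq x₀ hz), Matrix.mul_apply, PiLp.inner_apply]
  refine Finset.sum_congr rfl fun k _ => ?_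
  simp [Wm, mul_comm]

theorem inner_Ef_dxf (x₀ : M) {z : M} (hz : z ∈ (chartAt 𝔼 x₀).source) (i j : Fin n) :
    inner ℝ (Ef x₀ i z) (dxf x₀ j z) = if i = j then 1 else 0 := by
  have hpos := (isRiemannianOn_chartMetric (n := n) x₀).posDef _ ((chartAt 𝔼 x₀).map_source hz)
  have hu : IsUnit (chartMetric n M x₀ (chartAt 𝔼 x₀ z)).det := hpos.det_pos.ne'.isUnit
  rw [Ef, sum_inner]
  simp only [inner_smul_left, inner_dxf x₀ hz, conj_trivial]
  rw [← Matrix.mul_apply, Matrix.mul_nonsing_inv _ hu, Matrix.one_apply]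

theorem inner_Ef_Gr (x₀ : M) {z : M} (hz : z ∈ (chartAt 𝔼 x₀).source) (i : Fin n) (f : M → ℝ) :
    inner ℝ (Ef x₀ i z) (Gr f z) =
      pderiv i (fun b => f ((chartAt 𝔼 x₀).symm b)) (chartAt 𝔼 x₀ z) := by
  rw [Gr_eq_sum x₀ hz, inner_sum]
  simp only [inner_smul_right, inner_Ef_dxf x₀ hz]
  simp

theorem inner_Ef (x₀ : M) {z : M} (hz : z ∈ (chartAt 𝔼 x₀).source) (i j : Fin n) :
    inner ℝ (Ef x₀ i z) (Ef x₀ j z) = chartMetric n M x₀ (chartAt 𝔼 x₀ z) i j := by
  have hsymm : chartMetric n M x₀ (chartAt 𝔼 x₀ z) j i = chartMetric n M x₀ (chartAt 𝔼 x₀ z) i j := by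
    have hpos := (isRiemannianOn_chartMetric (n := n) x₀).posDef _ ((chartAt 𝔼 x₀).map_source hz)
    have := congrFun (congrFun hpos.isHermitian i) j
    simpa [Matrix.conjTranspose_apply] using this
  conv_lhs => rw [Ef.eq_def x₀ j z]
  rw [inner_sum]
  simp only [inner_smul_right, inner_Ef_dxf x₀ hz]
  simp [hsymm]

/-- expansion of a vector in the frame `dx^i`, with coefficients `⟪∂_i, v⟫` -/
theorem expand_dxf (x₀ : M) {z : M} (hz : z ∈ (chartAt 𝔼 x₀).source) (v : 𝔼) :
    v = ∑ i, inner ℝ (Ef x₀ i z) v • dxf x₀ i z := by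
  ext j
  have h := Wm_eq x₀ hz
  have h1 : v j = ∑ k, (1 : Matrix (Fin n) (Fin n) ℝ) j k * v k := by simp [Matrix.one_apply]
  rw [h1, ← h]
  simp only [WithLp.ofLp_sum, WithLp.ofLp_smul, Finset.sum_apply, Pi.smul_apply, smul_eq_mul]
  simp only [Matrix.mul_apply, Matrix.transpose_apply, Wm, Matrix.of_apply]
  have h2 : ∀ i, inner ℝ (Ef x₀ i z) v = ∑ k, (∑ l, chartMetric n M x₀ (chartAt 𝔼 x₀ z) i l *
      dxf x₀ l z k) * v k := by
    intro i
    rw [PiLp.inner_apply]
    refine Finset.sum_congr rfl fun k _ => ?_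
    simp only [Ef, WithLp.ofLp_sum, WithLp.ofLp_smul, Finset.sum_apply, Pi.smul_apply, smul_eq_mul]
    simp [mul_comm]
  simp only [h2, Finset.sum_mul]
  have h3 : ∀ k : Fin n, ∑ l, ∑ i, dxf x₀ i z j * chartMetric n M x₀ (chartAt 𝔼 x₀ z) i l *
      dxf x₀ l z k * v k = ∑ i, ∑ l, chartMetric n M x₀ (chartAt 𝔼 x₀ z) i l *
      dxf x₀ l z k * v k * dxf x₀ i z j := by
    intro k
    rw [Finset.sum_comm]
    refine Finset.sum_congr rfl fun i _ => Finset.sum_congr rfl fun l _ => ?_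
    ring
  simp only [h3]
  rw [Finset.sum_comm]

/-- expansion of a vector in the frame `∂_i`, with coefficients `⟪dx^i, v⟫` -/
theorem expand_Ef (x₀ : M) {z : M} (hz : z ∈ (chartAt 𝔼 x₀).source) (v : 𝔼) :
    v = ∑ i, inner ℝ (dxf x₀ i z) v • Ef x₀ i z := by
  refine ext_inner_right ℝ fun w => ?_
  conv_lhs => rw [expand_dxf x₀ hz w]
  rw [inner_sum, sum_inner]
  refine Finset.sum_congr rfl fun i _ => ?_
  rw [inner_smul_right, inner_smul_left, conj_trivial, real_inner_comm v, mul_comm]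

end

end Crest.Agent.R247.Frd657
end

-- ▼ part R247/Prt5_657
section

/-!
R247, block (5), leaf (5-P), file 5: elements of `V = W^{1,2}_0(M)` read in a chart: they are
in `L²_loc` with weak derivatives `⟪∂_i, D u⟫` in `L²_loc`. (helper657)
-/

set_option autoImplicit false
set_option maxSynthPendingDepth 3
set_option linter.unusedSectionVars false
open scoped ContDiff ENNReal NNReal Topology Manifold Bundle
open MeasureTheory Set Filter Metric Bundle
open Crest.GeometryTopology.CoordMetric Crest.GeometryTopology.ChartCurvature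
open Crest.Agent.R202.Ell Crest.Agent.R247.Ms322 Crest.Agent.R226.ChartMet842
open Crest.Agent.R247.Dir593

namespace Crest.Agent.R247.Frd657

noncomputable section

variable {n : ℕ} {M : Type*} [MetricSpace M] [ChartedSpace (EuclideanSpace ℝ (Fin n)) M]
  [IsManifold (𝓡 n) ∞ M]
  [RiemannianBundle (fun p : M => TangentSpace (𝓡 n) p)]
  [IsContMDiffRiemannianBundle (𝓡 n) ∞ (EuclideanSpace ℝ (Fin n)) (fun p : M => TangentSpace (𝓡 n) p)]
  [IsRiemannianManifold (𝓡 n) M]

local notation "𝔼" => EuclideanSpace ℝ (Fin n)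

/-- the chart is Lipschitz near every point of its source -/
theorem exists_lipschitz_chartMap (x₀ : M) {z : M} (hz : z ∈ (chartAt 𝔼 x₀).source) :
    ∃ K : ℝ≥0, ∃ t ∈ 𝓝 z, t ⊆ (chartAt 𝔼 x₀).source ∧ LipschitzOnWith K (chartAt 𝔼 x₀) t := by
  have ha := (chartAt 𝔼 x₀).map_source hz
  obtain ⟨A, hA, _⟩ := exists_isometry (n := n) x₀ ha
  obtain ⟨r, hr0, hrt, _, hL⟩ := exists_bilip (n := n) x₀ ha hA (η := 1) one_pos
  have hVo : IsOpen ((chartAt 𝔼 x₀).symm '' ball (chartAt 𝔼 x₀ z) r) :=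
    (chartAt 𝔼 x₀).symm.isOpen_image_of_subset_source isOpen_ball hrt
  refine ⟨‖(A.symm : 𝔼 →L[ℝ] 𝔼)‖₊ * (1 + 1), _, hVo.mem_nhds
    ⟨_, mem_ball_self hr0, (chartAt 𝔼 x₀).left_inv hz⟩, symm_image_subset x₀ hrt, ?_⟩
  have h1 : LipschitzWith ‖(A.symm : 𝔼 →L[ℝ] 𝔼)‖₊ (fun b => A.symm b) :=
    (A.symm : 𝔼 →L[ℝ] 𝔼).lipschitz
  have h2 := h1.comp_lipschitzOnWith hL
  have e : (fun b => A.symm b) ∘ (fun z => A (chartAt 𝔼 x₀ z)) = chartAt 𝔼 x₀ := by
    funext b; simp
  rwa [e] at h2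

/-- a `C¹` function is locally Lipschitz -/
theorem locLip_of_contMDiff {f : M → ℝ} (hf : ContMDiff (𝓡 n) 𝓘(ℝ, ℝ) 1 f) :
    LocallyLipschitz f := by
  intro z
  have hz : z ∈ (chartAt 𝔼 z).source := mem_chart_source 𝔼 z
  obtain ⟨K, t, ht, hts, hK⟩ := exists_lipschitz_chartMap z hz
  have hat := (chartAt 𝔼 z).map_source hz
  have h1 : ContMDiffAt (𝓡 n) (𝓡 n) 1 (chartAt 𝔼 z).symm (chartAt 𝔼 z z) :=
    ((contMDiffOn_chart_symm (I := 𝓡 n) (n := ∞) (x := z)).contMDiffAt
      ((chartAt 𝔼 z).open_target.mem_nhds hat)).of_le (by simp)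
  have h2 : ContDiffAt ℝ 1 (fun b => f ((chartAt 𝔼 z).symm b)) (chartAt 𝔼 z z) :=
    (hf.contMDiffAt.comp _ h1).contDiffAt
  obtain ⟨L, s, hs, hL⟩ := h2.exists_lipschitzOnWith
  have hc : ContinuousAt (chartAt 𝔼 z) z := (chartAt 𝔼 z).continuousAt hz
  refine ⟨L * K, t ∩ (chartAt 𝔼 z) ⁻¹' s, inter_mem ht (hc.preimage_mem_nhds hs), ?_⟩
  have h3 := hL.comp (hK.mono (inter_subset_left (t := (chartAt 𝔼 z) ⁻¹' s))) (fun y hy => hy.2)
  intro a ha b hb
  have e1 := h3 ha hb
  simp only [Function.comp_apply, (chartAt 𝔼 z).left_inv (hts ha.1),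
    (chartAt 𝔼 z).left_inv (hts hb.1)] at e1
  exact e1

theorem locLipOn_chart (x₀ : M) {f : M → ℝ} (hf : LocallyLipschitz f) :
    LocallyLipschitzOn (chartAt 𝔼 x₀).target (fun b => f ((chartAt 𝔼 x₀).symm b)) := by
  intro a ha
  obtain ⟨K, r, hr, -, hL⟩ := exists_lipschitz_chart (n := n) x₀ ha (hf _)
  exact ⟨K, ball a r, mem_nhdsWithin_of_mem_nhds (ball_mem_nhds a hr), hL⟩

variable [MeasurableSpace M] [BorelSpace M] [SecondCountableTopology M] [Nonempty M]

/-- coordinates `⟪∂_i, F⟫` of a vector field -/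
def cf (x₀ : M) (i : Fin n) (F : M → EuclideanSpace ℝ (Fin n)) (b : EuclideanSpace ℝ (Fin n)) : ℝ :=
  inner ℝ (Ef x₀ i ((chartAt (EuclideanSpace ℝ (Fin n)) x₀).symm b))
    (F ((chartAt (EuclideanSpace ℝ (Fin n)) x₀).symm b))

theorem aesm_dxf (x₀ : M) (i : Fin n) :
    AEStronglyMeasurable (fun b => dxf x₀ i ((chartAt 𝔼 x₀).symm b))
      (volume.restrict (chartAt 𝔼 x₀).target) :=
  aesm_chart x₀ (measurable_Gr _).aestronglyMeasurable

theorem continuousOn_cm (x₀ : M) (i j : Fin n) :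
    ContinuousOn (fun b => chartMetric n M x₀ b i j) (chartAt 𝔼 x₀).target :=
  ((isRiemannianOn_chartMetric (n := n) x₀).contDiffOn i j).continuousOn

theorem aesm_Ef (x₀ : M) (i : Fin n) :
    AEStronglyMeasurable (fun b => Ef x₀ i ((chartAt 𝔼 x₀).symm b))
      (volume.restrict (chartAt 𝔼 x₀).target) := by
  have h1 : AEStronglyMeasurable (fun b => ∑ j, chartMetric n M x₀ b i j •
      dxf x₀ j ((chartAt 𝔼 x₀).symm b)) (volume.restrict (chartAt 𝔼 x₀).target) :=
    Finset.aestronglyMeasurable_fun_sum _ fun j _ =>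
      ((continuousOn_cm x₀ i j).aestronglyMeasurable (measurableSet_target x₀)).smul (aesm_dxf x₀ j)
  refine h1.congr ?_
  filter_upwards [self_mem_ae_restrict (measurableSet_target x₀)] with b hb
  rw [Ef, (chartAt 𝔼 x₀).right_inv hb]

theorem norm_Ef_sq (x₀ : M) {b : 𝔼} (hb : b ∈ (chartAt 𝔼 x₀).target) (i : Fin n) :
    ‖Ef x₀ i ((chartAt 𝔼 x₀).symm b)‖ ^ 2 = chartMetric n M x₀ b i i := by
  rw [← real_inner_self_eq_norm_sq, inner_Ef x₀ ((chartAt 𝔼 x₀).map_target hb),
    (chartAt 𝔼 x₀).right_inv hb]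

theorem norm_Ef_bdd (x₀ : M) {K : Set 𝔼} (hK : IsCompact K) (hKt : K ⊆ (chartAt 𝔼 x₀).target)
    (i : Fin n) : ∃ C : ℝ, 0 < C ∧ ∀ b ∈ K, ‖Ef x₀ i ((chartAt 𝔼 x₀).symm b)‖ ≤ C := by
  obtain ⟨C, hC⟩ := hK.exists_bound_of_continuousOn ((continuousOn_cm x₀ i i).mono hKt)
  refine ⟨√(max C 0) + 1, by positivity, fun b hb => ?_⟩
  have h1 := hC b hb
  rw [Real.norm_eq_abs, ← norm_Ef_sq x₀ (hKt hb), abs_of_nonneg (sq_nonneg _)] at h1
  have h2 : ‖Ef x₀ i ((chartAt 𝔼 x₀).symm b)‖ ≤ √(max C 0) :=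
    Real.le_sqrt_of_sq_le (h1.trans (le_max_left _ _))
  linarith

theorem aesm_cf (x₀ : M) (i : Fin n) {F : M → 𝔼} (hF : AEStronglyMeasurable F (μHE[n] : Measure M)) :
    AEStronglyMeasurable (cf x₀ i F) (volume.restrict (chartAt 𝔼 x₀).target) :=
  (aesm_Ef x₀ i).inner (aesm_chart x₀ hF)

theorem cf_sub (x₀ : M) (i : Fin n) (F F' : M → 𝔼) (b : 𝔼) :
    cf x₀ i (fun z => F z - F' z) b = cf x₀ i F b - cf x₀ i F' b := by
  rw [cf, cf, cf, inner_sub_right]

theorem cf_le (x₀ : M) {K : Set 𝔼} (hK : IsCompact K) (hKt : K ⊆ (chartAt 𝔼 x₀).target)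
    (i : Fin n) : ∃ C : ℝ, 0 < C ∧ ∀ F : M → 𝔼,
      eLpNorm (cf x₀ i F) 2 (volume.restrict K) ≤ ENNReal.ofReal C * eLpNorm F 2 μHE[n] := by
  obtain ⟨C, hC, hCb⟩ := norm_Ef_bdd x₀ hK hKt i
  obtain ⟨D, hD, hDb⟩ := eLpNorm_chart_le (n := n) x₀ hK hKt
  refine ⟨C * D, by positivity, fun F => ?_⟩
  have h1 : eLpNorm (cf x₀ i F) 2 (volume.restrict K) ≤
      ENNReal.ofReal C * eLpNorm (fun b => F ((chartAt 𝔼 x₀).symm b)) 2 (volume.restrict K) := by
    refine eLpNorm_le_mul_eLpNorm_of_ae_le_mul ?_ 2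
    rw [ae_restrict_iff' hK.measurableSet]
    refine Eventually.of_forall fun b hb => ?_
    refine (norm_inner_le_norm _ _).trans ?_
    exact mul_le_mul_of_nonneg_right (hCb b hb) (norm_nonneg _)
  rw [ENNReal.ofReal_mul hC.le, mul_assoc]
  refine h1.trans (mul_le_mul_right ?_ _)
  exact (hDb F).trans (mul_le_mul_right (eLpNorm_mono_measure _ Measure.restrict_le_self) _)

theorem L2On_cf (x₀ : M) (i : Fin n) {F : M → 𝔼} (hF : MemLp F 2 (μHE[n] : Measure M)) :
    L2On (chartAt 𝔼 x₀).target (cf x₀ i F) := by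
  intro K hKt hK
  obtain ⟨C, -, hC⟩ := cf_le x₀ hK hKt i
  exact ⟨(aesm_cf x₀ i hF.1).mono_measure (Measure.restrict_mono hKt le_rfl),
    (hC F).trans_lt (ENNReal.mul_lt_top ENNReal.ofReal_lt_top hF.2)⟩

theorem cf_Gr (x₀ : M) (i : Fin n) (f : M → ℝ) {b : 𝔼} (hb : b ∈ (chartAt 𝔼 x₀).target) :
    cf x₀ i (Gr f) b = pderiv i (fun b => f ((chartAt 𝔼 x₀).symm b)) b := by
  rw [cf, inner_Ef_Gr x₀ ((chartAt 𝔼 x₀).map_target hb), (chartAt 𝔼 x₀).right_inv hb]

theorem ae_restrict_of_chart (x₀ : M) {K : Set 𝔼} (hKt : K ⊆ (chartAt 𝔼 x₀).target)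
    (hK : MeasurableSet K) {p : M → Prop} (h : ∀ᵐ z ∂(μHE[n] : Measure M), p z) :
    ∀ᵐ b ∂(volume.restrict K : Measure 𝔼), p ((chartAt 𝔼 x₀).symm b) := by
  rw [ae_restrict_iff' hK]
  filter_upwards [ae_chart (n := n) x₀ h] with b hb hbK
  exact hb (hKt hbK)

variable (S : GradS M (EuclideanSpace ℝ (Fin n)) (μHE[n] : Measure M))

/-- `L²(M)` convergence implies local convergence in the chart -/
theorem tendL2_of_lp (x₀ : M) {f : ℕ → M → ℝ} {g : M → ℝ}
    (h : Tendsto (fun k => eLpNorm (fun z => f k z - g z) 2 (μHE[n] : Measure M)) atTop (𝓝 0)) :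
    TendL2 (chartAt 𝔼 x₀).target (fun k b => f k ((chartAt 𝔼 x₀).symm b))
      (fun b => g ((chartAt 𝔼 x₀).symm b)) := by
  intro K hKt hK
  obtain ⟨C, -, hC⟩ := eLpNorm_chart_le (n := n) x₀ hK hKt
  have h1 : Tendsto (fun k => ENNReal.ofReal C *
      eLpNorm (fun z => f k z - g z) 2 (μHE[n] : Measure M)) atTop (𝓝 0) := by
    have := ENNReal.Tendsto.const_mul h (Or.inr (ENNReal.ofReal_ne_top (r := C)))
    simpa using this
  refine tendsto_of_tendsto_of_tendsto_of_le_of_le tendsto_const_nhds h1 (fun _ => bot_le)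
    (fun k => ?_)
  exact (hC (fun z => f k z - g z)).trans
    (mul_le_mul_right (eLpNorm_mono_measure _ Measure.restrict_le_self) _)

theorem tendL2_cf (x₀ : M) (i : Fin n) {F : ℕ → M → 𝔼} {F' : M → 𝔼}
    (h : Tendsto (fun k => eLpNorm (fun z => F k z - F' z) 2 (μHE[n] : Measure M)) atTop (𝓝 0)) :
    TendL2 (chartAt 𝔼 x₀).target (fun k => cf x₀ i (F k)) (cf x₀ i F') := by
  intro K hKt hK
  obtain ⟨C, -, hC⟩ := cf_le x₀ hK hKt i
  have h1 : Tendsto (fun k => ENNReal.ofReal C *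
      eLpNorm (fun z => F k z - F' z) 2 (μHE[n] : Measure M)) atTop (𝓝 0) := by
    have := ENNReal.Tendsto.const_mul h (Or.inr (ENNReal.ofReal_ne_top (r := C)))
    simpa using this
  refine tendsto_of_tendsto_of_tendsto_of_le_of_le tendsto_const_nhds h1 (fun _ => bot_le)
    (fun k => ?_)
  refine le_trans (le_of_eq ?_) (hC (fun z => F k z - F' z))
  congr 1
  ext b
  rw [cf_sub]

theorem tendsto_eLpNorm_of_lp {G : Type*} [NormedAddCommGroup G] {μ : Measure M} {u : ℕ → Lp G 2 μ}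
    {v : Lp G 2 μ} (h : Tendsto u atTop (𝓝 v)) {f : ℕ → M → G} {g : M → G}
    (hf : ∀ k, (u k : M → G) =ᵐ[μ] f k) (hg : (v : M → G) =ᵐ[μ] g) :
    Tendsto (fun k => eLpNorm (fun z => f k z - g z) 2 μ) atTop (𝓝 0) := by
  have h1 := tendsto_iff_norm_sub_tendsto_zero.1 h
  have e : (fun k => eLpNorm (fun z => f k z - g z) 2 μ) = fun k => ENNReal.ofReal ‖u k - v‖ := by
    funext k
    rw [Lp.norm_def, ENNReal.ofReal_toReal (Lp.eLpNorm_lt_top _).ne]
    refine eLpNorm_congr_ae ?_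
    filter_upwards [Lp.coeFn_sub (u k) v, hf k, hg] with z e1 e2 e3
    rw [e1, Pi.sub_apply, e2, e3]
  rw [e]
  simpa using ENNReal.tendsto_ofReal h1

variable [IsFiniteMeasureOnCompacts (μHE[n] : Measure M)]

/-- **weak derivatives in the chart** -/
theorem wdOn_cf (hS : ∀ f, S.G f = Gr (n := n) f) (x₀ : M) (i : Fin n) {u : Lp ℝ 2 (μHE[n] : Measure M)}
    (hu : u ∈ S.V) :
    WDOn (chartAt 𝔼 x₀).target i (fun b => u ((chartAt 𝔼 x₀).symm b)) (cf x₀ i (S.D u)) := by
  obtain ⟨f, hf, h1, h2⟩ := S.exists_seq hu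
  have ho := (chartAt 𝔼 x₀).open_target
  have t1 := tendsto_eLpNorm_of_lp h1 (f := f) (g := u) (fun k => GradS.coe_tL (hf k)) ae_eq_rfl
  have t2 := tendsto_eLpNorm_of_lp h2 (f := fun k => S.G (f k)) (g := S.D u)
    (fun k => S.D_tL (hf k)) ae_eq_rfl
  have hl : ∀ k, LocallyLipschitzOn (chartAt 𝔼 x₀).target (fun b => f k ((chartAt 𝔼 x₀).symm b)) :=
    fun k => locLipOn_chart x₀ (hf k).1
  refine WDOn.closed (f := fun k b => f k ((chartAt 𝔼 x₀).symm b))
    (F := fun k => cf x₀ i (S.G (f k))) (fun k => L2On.of_locLip (hl k))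
    (fun k => L2On_cf x₀ i ((hf k).memLpG S))
    (L2On_chart fun K _ => (Lp.memLp u).restrict K) (L2On_cf x₀ i (Lp.memLp _))
    (tendL2_of_lp x₀ t1) (tendL2_cf x₀ i t2) (fun k => ?_)
  intro φ hφ hs
  have h3 := WDOn.of_locLip ho (hl k) i φ hφ hs
  rw [h3]
  congr 1
  refine integral_congr_ae (Eventually.of_forall fun b => ?_)
  by_cases hb : b ∈ tsupport φ
  · simp only [hS, cf_Gr x₀ i (f k) (hs hb)]
  · simp only [image_eq_zero_of_notMem_tsupport hb, mul_zero]

end

end Crest.Agent.R247.Frd657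
end

-- ▼ part R247/Prt6_657

/-!
R247, block (5), leaf (5-P), file 6: the weak equation in a chart. (helper657)
-/

set_option autoImplicit false
set_option maxSynthPendingDepth 3
set_option linter.unusedSectionVars false
open scoped ContDiff ENNReal NNReal Topology Manifold Bundle
open MeasureTheory Set Filter Metric Bundle
open Crest.GeometryTopology.CoordMetric Crest.GeometryTopology.ChartCurvature
open Crest.Agent.R202.Ell Crest.Agent.R247.Ms322 Crest.Agent.R226.ChartMet842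
open Crest.Agent.R247.Dir593
open Crest.Agent.R247.Bo84 (inCh mLap mLap_chart)

namespace Crest.Agent.R247.Frd657

noncomputable section

/-- local sup bound of the mollification -/
theorem abs_cv_le_lip {n : ℕ} {g h : EE n → ℝ} {C : ℝ} (hC : 0 ≤ C) (hg : ∀ᵐ x, |g x| ≤ h x)
    (hh : ∀ x y, |h x - h y| ≤ C * ‖x - y‖) (k : ℕ) (x : EE n) :
    |cv (rho n k) g x| ≤ h x + C * (1 / ((k : ℝ) + 1)) := by
  rw [cv_apply]
  have h1 : ‖∫ t, g t * rho n k (x - t)‖ ≤
      ∫ t, (h x + C * (1 / ((k : ℝ) + 1))) * rho n k (x - t) := by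
    apply norm_integral_le_of_norm_le
    · exact ((rho_test k).comp_sub x).integrable.const_mul _
    · filter_upwards [hg] with t ht
      rw [norm_mul, Real.norm_of_nonneg (rho_nonneg k _), Real.norm_eq_abs]
      by_cases hd : ‖x - t‖ < 1 / ((k : ℝ) + 1)
      · refine mul_le_mul_of_nonneg_right ?_ (rho_nonneg k _)
        have h2 := (abs_le.1 (hh x t)).1
        have h3 : C * ‖x - t‖ ≤ C * (1 / ((k : ℝ) + 1)) := mul_le_mul_of_nonneg_left hd.le hC
        linarith
      · have h1 : rho n k (x - t) = 0 := by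
          have h2 : x - t ∉ Function.support (rho n k) := by
            rw [rho, ContDiffBump.support_normed_eq]
            simp only [bmp, Metric.mem_ball, dist_zero_right]
            exact hd
          simpa using h2
        rw [h1, mul_zero, mul_zero]
  rw [integral_const_mul, integral_sub_left_eq_self (rho n k) volume x, rho_integral, mul_one] at h1
  simpa [Real.norm_eq_abs] using h1

variable {n : ℕ} {M : Type*} [MetricSpace M] [ChartedSpace (EuclideanSpace ℝ (Fin n)) M]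
  [IsManifold (𝓡 n) ∞ M]

local notation "𝔼" => EuclideanSpace ℝ (Fin n)

/-- a function on `M` read in the chart, extended by zero -/
def pf (x₀ : M) (χ : M → ℝ) (b : EuclideanSpace ℝ (Fin n)) : ℝ :=
  (chartAt (EuclideanSpace ℝ (Fin n)) x₀).target.indicator
    (fun b => χ ((chartAt (EuclideanSpace ℝ (Fin n)) x₀).symm b)) b

theorem pf_of_mem (x₀ : M) (χ : M → ℝ) {b : 𝔼} (hb : b ∈ (chartAt 𝔼 x₀).target) :
    pf x₀ χ b = χ ((chartAt 𝔼 x₀).symm b) := indicator_of_mem hb _

theorem pf_off (x₀ : M) {χ : M → ℝ} {b : 𝔼} (hb : b ∉ (chartAt 𝔼 x₀) '' tsupport χ) :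
    pf x₀ χ b = 0 := by
  by_cases h : b ∈ (chartAt 𝔼 x₀).target
  · rw [pf_of_mem x₀ χ h]
    apply image_eq_zero_of_notMem_tsupport
    intro hK
    exact hb ⟨_, hK, (chartAt 𝔼 x₀).right_inv h⟩
  · exact indicator_of_notMem h _

theorem isCompact_chart_image (x₀ : M) {K : Set M} (hK : IsCompact K)
    (hKs : K ⊆ (chartAt 𝔼 x₀).source) : IsCompact (chartAt 𝔼 x₀ '' K) :=
  hK.image_of_continuousOn ((chartAt 𝔼 x₀).continuousOn.mono hKs)

theorem chart_image_subset (x₀ : M) {K : Set M} (hKs : K ⊆ (chartAt 𝔼 x₀).source) :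
    chartAt 𝔼 x₀ '' K ⊆ (chartAt 𝔼 x₀).target := by
  rintro _ ⟨b, hb, rfl⟩
  exact (chartAt 𝔼 x₀).map_source (hKs hb)

theorem tsupport_pf (x₀ : M) {χ : M → ℝ} (hc : HasCompactSupport χ)
    (hs : tsupport χ ⊆ (chartAt 𝔼 x₀).source) :
    tsupport (pf x₀ χ) ⊆ chartAt 𝔼 x₀ '' tsupport χ := by
  refine closure_minimal ?_ (isCompact_chart_image x₀ hc.isCompact hs).isClosed
  intro z hz
  by_contra h
  exact hz (pf_off (n := n) x₀ h)

theorem pf_test (x₀ : M) {χ : M → ℝ} (hχ : ContMDiff (𝓡 n) 𝓘(ℝ, ℝ) ∞ χ)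
    (hc : HasCompactSupport χ) (hs : tsupport χ ⊆ (chartAt 𝔼 x₀).source) :
    IsTest (pf (n := n) x₀ χ) := by
  have hK := isCompact_chart_image x₀ hc.isCompact hs
  refine ⟨contDiff_iff_contDiffAt.2 fun b => ?_,
    hK.of_isClosed_subset (isClosed_tsupport _) (tsupport_pf x₀ hc hs)⟩
  by_cases hb : b ∈ (chartAt 𝔼 x₀).target
  · have h1 : ContMDiffAt (𝓡 n) (𝓡 n) ∞ (chartAt 𝔼 x₀).symm b :=
      (contMDiffOn_chart_symm (I := 𝓡 n) (n := ∞) (x := x₀)).contMDiffAt
        ((chartAt 𝔼 x₀).open_target.mem_nhds hb)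
    have h2 : ContDiffAt ℝ ∞ (fun b => χ ((chartAt 𝔼 x₀).symm b)) b :=
      (hχ.contMDiffAt.comp _ h1).contDiffAt
    refine h2.congr_of_eventuallyEq ?_
    filter_upwards [(chartAt 𝔼 x₀).open_target.mem_nhds hb] with y hy
    exact pf_of_mem x₀ χ hy
  · have hbn : b ∉ chartAt 𝔼 x₀ '' tsupport χ := fun h => hb (chart_image_subset x₀ hs h)
    have h1 : ContDiffAt ℝ ∞ (fun _ : 𝔼 => (0 : ℝ)) b := contDiffAt_const
    refine h1.congr_of_eventuallyEq ?_
    filter_upwards [hK.isClosed.isOpen_compl.mem_nhds hbn] with y hy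
    exact pf_off x₀ hy

variable
  [RiemannianBundle (fun p : M => TangentSpace (𝓡 n) p)]
  [IsContMDiffRiemannianBundle (𝓡 n) ∞ (EuclideanSpace ℝ (Fin n)) (fun p : M => TangentSpace (𝓡 n) p)]

/-- coefficients of the Laplacian in divergence form -/
def Ac (x₀ : M) (i j : Fin n) (b : EuclideanSpace ℝ (Fin n)) : ℝ :=
  dens x₀ b * inverseField (chartMetric n M x₀) b i j

theorem lapW_eq (x₀ : M) (F : 𝔼 → ℝ) (b : 𝔼) :
    lapW (Ac x₀) (dens x₀) F b = laplaceBeltrami (chartMetric n M x₀) F b := by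
  rw [lapW, laplaceBeltrami, one_div]
  congr 1
  refine Finset.sum_congr rfl fun i _ => ?_
  congr 1
  ext y
  rw [Finset.mul_sum]
  refine Finset.sum_congr rfl fun j _ => ?_
  rw [Ac, dens]
  ring

theorem coefOn_Ac (x₀ : M) : CoefOn (chartAt 𝔼 x₀).target (Ac (n := n) x₀) := by
  have hg := isRiemannianOn_chartMetric (n := n) x₀
  refine ⟨fun i j => (contDiffOn_dens x₀).mul
    (Crest.Agent.R202.Tens.contDiffOn_inv_entry hg i j), fun b hb ξ hξ => ?_⟩
  have h1 : ∑ i, ∑ j, Ac (n := n) x₀ i j b * ξ j * ξ i =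
      dens x₀ b * ∑ i, ∑ j, ξ i * inverseField (chartMetric n M x₀) b i j * ξ j := by
    rw [Finset.mul_sum]
    refine Finset.sum_congr rfl fun i _ => ?_
    rw [Finset.mul_sum]
    refine Finset.sum_congr rfl fun j _ => ?_
    rw [Ac]; ring
  rw [h1]
  refine mul_pos (dens_pos x₀ hb) ?_
  have h2 := (hg.posDef b hb).inv
  have h3 := (Matrix.posDef_iff_dotProduct_mulVec.1 h2).2 hξ
  simp only [star_trivial, dotProduct, Matrix.mulVec] at h3
  refine lt_of_lt_of_eq h3 ?_
  refine Finset.sum_congr rfl fun i _ => ?_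
  rw [Finset.mul_sum]
  refine Finset.sum_congr rfl fun j _ => ?_
  unfold inverseField
  ring

theorem inv_symm (x₀ : M) {b : 𝔼} (hb : b ∈ (chartAt 𝔼 x₀).target) (i j : Fin n) :
    inverseField (chartMetric n M x₀) b i j = inverseField (chartMetric n M x₀) b j i := by
  have hg := isRiemannianOn_chartMetric (n := n) x₀
  have h2 := (hg.posDef b hb).inv.isHermitian
  have := congrFun (congrFun h2 j) i
  simpa [Matrix.conjTranspose_apply, inverseField] using this

variable [SecondCountableTopology M] [Nonempty M]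

theorem inner_dxf' (x₀ : M) {b : 𝔼} (hb : b ∈ (chartAt 𝔼 x₀).target) (i j : Fin n) :
    inner ℝ (dxf x₀ i ((chartAt 𝔼 x₀).symm b)) (dxf x₀ j ((chartAt 𝔼 x₀).symm b)) =
      inverseField (chartMetric n M x₀) b i j := by
  rw [inner_dxf x₀ ((chartAt 𝔼 x₀).map_target hb), (chartAt 𝔼 x₀).right_inv hb]
  rfl

/-- expansion in the chart -/
theorem expand_cf (x₀ : M) (F : M → 𝔼) {b : 𝔼} (hb : b ∈ (chartAt 𝔼 x₀).target) :
    F ((chartAt 𝔼 x₀).symm b) = ∑ i, cf x₀ i F b • dxf x₀ i ((chartAt 𝔼 x₀).symm b) :=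
  expand_dxf x₀ ((chartAt 𝔼 x₀).map_target hb) _

/-- inner product of two fields in the chart -/
theorem inner_cf (x₀ : M) (F F' : M → 𝔼) {b : 𝔼} (hb : b ∈ (chartAt 𝔼 x₀).target) :
    inner ℝ (F ((chartAt 𝔼 x₀).symm b)) (F' ((chartAt 𝔼 x₀).symm b)) =
      ∑ i, ∑ j, inverseField (chartMetric n M x₀) b i j * cf x₀ j F b * cf x₀ i F' b := by
  conv_lhs => rw [expand_cf x₀ F hb, expand_cf x₀ F' hb]
  rw [inner_sum]
  refine Finset.sum_congr rfl fun i _ => ?_
  rw [sum_inner]
  refine Finset.sum_congr rfl fun j _ => ?_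
  rw [inner_smul_left, inner_smul_right, conj_trivial, inner_dxf' x₀ hb, inv_symm x₀ hb j i]
  ring

theorem Gr_const (c : ℝ) (z : M) : Gr (n := n) (fun _ : M => c) z = 0 := by
  rw [Gr_eq_sum z (mem_chart_source 𝔼 z)]
  refine Finset.sum_eq_zero fun i _ => ?_
  have : pderiv i (fun _ : 𝔼 => c) (chartAt 𝔼 z z) = 0 := by
    unfold Crest.GeometryTopology.CoordMetric.pderiv
    simp
  rw [this, zero_smul]

theorem Gr_off {f : M → ℝ} {z : M} (hz : z ∉ tsupport f) : Gr (n := n) f z = 0 := by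
  have h : f =ᶠ[𝓝 z] fun _ => 0 := by
    filter_upwards [(isClosed_tsupport f).isOpen_compl.mem_nhds hz] with y hy
    exact image_eq_zero_of_notMem_tsupport hy
  rw [Gr_congr h, Gr_const]

theorem cf_Gr_pb (x₀ : M) (i : Fin n) (P : 𝔼 → ℝ) {b : 𝔼} (hb : b ∈ (chartAt 𝔼 x₀).target) :
    cf x₀ i (Gr (pb x₀ P)) b = pderiv i P b := by
  rw [cf, inner_Ef_Gr x₀ ((chartAt 𝔼 x₀).map_target hb), (chartAt 𝔼 x₀).right_inv hb]
  have h : (fun b => pb x₀ P ((chartAt 𝔼 x₀).symm b)) =ᶠ[𝓝 b] P := by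
    filter_upwards [(chartAt 𝔼 x₀).open_target.mem_nhds hb] with y hy
    exact pb_symm x₀ P hy
  unfold Crest.GeometryTopology.CoordMetric.pderiv
  rw [h.fderiv_eq]

variable [IsRiemannianManifold (𝓡 n) M] [MeasurableSpace M] [BorelSpace M]

theorem isT_pb (x₀ : M) {P : 𝔼 → ℝ} (hP : IsTest P) (hs : tsupport P ⊆ (chartAt 𝔼 x₀).target) :
    GradS.IsT (pb x₀ P) :=
  ⟨locLip_of_contMDiff (n := n) ((pb_smooth x₀ hP hs).of_le (by simp)), pb_cpt x₀ hP hs⟩

/-- **the weak equation in the chart** -/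
theorem weak_eq_chart {F : M → 𝔼} {f : M → ℝ}
    (heq : ∀ p : M → ℝ, GradS.IsT p →
      ∫ z, inner ℝ (F z) (Gr p z) ∂(μHE[n] : Measure M) = - ∫ z, f z * p z ∂(μHE[n] : Measure M))
    (x₀ : M) {P : 𝔼 → ℝ} (hP : IsTest P) (hs : tsupport P ⊆ (chartAt 𝔼 x₀).target) :
    ∫ b, ∑ i, ∑ j, Ac x₀ i j b * cf x₀ j F b * pderiv i P b =
      - ∫ b, (dens (n := n) x₀ b * f ((chartAt 𝔼 x₀).symm b)) * P b := by
  have h0 := heq _ (isT_pb x₀ hP hs)
  have hoff : ∀ z, z ∉ (chartAt 𝔼 x₀).source → z ∉ tsupport (pb x₀ P) := fun z hz h =>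
    hz (symm_image_subset x₀ hs (tsupport_pb x₀ hP.cpt.isCompact hs le_rfl h))
  rw [integral_eq_of_support x₀ _ (fun z hz => by rw [Gr_off (hoff z hz), inner_zero_right]),
    integral_eq_of_support x₀ _ (fun z hz => by
      rw [image_eq_zero_of_notMem_tsupport (hoff z hz), mul_zero])] at h0
  have e1 : ∫ b, ∑ i, ∑ j, Ac x₀ i j b * cf x₀ j F b * pderiv i P b =
      ∫ b in (chartAt 𝔼 x₀).target, dens (n := n) x₀ b •
        inner ℝ (F ((chartAt 𝔼 x₀).symm b)) (Gr (pb x₀ P) ((chartAt 𝔼 x₀).symm b)) := by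
    rw [← setIntegral_eq_integral_of_forall_compl_eq_zero (s := (chartAt 𝔼 x₀).target)]
    · refine setIntegral_congr_fun (measurableSet_target x₀) fun b hb => ?_
      rw [inner_cf x₀ F (Gr (pb x₀ P)) hb, smul_eq_mul, Finset.mul_sum]
      refine Finset.sum_congr rfl fun i _ => ?_
      rw [Finset.mul_sum]
      refine Finset.sum_congr rfl fun j _ => ?_
      rw [cf_Gr_pb x₀ i P hb, Ac]
      ring
    · intro b hb
      refine Finset.sum_eq_zero fun i _ => Finset.sum_eq_zero fun j _ => ?_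
      rw [pderiv_zero_off (fun h => hb (hs h)), mul_zero]
  have e2 : ∫ b, (dens (n := n) x₀ b * f ((chartAt 𝔼 x₀).symm b)) * P b =
      ∫ b in (chartAt 𝔼 x₀).target, dens (n := n) x₀ b •
        (f ((chartAt 𝔼 x₀).symm b) * pb x₀ P ((chartAt 𝔼 x₀).symm b)) := by
    rw [← setIntegral_eq_integral_of_forall_compl_eq_zero (s := (chartAt 𝔼 x₀).target)]
    · refine setIntegral_congr_fun (measurableSet_target x₀) fun b hb => ?_
      rw [pb_symm x₀ P hb, smul_eq_mul]
      ring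
    · intro b hb
      rw [image_eq_zero_of_notMem_tsupport (fun h => hb (hs h)), mul_zero]
  rw [e1, e2, h0]

end

end Crest.Agent.R247.Frd657
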