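import Crest.Agent.R247.Far0_553
import Crest.Agent.R247.Sv2_436

-- ▼ part R247/Sv3_436
section

/-! # R247, leaf (1-S): from the integrated resolvent identity to a pointwise bound of the
local means of `S` (`loc μ n K ρ S ≤ c_K⁻¹ (D - q + B)` a.e.). -/

set_option autoImplicit false
set_option linter.unusedSectionVars false
open MeasureTheory Set Filter Topology Metric
open scoped ENNReal NNReal

noncomputable section
namespace Crest.Agent.R247.Sv436

open Crest.Agent.R247.Mcp688 Crest.Agent.R247.Far553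

variable {X : Type*} [MetricSpace X] [SecondCountableTopology X] [MeasurableSpace X] [BorelSpace X]
  {μ : Measure X}

lemma measurable_loc_aux [SFinite μ] (r : ℝ) {F : X → ℝ≥0∞} (hF : Measurable F) :
    Measurable fun y : X => ∫⁻ z in ball y r, F z ∂μ := by
  have h1 : (fun y : X => ∫⁻ z in ball y r, F z ∂μ) =
      fun y : X => ∫⁻ z, ({p : X × X | dist p.2 p.1 < r}.indicator fun p => F p.2) (y, z) ∂μ := by
    funext y
    rw [← lintegral_indicator measurableSet_ball]
    refine lintegral_congr fun z => ?_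
    by_cases h : dist z y < r
    · rw [indicator_of_mem (mem_ball.2 h), indicator_of_mem (show (y, z) ∈ {p : X × X |
        dist p.2 p.1 < r} from h)]
    · rw [indicator_of_notMem (fun h' => h (mem_ball.1 h')), indicator_of_notMem
        (show (y, z) ∉ {p : X × X | dist p.2 p.1 < r} from h)]
  rw [h1]
  refine Measurable.lintegral_prod_right' (f := {p : X × X | dist p.2 p.1 < r}.indicator
    fun p => F p.2) ?_
  exact (hF.comp measurable_snd).indicator
    (measurableSet_lt (measurable_snd.dist measurable_fst) measurable_const)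

lemma measurable_loc [SFinite μ] (n : ℕ) (K ρ : ℝ) {F : X → ℝ} (hF : Measurable F) :
    Measurable (loc μ n K ρ F) := by
  unfold loc
  exact (measurable_loc_aux (K * ρ) hF.ennreal_ofReal).const_mul _

/-- symmetry of the kernel of `loc` -/
lemma lintegral_loc_symm [SFinite μ] (n : ℕ) (K ρ : ℝ) {S : X → ℝ} (hS : Measurable S)
    {E : Set X} (hE : MeasurableSet E) :
    ∫⁻ y in E, loc μ n K ρ S y ∂μ =
      ∫⁻ z, ENNReal.ofReal (S z) * loc μ n K ρ (E.indicator fun _ => 1) z ∂μ := by
  have hSm : Measurable fun z => ENNReal.ofReal (S z) := hS.ennreal_ofReal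
  have hk : Measurable fun p : X × X => ({p : X × X | dist p.2 p.1 < K * ρ}.indicator
      fun p => ENNReal.ofReal (S p.2) * E.indicator (fun _ => (1 : ℝ≥0∞)) p.1) p := by
    refine ((hSm.comp measurable_snd).mul ?_).indicator
      (measurableSet_lt (measurable_snd.dist measurable_fst) measurable_const)
    exact (measurable_const.indicator hE).comp measurable_fst
  have h1 : ∫⁻ y in E, loc μ n K ρ S y ∂μ = ENNReal.ofReal ((ρ⁻¹) ^ n) *
      ∫⁻ y, ∫⁻ z, ({p : X × X | dist p.2 p.1 < K * ρ}.indicator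
        fun p => ENNReal.ofReal (S p.2) * E.indicator (fun _ => (1 : ℝ≥0∞)) p.1) (y, z) ∂μ ∂μ := by
    unfold loc
    rw [lintegral_const_mul _ (measurable_loc_aux (K * ρ) hSm), ← lintegral_indicator hE]
    congr 1
    refine lintegral_congr fun y => ?_
    by_cases hy : y ∈ E
    · rw [indicator_of_mem hy, ← lintegral_indicator measurableSet_ball]
      refine lintegral_congr fun z => ?_
      by_cases h : dist z y < K * ρ
      · rw [indicator_of_mem (mem_ball.2 h), indicator_of_mem (show (y, z) ∈ {p : X × X |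
          dist p.2 p.1 < K * ρ} from h), indicator_of_mem hy, mul_one]
      · rw [indicator_of_notMem (fun h' => h (mem_ball.1 h')), indicator_of_notMem
          (show (y, z) ∉ {p : X × X | dist p.2 p.1 < K * ρ} from h)]
    · rw [indicator_of_notMem hy]
      symm
      rw [← lintegral_zero (α := X) (μ := μ)]
      refine lintegral_congr fun z => ?_
      by_cases h : dist z y < K * ρ
      · rw [indicator_of_mem (show (y, z) ∈ {p : X × X | dist p.2 p.1 < K * ρ} from h),
          indicator_of_notMem hy, mul_zero]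
      · rw [indicator_of_notMem (show (y, z) ∉ {p : X × X | dist p.2 p.1 < K * ρ} from h)]
  rw [h1, lintegral_lintegral_swap hk.aemeasurable]
  rw [← lintegral_const_mul _ (Measurable.lintegral_prod_left' hk)]
  refine lintegral_congr fun z => ?_
  unfold loc
  rw [mul_left_comm]
  congr 1
  rw [← lintegral_indicator measurableSet_ball, ← lintegral_const_mul]
  · refine lintegral_congr fun y => ?_
    by_cases h : dist z y < K * ρ
    · rw [indicator_of_mem (show (y, z) ∈ {p : X × X | dist p.2 p.1 < K * ρ} from h),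
        indicator_of_mem (show y ∈ ball z (K * ρ) by rw [mem_ball, dist_comm]; exact h)]
      by_cases hy : y ∈ E
      · simp [hy]
      · simp [hy]
    · rw [indicator_of_notMem (show (y, z) ∉ {p : X × X | dist p.2 p.1 < K * ρ} from h),
        indicator_of_notMem (show y ∉ ball z (K * ρ) by rw [mem_ball, dist_comm]; exact h),
        mul_zero]
  · refine Measurable.indicator ?_ measurableSet_ball
    exact (measurable_const.indicator hE).ennreal_ofReal

/-- **(PL)** pointwise bound of the local means of `S` -/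
theorem ploc [SFinite μ] [SigmaFinite μ] (n : ℕ) {K ρ cK R0 : ℝ} (hcK : 0 < cK) {x : X}
    {S g : X → ℝ} (hS : Measurable S) (hg : IntegrableOn g (closedBall x R0) μ)
    (P : Set X → X → ℝ≥0∞)
    (hHF : ∀ E, MeasurableSet E → E ⊆ closedBall x R0 →
      ∫⁻ z, ENNReal.ofReal (S z) * P E z ∂μ ≤ ENNReal.ofReal (∫ z in E, g z ∂μ) ∧
        0 ≤ ∫ z in E, g z ∂μ)
    (hR2 : ∀ E, MeasurableSet E → E ⊆ closedBall x R0 →
      ∀ᵐ z ∂μ, ENNReal.ofReal cK * loc μ n K ρ (E.indicator fun _ => 1) z ≤ P E z) :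
    ∀ᵐ y ∂μ, dist x y ≤ R0 →
      0 ≤ g y ∧ loc μ n K ρ S y ≤ ENNReal.ofReal (cK⁻¹ * g y) := by
  have hB : MeasurableSet (closedBall x R0) := isClosed_closedBall.measurableSet
  have hmS := measurable_loc (μ := μ) n K ρ hS
  have key : ∀ᵐ y ∂(μ.restrict (closedBall x R0)),
      ENNReal.ofReal cK * loc μ n K ρ S y ≤ ENNReal.ofReal (g y) := by
    refine ae_le_of_forall_setLIntegral_le_of_sigmaFinite₀
      ((hmS.const_mul _).aemeasurable) fun E hE _ => ?_
    rw [Measure.restrict_restrict hE]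
    set E' := E ∩ closedBall x R0 with hE'
    have hE'm : MeasurableSet E' := hE.inter hB
    have hsub : E' ⊆ closedBall x R0 := inter_subset_right
    have h1 : ∫⁻ y in E', ENNReal.ofReal cK * loc μ n K ρ S y ∂μ ≤
        ENNReal.ofReal (∫ z in E', g z ∂μ) := by
      have hm2 : Measurable fun z => ENNReal.ofReal (S z) *
          loc μ n K ρ (E'.indicator fun _ => 1) z :=
        hS.ennreal_ofReal.mul (measurable_loc n K ρ (measurable_const.indicator hE'm))
      rw [lintegral_const_mul _ hmS, lintegral_loc_symm n K ρ hS hE'm,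
        ← lintegral_const_mul _ hm2]
      refine (lintegral_mono_ae ?_).trans (hHF E' hE'm hsub).1
      filter_upwards [hR2 E' hE'm hsub] with z hz
      rw [mul_left_comm]
      gcongr
    refine h1.trans ?_
    have hgi : IntegrableOn g E' μ := hg.mono_set hsub
    calc ENNReal.ofReal (∫ z in E', g z ∂μ)
        ≤ ENNReal.ofReal (∫ z in E', max (g z) 0 ∂μ) := by
          apply ENNReal.ofReal_le_ofReal
          exact integral_mono hgi hgi.pos_part (fun z => le_max_left _ _)
      _ = ∫⁻ z in E', ENNReal.ofReal (max (g z) 0) ∂μ :=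
          ofReal_integral_eq_lintegral_ofReal hgi.pos_part
            (Eventually.of_forall fun z => le_max_right _ _)
      _ ≤ ∫⁻ z in E', ENNReal.ofReal (g z) ∂μ := by
          refine lintegral_mono fun z => ?_
          rcases le_total (g z) 0 with h | h
          · rw [max_eq_right h]; simp
          · rw [max_eq_left h]
  have key2 := (ae_restrict_iff' hB).1 key
  have key3 : ∀ᵐ y ∂(μ.restrict (closedBall x R0)), 0 ≤ g y := by
    refine ae_nonneg_of_forall_setIntegral_nonneg hg fun E hE _ => ?_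
    rw [Measure.restrict_restrict hE]
    exact (hHF _ (hE.inter hB) inter_subset_right).2
  have key4 := (ae_restrict_iff' hB).1 key3
  filter_upwards [key2, key4] with y hy hy4 hd
  have h1 := hy (by rw [mem_closedBall, dist_comm]; exact hd)
  refine ⟨hy4 (by rw [mem_closedBall, dist_comm]; exact hd), ?_⟩
  calc loc μ n K ρ S y = ENNReal.ofReal cK⁻¹ * (ENNReal.ofReal cK * loc μ n K ρ S y) := by
        rw [← mul_assoc, ← ENNReal.ofReal_mul (inv_nonneg.2 hcK.le), inv_mul_cancel₀ hcK.ne',
          ENNReal.ofReal_one, one_mul]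
    _ ≤ ENNReal.ofReal cK⁻¹ * ENNReal.ofReal (g y) := by gcongr
    _ = _ := by rw [← ENNReal.ofReal_mul (inv_nonneg.2 hcK.le)]

/-- Cauchy–Schwarz for local means: `loc F ≤ √(V loc (F²))` -/
lemma loc_sq_le (n : ℕ) {K ρ V : ℝ} (hρ : 0 < ρ) {F S : X → ℝ} (hF : Measurable F)
    (hF0 : ∀ z, 0 ≤ F z) (hFS : ∀ z, F z ^ 2 ≤ S z) {y : X}
    (hvol : μ (ball y (K * ρ)) ≤ ENNReal.ofReal (V * ρ ^ n)) :
    loc μ n K ρ F y ^ 2 ≤ ENNReal.ofReal V * loc μ n K ρ S y := by
  unfold loc
  have h1 : (∫⁻ z in ball y (K * ρ), ENNReal.ofReal (F z) ∂μ) ^ 2 ≤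
      μ (ball y (K * ρ)) * ∫⁻ z in ball y (K * ρ), ENNReal.ofReal (F z) ^ 2 ∂μ := by
    have h := ENNReal.lintegral_mul_le_Lp_mul_Lq (μ.restrict (ball y (K * ρ)))
      Real.HolderConjugate.two_two (f := fun _ => 1) (g := fun z => ENNReal.ofReal (F z))
      aemeasurable_const hF.ennreal_ofReal.aemeasurable
    simp only [Pi.mul_apply, one_mul, ENNReal.one_rpow, lintegral_const, Measure.restrict_apply
      MeasurableSet.univ, univ_inter] at h
    calc (∫⁻ z in ball y (K * ρ), ENNReal.ofReal (F z) ∂μ) ^ 2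
        ≤ (μ (ball y (K * ρ)) ^ (1 / (2 : ℝ)) *
          (∫⁻ z in ball y (K * ρ), ENNReal.ofReal (F z) ^ (2 : ℝ) ∂μ) ^ (1 / (2 : ℝ))) ^ 2 := by
          gcongr
      _ = _ := by
          rw [mul_pow, ← ENNReal.rpow_natCast, ← ENNReal.rpow_natCast, ← ENNReal.rpow_mul,
            ← ENNReal.rpow_mul]
          simp
  calc (ENNReal.ofReal ((ρ⁻¹) ^ n) * ∫⁻ z in ball y (K * ρ), ENNReal.ofReal (F z) ∂μ) ^ 2
      = ENNReal.ofReal ((ρ⁻¹) ^ n) * (ENNReal.ofReal ((ρ⁻¹) ^ n) *
          (∫⁻ z in ball y (K * ρ), ENNReal.ofReal (F z) ∂μ) ^ 2) := by ring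
    _ ≤ ENNReal.ofReal ((ρ⁻¹) ^ n) * (ENNReal.ofReal ((ρ⁻¹) ^ n) *
          (ENNReal.ofReal (V * ρ ^ n) *
            ∫⁻ z in ball y (K * ρ), ENNReal.ofReal (S z) ∂μ)) := by
        gcongr
        refine h1.trans ?_
        refine mul_le_mul' hvol (lintegral_mono fun z => ?_)
        rw [← ENNReal.ofReal_pow (hF0 z)]
        exact ENNReal.ofReal_le_ofReal (hFS z)
    _ = (ENNReal.ofReal ((ρ⁻¹) ^ n) * ENNReal.ofReal (V * ρ ^ n)) *
          (ENNReal.ofReal ((ρ⁻¹) ^ n) * ∫⁻ z in ball y (K * ρ), ENNReal.ofReal (S z) ∂μ) := by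
        ring
    _ = _ := by
        rw [← ENNReal.ofReal_mul (by positivity)]
        congr 2
        rw [inv_pow]
        field_simp

end Crest.Agent.R247.Sv436
end
end

-- ▼ part R247/Sv4_436
section

/-! # R247, leaf (1-S): local means of `F` along the rays (short intervals)  -/

set_option autoImplicit false
set_option linter.unusedSectionVars false
open MeasureTheory Set Filter Topology Metric
open scoped ENNReal NNReal

noncomputable section
namespace Crest.Agent.R247.Sv436

open Crest.Agent.R247.Mcp688 Crest.Agent.R247.Far553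

/-- change of variables `r = l t` for `∫⁻` over an interval -/
lemma lintegral_scale {l a b : ℝ} (hl : 0 < l) (G : ℝ → ℝ≥0∞) (hG : Measurable G) :
    ∫⁻ r in Ioc a b, G (r / l) = ENNReal.ofReal l * ∫⁻ t in Ioc (a / l) (b / l), G t := by
  have h1 := Real.map_volume_mul_left (a := l) hl.ne'
  have h2 : ∫⁻ r, (Ioc a b).indicator (fun r => G (r / l)) r ∂(Measure.map (l * ·) volume) =
      ∫⁻ t, (Ioc (a / l) (b / l)).indicator G t := by
    have hm1 : Measurable ((Ioc a b).indicator (fun r => G (r / l))) :=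
      (hG.comp (measurable_id.div_const l)).indicator measurableSet_Ioc
    rw [lintegral_map hm1 (measurable_const_mul l)]
    refine lintegral_congr fun t => ?_
    by_cases ht : t ∈ Ioc (a / l) (b / l)
    · rw [indicator_of_mem ht, indicator_of_mem]
      · rw [mul_div_cancel_left₀ _ hl.ne']
      · rw [mem_Ioc, div_lt_iff₀ hl, le_div_iff₀ hl] at ht
        exact ⟨by linarith [ht.1], by linarith [ht.2]⟩
    · rw [indicator_of_notMem ht, indicator_of_notMem]
      intro h
      apply ht
      rw [mem_Ioc, div_lt_iff₀ hl, le_div_iff₀ hl]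
      exact ⟨by linarith [h.1], by linarith [h.2]⟩
  rw [h1, lintegral_smul_measure, lintegral_indicator measurableSet_Ioc,
    lintegral_indicator measurableSet_Ioc, abs_of_pos (inv_pos.2 hl), smul_eq_mul] at h2
  rw [← h2, ← mul_assoc, ← ENNReal.ofReal_mul hl.le, mul_inv_cancel₀ hl.ne', ENNReal.ofReal_one,
    one_mul]

/-- Cauchy–Schwarz on an interval -/
lemma lintegral_sq_le {a b : ℝ} {G : ℝ → ℝ≥0∞} (hG : Measurable G) :
    (∫⁻ r in Ioc a b, G r) ^ 2 ≤ ENNReal.ofReal (b - a) * ∫⁻ r in Ioc a b, G r ^ 2 := by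
  have h := ENNReal.lintegral_mul_le_Lp_mul_Lq (volume.restrict (Ioc a b))
    Real.HolderConjugate.two_two (f := fun _ => 1) (g := G) aemeasurable_const hG.aemeasurable
  simp only [Pi.mul_apply, one_mul, ENNReal.one_rpow, lintegral_const, Measure.restrict_apply
    MeasurableSet.univ, univ_inter, Real.volume_Ioc] at h
  calc (∫⁻ r in Ioc a b, G r) ^ 2
      ≤ (ENNReal.ofReal (b - a) ^ (1 / (2 : ℝ)) *
        (∫⁻ r in Ioc a b, G r ^ (2 : ℝ)) ^ (1 / (2 : ℝ))) ^ 2 := by gcongr
    _ = _ := by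
        rw [mul_pow, ← ENNReal.rpow_natCast, ← ENNReal.rpow_natCast, ← ENNReal.rpow_mul,
          ← ENNReal.rpow_mul]
        simp

variable {n : ℕ} {κ : ℝ} {X : Type*} [MetricSpace X] [MeasurableSpace X] [BorelSpace X]
  {μ : Measure X}

/-- the squared local mean, integrated in arclength along the ray of `v` -/
lemma ray_sq_le (C : Rad n κ X μ) {x v : X} (hv : 0 < dist x v) {G : X → ℝ≥0∞}
    (hG : Measurable G) {a b c1 Z : ℝ} (ha : 0 < a)
    (h : ∫⁻ t in Ioc (a / dist x v) (b / dist x v), G (C.T x t v) ^ 2 * ENNReal.ofReal t⁻¹ ≤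
      ENNReal.ofReal (c1 * Z)) (hb : 0 ≤ b) :
    (∫⁻ r in Ioc a b, G (ray C x v r)) ^ 2 ≤
      ENNReal.ofReal ((b - a) * (b * (c1 * Z))) := by
  rcases lt_or_ge b a with hab | hab
  · rw [Ioc_eq_empty (not_lt.2 hab.le)]
    simp
  set l := dist x v with hl
  have hmT : Measurable fun t : ℝ => C.T x t v :=
    C.measT.comp (measurable_const.prodMk (measurable_id.prodMk measurable_const))
  have hmr : Measurable fun r : ℝ => G (ray C x v r) :=
    hG.comp (hmT.comp (measurable_id.div_const l))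
  have h1 := lintegral_sq_le (a := a) (b := b) hmr
  have h2 : ∫⁻ r in Ioc a b, G (ray C x v r) ^ 2 ≤ ENNReal.ofReal b * ENNReal.ofReal (c1 * Z) := by
    have h3 := lintegral_scale (a := a) (b := b) hv (fun t => G (C.T x t v) ^ 2)
      ((hG.comp hmT).pow_const 2)
    have h4 : ∫⁻ r in Ioc a b, G (ray C x v r) ^ 2 =
        ∫⁻ r in Ioc a b, (fun t => G (C.T x t v) ^ 2) (r / l) := rfl
    rw [h4, h3]
    calc ENNReal.ofReal l * ∫⁻ t in Ioc (a / l) (b / l), G (C.T x t v) ^ 2
        ≤ ENNReal.ofReal l * ∫⁻ t in Ioc (a / l) (b / l),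
            ENNReal.ofReal (b / l) * (G (C.T x t v) ^ 2 * ENNReal.ofReal t⁻¹) := by
          gcongr ENNReal.ofReal l * ?_
          refine setLIntegral_mono ((((hG.comp hmT).pow_const 2).mul
            (measurable_id.inv.ennreal_ofReal)).const_mul _) fun t ht => ?_
          have ht0 : 0 < t := (div_pos ha hv).trans ht.1
          have : 1 ≤ ENNReal.ofReal (b / l) * ENNReal.ofReal t⁻¹ := by
            rw [← ENNReal.ofReal_mul (by positivity), ← ENNReal.ofReal_one]
            apply ENNReal.ofReal_le_ofReal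
            rw [← div_eq_mul_inv, le_div_iff₀ ht0, one_mul]
            exact ht.2
          calc G (C.T x t v) ^ 2 = G (C.T x t v) ^ 2 * 1 := (mul_one _).symm
            _ ≤ G (C.T x t v) ^ 2 * (ENNReal.ofReal (b / l) * ENNReal.ofReal t⁻¹) := by gcongr
            _ = _ := by ring
      _ = ENNReal.ofReal l * (ENNReal.ofReal (b / l) *
            ∫⁻ t in Ioc (a / l) (b / l), (G (C.T x t v) ^ 2 * ENNReal.ofReal t⁻¹)) := by
          rw [lintegral_const_mul]
          exact ((hG.comp hmT).pow_const 2).mul (measurable_id.inv.ennreal_ofReal)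
      _ ≤ ENNReal.ofReal l * (ENNReal.ofReal (b / l) * ENNReal.ofReal (c1 * Z)) := by gcongr
      _ = _ := by
          rw [← mul_assoc, ← ENNReal.ofReal_mul hv.le]
          congr 2
          field_simp
  calc (∫⁻ r in Ioc a b, G (ray C x v r)) ^ 2
      ≤ ENNReal.ofReal (b - a) * (ENNReal.ofReal b * ENNReal.ofReal (c1 * Z)) := h1.trans (by gcongr)
    _ = _ := by
        rw [← ENNReal.ofReal_mul hb, ← ENNReal.ofReal_mul (by linarith)]

/-- what the resolvent side gives for one thickness: `F = H + g` and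
`loc (F)² ≤ c1 (D - q + B)` -/
structure LocIn (C : Rad n κ X μ) (x : X) (R0 K ρ c1 C0 : ℝ) (F q D B : X → ℝ) : Prop where
  F_meas : Measurable F
  q_meas : Measurable q
  B_meas : Measurable B
  q_nonneg : ∀ y, 0 ≤ q y
  B_nonneg : ∀ y, 0 ≤ B y
  c1_nonneg : 0 ≤ c1
  C0_nonneg : 0 ≤ C0
  rd : RD C x q D
  lip : ∀ R, ∃ L, ∀ y z, dist x y ≤ R → dist x z ≤ R → |q y - q z| ≤ L * dist y z
  bdd : ∃ M, ∀ᵐ y ∂μ, dist x y ≤ R0 → |B y| ≤ M
  pl : ∀ᵐ y ∂μ, dist x y ≤ R0 → 0 ≤ D y - q y + B y ∧
    loc μ n K ρ F y ^ 2 ≤ ENNReal.ofReal (c1 * (D y - q y + B y))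
  q_surv : ∀ᵐ v ∂μ, 0 < dist x v → dist x v < R0 → ∀ t ∈ Ioo (0 : ℝ) 1,
    q (C.T x t v) ≤ C0 / (1 - t)
  B_surv : ∀ᵐ v ∂μ, 0 < dist x v → dist x v < R0 → ∀ᵐ t ∂(volume.restrict (Ioo (0 : ℝ) 1)),
    B (C.T x t v) ≤ C0 / (1 - t)

/-- the integral of a function bounded by `C0/(1-t)` against `dt/t` -/
lemma integral_B_le {C0 a b : ℝ} (hC0 : 0 ≤ C0) (ha : 0 < a) (hab : a ≤ b) (hb : b < 1)
    {f : ℝ → ℝ} (hf : IntervalIntegrable (fun t => f t / t) volume a b)
    (h : ∀ᵐ t ∂(volume.restrict (Ioo (0 : ℝ) 1)), f t ≤ C0 / (1 - t)) :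
    ∫ t in a..b, f t / t ≤ C0 / (1 - b) * ((b - a) / a) := by
  have h1 : ∫ t in a..b, f t / t ≤ ∫ _t in a..b, C0 / (1 - b) / a := by
    apply intervalIntegral.integral_mono_ae_restrict hab hf intervalIntegrable_const
    have hsub : Ioc a b ⊆ Ioo (0 : ℝ) 1 := fun t ht => ⟨ha.trans ht.1, lt_of_le_of_lt ht.2 hb⟩
    have h2 : ∀ᵐ t ∂(volume.restrict (Ioc a b)), f t / t ≤ C0 / (1 - b) / a := by
      filter_upwards [ae_restrict_of_ae_restrict_of_subset hsub h,
        ae_restrict_mem measurableSet_Ioc] with t ht htm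
      have ht0 : 0 < t := ha.trans htm.1
      have h3 : 0 < 1 - b := by linarith
      have h4 : C0 / (1 - t) ≤ C0 / (1 - b) := by
        apply div_le_div_of_nonneg_left hC0 h3
        linarith [htm.2]
      calc f t / t ≤ C0 / (1 - b) / t := by gcongr; exact ht.trans h4
        _ ≤ C0 / (1 - b) / a := by
            have : 0 ≤ C0 / (1 - b) := div_nonneg hC0 h3.le
            gcongr
            exact htm.1.le
    rwa [Measure.restrict_congr_set Ioc_ae_eq_Icc] at h2
  refine h1.trans (le_of_eq ?_)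
  rw [intervalIntegral.integral_const, smul_eq_mul]
  field_simp

/-- **(d1a)**: local means over short intervals of the rays -/
theorem d1a_core [SecondCountableTopology X] [SFinite μ] (C : Rad n κ X μ) (x : X)
    {R0 K ρ c1 C0 : ℝ} {F q D B : X → ℝ}
    (I : LocIn C x R0 K ρ c1 C0 F q D B) :
    ∀ᵐ v ∂μ, 0 < dist x v → dist x v < R0 → ∀ a b : ℝ, 0 < a → a ≤ b → b < dist x v →
      8 * (b - a) ≤ a →
      ∫⁻ r in Icc a b, loc μ n K ρ F (ray C x v r) ≤
        ENNReal.ofReal (Real.sqrt (4 * c1 * C0) * a *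
          Real.sqrt ((b - a) / min a (dist x v - b))) := by
  obtain ⟨M, hM⟩ := I.bdd
  have hineq := ray_ineq C x (A := fun y => loc μ n K ρ F y ^ 2) I.c1_nonneg I.rd I.lip I.pl
    I.q_nonneg I.q_meas I.B_meas hM
  filter_upwards [hineq, I.q_surv, I.B_surv] with v hv hq hB hv0 hvR a b ha hab hbl h8
  set l := dist x v with hl
  have hal : 0 < a / l := div_pos ha hv0
  have hbl1 : b / l < 1 := (div_lt_one hv0).2 hbl
  have hb0 : 0 < b := ha.trans_le hab
  have hbl0 : 0 < b / l := div_pos hb0 hv0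
  obtain ⟨hBI, h1⟩ := hv hvR.le (a / l) (b / l) hal (by gcongr) hbl1.le
  have h2 : q (C.T x (b / l) v) ≤ C0 / (1 - b / l) := hq hv0 hvR _ ⟨hbl0, hbl1⟩
  have h3 := integral_B_le I.C0_nonneg hal (by gcongr : a / l ≤ b / l) hbl1 hBI (hB hv0 hvR)
  have h4 : (b / l - a / l) / (a / l) = (b - a) / a := by
    field_simp
  rw [h4] at h3
  have h5 : (b - a) / a ≤ 1 / 8 := by
    rw [div_le_iff₀ ha]
    linarith
  have hpos : 0 < 1 - b / l := by linarith
  have hZ : q (C.T x (b / l) v) + ∫ t in (a / l)..(b / l), B (C.T x t v) / t ≤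
      9 / 8 * (C0 / (1 - b / l)) := by
    have h6 : 0 ≤ C0 / (1 - b / l) := div_nonneg I.C0_nonneg hpos.le
    nlinarith
  have h7 := h1.trans (ENNReal.ofReal_le_ofReal (mul_le_mul_of_nonneg_left hZ I.c1_nonneg))
  have h8' := ray_sq_le C hv0 (measurable_loc n K ρ I.F_meas) ha h7 hb0.le
  rw [Measure.restrict_congr_set (Ioc_ae_eq_Icc (a := a) (b := b) (μ := volume)).symm]
  have hmin : 0 < min a (l - b) := lt_min ha (by linarith)
  have h9 : (b - a) * (b * (c1 * (9 / 8 * (C0 / (1 - b / l))))) ≤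
      (Real.sqrt (4 * c1 * C0) * a * Real.sqrt ((b - a) / min a (l - b))) ^ 2 := by
    have hc : 0 ≤ c1 * C0 := mul_nonneg I.c1_nonneg I.C0_nonneg
    rw [mul_pow, mul_pow, Real.sq_sqrt (by nlinarith), Real.sq_sqrt
      (div_nonneg (by linarith) hmin.le)]
    have e1 : C0 / (1 - b / l) = C0 * (l / (l - b)) := by
      have : l - b ≠ 0 := by linarith
      field_simp
    rw [e1]
    have e2 : b * (l / (l - b)) ≤ 3 * (a ^ 2 / min a (l - b)) := by
      have hlb : 0 < l - b := by linarith
      have e3 : b * (l / (l - b)) = b ^ 2 / (l - b) + b := by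
        field_simp
        ring
      have e4 : b ≤ 9 / 8 * a := by linarith
      have e5 : b ^ 2 / (l - b) ≤ 81 / 64 * (a ^ 2 / min a (l - b)) := by
        calc b ^ 2 / (l - b) ≤ (9 / 8 * a) ^ 2 / (l - b) := by gcongr
          _ ≤ (9 / 8 * a) ^ 2 / min a (l - b) := by
              gcongr
              exact min_le_right _ _
          _ = _ := by ring
      have e6 : b ≤ 9 / 8 * (a ^ 2 / min a (l - b)) := by
        have : a ≤ a ^ 2 / min a (l - b) := by
          rw [le_div_iff₀ hmin, pow_two]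
          gcongr
          exact min_le_left _ _
        linarith
      have e7 : 0 ≤ a ^ 2 / min a (l - b) := by positivity
      rw [e3]
      linarith
    have hba : 0 ≤ b - a := by linarith
    calc (b - a) * (b * (c1 * (9 / 8 * (C0 * (l / (l - b))))))
        = 9 / 8 * (c1 * C0) * (b - a) * (b * (l / (l - b))) := by ring
      _ ≤ 9 / 8 * (c1 * C0) * (b - a) * (3 * (a ^ 2 / min a (l - b))) := by gcongr
      _ ≤ 4 * (c1 * C0) * (b - a) * (a ^ 2 / min a (l - b)) := by
          have : 0 ≤ (c1 * C0) * (b - a) * (a ^ 2 / min a (l - b)) := by positivity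
          nlinarith
      _ = _ := by ring
  have h10 : (∫⁻ r in Ioc a b, loc μ n K ρ F (ray C x v r)) ^ 2 ≤
      ENNReal.ofReal (Real.sqrt (4 * c1 * C0) * a * Real.sqrt ((b - a) / min a (l - b))) ^ 2 := by
    rw [← ENNReal.ofReal_pow (by positivity)]
    exact h8'.trans (ENNReal.ofReal_le_ofReal h9)
  exact (ENNReal.pow_le_pow_left_iff two_ne_zero).1 h10

end Crest.Agent.R247.Sv436
end
end

-- ▼ part R247/Sv5_436

/-! # R247, leaf (1-S): local means along the rays over one dyadic scale, controlled by the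
time averages of `q + B` (input of the bad-scale bound, 644's `d1b_of`). -/

set_option autoImplicit false
set_option linter.unusedSectionVars false
open MeasureTheory Set Filter Topology Metric
open scoped ENNReal NNReal

noncomputable section
namespace Crest.Agent.R247.Sv436

open Crest.Agent.R247.Mcp688 Crest.Agent.R247.Far553

variable {n : ℕ} {κ : ℝ} {X : Type*} [MetricSpace X] [MeasurableSpace X] [BorelSpace X]
  {μ : Measure X}

/-- bounded measurable functions are integrable in arclength along rays -/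
lemma intervalIntegrable_arc (C : Rad n κ X μ) {x v : X} {B : X → ℝ} (hB : Measurable B)
    {a b M : ℝ} (hab : a ≤ b)
    (hM : ∀ᵐ r ∂(volume.restrict (Ioc a b)), |B (ray C x v r)| ≤ M) :
    IntervalIntegrable (fun r => B (ray C x v r)) volume a b := by
  rw [intervalIntegrable_iff_integrableOn_Ioc_of_le hab]
  have hmT : Measurable fun r : ℝ => ray C x v r :=
    C.measT.comp (measurable_const.prodMk ((measurable_id.div_const _).prodMk measurable_const))
  refine Integrable.mono' (g := fun _ => M) (integrable_const _)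
    (hB.comp hmT).aestronglyMeasurable ?_
  filter_upwards [hM] with r hr
  rw [Real.norm_eq_abs]
  exact hr

/-- transfer of an a.e. statement in the fraction `t` to an a.e. statement in `r = l t` -/
lemma ae_arc_of_frac {l : ℝ} (hl : 0 < l) {p : ℝ → Prop} {a b : ℝ} (ha : 0 ≤ a) (hb : b < l)
    (h : ∀ᵐ t ∂(volume.restrict (Ioo (0 : ℝ) 1)), p t) :
    ∀ᵐ r ∂(volume.restrict (Ioc a b)), p (r / l) := by
  obtain ⟨N, hN1, hN2, hN3⟩ := exists_measurable_superset_of_null
    (μ := volume.restrict (Ioo (0 : ℝ) 1)) (s := {t | ¬ p t}) h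
  have h1 : ∫⁻ r in Ioc a b, (N.indicator (fun _ => (1 : ℝ≥0∞))) (r / l) = 0 := by
    rw [lintegral_scale hl _ (measurable_const.indicator hN2)]
    have h2 : ∫⁻ t in Ioc (a / l) (b / l), N.indicator (fun _ => (1 : ℝ≥0∞)) t ≤
        ∫⁻ t in Ioo (0 : ℝ) 1, N.indicator (fun _ => (1 : ℝ≥0∞)) t := by
      apply lintegral_mono_set
      intro t ht
      exact ⟨lt_of_le_of_lt (div_nonneg ha hl.le) ht.1,
        lt_of_le_of_lt ht.2 ((div_lt_one hl).2 hb)⟩
    have h3 : ∫⁻ t in Ioo (0 : ℝ) 1, N.indicator (fun _ => (1 : ℝ≥0∞)) t = 0 := by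
      rw [lintegral_indicator_const hN2, one_mul, hN3]
    rw [h3, nonpos_iff_eq_zero] at h2
    rw [h2, mul_zero]
  have hm : Measurable fun r : ℝ => (N.indicator (fun _ => (1 : ℝ≥0∞))) (r / l) :=
    (measurable_const.indicator hN2).comp (measurable_id.div_const l)
  have h4 := (lintegral_eq_zero_iff hm).1 h1
  filter_upwards [h4] with r hr
  by_contra hcon
  have : r / l ∈ N := hN1 hcon
  simp [this] at hr

/-- **input of (d1b)**: one dyadic scale of a ray -/
theorem d1b_core [SecondCountableTopology X] [SFinite μ] (C : Rad n κ X μ) (x : X)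
    {R0 K ρ c1 C0 : ℝ} {F q D B : X → ℝ}
    (I : LocIn C x R0 K ρ c1 C0 F q D B) :
    ∀ᵐ v ∂μ, 0 < dist x v → dist x v < R0 → ∀ s : ℝ, 0 < s → 16 * s ≤ dist x v →
      ∫⁻ r in Icc s (2 * s), loc μ n K ρ F (ray C x v r) ≤
        ENNReal.ofReal (Real.sqrt (2 * c1) * s * Real.sqrt (s⁻¹ *
          ∫ r in s..4 * s, min (3 * C0) (q (ray C x v r) + B (ray C x v r)))) := by
  obtain ⟨M, hM⟩ := I.bdd
  have hineq := ray_ineq C x (A := fun y => loc μ n K ρ F y ^ 2) I.c1_nonneg I.rd I.lip I.pl
    I.q_nonneg I.q_meas I.B_meas hM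
  filter_upwards [hineq, I.q_surv, I.B_surv] with v hv hq hB hv0 hvR s hs h16
  set l := dist x v with hl
  have hC0 := I.C0_nonneg
  -- bounds along the ray
  have hqr : ∀ r ∈ Ioc s (4 * s), q (ray C x v r) ≤ 4 / 3 * C0 := by
    intro r hr
    have h1 : r / l ∈ Ioo (0 : ℝ) 1 :=
      ⟨div_pos (hs.trans hr.1) hv0, (div_lt_one hv0).2 (by linarith [hr.2])⟩
    have h2 := hq hv0 hvR _ h1
    have h3 : r / l ≤ 1 / 4 := by
      rw [div_le_iff₀ hv0]
      linarith [hr.2]
    have h4 : C0 / (1 - r / l) ≤ 4 / 3 * C0 := by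
      rw [div_le_iff₀ (by linarith)]
      nlinarith
    exact h2.trans h4
  have hBr : ∀ᵐ r ∂(volume.restrict (Ioc s (4 * s))), B (ray C x v r) ≤ 4 / 3 * C0 := by
    have h1 := ae_arc_of_frac hv0 hs.le (by linarith : 4 * s < l) (hB hv0 hvR)
    filter_upwards [h1, ae_restrict_mem measurableSet_Ioc] with r hr hrm
    have h3 : r / l ≤ 1 / 4 := by
      rw [div_le_iff₀ hv0]
      linarith [hrm.2]
    have h4 : C0 / (1 - r / l) ≤ 4 / 3 * C0 := by
      rw [div_le_iff₀ (by linarith)]
      nlinarith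
    exact hr.trans h4
  have hs4 : s ≤ 4 * s := by linarith
  have hqI : IntervalIntegrable (fun r => q (ray C x v r)) volume s (4 * s) :=
    intervalIntegrable_arc C I.q_meas hs4 (M := 4 / 3 * C0) (by
      filter_upwards [ae_restrict_mem measurableSet_Ioc] with r hr
      rw [abs_of_nonneg (I.q_nonneg _)]
      exact hqr r hr)
  have hBI : IntervalIntegrable (fun r => B (ray C x v r)) volume s (4 * s) :=
    intervalIntegrable_arc C I.B_meas hs4 (M := 4 / 3 * C0) (by
      filter_upwards [hBr] with r hr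
      rw [abs_of_nonneg (I.B_nonneg _)]
      exact hr)
  set Y : ℝ := s⁻¹ * ∫ r in s..4 * s, (q (ray C x v r) + B (ray C x v r)) with hY
  have hcap : ∫ r in s..4 * s, min (3 * C0) (q (ray C x v r) + B (ray C x v r)) =
      ∫ r in s..4 * s, (q (ray C x v r) + B (ray C x v r)) := by
    rw [intervalIntegral.integral_of_le hs4, intervalIntegral.integral_of_le hs4]
    apply integral_congr_ae
    filter_upwards [hBr, ae_restrict_mem measurableSet_Ioc] with r hr hrm
    rw [min_eq_right]
    have := hqr r hrm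
    linarith
  rw [hcap]
  -- the interval of fractions
  have ha : 0 < s / l := div_pos hs hv0
  set β : ℝ := ∫ t in (s / l)..(4 * s / l), B (C.T x t v) / t with hβ
  have h4l : 4 * s / l ≤ 1 := (div_le_one hv0).2 (by linarith)
  have hle4 : s / l ≤ 4 * s / l := div_le_div_of_nonneg_right hs4 hv0.le
  obtain ⟨hBI4, -⟩ := hv hvR.le (s / l) (4 * s / l) ha hle4 h4l
  set A : ℝ≥0∞ := ∫⁻ t in Ioc (s / l) (2 * s / l), loc μ n K ρ F (C.T x t v) ^ 2 *
    ENNReal.ofReal t⁻¹ with hA
  have hstep : ∀ r ∈ Icc (2 * s) (4 * s), A ≤ ENNReal.ofReal (c1 * (q (ray C x v r) + β)) := by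
    intro r hr
    have hr1 : s / l ≤ r / l := by gcongr; linarith [hr.1]
    have hr2 : r / l ≤ 4 * s / l := by
      have := hr.2
      gcongr
    obtain ⟨hBIr, h1⟩ := hv hvR.le (s / l) (r / l) ha hr1 (hr2.trans h4l)
    have h2 : A ≤ ∫⁻ t in Ioc (s / l) (r / l), loc μ n K ρ F (C.T x t v) ^ 2 *
        ENNReal.ofReal t⁻¹ := by
      apply lintegral_mono_set
      apply Ioc_subset_Ioc_right
      gcongr
      exact hr.1
    refine (h2.trans h1).trans (ENNReal.ofReal_le_ofReal ?_)
    refine mul_le_mul_of_nonneg_left ?_ I.c1_nonneg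
    have h3 : ∫ t in (s / l)..(r / l), B (C.T x t v) / t ≤ β := by
      rw [hβ]
      apply intervalIntegral.integral_mono_interval le_rfl hr1 hr2 ?_ hBI4
      refine (ae_restrict_mem measurableSet_Ioc).mono fun t ht => ?_
      exact div_nonneg (I.B_nonneg _) (ha.trans ht.1).le
    have e : C.T x (r / l) v = ray C x v r := rfl
    rw [e]
    linarith
  have hAfin : A ≠ ∞ := ne_top_of_le_ne_top ENNReal.ofReal_ne_top
    (hstep (2 * s) ⟨le_rfl, by linarith⟩)
  have hβ0 : 0 ≤ β := by
    rw [hβ]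
    apply intervalIntegral.integral_nonneg hle4
    intro t ht
    exact div_nonneg (I.B_nonneg _) (ha.le.trans ht.1)
  have hstep' : ∀ r ∈ Icc (2 * s) (4 * s), A.toReal ≤ c1 * (q (ray C x v r) + β) := by
    intro r hr
    apply ENNReal.toReal_le_of_le_ofReal _ (hstep r hr)
    have := I.q_nonneg (ray C x v r)
    exact mul_nonneg I.c1_nonneg (by linarith)
  -- averaging the end point
  have hqI2 : IntervalIntegrable (fun r => q (ray C x v r)) volume (2 * s) (4 * s) := by
    refine hqI.mono_set ?_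
    rw [uIcc_of_le (by linarith), uIcc_of_le hs4]
    exact Icc_subset_Icc_left (by linarith)
  have havg : (2 * s) * A.toReal ≤ c1 * ((∫ r in (2 * s)..(4 * s), q (ray C x v r)) +
      2 * s * β) := by
    have h1 : ∫ _r in (2 * s)..(4 * s), A.toReal ≤
        ∫ r in (2 * s)..(4 * s), c1 * (q (ray C x v r) + β) := by
      apply intervalIntegral.integral_mono_on (by linarith) intervalIntegrable_const
        ((hqI2.add intervalIntegrable_const).const_mul c1)
      intro r hr
      exact hstep' r hr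
    rw [intervalIntegral.integral_const, smul_eq_mul, intervalIntegral.integral_const_mul,
      intervalIntegral.integral_add hqI2 intervalIntegrable_const,
      intervalIntegral.integral_const, smul_eq_mul] at h1
    have e : 4 * s - 2 * s = 2 * s := by ring
    rw [e] at h1
    exact h1
  have hβ' : β ≤ s⁻¹ * ∫ r in s..4 * s, B (ray C x v r) := by
    have h1 := intervalIntegral.integral_comp_div (a := s) (b := 4 * s)
      (fun t => B (C.T x t v) / t) hv0.ne'
    have h2 : β = l⁻¹ * ∫ r in s..4 * s, B (C.T x (r / l) v) / (r / l) := by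
      rw [h1, smul_eq_mul, ← mul_assoc, inv_mul_cancel₀ hv0.ne', one_mul]
    have h3 : ∫ r in s..4 * s, B (C.T x (r / l) v) / (r / l) ≤
        ∫ r in s..4 * s, (l * s⁻¹) * B (ray C x v r) := by
      have hI1 : IntervalIntegrable (fun r => B (C.T x (r / l) v) / (r / l)) volume s (4 * s) := by
        have : (fun r => B (C.T x (r / l) v) / (r / l)) =
            fun r => B (ray C x v r) * (l / r) := by
          funext r
          rw [div_div_eq_mul_div, mul_div_assoc]
          rfl
        rw [this]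
        apply hBI.mul_continuousOn
        rw [uIcc_of_le hs4]
        apply ContinuousOn.div continuousOn_const continuousOn_id
        intro r hr
        exact (hs.trans_le hr.1).ne'
      apply intervalIntegral.integral_mono_on hs4 hI1 (hBI.const_mul _)
      intro r hr
      have hr0 : 0 < r := hs.trans_le hr.1
      have h4 : B (C.T x (r / l) v) / (r / l) = B (ray C x v r) * (l * r⁻¹) := by
        rw [div_div_eq_mul_div, mul_div_assoc, div_eq_mul_inv l r]
        rfl
      rw [h4, mul_comm (l * s⁻¹)]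
      have h5 : r⁻¹ ≤ s⁻¹ := inv_anti₀ hs hr.1
      have := I.B_nonneg (ray C x v r)
      gcongr
    rw [h2]
    calc l⁻¹ * ∫ r in s..4 * s, B (C.T x (r / l) v) / (r / l)
        ≤ l⁻¹ * ∫ r in s..4 * s, (l * s⁻¹) * B (ray C x v r) := by gcongr
      _ = _ := by
          rw [intervalIntegral.integral_const_mul, ← mul_assoc, ← mul_assoc,
            inv_mul_cancel₀ hv0.ne', one_mul]
  have hq2 : ∫ r in (2 * s)..(4 * s), q (ray C x v r) ≤ ∫ r in s..4 * s, q (ray C x v r) := by
    apply intervalIntegral.integral_mono_interval (by linarith) (by linarith) le_rfl ?_ hqI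
    exact Eventually.of_forall fun r => I.q_nonneg _
  have hq0 : 0 ≤ ∫ r in s..4 * s, q (ray C x v r) :=
    intervalIntegral.integral_nonneg hs4 fun r _ => I.q_nonneg _
  have hAY : A.toReal ≤ c1 * Y := by
    have h1 : Y = s⁻¹ * (∫ r in s..4 * s, q (ray C x v r)) +
        s⁻¹ * ∫ r in s..4 * s, B (ray C x v r) := by
      rw [hY, intervalIntegral.integral_add hqI hBI, mul_add]
    have h2 : s⁻¹ * (∫ r in s..4 * s, q (ray C x v r)) + β ≤ Y := by rw [h1]; linarith
    have h3 : A.toReal ≤ c1 * ((2 * s)⁻¹ * (∫ r in s..4 * s, q (ray C x v r)) + β) := by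
      have h4 : (2 * s) * A.toReal ≤ c1 * ((∫ r in s..4 * s, q (ray C x v r)) + 2 * s * β) :=
        havg.trans (mul_le_mul_of_nonneg_left (by linarith) I.c1_nonneg)
      calc A.toReal = (2 * s)⁻¹ * ((2 * s) * A.toReal) := by
            rw [← mul_assoc, inv_mul_cancel₀ (by positivity), one_mul]
        _ ≤ (2 * s)⁻¹ * (c1 * ((∫ r in s..4 * s, q (ray C x v r)) + 2 * s * β)) := by gcongr
        _ = _ := by field_simp
    refine h3.trans (mul_le_mul_of_nonneg_left ?_ I.c1_nonneg)
    have h5 : (2 * s)⁻¹ * (∫ r in s..4 * s, q (ray C x v r)) ≤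
        s⁻¹ * (∫ r in s..4 * s, q (ray C x v r)) := by
      gcongr
      linarith
    linarith
  have hA2 : A ≤ ENNReal.ofReal (c1 * Y) := by
    rw [← ENNReal.ofReal_toReal hAfin]
    exact ENNReal.ofReal_le_ofReal hAY
  have h7 := ray_sq_le C hv0 (measurable_loc n K ρ I.F_meas) hs (b := 2 * s) hA2 (by linarith)
  rw [Measure.restrict_congr_set (Ioc_ae_eq_Icc (a := s) (b := 2 * s) (μ := volume)).symm]
  have hY0 : 0 ≤ Y := by
    rw [hY]
    refine mul_nonneg (by positivity) (intervalIntegral.integral_nonneg hs4 fun r _ => ?_)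
    exact add_nonneg (I.q_nonneg _) (I.B_nonneg _)
  have h9 : (2 * s - s) * (2 * s * (c1 * Y)) =
      (Real.sqrt (2 * c1) * s * Real.sqrt Y) ^ 2 := by
    rw [mul_pow, mul_pow, Real.sq_sqrt (by linarith [I.c1_nonneg]), Real.sq_sqrt hY0]
    ring
  have h10 : (∫⁻ r in Ioc s (2 * s), loc μ n K ρ F (ray C x v r)) ^ 2 ≤
      ENNReal.ofReal (Real.sqrt (2 * c1) * s * Real.sqrt Y) ^ 2 := by
    rw [← ENNReal.ofReal_pow (by positivity), ← h9]
    exact h7
  exact (ENNReal.pow_le_pow_left_iff two_ne_zero).1 h10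

end Crest.Agent.R247.Sv436
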