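import Crest.Agent.R247.Sm4_879
import Crest.Agent.R247.Mcp5_688

-- ▼ part R247/Vel1_338
section

/-!
R247 (helper338), leaf (1-V), file 1: infinitesimal law of cosines at a point.

* `hasDerivAt_e`: `t ↦ e x (t v)` read in the chart at `x` has derivative `v` at `0` (any `v`);
* `tendsto_dist_div`: `dist (e x (t v)) (e x (t w)) / t → ‖v - w‖` as `t → 0+`;
* `ray_at`: near `P` the (unique) minimiser from `P` to `x` is `h ↦ e P (-h W)`, `W` the gradient
  of `d_x²/2` at `P`;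
* `vel_point`: the law of cosines + first variation.
-/

set_option autoImplicit false
set_option maxSynthPendingDepth 3
set_option linter.unusedSectionVars false

open Bundle Set Filter Topology
open scoped Manifold ContDiff NNReal
open Crest.GeometryTopology.CoordMetric Crest.GeometryTopology.ChartCurvature
open Crest.GeometryTopology.MTW Crest.Agent.R244 Crest.Agent.R226
open Crest.Agent.R226.ChartCost77 Crest.Agent.R226.MTWConc117
open Crest.Agent.R226.NearLem90 (dL halfDistSq_comm)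
open Crest.Agent.R226.NearDiagThm996 Crest.Agent.R226.LocalNearThm996
open Crest.Agent.R226.NearDiagFinal996
open Crest.Agent.R226.ChartMet842 Crest.Agent.R226.GeoLoc577
open Crest.Agent.R226.CutSmooth77 (SC three_point)
open Crest.Agent.R247.Ms322 Crest.Agent.R247.Sm879

namespace Crest.Agent.R247.Vel338

section
variable {n : ℕ} {M : Type*} [MetricSpace M] [ChartedSpace (EuclideanSpace ℝ (Fin n)) M]
  [IsManifold (𝓡 n) ∞ M]
  [RiemannianBundle (fun p : M => TangentSpace (𝓡 n) p)]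
  [IsContMDiffRiemannianBundle (𝓡 n) ∞ (EuclideanSpace ℝ (Fin n)) (fun p : M => TangentSpace (𝓡 n) p)]

local notation "𝔼" => EuclideanSpace ℝ (Fin n)

variable {x₀ : M} (L : LocalNear n M x₀)

theorem tendsto_e {x : M} (hx : x ∈ L.W) (v : TangentSpace (𝓡 n) x) :
    Tendsto (fun t : ℝ => L.e x (t • v)) (𝓝 0) (𝓝 x) := by
  have hr := L.r_pos
  rw [tendsto_iff_dist_tendsto_zero]
  have h1 : ∀ᶠ t : ℝ in 𝓝 0, ‖t • v‖ < L.r := by
    have : Tendsto (fun t : ℝ => ‖t • v‖) (𝓝 0) (𝓝 ‖(0 : ℝ) • v‖) :=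
      ((continuous_id.smul continuous_const).norm).tendsto 0
    rw [zero_smul, norm_zero] at this
    exact this.eventually (gt_mem_nhds hr)
  have h2 : Tendsto (fun t : ℝ => ‖t • v‖) (𝓝 0) (𝓝 0) := by
    have : Tendsto (fun t : ℝ => ‖t • v‖) (𝓝 0) (𝓝 ‖(0 : ℝ) • v‖) :=
      ((continuous_id.smul continuous_const).norm).tendsto 0
    rwa [zero_smul, norm_zero] at this
  refine h2.congr' ?_
  filter_upwards [h1] with t ht
  rw [dist_comm, LN_dist L hx ht]


theorem dC_self (x : M) (v : TangentSpace (𝓡 n) x) : (dC x x v : 𝔼) = v := by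
  unfold dC
  rw [mfderiv_chartAt_eq_tangentCoordChange (mem_chart_source _ x)]
  exact tangentCoordChange_self (mem_extChartAt_source x)

theorem dC_congr (x : M) {p q : M} (h : p = q) (v : 𝔼) : (dC x p v : 𝔼) = dC x q v := by
  subst h; rfl

/-- velocity at `0` of the curve `t ↦ e x (t v)`, for small `v` -/
theorem hasDerivAt_e_small {x : M} (hx : x ∈ L.W) {v : TangentSpace (𝓡 n) x} (hv : ‖v‖ < L.r) :
    HasDerivAt (fun t : ℝ => chartAt 𝔼 x (L.e x (t • v))) (v : 𝔼) 0 := by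
  have hr := L.r_pos
  have h7 : ContMDiffAt 𝓘(ℝ, TangentSpace (𝓡 n) x) (𝓡 n) ∞ (L.e x) ((0 : ℝ) • v) := by
    rw [zero_smul]
    have h8 := L.smooth (⟨x, 0⟩ : TangentBundle (𝓡 n) M) hx (by simpa using hr)
    exact ContMDiffAt.comp (0 : TangentSpace (𝓡 n) x)
      (g := fun p : TangentBundle (𝓡 n) M => L.e p.1 p.2)
      (f := fun u : TangentSpace (𝓡 n) x => (⟨x, u⟩ : TangentBundle (𝓡 n) M)) h8
      ((contMDiff_fiber x).contMDiffAt)
  have h8 : MDifferentiableAt 𝓘(ℝ, ℝ) (𝓡 n) (fun t : ℝ => L.e x (t • v)) 0 := by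
    have h9 : MDifferentiableAt 𝓘(ℝ, ℝ) 𝓘(ℝ, TangentSpace (𝓡 n) x) (fun t : ℝ => t • v) 0 :=
      (differentiableAt_id.smul_const v).mdifferentiableAt
    exact MDifferentiableAt.comp (0 : ℝ) (h7.mdifferentiableAt (by simp)) h9
  have h0 : L.e x ((0 : ℝ) • v) = x := by rw [zero_smul, L.e_zero x hx]
  have h10 := hasDerivAt_chart x h8 (by rw [h0]; exact mem_chart_source _ x)
  rw [L.vel_zero x hx v hv] at h10
  have h11 : (dC x (L.e x ((0 : ℝ) • v)) v : 𝔼) = v :=
    (dC_congr x h0 (v : 𝔼)).trans (dC_self x v)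
  exact h10.congr_deriv h11

/-- velocity at `0` of the curve `t ↦ e x (t v)`, for every `v` -/
theorem hasDerivAt_e {x : M} (hx : x ∈ L.W) (v : TangentSpace (𝓡 n) x) :
    HasDerivAt (fun t : ℝ => chartAt 𝔼 x (L.e x (t • v))) (v : 𝔼) 0 := by
  have hr := L.r_pos
  obtain ⟨δ, hδ, hδv⟩ : ∃ δ : ℝ, 0 < δ ∧ ‖δ • v‖ < L.r := by
    refine ⟨L.r / (2 * (‖v‖ + 1)), by positivity, ?_⟩
    rw [norm_smul, Real.norm_of_nonneg (by positivity), div_mul_eq_mul_div,
      div_lt_iff₀ (by positivity)]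
    nlinarith [norm_nonneg v]
  have h1 := hasDerivAt_e_small L hx hδv
  have h2 : HasDerivAt (fun t : ℝ => δ⁻¹ * t) δ⁻¹ 0 := by
    simpa using (hasDerivAt_id (0 : ℝ)).const_mul δ⁻¹
  have h3 : HasDerivAt (fun t : ℝ => chartAt 𝔼 x (L.e x ((δ⁻¹ * t) • (δ • v))))
      (δ⁻¹ • ((δ • v : TangentSpace (𝓡 n) x) : 𝔼)) 0 := by
    have h4 : HasDerivAt (fun t : ℝ => chartAt 𝔼 x (L.e x (t • (δ • v))))
      ((δ • v : TangentSpace (𝓡 n) x) : 𝔼) (δ⁻¹ * 0) := by rw [mul_zero]; exact h1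
    exact HasDerivAt.scomp (0 : ℝ) h4 h2
  have h5 : (δ⁻¹ • ((δ • v : TangentSpace (𝓡 n) x) : 𝔼)) = (v : 𝔼) := by
    show δ⁻¹ • (δ • (v : 𝔼)) = v
    rw [smul_smul, inv_mul_cancel₀ hδ.ne', one_smul]
  rw [h5] at h3
  refine h3.congr_of_eventuallyEq (Filter.Eventually.of_forall fun t => ?_)
  show chartAt 𝔼 x (L.e x (t • v)) = chartAt 𝔼 x (L.e x ((δ⁻¹ * t) • (δ • v)))
  rw [smul_smul, mul_assoc, mul_comm t δ, ← mul_assoc, inv_mul_cancel₀ hδ.ne', one_mul]

end

section
variable {n : ℕ} {M : Type*} [MetricSpace M] [ChartedSpace (EuclideanSpace ℝ (Fin n)) M]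
  [IsManifold (𝓡 n) ∞ M]
  [RiemannianBundle (fun p : M => TangentSpace (𝓡 n) p)]
  [IsContMDiffRiemannianBundle (𝓡 n) ∞ (EuclideanSpace ℝ (Fin n)) (fun p : M => TangentSpace (𝓡 n) p)]
  [IsRiemannianManifold (𝓡 n) M]

local notation "𝔼" => EuclideanSpace ℝ (Fin n)

/-- **Infinitesimal distance between two curves** through `x` with chart velocities `v`, `w`. -/
theorem tendsto_dist_div_of {x : M} {γ η : ℝ → M} {v w : TangentSpace (𝓡 n) x}
    (hγ : Tendsto γ (𝓝[>] 0) (𝓝 x)) (hη : Tendsto η (𝓝[>] 0) (𝓝 x))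
    (hγ' : HasDerivWithinAt (fun t => chartAt 𝔼 x (γ t)) (v : 𝔼) (Ioi 0) 0) (hγ0 : γ 0 = x)
    (hη' : HasDerivWithinAt (fun t => chartAt 𝔼 x (η t)) (w : 𝔼) (Ioi 0) 0) (hη0 : η 0 = x) :
    Tendsto (fun t : ℝ => dist (γ t) (η t) / t) (𝓝[>] 0) (𝓝 ‖v - w‖) := by
  set a : 𝔼 := chartAt 𝔼 x x with ha0
  have ha : a ∈ (chartAt 𝔼 x).target := mem_chart_target _ x
  obtain ⟨A, hA, -⟩ := exists_isometry (n := n) x ha
  -- norm of `A u`
  have hAn : ∀ u : TangentSpace (𝓡 n) x, ‖A (u : 𝔼)‖ = ‖u‖ := by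
    intro u
    have h1 : ‖A (u : 𝔼)‖ ^ 2 = gm x a (u : 𝔼) (u : 𝔼) :=
      (real_inner_self_eq_norm_sq (A (u : 𝔼))).symm.trans (hA (u : 𝔼) (u : 𝔼))
    have h2 := norm_sq_eq_gm (n := n) x (mem_chart_source 𝔼 x) u
    have h2' : (dC x x u : 𝔼) = (u : 𝔼) := dC_self x u
    have h2'' : gm x a (dC x x u) (dC x x u) = gm x a (u : 𝔼) (u : 𝔼) := by
      exact congrArg₂ (fun (p q : 𝔼) => gm x a p q) h2' h2'
    have h3 : ‖A (u : 𝔼)‖ ^ 2 = ‖u‖ ^ 2 := h1.trans (h2''.symm.trans h2.symm)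
    have := abs_eq_abs.2 (sq_eq_sq_iff_eq_or_eq_neg.1 h3)
    rwa [abs_of_nonneg (norm_nonneg _), abs_of_nonneg (norm_nonneg _)] at this
  -- the Euclidean quotient
  set N : ℝ → ℝ := fun t => ‖A (chartAt 𝔼 x (γ t)) - A (chartAt 𝔼 x (η t))‖ / t with hN
  have hNlim : Tendsto N (𝓝[>] 0) (𝓝 ‖v - w‖) := by
    have h1 : HasDerivWithinAt (fun t => chartAt 𝔼 x (γ t) - chartAt 𝔼 x (η t))
        ((v : 𝔼) - (w : 𝔼)) (Ioi 0) 0 := hγ'.sub hη'
    have h2 := (hasDerivWithinAt_iff_tendsto_slope' (by simp)).1 h1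
    have h3 : Tendsto (fun t : ℝ => ‖A (slope (fun t => chartAt 𝔼 x (γ t) - chartAt 𝔼 x (η t)) 0 t)‖)
        (𝓝[>] 0) (𝓝 ‖A ((v : 𝔼) - (w : 𝔼))‖) :=
      (((A.continuous.tendsto _).comp h2)).norm
    have h4 : ‖A ((v : 𝔼) - (w : 𝔼))‖ = ‖v - w‖ := hAn (v - w)
    rw [h4] at h3
    refine h3.congr' ?_
    filter_upwards [self_mem_nhdsWithin] with t ht
    have ht' : 0 < t := ht
    rw [hN]
    simp only [slope, vsub_eq_sub, sub_zero, hγ0, hη0, sub_self]
    rw [map_smul, norm_smul, norm_inv, Real.norm_of_nonneg ht'.le, map_sub]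
    rw [div_eq_inv_mul]
  -- comparison
  have hcmp : ∀ η' : ℝ≥0, 0 < η' → ∀ᶠ t in 𝓝[>] (0 : ℝ), dist (γ t) (η t) / t ≤ (1 + η') * N t ∧
      N t ≤ (1 + η') * (dist (γ t) (η t) / t) := by
    intro η' hη'0
    obtain ⟨r, hr0, hrt, hL1, hL2⟩ := exists_bilip (n := n) x ha hA hη'0
    have hopen : IsOpen ((chartAt 𝔼 x).symm '' Metric.ball a r) :=
      (chartAt 𝔼 x).symm.isOpen_image_of_subset_source Metric.isOpen_ball hrt
    have hxm : x ∈ (chartAt 𝔼 x).symm '' Metric.ball a r :=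
      ⟨a, Metric.mem_ball_self hr0, (chartAt 𝔼 x).left_inv (mem_chart_source _ x)⟩
    have e1 := hγ.eventually (hopen.mem_nhds hxm)
    have e2 := hη.eventually (hopen.mem_nhds hxm)
    filter_upwards [e1, e2, self_mem_nhdsWithin] with t h1 h2 ht
    have ht' : 0 < t := ht
    have k2 := hL2.dist_le_mul (γ t) h1 (η t) h2
    rw [dist_eq_norm] at k2
    have c1 : chartAt 𝔼 x (γ t) ∈ Metric.ball a r := by
      obtain ⟨b, hb, hb'⟩ := h1
      rw [← hb', (chartAt 𝔼 x).right_inv (hrt hb)]; exact hb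
    have c2 : chartAt 𝔼 x (η t) ∈ Metric.ball a r := by
      obtain ⟨b, hb, hb'⟩ := h2
      rw [← hb', (chartAt 𝔼 x).right_inv (hrt hb)]; exact hb
    have s1 : γ t ∈ (chartAt 𝔼 x).source := by
      obtain ⟨b, hb, hb'⟩ := h1
      rw [← hb']; exact (chartAt 𝔼 x).map_target (hrt hb)
    have s2 : η t ∈ (chartAt 𝔼 x).source := by
      obtain ⟨b, hb, hb'⟩ := h2
      rw [← hb']; exact (chartAt 𝔼 x).map_target (hrt hb)
    have k1 := hL1.dist_le_mul (A (chartAt 𝔼 x (γ t))) ⟨_, c1, rfl⟩ (A (chartAt 𝔼 x (η t)))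
      ⟨_, c2, rfl⟩
    simp only [A.symm_apply_apply, (chartAt 𝔼 x).left_inv s1, (chartAt 𝔼 x).left_inv s2] at k1
    rw [dist_eq_norm (A (chartAt 𝔼 x (γ t)))] at k1
    push_cast at k1 k2
    constructor
    · rw [hN, div_le_iff₀ ht']
      simp only
      rw [mul_assoc, div_mul_cancel₀ _ ht'.ne']
      exact k1
    · rw [hN]
      simp only
      rw [div_le_iff₀ ht', mul_assoc, div_mul_cancel₀ _ ht'.ne']
      exact k2
  -- conclusion
  have hdiff : Tendsto (fun t : ℝ => dist (γ t) (η t) / t - N t) (𝓝[>] 0) (𝓝 0) := by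
    rw [Metric.tendsto_nhds]
    intro ε hε
    set B : ℝ := ‖v - w‖ + 1 with hB
    have hB0 : 0 < B := by positivity
    have e1 : ∀ᶠ t in 𝓝[>] (0 : ℝ), N t < B := hNlim.eventually (gt_mem_nhds (by rw [hB]; linarith))
    set η' : ℝ := min 1 (ε / (3 * B)) with hη'
    have hη'0 : 0 < η' := by positivity
    have hη'1 : η' ≤ 1 := min_le_left _ _
    have hη'2 : η' * B ≤ ε / 3 := by
      calc η' * B ≤ ε / (3 * B) * B := by gcongr; exact min_le_right _ _
        _ = ε / 3 := by field_simp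
    have e2 := hcmp ⟨η', hη'0.le⟩ (by exact_mod_cast hη'0)
    filter_upwards [e1, e2, self_mem_nhdsWithin] with t h1 h2 ht
    have ht' : 0 < t := ht
    obtain ⟨h3, h4⟩ := h2
    change dist (γ t) (η t) / t ≤ (1 + η') * N t at h3
    change N t ≤ (1 + η') * (dist (γ t) (η t) / t) at h4
    have hN0 : 0 ≤ N t := by rw [hN]; positivity
    have hD0 : 0 ≤ dist (γ t) (η t) / t := by positivity
    rw [Real.dist_eq, sub_zero, abs_lt]
    set D := dist (γ t) (η t) / t
    have h5 : η' * N t ≤ ε / 3 := by nlinarith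
    have h6 : η' * D ≤ 2 * (ε / 3) := by
      calc η' * D ≤ η' * ((1 + η') * N t) := by gcongr
        _ = (1 + η') * (η' * N t) := by ring
        _ ≤ 2 * (ε / 3) := by gcongr; linarith
    constructor
    · nlinarith
    · nlinarith
  have := hdiff.add hNlim
  rw [zero_add] at this
  refine this.congr fun t => ?_
  ring

/-- **law of cosines, exponential form** -/
theorem tendsto_dist_div {x₀ : M} (L : LocalNear n M x₀) {x : M} (hx : x ∈ L.W)
    (v w : TangentSpace (𝓡 n) x) :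
    Tendsto (fun t : ℝ => dist (L.e x (t • v)) (L.e x (t • w)) / t) (𝓝[>] 0) (𝓝 ‖v - w‖) := by
  refine tendsto_dist_div_of ((tendsto_e L hx v).mono_left nhdsWithin_le_nhds)
    ((tendsto_e L hx w).mono_left nhdsWithin_le_nhds)
    (hasDerivAt_e L hx v).hasDerivWithinAt ?_ (hasDerivAt_e L hx w).hasDerivWithinAt ?_
  · simp [L.e_zero x hx]
  · simp [L.e_zero x hx]

end

end Crest.Agent.R247.Vel338
end

-- ▼ part R247/Vel2_338
section

/-!
R247 (helper338), leaf (1-V), file 2: first variation and law of cosines at a point for the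
minimiser `γ` through `P = γ s₀` and the minimiser `η` from `P` to `x`.
-/

set_option autoImplicit false
set_option maxSynthPendingDepth 3
set_option linter.unusedSectionVars false

open Bundle Set Filter Topology
open scoped Manifold ContDiff NNReal
open Crest.GeometryTopology.CoordMetric Crest.GeometryTopology.ChartCurvature
open Crest.GeometryTopology.MTW Crest.Agent.R244 Crest.Agent.R226
open Crest.Agent.R226.ChartCost77 Crest.Agent.R226.MTWConc117
open Crest.Agent.R226.NearLem90 (dL halfDistSq_comm)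
open Crest.Agent.R226.NearDiagThm996
open Crest.Agent.R226.ChartMet842
open Crest.Agent.R226.CutSmooth77 (SC three_point)
open Crest.Agent.R247.Ms322 Crest.Agent.R247.Sm879

namespace Crest.Agent.R247.Vel338

section
variable {n : ℕ} {M : Type*} [MetricSpace M] [ChartedSpace (EuclideanSpace ℝ (Fin n)) M]
  [IsManifold (𝓡 n) ∞ M]
  [RiemannianBundle (fun p : M => TangentSpace (𝓡 n) p)]
  [IsContMDiffRiemannianBundle (𝓡 n) ∞ (EuclideanSpace ℝ (Fin n)) (fun p : M => TangentSpace (𝓡 n) p)]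
  [IsRiemannianManifold (𝓡 n) M] [ProperSpace M]

local notation "𝔼" => EuclideanSpace ℝ (Fin n)

/-- near `P` the minimiser from `P` to `x` is `h ↦ e P (-h W)`, with `W` the gradient of
`d_x² / 2` at `P`. -/
theorem ray_at (hm : ExM M) {P : M} (L : LocalNear n M P) {x P' : M} (hxP : x ≠ P)
    (hb : dist x P + dist P P' = dist x P') (hP' : P ≠ P') :
    ∃ W : TangentSpace (𝓡 n) P, ‖W‖ = dist x P ∧
      (∀ ξ : TangentSpace (𝓡 n) P, dL n (fun q => halfDistSq q x) P ξ = inner ℝ W ξ) ∧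
      ∃ ρ : ℝ, 0 < ρ ∧ ρ ≤ 1 ∧ ∀ h ∈ Icc (0 : ℝ) ρ, ∀ c, dist x c + dist c P = dist x P →
        dist c P = h * dist x P → c = L.e P (-(h • W)) := by
  have hy := L.mem_W
  have hr := L.r_pos
  have hs : SC n P x := sc_symm (sc_of_btw hm hb hP')
  have hD : 0 < dist x P := dist_pos.2 hxP
  obtain ⟨c0, hc1, hc2⟩ := hm.pt P x (t := min (dist P x) (L.r / 2)) (by positivity)
    (min_le_left _ _)
  have hα : 0 < dist P c0 := by
    rw [hc1]
    have : 0 < dist P x := by rw [dist_comm]; exact hD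
    positivity
  have hcr : dist P c0 < L.r := by
    rw [hc1]; exact (min_le_right _ _).trans_lt (by linarith)
  have hαD : dist P c0 ≤ dist x P := by
    rw [hc1, dist_comm x P]; exact min_le_left _ _
  have hbt : dist x c0 + dist c0 P = dist x P := by
    rw [dist_comm x c0, hc2, dist_comm c0 P, hc1, dist_comm x P]; ring
  obtain ⟨v, hv, hve⟩ := L.surj P hy c0 hcr
  set α := dist P c0 with hαd
  set D := dist x P with hDd
  refine ⟨-(D / α) • v, ?_, fun ξ => ?_, α / D, by positivity, (div_le_one hD).2 hαD, ?_⟩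
  · rw [norm_smul, hv, norm_neg, Real.norm_of_nonneg (by positivity)]
    field_simp
  · rw [LN_grad L hy hs hbt hv (by rw [hv]; exact hcr) hve hα ξ, real_inner_smul_left]
  · intro h hh c h1 h2
    have hτ : 0 ≤ h * D / α ∧ h * D / α ≤ 1 := by
      refine ⟨by have := hh.1; positivity, ?_⟩
      rw [div_le_one hα]
      have := hh.2
      rwa [le_div_iff₀ hD] at this
    have e1 : -(h • (-(D / α) • v)) = (h * D / α) • v := by
      rw [smul_smul, ← neg_smul]
      congr 1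
      ring
    rw [e1]
    set τ := h * D / α with hτd
    have hτα : τ * α = h * D := by rw [hτd]; field_simp
    have d1 : dist P (L.e P (τ • v)) = h * D := by
      have := L.dist_eq P hy v (by rw [hv]; exact hcr) 0 τ (by simp)
        (by rw [abs_le]; constructor <;> linarith [hτ.1, hτ.2])
      rw [zero_smul, L.e_zero P hy, zero_sub, abs_neg, abs_of_nonneg hτ.1, hv, hτα] at this
      exact this
    have d2 : dist (L.e P (τ • v)) c0 = α - h * D := by
      have := L.dist_eq P hy v (by rw [hv]; exact hcr) τ 1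
        (by rw [abs_le]; constructor <;> linarith [hτ.1, hτ.2]) (by simp)
      rw [one_smul, hve, hv, abs_of_nonpos (by linarith [hτ.2])] at this
      rw [this, ← hτα]
      ring
    have d3 : dist c0 P = α := by rw [dist_comm]
    have d4 : dist x c0 = D - α := by linarith
    have t1 := dist_triangle x c0 (L.e P (τ • v))
    rw [dist_comm c0 (L.e P (τ • v)), d2, d4] at t1
    have t2 := dist_triangle x (L.e P (τ • v)) P
    rw [dist_comm (L.e P (τ • v)) P, d1] at t2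
    refine mid_unique n hm hb hP' h1 ?_ ?_
    · rw [dist_comm (L.e P (τ • v)) P, d1]
      linarith
    · rw [h2, dist_comm (L.e P (τ • v)) P, d1]


/-- derivative of a function on `M` along an exponential curve -/
theorem hasDerivAt_comp_e {P : M} (L : LocalNear n M P) {f : M → ℝ}
    (hf : MDifferentiableAt (𝓡 n) 𝓘(ℝ) f P) (V : TangentSpace (𝓡 n) P) :
    HasDerivAt (fun h : ℝ => f (L.e P (h • V))) (dL n f P V) 0 := by
  have hP := L.mem_W
  have h1 := hasFDerivAt_chart (n := n) hf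
  have h2 := hasDerivAt_e L hP V
  have h0 : (fun t : ℝ => chartAt 𝔼 P (L.e P (t • V))) 0 = o (n := n) P := by
    simp only [zero_smul, L.e_zero P hP]
    rfl
  have h3 : HasDerivAt (fun t : ℝ => f ((extChartAt (𝓡 n) P).symm
      (chartAt 𝔼 P (L.e P (t • V))))) (dL n f P V) 0 := by
    have h4 : HasFDerivAt (𝕜 := ℝ) (E := EE n) (F := ℝ)
      (fun a : EE n => f ((extChartAt (𝓡 n) P).symm a)) (dL n f P)
      ((fun t : ℝ => chartAt 𝔼 P (L.e P (t • V))) 0) := by rw [h0]; exact h1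
    exact h4.comp_hasDerivAt (0 : ℝ) h2
  refine h3.congr_of_eventuallyEq ?_
  have h5 : ∀ᶠ t : ℝ in 𝓝 0, L.e P (t • V) ∈ (chartAt 𝔼 P).source :=
    (tendsto_e L hP V).eventually ((chartAt 𝔼 P).open_source.mem_nhds (mem_chart_source _ P))
  filter_upwards [h5] with t ht
  have : (extChartAt (𝓡 n) P).symm (chartAt 𝔼 P (L.e P (t • V))) = L.e P (t • V) := by
    have h6 := (chartAt 𝔼 P).left_inv ht
    simpa using h6
  rw [this]


end

end Crest.Agent.R247.Vel338
end

-- ▼ part R247/Vel3_338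
section

/-!
R247 (helper338), leaf (1-V), file 3 (metric measure part): almost every point is interior to a
minimiser from `x` (over `Rad`).
-/

set_option autoImplicit false
set_option linter.unusedSectionVars false
open MeasureTheory Set Filter Topology
open scoped ENNReal NNReal

namespace Crest.Agent.R247.Vel338

open Crest.Agent.R247.Mcp688

section
variable {X : Type*} [MetricSpace X]

/-- points interior to a minimiser from `x` -/
def Int' (x : X) : Set X := {P | ∃ P', P ≠ P' ∧ dist x P + dist P P' = dist x P'}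

theorem measurableSet_Int' [ProperSpace X] [MeasurableSpace X] [BorelSpace X] (x : X) :
    MeasurableSet (Int' x) := by
  have hK : ∀ k : ℕ, IsCompact {p : X × X | dist x p.1 ≤ k ∧ dist x p.2 ≤ k ∧
      1 / ((k : ℝ) + 1) ≤ dist p.1 p.2 ∧ dist x p.1 + dist p.1 p.2 = dist x p.2} := by
    intro k
    have h1 : IsCompact (Metric.closedBall x (k : ℝ) ×ˢ Metric.closedBall x (k : ℝ)) :=
      (isCompact_closedBall x _).prod (isCompact_closedBall x _)
    have h2 : IsClosed {p : X × X | dist x p.1 ≤ k ∧ dist x p.2 ≤ k ∧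
      1 / ((k : ℝ) + 1) ≤ dist p.1 p.2 ∧ dist x p.1 + dist p.1 p.2 = dist x p.2} := by
      have c1 : Continuous fun p : X × X => dist x p.1 := continuous_const.dist continuous_fst
      have c2 : Continuous fun p : X × X => dist x p.2 := continuous_const.dist continuous_snd
      have c3 : Continuous fun p : X × X => dist p.1 p.2 := continuous_fst.dist continuous_snd
      exact (isClosed_le c1 continuous_const).inter ((isClosed_le c2 continuous_const).inter
        ((isClosed_le continuous_const c3).inter (isClosed_eq (c1.add c3) c2)))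
    refine h1.of_isClosed_subset h2 ?_
    rintro p ⟨h3, h4, -, -⟩
    exact ⟨by rw [Metric.mem_closedBall, dist_comm]; exact h3,
      by rw [Metric.mem_closedBall, dist_comm]; exact h4⟩
  have hEq : Int' x = ⋃ k : ℕ, Prod.fst '' {p : X × X | dist x p.1 ≤ k ∧ dist x p.2 ≤ k ∧
      1 / ((k : ℝ) + 1) ≤ dist p.1 p.2 ∧ dist x p.1 + dist p.1 p.2 = dist x p.2} := by
    ext P
    simp only [Int', mem_iUnion, mem_image, mem_ofPred_eq, Prod.exists, exists_and_right,
      exists_eq_right]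
    constructor
    · rintro ⟨P', hne, h⟩
      have hpos : 0 < dist P P' := dist_pos.2 hne
      obtain ⟨k, hk⟩ := exists_nat_ge (max (max (dist x P) (dist x P')) (1 / dist P P'))
      refine ⟨k, P', ?_, ?_, ?_, h⟩
      · exact (le_max_left _ _).trans ((le_max_left _ _).trans hk)
      · exact (le_max_right _ _).trans ((le_max_left _ _).trans hk)
      · have h1 : 1 / dist P P' ≤ (k : ℝ) + 1 := by
          have := (le_max_right _ _).trans hk
          linarith
        rw [div_le_comm₀ (by positivity) hpos]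
        exact h1
    · rintro ⟨k, P', -, -, h3, h4⟩
      refine ⟨P', dist_pos.1 (lt_of_lt_of_le (by positivity) h3), h4⟩
  rw [hEq]
  exact MeasurableSet.iUnion fun k => ((hK k).image continuous_fst).isClosed.measurableSet

end

section
variable {n : ℕ} {κ : ℝ} {X : Type*} [MetricSpace X] [MeasurableSpace X] [BorelSpace X]
  {μ : Measure X} (C : Rad n κ X μ)

include C in
/-- almost every `P ≠ x` is interior to a minimiser from `x` -/
theorem ae_int [ProperSpace X] [IsFiniteMeasureOnCompacts μ] (hκ : 0 ≤ κ) (x : X) :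
    ∀ᵐ P ∂μ, x ≠ P → P ∈ Int' x := by
  have hI := measurableSet_Int' x
  have hx1 : MeasurableSet {P : X | x ≠ P} := by
    have : {P : X | x ≠ P} = {x}ᶜ := by ext P; simp [eq_comm]
    rw [this]; exact (measurableSet_singleton x).compl
  have key : ∀ R : ℕ, ∀ᵐ P ∂μ, P ∈ Metric.closedBall x (R : ℝ) → x ≠ P → P ∈ Int' x := by
    intro R
    set A : Set X := Metric.closedBall x (R : ℝ) ∩ {P | x ≠ P} with hA
    set B : Set X := A ∩ Int' x with hB
    have hAm : MeasurableSet A := Metric.isClosed_closedBall.measurableSet.inter hx1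
    have hBm : MeasurableSet B := hAm.inter hI
    have h1 : ∀ t : ℝ, 0 < t → t < 1 → wm μ κ x A ≤ ENNReal.ofReal ((t⁻¹) ^ n) * wm μ κ x B := by
      intro t ht0 ht1
      refine C.measure_le_of_mapsTo x ⟨ht0, ht1.le⟩ hBm ?_
      rintro z ⟨hz1, hz2⟩ hU
      have htI : t ∈ Icc (0 : ℝ) 1 := ⟨ht0.le, ht1.le⟩
      have e1 := C.dist_left hU htI
      have e2 := C.dist_right hU htI
      have hd : 0 < dist x z := dist_pos.2 hz2
      have hzR : dist x z ≤ R := by rw [dist_comm]; exact hz1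
      refine ⟨⟨?_, ?_⟩, z, ?_, ?_⟩
      · rw [Metric.mem_closedBall, dist_comm, e1]
        nlinarith
      · have : 0 < dist x (C.T x t z) := by rw [e1]; positivity
        exact dist_pos.1 this
      · have : 0 < dist (C.T x t z) z := by
          rw [e2]
          have : 0 < 1 - t := by linarith
          positivity
        exact dist_pos.1 this
      · rw [e1, e2]; ring
    have h2 : wm μ κ x A ≤ wm μ κ x B := by
      have h3 : Tendsto (fun t : ℝ => ENNReal.ofReal ((t⁻¹) ^ n) * wm μ κ x B) (𝓝[<] 1)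
          (𝓝 (ENNReal.ofReal ((1⁻¹) ^ n) * wm μ κ x B)) := by
        refine ENNReal.Tendsto.mul_const ?_ (Or.inl (by simp))
        refine (ENNReal.continuous_ofReal.tendsto _).comp ?_
        refine Tendsto.mono_left ?_ nhdsWithin_le_nhds
        exact (continuousAt_inv₀ (one_ne_zero)).pow n
      rw [inv_one, one_pow, ENNReal.ofReal_one, one_mul] at h3
      refine ge_of_tendsto h3 ?_
      have e : Ioo (0 : ℝ) 1 ∈ 𝓝[<] (1 : ℝ) := Ioo_mem_nhdsLT (by norm_num)
      filter_upwards [e] with t ht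
      exact h1 t ht.1 ht.2
    have hfin : wm μ κ x B ≠ ⊤ := by
      have : wm μ κ x B ≤ μ (Metric.closedBall x (R : ℝ)) :=
        (wm_le μ x hκ _).trans (measure_mono (inter_subset_left.trans inter_subset_left))
      exact ne_top_of_le_ne_top (isCompact_closedBall x _).measure_lt_top.ne this
    have h4 : wm μ κ x (A \ B) = 0 := by
      rw [measure_sdiff inter_subset_left hBm.nullMeasurableSet hfin]
      exact tsub_eq_zero_of_le h2
    rw [wm_eq_zero_iff] at h4
    have h5 : ∀ᵐ P ∂μ, P ∉ A \ B := measure_eq_zero_iff_ae_notMem.1 h4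
    filter_upwards [h5] with P hP h6 h7
    by_contra h8
    exact hP ⟨⟨h6, h7⟩, fun h9 => h8 h9.2⟩
  have := ae_all_iff.2 key
  filter_upwards [this] with P hP hne
  obtain ⟨R, hR⟩ := exists_nat_ge (dist P x)
  exact hP R hR hne

end

end Crest.Agent.R247.Vel338
end

-- ▼ part R247/Vel4_338

/-!
R247 (helper338), leaf (1-V), file 4: the fields `vel` and `sym` of `Far553.FarD` on the manifold,
over `Rad`.
-/

set_option autoImplicit false
set_option maxSynthPendingDepth 3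
set_option linter.unusedSectionVars false

open Bundle Set Filter Topology MeasureTheory
open scoped Manifold ContDiff NNReal
open Crest.GeometryTopology.MTW Crest.Agent.R244 Crest.Agent.R226
open Crest.Agent.R226.ChartCost77 Crest.Agent.R226.MTWConc117
open Crest.Agent.R226.NearLem90 (dL halfDistSq_comm)
open Crest.Agent.R226.NearDiagThm996
open Crest.Agent.R226.CutSmooth77 (SC three_point)
open Crest.Agent.R247.Sm879 Crest.Agent.R247.Mcp688

namespace Crest.Agent.R247.Vel338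

section
variable {n : ℕ} {M : Type*} [MetricSpace M] [ChartedSpace (EuclideanSpace ℝ (Fin n)) M]
  [IsManifold (𝓡 n) ∞ M]
  [RiemannianBundle (fun p : M => TangentSpace (𝓡 n) p)]
  [IsContMDiffRiemannianBundle (𝓡 n) ∞ (EuclideanSpace ℝ (Fin n)) (fun p : M => TangentSpace (𝓡 n) p)]
  [IsRiemannianManifold (𝓡 n) M] [ProperSpace M]

local notation "𝔼" => EuclideanSpace ℝ (Fin n)

variable (n) in
include n in
/-- pointwise statement at a point `P` interior to minimisers from `x` and from `y`;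
`α`, `β` are the rays `t ↦ T x t P`, `t ↦ T y t P`. -/
theorem vel_pair (hm : ExM M) {x y P : M} (hxP : x ≠ P) (hyP : y ≠ P) (hx : P ∈ Int' x)
    (hy : P ∈ Int' y) {α β : ℝ → M}
    (hα : ∀ t ∈ Icc (0 : ℝ) 1, dist x (α t) = t * dist x P ∧ dist (α t) P = (1 - t) * dist x P)
    (hβ : ∀ t ∈ Icc (0 : ℝ) 1, dist y (β t) = t * dist y P ∧ dist (β t) P = (1 - t) * dist y P) :
    ∃ Γ : ℝ, |Γ| ≤ dist x P * dist y P ∧
      HasDerivWithinAt (fun t : ℝ => dist x (β t) ^ 2 / 2) Γ (Iio 1) 1 ∧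
      HasDerivWithinAt (fun t : ℝ => dist y (α t) ^ 2 / 2) Γ (Iio 1) 1 ∧
      ∀ a b : ℝ, 0 ≤ a → 0 ≤ b →
        Tendsto (fun ε : ℝ => dist (α (1 - a * ε)) (β (1 - b * ε)) / ε) (𝓝[>] 0)
          (𝓝 (√(a ^ 2 * dist x P ^ 2 + b ^ 2 * dist y P ^ 2 - 2 * a * b * Γ))) := by
  obtain ⟨P₁, hP₁, hb₁⟩ := hx
  obtain ⟨P₂, hP₂, hb₂⟩ := hy
  obtain ⟨L⟩ := nonempty_localNear (n := n) P
  obtain ⟨V, hV1, hV2, ρ₁, hρ₁0, hρ₁1, hV⟩ := ray_at hm L hxP hb₁ hP₁
  obtain ⟨W, hW1, hW2, ρ₂, hρ₂0, hρ₂1, hW⟩ := ray_at hm L hyP hb₂ hP₂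
  have hs₁ : SC n P x := sc_symm (sc_of_btw hm hb₁ hP₁)
  have hs₂ : SC n P y := sc_symm (sc_of_btw hm hb₂ hP₂)
  -- the rays near `P`
  have hα' : ∀ h : ℝ, 0 ≤ h → h ≤ ρ₁ → α (1 - h) = L.e P (-(h • V)) := by
    intro h h0 h1
    have hI : 1 - h ∈ Icc (0 : ℝ) 1 := ⟨by linarith, by linarith⟩
    obtain ⟨e1, e2⟩ := hα _ hI
    refine hV h ⟨h0, h1⟩ _ ?_ ?_
    · rw [e1, e2]; ring
    · rw [e2]; ring
  have hβ' : ∀ h : ℝ, 0 ≤ h → h ≤ ρ₂ → β (1 - h) = L.e P (-(h • W)) := by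
    intro h h0 h1
    have hI : 1 - h ∈ Icc (0 : ℝ) 1 := ⟨by linarith, by linarith⟩
    obtain ⟨e1, e2⟩ := hβ _ hI
    refine hW h ⟨h0, h1⟩ _ ?_ ?_
    · rw [e1, e2]; ring
    · rw [e2]; ring
  -- derivative of `d_z²/2` along an inward ray
  have hder : ∀ (z : M) (Z U : TangentSpace (𝓡 n) P) (ρ : ℝ) (γ : ℝ → M), 0 < ρ → SC n P z →
      (∀ ξ : TangentSpace (𝓡 n) P, dL n (fun q => halfDistSq q z) P ξ = inner ℝ Z ξ) →
      (∀ h : ℝ, 0 ≤ h → h ≤ ρ → γ (1 - h) = L.e P (-(h • U))) →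
      HasDerivWithinAt (fun t : ℝ => dist z (γ t) ^ 2 / 2) (inner ℝ Z U) (Iio 1) 1 := by
    intro z Z U ρ γ hρ hs hZ hγ
    have h1 := hasDerivAt_comp_e L (mdiff_left hs) (-U)
    rw [hZ, inner_neg_right] at h1
    have h2 : HasDerivAt (fun t : ℝ => halfDistSq (L.e P ((1 - t) • -U)) z) (inner ℝ Z U) 1 := by
      have h3 : HasDerivAt (fun h : ℝ => halfDistSq (L.e P (h • -U)) z) (-inner ℝ Z U)
          ((1 : ℝ) - 1) := by rw [sub_self]; exact h1
      have h4 : HasDerivAt (fun t : ℝ => 1 - t) (-1) (1 : ℝ) := by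
        simpa using (hasDerivAt_id (1 : ℝ)).const_sub 1
      have h5 := HasDerivAt.comp (1 : ℝ) h3 h4
      have h6 : -inner ℝ Z U * (-1 : ℝ) = inner ℝ Z U := by ring
      rw [h6] at h5
      exact h5
    have h0 : γ 1 = P := by
      have := hγ 0 le_rfl hρ.le
      rw [sub_zero, zero_smul, neg_zero, L.e_zero P L.mem_W] at this
      exact this
    refine h2.hasDerivWithinAt.congr_of_eventuallyEq ?_ ?_
    · have : Ioo (1 - ρ) 1 ∈ 𝓝[<] (1 : ℝ) := Ioo_mem_nhdsLT (by linarith)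
      filter_upwards [this] with t ht
      have h6 := hγ (1 - t) (by linarith [ht.2]) (by linarith [ht.1])
      rw [sub_sub_cancel] at h6
      rw [h6, smul_neg]
      unfold halfDistSq
      rw [dist_comm]
    · show dist z (γ 1) ^ 2 / 2 = halfDistSq (L.e P ((1 - (1 : ℝ)) • -U)) z
      rw [h0, sub_self, zero_smul, L.e_zero P L.mem_W]
      unfold halfDistSq
      rw [dist_comm]
  refine ⟨inner ℝ V W, ?_, hder x V W ρ₂ β hρ₂0 hs₁ hV2 hβ', ?_, ?_⟩
  · have := abs_real_inner_le_norm V W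
    rwa [hV1, hW1] at this
  · rw [real_inner_comm]
    exact hder y W V ρ₁ α hρ₁0 hs₂ hW2 hα'
  · intro a b ha hb
    have h1 := tendsto_dist_div L L.mem_W (-(a • V)) (-(b • W))
    have e1 : ‖-(a • V) - -(b • W)‖ =
        √(a ^ 2 * dist x P ^ 2 + b ^ 2 * dist y P ^ 2 - 2 * a * b * inner ℝ V W) := by
      rw [← Real.sqrt_sq (norm_nonneg (-(a • V) - -(b • W)))]
      congr 1
      have e2 : -(a • V) - -(b • W) = b • W - a • V := by abel
      rw [e2, norm_sub_sq_real, norm_smul, norm_smul, real_inner_smul_left, real_inner_smul_right,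
        real_inner_comm, hV1, hW1, Real.norm_of_nonneg ha, Real.norm_of_nonneg hb]
      ring
    rw [← e1]
    refine h1.congr' ?_
    have h2 : ∀ c ρ : ℝ, 0 < ρ → ∀ᶠ h : ℝ in 𝓝[>] 0, c * h ≤ ρ := by
      intro c ρ hρ
      have : Tendsto (fun h : ℝ => c * h) (𝓝 0) (𝓝 (c * 0)) :=
        (continuous_const.mul continuous_id).tendsto 0
      rw [mul_zero] at this
      filter_upwards [mem_nhdsWithin_of_mem_nhds (this.eventually (gt_mem_nhds hρ))] with h hh
      exact le_of_lt hh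
    filter_upwards [h2 a ρ₁ hρ₁0, h2 b ρ₂ hρ₂0, self_mem_nhdsWithin] with h h3 h4 h5
    have h5' : 0 < h := h5
    rw [hα' (a * h) (by positivity) h3, hβ' (b * h) (by positivity) h4]
    congr 3
    · rw [smul_neg, smul_smul, mul_comm h a]
    · rw [smul_neg, smul_smul, mul_comm h b]

variable [MeasurableSpace M] [BorelSpace M] {κ : ℝ} {μ : Measure M} [IsFiniteMeasureOnCompacts μ]

/-- **(VEL)** over `Rad`, all forms at once. -/
theorem vel_all (hm : ExM M) (hκ : 0 ≤ κ) (C : Rad n κ M μ) (x y : M) :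
    ∀ᵐ P ∂μ, ∃ Γ : ℝ, |Γ| ≤ dist x P * dist y P ∧
      HasDerivWithinAt (fun t : ℝ => dist x (C.T y t P) ^ 2 / 2) Γ (Iio 1) 1 ∧
      HasDerivWithinAt (fun t : ℝ => dist y (C.T x t P) ^ 2 / 2) Γ (Iio 1) 1 ∧
      ∀ a b : ℝ, 0 ≤ a → 0 ≤ b →
        Tendsto (fun ε : ℝ => dist (C.T x (1 - a * ε) P) (C.T y (1 - b * ε) P) / ε) (𝓝[>] 0)
          (𝓝 (√(a ^ 2 * dist x P ^ 2 + b ^ 2 * dist y P ^ 2 - 2 * a * b * Γ))) := by
  filter_upwards [C.ae_U x, C.ae_U y, ae_int C hκ x, ae_int C hκ y] with P hxU hyU hIx hIy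
  have hα : ∀ t ∈ Icc (0 : ℝ) 1, dist x (C.T x t P) = t * dist x P ∧
      dist (C.T x t P) P = (1 - t) * dist x P :=
    fun t ht => ⟨C.dist_left hxU ht, C.dist_right hxU ht⟩
  have hβ : ∀ t ∈ Icc (0 : ℝ) 1, dist y (C.T y t P) = t * dist y P ∧
      dist (C.T y t P) P = (1 - t) * dist y P :=
    fun t ht => ⟨C.dist_left hyU ht, C.dist_right hyU ht⟩
  -- degenerate cases
  have hdeg : ∀ (z w : M) (γ δ : ℝ → M), z = P →
      (∀ t ∈ Icc (0 : ℝ) 1, dist z (γ t) = t * dist z P ∧ dist (γ t) P = (1 - t) * dist z P) →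
      (∀ t ∈ Icc (0 : ℝ) 1, dist w (δ t) = t * dist w P ∧ dist (δ t) P = (1 - t) * dist w P) →
      HasDerivWithinAt (fun t : ℝ => dist z (δ t) ^ 2 / 2) 0 (Iio 1) 1 ∧
      HasDerivWithinAt (fun t : ℝ => dist w (γ t) ^ 2 / 2) 0 (Iio 1) 1 ∧
      ∀ a b : ℝ, 0 ≤ a → 0 ≤ b →
        Tendsto (fun ε : ℝ => dist (γ (1 - a * ε)) (δ (1 - b * ε)) / ε) (𝓝[>] 0)
          (𝓝 (b * dist w P)) := by
    rintro z w γ δ rfl hγ hδ
    have hγz : ∀ t ∈ Icc (0 : ℝ) 1, γ t = z := by
      intro t ht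
      have := (hγ t ht).2
      rw [dist_self, mul_zero] at this
      exact dist_eq_zero.1 this
    have hIoo : Ioo (0 : ℝ) 1 ∈ 𝓝[<] (1 : ℝ) := Ioo_mem_nhdsLT (by norm_num)
    refine ⟨?_, ?_, ?_⟩
    · have h1 : HasDerivAt (fun t : ℝ => ((1 - t) * dist w z) ^ 2 / 2) 0 1 := by
        have h2 : HasDerivAt (fun t : ℝ => (1 - t) * dist w z) (-1 * dist w z) (1 : ℝ) := by
          have : HasDerivAt (fun t : ℝ => 1 - t) (-1) (1 : ℝ) := by
            simpa using (hasDerivAt_id (1 : ℝ)).const_sub 1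
          exact this.mul_const _
        have h3 := (h2.pow 2).div_const 2
        simpa using h3
      refine h1.hasDerivWithinAt.congr_of_eventuallyEq ?_ ?_
      · filter_upwards [hIoo] with t ht
        rw [dist_comm, (hδ t ⟨ht.1.le, ht.2.le⟩).2]
      · show dist z (δ 1) ^ 2 / 2 = ((1 - (1 : ℝ)) * dist w z) ^ 2 / 2
        rw [dist_comm, (hδ 1 ⟨zero_le_one, le_rfl⟩).2]
    · refine (hasDerivWithinAt_const (1 : ℝ) (Iio 1) (dist w z ^ 2 / 2)).congr_of_eventuallyEq ?_ ?_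
      · filter_upwards [hIoo] with t ht
        rw [hγz t ⟨ht.1.le, ht.2.le⟩]
      · show dist w (γ 1) ^ 2 / 2 = _
        rw [hγz 1 ⟨zero_le_one, le_rfl⟩]
    · intro a b ha hb
      refine tendsto_const_nhds.congr' ?_
      have h2 : ∀ c : ℝ, ∀ᶠ h : ℝ in 𝓝[>] 0, c * h ≤ 1 := by
        intro c
        have : Tendsto (fun h : ℝ => c * h) (𝓝 0) (𝓝 (c * 0)) :=
          (continuous_const.mul continuous_id).tendsto 0
        rw [mul_zero] at this
        filter_upwards [mem_nhdsWithin_of_mem_nhds (this.eventually (gt_mem_nhds one_pos))] with h hh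
        exact le_of_lt hh
      filter_upwards [h2 a, h2 b, self_mem_nhdsWithin] with ε h3 h4 h5
      have h5' : 0 < ε := h5
      have h6 : 1 - a * ε ∈ Icc (0 : ℝ) 1 := ⟨by linarith, by nlinarith⟩
      have h7 : 1 - b * ε ∈ Icc (0 : ℝ) 1 := ⟨by linarith, by nlinarith⟩
      have h8 : dist z (δ (1 - b * ε)) = b * ε * dist w z := by
        rw [dist_comm, (hδ _ h7).2]; ring
      rw [hγz _ h6, h8]
      field_simp
  by_cases hxP : x = P
  · obtain ⟨h1, h2, h3⟩ := hdeg x y (fun t => C.T x t P) (fun t => C.T y t P) hxP hα hβ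
    refine ⟨0, by rw [abs_zero]; positivity, h1, h2, fun a b ha hb => ?_⟩
    have := h3 a b ha hb
    have e : √(a ^ 2 * dist x P ^ 2 + b ^ 2 * dist y P ^ 2 - 2 * a * b * 0) = b * dist y P := by
      rw [hxP, dist_self, mul_zero, sub_zero]
      rw [show a ^ 2 * (0 : ℝ) ^ 2 + b ^ 2 * dist y P ^ 2 = (b * dist y P) ^ 2 by ring]
      exact Real.sqrt_sq (by positivity)
    rw [e]
    exact this
  by_cases hyP : y = P
  · obtain ⟨h1, h2, h3⟩ := hdeg y x (fun t => C.T y t P) (fun t => C.T x t P) hyP hβ hα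
    refine ⟨0, by rw [abs_zero]; positivity, h2, h1, fun a b ha hb => ?_⟩
    have := h3 b a hb ha
    have e : √(a ^ 2 * dist x P ^ 2 + b ^ 2 * dist y P ^ 2 - 2 * a * b * 0) = a * dist x P := by
      rw [hyP, dist_self, mul_zero, sub_zero]
      rw [show a ^ 2 * dist x P ^ 2 + b ^ 2 * (0 : ℝ) ^ 2 = (a * dist x P) ^ 2 by ring]
      exact Real.sqrt_sq (by positivity)
    rw [e]
    refine this.congr fun ε => ?_
    rw [dist_comm]
  exact vel_pair n hm hxP hyP (hIx hxP) (hIy hyP) hα hβ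


/-- **the field `sym` of `Far553.FarD`** -/
theorem sym_field (hm : ExM M) (hκ : 0 ≤ κ) (C : Rad n κ M μ) :
    ∀ a b : M, ∃ Γ : M → ℝ, Measurable Γ ∧
      RD C a (fun z => dist b z ^ 2 / 2) Γ ∧ RD C b (fun z => dist a z ^ 2 / 2) Γ := by
  classical
  intro a b
  have h := vel_all hm hκ C a b
  set Γ₀ : M → ℝ := fun P => if hP : ∃ Γ : ℝ, |Γ| ≤ dist a P * dist b P ∧
      HasDerivWithinAt (fun t : ℝ => dist a (C.T b t P) ^ 2 / 2) Γ (Iio 1) 1 ∧
      HasDerivWithinAt (fun t : ℝ => dist b (C.T a t P) ^ 2 / 2) Γ (Iio 1) 1 ∧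
      ∀ a' b' : ℝ, 0 ≤ a' → 0 ≤ b' →
        Tendsto (fun ε : ℝ => dist (C.T a (1 - a' * ε) P) (C.T b (1 - b' * ε) P) / ε) (𝓝[>] 0)
          (𝓝 (√(a' ^ 2 * dist a P ^ 2 + b' ^ 2 * dist b P ^ 2 - 2 * a' * b' * Γ)))
    then hP.choose else 0 with hΓ₀
  have hspec : ∀ᵐ P ∂μ, HasDerivWithinAt (fun t : ℝ => dist a (C.T b t P) ^ 2 / 2) (Γ₀ P) (Iio 1) 1 ∧
      HasDerivWithinAt (fun t : ℝ => dist b (C.T a t P) ^ 2 / 2) (Γ₀ P) (Iio 1) 1 := by
    filter_upwards [h] with P hP
    have := hP.choose_spec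
    have e : Γ₀ P = hP.choose := by rw [hΓ₀]; exact dif_pos hP
    rw [e]
    exact ⟨this.2.1, this.2.2.1⟩
  have h1 : RD C a (fun z => dist b z ^ 2 / 2) Γ₀ := by
    filter_upwards [hspec] with P hP
    exact hP.2
  have h2 : RD C b (fun z => dist a z ^ 2 / 2) Γ₀ := by
    filter_upwards [hspec] with P hP
    exact hP.1
  have hmeas : Measurable (fun z : M => dist b z ^ 2 / 2) := by fun_prop
  have hae := RD.aemeasurable h1 hmeas
  refine ⟨hae.mk Γ₀, hae.measurable_mk, h1.congr hae.ae_eq_mk, h2.congr hae.ae_eq_mk⟩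

end

end Crest.Agent.R247.Vel338
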